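import Crest.Agent.R253.Defs

/-!
# Row 253: basics of the special functions `Pb`, `lam`, `tt`, `lamI`

Proof hints.  `x < lam x`: `phi - x Pb` has derivative `-Pb < 0` and tends to `0` at `+∞`.
`Pb > x phi / (1 + x²)`: the difference has derivative `-2 phi / (1 + x²)² < 0` and tends to `0`.
`lam (lam - x) < 1`: `F = Pb² + x phi Pb - phi²` has derivative `phi (x phi - (1 + x²) Pb) < 0` and
tends to `0` at `+∞`, so `F > 0`.
-/

set_option autoImplicit false
open MeasureTheory Filter Topology Set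
open scoped ContDiff BigOperators

noncomputable section
namespace Crest.Agent.R253
open Crest.Agent.R238 Crest.Agent.R215

theorem Pb_pos (x : ℝ) : 0 < Pb x := sub_pos.2 (Phi_lt_one x)

theorem Pb_lt_one (x : ℝ) : Pb x < 1 := by unfold Pb; linarith [Phi_pos x]

theorem hasDerivAt_Pb (x : ℝ) : HasDerivAt Pb (-phi x) x := by
  exact (hasDerivAt_Phi x).const_sub 1

theorem contDiff_phi : ContDiff ℝ ∞ phi := by
  unfold phi
  fun_prop

theorem contDiff_Pb : ContDiff ℝ ∞ Pb := by
  rw [contDiff_infty_iff_deriv]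
  refine ⟨fun x => (hasDerivAt_Pb x).differentiableAt, ?_⟩
  rw [show deriv Pb = fun x => -phi x from funext fun x => (hasDerivAt_Pb x).deriv]
  exact contDiff_phi.neg

theorem tendsto_Pb_atTop : Tendsto Pb atTop (𝓝 0) := by
  have := tendsto_Phi_atTop.const_sub 1
  rw [sub_self] at this
  exact this

theorem tendsto_Pb_atBot : Tendsto Pb atBot (𝓝 1) := by
  have := tendsto_Phi_atBot.const_sub 1
  rw [sub_zero] at this
  exact this

theorem lam_pos (x : ℝ) : 0 < lam x := div_pos (phi_pos x) (Pb_pos x)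

theorem lam_mul_Pb (x : ℝ) : lam x * Pb x = phi x := div_mul_cancel₀ _ (Pb_pos x).ne'

/-- The derivative of `lam`. -/
def lam1 (x : ℝ) : ℝ := lam x * (lam x - x)

theorem hasDerivAt_lam (x : ℝ) : HasDerivAt lam (lam1 x) x := by
  refine ((hasDerivAt_phi x).fun_div (hasDerivAt_Pb x) (Pb_pos x).ne').congr_deriv ?_
  have := (Pb_pos x).ne'
  unfold lam1 lam
  field_simp
  ring

theorem contDiff_lam : ContDiff ℝ ∞ lam := by
  exact contDiff_phi.div contDiff_Pb fun x => (Pb_pos x).ne'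

@[fun_prop] theorem continuous_lam : Continuous lam := contDiff_lam.continuous

@[fun_prop] theorem continuous_lam1 : Continuous lam1 := by unfold lam1; fun_prop

theorem lt_lam (x : ℝ) : x < lam x := by
  have h := Psi_pos (-x)
  rw [Psi, Phi_neg, phi_neg] at h
  rw [lam, lt_div_iff₀ (Pb_pos x), Pb]
  linarith

theorem B0_pos {f f' : ℝ → ℝ} (hf : ∀ x, HasDerivAt f (f' x) x) (h : ∀ x, f' x < 0)
    (hl : Tendsto f atTop (𝓝 0)) (x : ℝ) : 0 < f x := by
  have ha : StrictAnti f := strictAnti_of_deriv_neg fun y => by rw [(hf y).deriv]; exact h y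
  exact (ha.antitone.le_of_tendsto hl (x + 1)).trans_lt (ha (lt_add_one x))

theorem mills_lower (x : ℝ) : x * phi x < (1 + x ^ 2) * Pb x := by
  have hp : ∀ y : ℝ, 0 < 1 + y ^ 2 := fun y => by positivity
  have h := B0_pos (f := fun y => Pb y - y * phi y / (1 + y ^ 2))
    (f' := fun y => -(2 * phi y / (1 + y ^ 2) ^ 2)) (fun y => ?_) (fun y => ?_) ?_ x
  · rw [sub_pos, div_lt_iff₀ (hp x)] at h
    linarith
  · refine ((hasDerivAt_Pb y).fun_sub (((hasDerivAt_id' y).fun_mul (hasDerivAt_phi y)).fun_div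
      ((hasDerivAt_pow 2 y).const_add 1) (hp y).ne')).congr_deriv ?_
    have := (hp y).ne'
    field_simp
    push_cast
    ring
  · have := phi_pos y
    have := hp y
    exact neg_lt_zero.2 (by positivity)
  · have h2 : Tendsto (fun y => y * phi y / (1 + y ^ 2)) atTop (𝓝 0) := by
      refine squeeze_zero_norm (fun y => ?_) tendsto_phi_atTop
      rw [Real.norm_eq_abs, abs_div, abs_mul, abs_of_pos (hp y), abs_of_pos (phi_pos y),
        div_le_iff₀ (hp y), mul_comm]
      refine mul_le_mul_of_nonneg_left ?_ (phi_pos y).le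
      rw [← sq_abs]
      nlinarith [sq_nonneg (|y| - 1), abs_nonneg y]
    simpa using tendsto_Pb_atTop.sub h2

theorem lam1_pos (x : ℝ) : 0 < lam1 x := mul_pos (lam_pos x) (sub_pos.2 (lt_lam x))

theorem lam1_lt_one (x : ℝ) : lam1 x < 1 := by
  have h := B0_pos (f := fun y => Pb y ^ 2 + y * phi y * Pb y - phi y ^ 2)
    (f' := fun y => phi y * (y * phi y - (1 + y ^ 2) * Pb y)) (fun y => ?_) (fun y => ?_) ?_ x
  · have hP := Pb_pos x
    have e : lam1 x = (phi x ^ 2 - x * phi x * Pb x) / Pb x ^ 2 := by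
      unfold lam1 lam
      field_simp
    rw [e, div_lt_one (by positivity)]
    linarith
  · refine ((((hasDerivAt_Pb y).fun_pow 2).fun_add ((((hasDerivAt_id' y).fun_mul
      (hasDerivAt_phi y))).fun_mul (hasDerivAt_Pb y))).fun_sub
      ((hasDerivAt_phi y).fun_pow 2)).congr_deriv ?_
    push_cast
    ring
  · exact mul_neg_of_pos_of_neg (phi_pos y) (sub_neg.2 (mills_lower y))
  · have h2 : Tendsto (fun y => y * phi y * Pb y) atTop (𝓝 0) := by
      have h3 : Tendsto (fun y => phi y * phi y) atTop (𝓝 0) := by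
        simpa using tendsto_phi_atTop.mul tendsto_phi_atTop
      refine squeeze_zero' ?_ (Eventually.of_forall fun y => ?_) h3
      · filter_upwards [eventually_ge_atTop 0] with y hy
        exact mul_nonneg (mul_nonneg hy (phi_pos y).le) (Pb_pos y).le
      · have h4 := lt_lam y
        rw [lam, lt_div_iff₀ (Pb_pos y)] at h4
        nlinarith [phi_pos y]
    simpa using ((tendsto_Pb_atTop.pow 2).add h2).sub (tendsto_phi_atTop.pow 2)

theorem strictMono_lam : StrictMono lam := by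
  exact strictMono_of_deriv_pos fun x => by rw [(hasDerivAt_lam x).deriv]; exact lam1_pos x

theorem lam_lip (x y : ℝ) : |lam x - lam y| ≤ |x - y| := by
  have h := convex_univ.norm_image_sub_le_of_norm_hasDerivWithin_le (C := 1)
    (fun z _ => (hasDerivAt_lam z).hasDerivWithinAt)
    (fun z _ => by rw [Real.norm_eq_abs, abs_of_pos (lam1_pos z)]; exact (lam1_lt_one z).le)
    (mem_univ y) (mem_univ x)
  simpa only [Real.norm_eq_abs, one_mul] using h

theorem lam_le (x : ℝ) : lam x ≤ 1 + |x| := by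
  have h0 : lam 0 ≤ 1 := by
    have h := lam1_lt_one 0
    rw [lam1, sub_zero] at h
    nlinarith [lam_pos 0]
  have h := (le_abs_self _).trans (lam_lip x 0)
  rw [sub_zero] at h
  linarith

theorem tendsto_lam_atTop : Tendsto lam atTop atTop := by
  exact tendsto_atTop_mono (fun x => (lt_lam x).le) tendsto_id

theorem tendsto_lam_atBot : Tendsto lam atBot (𝓝 0) := by
  have := tendsto_phi_atBot.div tendsto_Pb_atBot one_ne_zero
  rw [zero_div] at this
  exact this

theorem lam_zero_sq : lam 0 ^ 2 = 2 / Real.pi := by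
  have hπ := Real.pi_pos
  rw [lam, Pb, Phi_zero, phi_zero, div_pow, inv_pow, Real.sq_sqrt (by positivity)]
  field_simp
  norm_num

theorem lam_lamI {h : ℝ} (hh : 0 < h) : lam (lamI h) = h := by
  obtain ⟨a, ha⟩ := (tendsto_lam_atBot.eventually (gt_mem_nhds hh)).exists
  obtain ⟨b, hb⟩ := (tendsto_lam_atTop.eventually_ge_atTop h).exists
  exact Function.invFun_eq (intermediate_value_univ a b continuous_lam ⟨ha.le, hb⟩)

theorem lamI_lam (x : ℝ) : lamI (lam x) = x := by
  exact Function.leftInverse_invFun strictMono_lam.injective x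

theorem strictMonoOn_lamI : StrictMonoOn lamI (Ioi 0) := by
  intro a ha b hb hab
  rw [← strictMono_lam.lt_iff_lt, lam_lamI ha, lam_lamI hb]
  exact hab

theorem B0_continuousAt_lamI {p : ℝ} (h0 : 0 < p) : ContinuousAt lamI p := by
  rw [ContinuousAt, tendsto_order]
  constructor
  · intro x hx
    have : lam x < p := by
      rw [← lam_lamI h0]; exact strictMono_lam hx
    filter_upwards [lt_mem_nhds this] with q hq
    rw [← strictMono_lam.lt_iff_lt, lam_lamI ((lam_pos x).trans hq)]; exact hq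
  · intro x hx
    have : p < lam x := by
      rw [← lam_lamI h0]; exact strictMono_lam hx
    filter_upwards [gt_mem_nhds this, lt_mem_nhds h0] with q hq hq0
    rw [← strictMono_lam.lt_iff_lt, lam_lamI hq0]; exact hq

theorem continuousOn_lamI : ContinuousOn lamI (Ioi 0) := by
  exact fun p hp => (B0_continuousAt_lamI hp).continuousWithinAt

theorem hasDerivAt_lamI {h : ℝ} (hh : 0 < h) : HasDerivAt lamI (lam1 (lamI h))⁻¹ h := by
  refine HasDerivAt.of_local_left_inverse (B0_continuousAt_lamI hh) (hasDerivAt_lam _)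
    (lam1_pos _).ne' ?_
  filter_upwards [lt_mem_nhds hh] with q hq
  exact lam_lamI hq

theorem continuousOn_lamI_deriv : ContinuousOn (fun h => (lam1 (lamI h))⁻¹) (Ioi 0) := by
  exact (continuous_lam1.comp_continuousOn continuousOn_lamI).inv₀ fun h _ => (lam1_pos _).ne'

/-- `lamI` is bounded on compact subintervals of `(0, ∞)`. -/
theorem lamI_bdd {c K : ℝ} (hc : 0 < c) : ∃ C, ∀ h ∈ Icc c K, |lamI h| ≤ C := by
  exact isCompact_Icc.exists_bound_of_continuousOn
    (continuousOn_lamI.mono fun h hh => hc.trans_le hh.1)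

theorem B0_step {f f' : ℝ → ℝ} (hf : ∀ x, HasDerivAt f (f' x) x) (h0 : f 0 = 0) {M : ℝ}
    (hM : 0 ≤ M) {k : ℕ} (h : ∀ x, |x| ≤ 1 → |f' x| ≤ M * |x| ^ k) (x : ℝ) (hx : |x| ≤ 1) :
    |f x| ≤ M * |x| ^ (k + 1) := by
  have h1 := (convex_closedBall (0 : ℝ) |x|).norm_image_sub_le_of_norm_hasDerivWithin_le
    (C := M * |x| ^ k) (fun z _ => (hf z).hasDerivWithinAt) (fun z hz => by
      rw [mem_closedBall_zero_iff, Real.norm_eq_abs] at hz
      rw [Real.norm_eq_abs]
      refine (h z (hz.trans hx)).trans ?_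
      gcongr) (Metric.mem_closedBall_self (abs_nonneg x))
    (mem_closedBall_zero_iff.2 (Real.norm_eq_abs x).le)
  rw [h0, sub_zero, sub_zero, Real.norm_eq_abs, Real.norm_eq_abs] at h1
  rwa [pow_succ, ← mul_assoc]

/-- The second derivative of `lam`. -/
def B0lam2 (x : ℝ) : ℝ := lam1 x * (lam x - x) + lam x * (lam1 x - 1)

theorem B0_hasDerivAt_lam1 (x : ℝ) : HasDerivAt lam1 (B0lam2 x) x :=
  (hasDerivAt_lam x).fun_mul ((hasDerivAt_lam x).fun_sub (hasDerivAt_id' x))

/-- The third derivative of `lam`. -/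
def B0lam3 (x : ℝ) : ℝ := B0lam2 x * (lam x - x) + lam1 x * (lam1 x - 1) +
  (lam1 x * (lam1 x - 1) + lam x * B0lam2 x)

theorem B0_hasDerivAt_lam2 (x : ℝ) : HasDerivAt B0lam2 (B0lam3 x) x :=
  ((B0_hasDerivAt_lam1 x).fun_mul ((hasDerivAt_lam x).fun_sub (hasDerivAt_id' x))).fun_add
    ((hasDerivAt_lam x).fun_mul ((B0_hasDerivAt_lam1 x).sub_const 1))

theorem B0_continuous_lam3 : Continuous B0lam3 := by
  unfold B0lam3 B0lam2
  fun_prop

/-- Second order Taylor expansion at `0` with nonvanishing coefficients. -/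
theorem lam_taylor : ∃ l0 l1 l2 C : ℝ, l1 ≠ 0 ∧ l2 ≠ 0 ∧
    ∀ x, |lam x - l0 - l1 * x - l2 * x ^ 2| ≤ C * |x| ^ 3 := by
  obtain ⟨M, hM⟩ := (isCompact_closedBall (0 : ℝ) 1).exists_bound_of_continuousOn
    B0_continuous_lam3.continuousOn
  have hM0 : 0 ≤ M := (norm_nonneg _).trans (hM 0 (Metric.mem_closedBall_self zero_le_one))
  have h3 : ∀ x, |x| ≤ 1 → |B0lam3 x| ≤ M * |x| ^ 0 := fun x hx => by
    rw [pow_zero, mul_one]; exact hM x (mem_closedBall_zero_iff.2 hx)
  have h2 := B0_step (f := fun x => B0lam2 x - B0lam2 0)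
    (fun x => (B0_hasDerivAt_lam2 x).sub_const _) (sub_self _) hM0 h3
  have h1 := B0_step (f := fun x => lam1 x - lam1 0 - B0lam2 0 * x)
    (f' := fun x => B0lam2 x - B0lam2 0)
    (fun x => (((B0_hasDerivAt_lam1 x).sub_const _).fun_sub
      ((hasDerivAt_id' x).const_mul (B0lam2 0))).congr_deriv (by ring)) (by simp) hM0 h2
  have h0 := B0_step (f := fun x => lam x - lam 0 - lam1 0 * x - B0lam2 0 / 2 * x ^ 2)
    (f' := fun x => lam1 x - lam1 0 - B0lam2 0 * x)
    (fun x => ((((hasDerivAt_lam x).sub_const _).fun_sub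
      ((hasDerivAt_id' x).const_mul (lam1 0))).fun_sub
      ((hasDerivAt_pow 2 x).const_mul (B0lam2 0 / 2))).congr_deriv (by push_cast; ring))
    (by simp) hM0 h1
  refine ⟨lam 0, lam1 0, B0lam2 0 / 2, M + (2 + |lam 0| + |lam1 0| + |B0lam2 0 / 2|),
    (lam1_pos 0).ne', ?_, fun x => ?_⟩
  · have e : B0lam2 0 / 2 = lam 0 * (2 * lam 0 ^ 2 - 1) / 2 := by
      unfold B0lam2 lam1; ring
    have hπ := Real.pi_pos
    have : 1 < 2 * lam 0 ^ 2 := by
      rw [lam_zero_sq, ← mul_div_assoc, one_lt_div hπ]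
      linarith [Real.pi_lt_four]
    rw [e]
    exact (div_pos (mul_pos (lam_pos 0) (sub_pos.2 this)) two_pos).ne'
  · rcases le_total |x| 1 with hx | hx
    · refine (h0 x hx).trans ?_
      gcongr
      exact le_add_of_nonneg_right (by positivity)
    · have a1 : |x| ≤ |x| ^ 3 := le_self_pow₀ hx (by norm_num)
      have a2 : |x| ^ 2 ≤ |x| ^ 3 := pow_le_pow_right₀ hx (by norm_num)
      have a0 : 1 ≤ |x| ^ 3 := hx.trans a1
      have b0 : |lam x| ≤ 2 * |x| ^ 3 := by
        rw [abs_of_pos (lam_pos x)]; linarith [lam_le x]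
      have b1 : |lam 0| ≤ |lam 0| * |x| ^ 3 := le_mul_of_one_le_right (abs_nonneg _) a0
      have b2 : |lam1 0 * x| ≤ |lam1 0| * |x| ^ 3 := by rw [abs_mul]; gcongr
      have b3 : |B0lam2 0 / 2 * x ^ 2| ≤ |B0lam2 0 / 2| * |x| ^ 3 := by
        rw [abs_mul, abs_pow]; gcongr
      have b4 : 0 ≤ M * |x| ^ 3 := by positivity
      have c1 := abs_sub (lam x - lam 0 - lam1 0 * x) (B0lam2 0 / 2 * x ^ 2)
      have c2 := abs_sub (lam x - lam 0) (lam1 0 * x)
      have c3 := abs_sub (lam x) (lam 0)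
      linarith

theorem exp_neg_tt (x : ℝ) : Real.exp (-tt x) = Pb x := by
  simp [tt, Real.exp_log (Pb_pos x)]

theorem tt_pos (x : ℝ) : 0 < tt x := by
  exact neg_pos.2 (Real.log_neg (Pb_pos x) (Pb_lt_one x))

theorem hasDerivAt_tt (x : ℝ) : HasDerivAt tt (lam x) x := by
  refine ((hasDerivAt_Pb x).log (Pb_pos x).ne').fun_neg.congr_deriv ?_
  rw [neg_div, neg_neg, lam]

theorem contDiff_tt : ContDiff ℝ ∞ tt := by
  exact (contDiff_Pb.log fun x => (Pb_pos x).ne').neg

@[fun_prop] theorem continuous_tt : Continuous tt := contDiff_tt.continuous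

theorem strictMono_tt : StrictMono tt := by
  exact strictMono_of_deriv_pos fun x => by rw [(hasDerivAt_tt x).deriv]; exact lam_pos x

theorem range_tt : range tt = Ioi 0 := by
  refine Subset.antisymm (range_subset_iff.2 tt_pos) fun y hy => ?_
  have h1 : Real.exp (-y) < 1 := Real.exp_lt_one_iff.2 (neg_lt_zero.2 hy)
  obtain ⟨x, hx⟩ := exists_Phi_eq (p := 1 - Real.exp (-y)) (by linarith)
    (by linarith [Real.exp_pos (-y)])
  refine ⟨x, ?_⟩
  rw [tt, Pb, hx, sub_sub_cancel, Real.log_exp, neg_neg]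

theorem tt_le (x : ℝ) : tt x ≤ 1 + |x| + x ^ 2 := by
  have h1 := (convex_closedBall (0 : ℝ) |x|).norm_image_sub_le_of_norm_hasDerivWithin_le
    (C := 1 + |x|) (fun z _ => (hasDerivAt_tt z).hasDerivWithinAt) (fun z hz => by
      rw [mem_closedBall_zero_iff, Real.norm_eq_abs] at hz
      rw [Real.norm_eq_abs, abs_of_pos (lam_pos z)]
      linarith [lam_le z]) (Metric.mem_closedBall_self (abs_nonneg x))
    (mem_closedBall_zero_iff.2 (Real.norm_eq_abs x).le)
  rw [sub_zero, Real.norm_eq_abs, Real.norm_eq_abs] at h1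
  have h0 : tt 0 ≤ 1 := by
    rw [tt, Pb, Phi_zero, ← Real.log_inv]
    have := Real.log_le_sub_one_of_pos (show (0 : ℝ) < (1 - 1 / 2)⁻¹ by norm_num)
    norm_num at this ⊢
    exact this
  have h2 := le_abs_self (tt x - tt 0)
  rw [← sq_abs]
  nlinarith

theorem B0_adj_deriv {f : ℝ → ℝ} (hf : f ∈ Algebra.adjoin ℝ ({id, lam} : Set (ℝ → ℝ))) :
    ∃ g ∈ Algebra.adjoin ℝ ({id, lam} : Set (ℝ → ℝ)), ∀ x, HasDerivAt f (g x) x := by
  have hid : id ∈ Algebra.adjoin ℝ ({id, lam} : Set (ℝ → ℝ)) := Algebra.subset_adjoin (by simp)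
  have hlam : lam ∈ Algebra.adjoin ℝ ({id, lam} : Set (ℝ → ℝ)) := Algebra.subset_adjoin (by simp)
  induction hf using Algebra.adjoin_induction with
  | mem f hf =>
    rcases hf with rfl | rfl
    · exact ⟨1, one_mem _, fun x => hasDerivAt_id x⟩
    · exact ⟨lam * (lam - id), mul_mem hlam (sub_mem hlam hid), fun x => hasDerivAt_lam x⟩
  | algebraMap r => exact ⟨0, zero_mem _, fun x => hasDerivAt_const x r⟩
  | add f g _ _ hf hg =>
    obtain ⟨f', hf1, hf2⟩ := hf
    obtain ⟨g', hg1, hg2⟩ := hg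
    exact ⟨f' + g', add_mem hf1 hg1, fun x => (hf2 x).add (hg2 x)⟩
  | mul f g hf0 hg0 hf hg =>
    obtain ⟨f', hf1, hf2⟩ := hf
    obtain ⟨g', hg1, hg2⟩ := hg
    exact ⟨f' * g + f * g', add_mem (mul_mem hf1 hg0) (mul_mem hf0 hg1),
      fun x => (hf2 x).mul (hg2 x)⟩

theorem B0_adj_bound {f : ℝ → ℝ} (hf : f ∈ Algebra.adjoin ℝ ({id, lam} : Set (ℝ → ℝ))) :
    ∃ (C : ℝ) (k : ℕ), 0 ≤ C ∧ ∀ x, |f x| ≤ C * (1 + |x|) ^ k := by
  induction hf using Algebra.adjoin_induction with
  | mem f hf =>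
    refine ⟨1, 1, zero_le_one, fun x => ?_⟩
    rw [one_mul, pow_one]
    rcases hf with rfl | rfl
    · exact le_add_of_nonneg_left zero_le_one
    · rw [abs_of_pos (lam_pos x)]; exact lam_le x
  | algebraMap r => exact ⟨|r|, 0, abs_nonneg r, fun x => by simp⟩
  | add f g _ _ hf hg =>
    obtain ⟨C, k, hC, h⟩ := hf
    obtain ⟨C', k', hC', h'⟩ := hg
    refine ⟨C + C', k + k', add_nonneg hC hC', fun x => ?_⟩
    have h1 : 1 ≤ 1 + |x| := le_add_of_nonneg_right (abs_nonneg x)
    have h2 : C * (1 + |x|) ^ k ≤ C * (1 + |x|) ^ (k + k') :=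
      mul_le_mul_of_nonneg_left (pow_le_pow_right₀ h1 (Nat.le_add_right _ _)) hC
    have h3 : C' * (1 + |x|) ^ k' ≤ C' * (1 + |x|) ^ (k + k') :=
      mul_le_mul_of_nonneg_left (pow_le_pow_right₀ h1 (Nat.le_add_left _ _)) hC'
    have h4 := abs_add_le (f x) (g x)
    rw [Pi.add_apply, add_mul]
    linarith [h x, h' x]
  | mul f g _ _ hf hg =>
    obtain ⟨C, k, hC, h⟩ := hf
    obtain ⟨C', k', hC', h'⟩ := hg
    refine ⟨C * C', k + k', mul_nonneg hC hC', fun x => ?_⟩
    rw [Pi.mul_apply, abs_mul, pow_add, mul_mul_mul_comm]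
    exact mul_le_mul (h x) (h' x) (abs_nonneg _) (by positivity)

/-- All derivatives of `tt` grow at most polynomially (they are polynomials in `x` and `lam x`). -/
theorem iteratedDeriv_tt_le (j : ℕ) : ∃ (C : ℝ) (k : ℕ), ∀ x, |iteratedDeriv j tt x| ≤ C * (1 + |x|) ^ k := by
  rcases j with _ | j
  · refine ⟨1, 2, fun x => ?_⟩
    rw [iteratedDeriv_zero, abs_of_pos (tt_pos x)]
    have := tt_le x
    rw [← sq_abs] at this
    nlinarith [abs_nonneg x]
  · have h : iteratedDeriv (j + 1) tt ∈ Algebra.adjoin ℝ ({id, lam} : Set (ℝ → ℝ)) := by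
      induction j with
      | zero =>
        rw [zero_add, iteratedDeriv_one, show deriv tt = lam from
          funext fun x => (hasDerivAt_tt x).deriv]
        exact Algebra.subset_adjoin (by simp)
      | succ j ih =>
        obtain ⟨g, hg, hd⟩ := B0_adj_deriv ih
        rwa [iteratedDeriv_succ, show deriv (iteratedDeriv (j + 1) tt) = g from
          funext fun x => (hd x).deriv]
    obtain ⟨C, k, -, hC⟩ := B0_adj_bound h
    exact ⟨C, k, hC⟩

end Crest.Agent.R253
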