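import Crest.Agent.R253.MF2

/-!
# Row 253: matrix functional calculus, part 3 (continuity and the Daleckii–Krein formula)
-/

set_option autoImplicit false
open MeasureTheory Matrix Filter Topology
open scoped BigOperators ContDiff

noncomputable section
namespace Crest.Agent.R253
open Crest.Agent.R238

variable {n : ℕ}

theorem MF3_lim {ι : Type*} (u : Ultrafilter ι) {g : ι → ℝ} {C : ℝ}
    (h : ∀ᶠ i in (u : Filter ι), |g i| ≤ C) : ∃ x, Tendsto g u (𝓝 x) := by
  obtain ⟨x, -, hx⟩ := (isCompact_Icc (a := -C) (b := C)).ultrafilter_le_nhds (u.map g)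
    (by
      rw [Ultrafilter.coe_map, le_principal_iff, mem_map]
      exact h.mono fun i hi => abs_le.1 hi)
  exact ⟨x, hx⟩

theorem MF3_transpose {ι : Type*} {l : Filter ι} {A : ι → RM n} {A₀ : RM n}
    (h : Tendsto A l (𝓝 A₀)) : Tendsto (fun i => (A i)ᵀ) l (𝓝 A₀ᵀ) :=
  ((continuous_id.matrix_transpose).tendsto A₀).comp h

theorem MF3_diagonal {ι : Type*} {l : Filter ι} {a : ι → Fin n → ℝ} {a₀ : Fin n → ℝ}
    (h : Tendsto a l (𝓝 a₀)) : Tendsto (fun i => diagonal (a i)) l (𝓝 (diagonal a₀)) :=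
  ((continuous_id.matrix_diagonal).tendsto a₀).comp h

theorem MF3_apply {ι : Type*} {l : Filter ι} {A : ι → RM n} {A₀ : RM n}
    (h : Tendsto A l (𝓝 A₀)) (c d : Fin n) : Tendsto (fun i => A i c d) l (𝓝 (A₀ c d)) :=
  tendsto_pi_nhds.1 (tendsto_pi_nhds.1 h c) d

theorem MF3_of {ι : Type*} {l : Filter ι} {A : ι → RM n} {A₀ : RM n}
    (h : ∀ c d, Tendsto (fun i => A i c d) l (𝓝 (A₀ c d))) : Tendsto A l (𝓝 A₀) :=
  tendsto_pi_nhds.2 fun c => tendsto_pi_nhds.2 fun d => h c d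

/-- along an ultrafilter the chosen frames converge to a frame of the limit -/
theorem MF3_frame {ι : Type*} (u : Ultrafilter ι) {A : ι → RM n} {A₀ : RM n}
    (hA : ∀ i, (A i)ᵀ = A i) (tA : Tendsto A u (𝓝 A₀)) :
    ∃ (U : RM n) (a : Fin n → ℝ), Fr A₀ U a ∧ Tendsto (fun i => (frm (A i)).1) u (𝓝 U) ∧
      Tendsto (fun i => (frm (A i)).2) u (𝓝 a) := by
  have h1 : ∀ c d, ∃ x, Tendsto (fun i => (frm (A i)).1 c d) u (𝓝 x) := fun c d =>
    MF3_lim u (C := 1) (Eventually.of_forall fun i => (frm_fr (hA i)).abs_le_one c d)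
  have hb : ∀ᶠ i in (u : Filter ι), hs (A i) < hs A₀ + 1 :=
    ((continuous_hs.tendsto A₀).comp tA).eventually (gt_mem_nhds (lt_add_one _))
  have h2 : ∀ c, ∃ x, Tendsto (fun i => (frm (A i)).2 c) u (𝓝 x) := fun c =>
    MF3_lim u (C := hs A₀ + 2) (hb.mono fun i hi => by
      have := sq_le_hs_of_mem (hA i) ((frm_fr (hA i)).mem_spectrum c)
      rw [← sq_abs] at this
      nlinarith [sq_nonneg (|(frm (A i)).2 c| - 1), hs_nonneg A₀])
  choose U hU using h1
  choose a ha using h2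
  have tU : Tendsto (fun i => (frm (A i)).1) u (𝓝 (Matrix.of U)) := MF3_of hU
  have ta : Tendsto (fun i => (frm (A i)).2) u (𝓝 a) := tendsto_pi_nhds.2 ha
  refine ⟨Matrix.of U, a, ⟨?_, ?_⟩, tU, ta⟩
  · refine tendsto_nhds_unique ((MF3_transpose tU).mul tU) ?_
    simp only [fun i => (frm_fr (hA i)).orth]
    exact tendsto_const_nhds
  · refine tendsto_nhds_unique tA ?_
    exact ((tU.mul (MF3_diagonal ta)).mul (MF3_transpose tU)).congr
      fun i => (frm_fr (hA i)).eq.symm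

/-- Joint continuity of Schur multipliers (proof: ultrafilters, compactness of frames,
frame independence). -/
theorem tendsto_sch {ι : Type*} {l : Filter ι} {A B X : ι → RM n} {A₀ B₀ X₀ : RM n} {s t : Set ℝ}
    {φ : ℝ → ℝ → ℝ} (hA : ∀ i, (A i)ᵀ = A i) (hB : ∀ i, (B i)ᵀ = B i)
    (hAs : ∀ᶠ i in l, spectrum ℝ (A i) ⊆ s) (hBt : ∀ᶠ i in l, spectrum ℝ (B i) ⊆ t)
    (tA : Tendsto A l (𝓝 A₀)) (tB : Tendsto B l (𝓝 B₀)) (tX : Tendsto X l (𝓝 X₀))
    (hφ : ∀ x ∈ spectrum ℝ A₀, ∀ y ∈ spectrum ℝ B₀,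
      ContinuousWithinAt (fun p : ℝ × ℝ => φ p.1 p.2) (s ×ˢ t) (x, y)) :
    Tendsto (fun i => sch φ (A i) (B i) (X i)) l (𝓝 (sch φ A₀ B₀ X₀)) := by
  rw [tendsto_iff_ultrafilter]
  intro u hu
  obtain ⟨U, a, hU, tU, ta⟩ := MF3_frame u hA (tA.mono_left hu)
  obtain ⟨V, b, hV, tV, tb⟩ := MF3_frame u hB (tB.mono_left hu)
  rw [sch_eq hU hV]
  have tY := ((MF3_transpose tU).mul (tX.mono_left hu)).mul tV
  refine (tU.mul (MF3_of fun c d => ?_)).mul (MF3_transpose tV)
  refine Tendsto.mul ?_ (MF3_apply tY c d)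
  refine (hφ _ (hU.mem_spectrum c) _ (hV.mem_spectrum d)).tendsto.comp
    (f := fun i => ((frm (A i)).2 c, (frm (B i)).2 d)) (tendsto_nhdsWithin_iff.2 ⟨?_, ?_⟩)
  · exact (tendsto_pi_nhds.1 ta c).prodMk_nhds (tendsto_pi_nhds.1 tb d)
  · filter_upwards [hu hAs, hu hBt] with i h1 h2
    exact ⟨h1 ((frm_fr (hA i)).mem_spectrum c), h2 ((frm_fr (hB i)).mem_spectrum d)⟩

theorem tendsto_mf {ι : Type*} {l : Filter ι} {A : ι → RM n} {A₀ : RM n} {s : Set ℝ}
    {f : ℝ → ℝ} (hA : ∀ i, (A i)ᵀ = A i) (hAs : ∀ᶠ i in l, spectrum ℝ (A i) ⊆ s)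
    (tA : Tendsto A l (𝓝 A₀)) (hf : ∀ x ∈ spectrum ℝ A₀, ContinuousWithinAt f s x) :
    Tendsto (fun i => mf f (A i)) l (𝓝 (mf f A₀)) := by
  rw [tendsto_iff_ultrafilter]
  intro u hu
  obtain ⟨U, a, hU, tU, ta⟩ := MF3_frame u hA (tA.mono_left hu)
  rw [hU.mf_eq]
  refine Tendsto.congr (fun i => ((frm_fr (hA i)).mf_eq f).symm) ?_
  refine (tU.mul (MF3_diagonal (tendsto_pi_nhds.2 fun c => ?_))).mul (MF3_transpose tU)
  refine (hf _ (hU.mem_spectrum c)).tendsto.comp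
    (f := fun i => (frm (A i)).2 c) (tendsto_nhdsWithin_iff.2 ⟨tendsto_pi_nhds.1 ta c, ?_⟩)
  filter_upwards [hu hAs] with i h1
  exact h1 ((frm_fr (hA i)).mem_spectrum c)

/-- The spectrum stays in an open set. -/
theorem eventually_spectrum_subset {ι : Type*} {l : Filter ι} {A : ι → RM n} {A₀ : RM n}
    {s : Set ℝ} (hs : IsOpen s) (hA : ∀ i, (A i)ᵀ = A i) (tA : Tendsto A l (𝓝 A₀))
    (h₀ : spectrum ℝ A₀ ⊆ s) : ∀ᶠ i in l, spectrum ℝ (A i) ⊆ s := by
  refine mem_iff_ultrafilter.2 fun u hu => ?_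
  obtain ⟨U, a, hU, -, ta⟩ := MF3_frame u hA (tA.mono_left hu)
  have h : ∀ᶠ i in (u : Filter ι), ∀ c, (frm (A i)).2 c ∈ s :=
    eventually_all.2 fun c => (tendsto_pi_nhds.1 ta c).eventually
      (hs.mem_nhds (h₀ (hU.mem_spectrum c)))
  have h' : ∀ᶠ i in (u : Filter ι), spectrum ℝ (A i) ⊆ s := h.mono fun i hi => by
    rw [(frm_fr (hA i)).spectrum_eq]
    rintro _ ⟨c, rfl⟩
    exact hi c
  exact h' 

theorem continuous_mf {Y : Type*} [TopologicalSpace Y] {H : Y → RM n} {s : Set ℝ} {f : ℝ → ℝ}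
    (hsym : ∀ y, (H y)ᵀ = H y) (hH : Continuous H) (hs : ∀ y, spectrum ℝ (H y) ⊆ s)
    (hf : ContinuousOn f s) : Continuous fun y => mf f (H y) := by
  refine continuous_iff_continuousAt.2 fun y => ?_
  exact tendsto_mf hsym (Eventually.of_forall hs) (hH.tendsto y) fun x hx => hf x (hs y hx)

theorem continuousOn_mf {Y : Type*} [TopologicalSpace Y] {H : Y → RM n} {u : Set Y} {s : Set ℝ}
    {f : ℝ → ℝ} (hsym : ∀ y ∈ u, (H y)ᵀ = H y) (hH : ContinuousOn H u)
    (hs : ∀ y ∈ u, spectrum ℝ (H y) ⊆ s) (hf : ContinuousOn f s) :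
    ContinuousOn (fun y => mf f (H y)) u := by
  rw [continuousOn_iff_continuous_domRestrict] at hH ⊢
  exact continuous_mf (H := u.domRestrict H) (fun y => hsym y y.2) hH (fun y => hs y y.2) hf

theorem continuous_sch {Y : Type*} [TopologicalSpace Y] {A B X : Y → RM n} {s t : Set ℝ}
    {φ : ℝ → ℝ → ℝ} (hA : ∀ y, (A y)ᵀ = A y) (hB : ∀ y, (B y)ᵀ = B y)
    (cA : Continuous A) (cB : Continuous B) (cX : Continuous X)
    (hAs : ∀ y, spectrum ℝ (A y) ⊆ s) (hBt : ∀ y, spectrum ℝ (B y) ⊆ t)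
    (hφ : ContinuousOn (fun p : ℝ × ℝ => φ p.1 p.2) (s ×ˢ t)) :
    Continuous fun y => sch φ (A y) (B y) (X y) := by
  refine continuous_iff_continuousAt.2 fun y => ?_
  exact tendsto_sch hA hB (Eventually.of_forall hAs) (Eventually.of_forall hBt) (cA.tendsto y)
    (cB.tendsto y) (cX.tendsto y) fun a ha b hb => hφ (a, b) ⟨hAs y ha, hBt y hb⟩

/-- Divided differences of a `C¹` function are jointly continuous. -/
theorem continuousOn_dd {f f' : ℝ → ℝ} {s : Set ℝ} (hs : IsOpen s)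
    (hf : ∀ x ∈ s, HasDerivAt f (f' x) x) (hf' : ContinuousOn f' s) :
    ContinuousOn (fun p : ℝ × ℝ => dd f f' p.1 p.2) (s ×ˢ s) := by
  rintro ⟨x, y⟩ ⟨hx, hy⟩
  refine ContinuousAt.continuousWithinAt ?_
  by_cases hxy : x = y
  · subst hxy
    have hc : ContinuousAt f' x := hf'.continuousAt (hs.mem_nhds hx)
    refine tendsto_def.2 fun w hw => ?_
    simp only [dd_self] at hw
    obtain ⟨δ, hδ, hb⟩ := Metric.mem_nhds_iff.1 (inter_mem (hs.mem_nhds hx) (hc hw))
    refine mem_of_superset (prod_mem_nhds (Metric.ball_mem_nhds x hδ) (Metric.ball_mem_nhds x hδ)) ?_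
    rintro ⟨a, b⟩ ⟨ha, hb'⟩
    obtain ⟨t, ht, e⟩ := dd_eq_deriv (convex_ball x δ) (fun z hz => hf z (hb hz).1) ha hb'
    have ht' : t ∈ Metric.ball x δ := (convex_ball x δ).ordConnected.uIcc_subset ha hb' ht
    change dd f f' a b ∈ w
    rw [e]
    exact (hb ht').2
  · have h1 : ContinuousAt (fun p : ℝ × ℝ => (f p.1 - f p.2) / (p.1 - p.2)) (x, y) := by
      refine ContinuousAt.div (ContinuousAt.sub ?_ ?_) (by fun_prop) (sub_ne_zero.2 hxy)
      · exact ContinuousAt.comp (f := Prod.fst) (hf x hx).continuousAt continuousAt_fst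
      · exact ContinuousAt.comp (f := Prod.snd) (hf y hy).continuousAt continuousAt_snd
    refine h1.congr ?_
    have h2 : ∀ᶠ p : ℝ × ℝ in 𝓝 (x, y), p.1 ≠ p.2 :=
      (isOpen_ne_fun continuous_fst continuous_snd).mem_nhds hxy
    exact h2.mono fun p hp => (dd_of_ne f f' hp).symm

section DK
variable {F : Type*} [NormedAddCommGroup F] [NormedSpace ℝ F]

/-- The derivative in the Daleckii–Krein formula, as a continuous linear functional. -/
def dkD (f f' : ℝ → ℝ) (A : RM n) (H' : Fin n → Fin n → F →L[ℝ] ℝ) (i j : Fin n) : F →L[ℝ] ℝ :=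
  ∑ c, ∑ d, sch (dd f f') A A (Matrix.single c d 1) i j • H' c d

theorem dkD_apply (f f' : ℝ → ℝ) (A : RM n) (H' : Fin n → Fin n → F →L[ℝ] ℝ) (i j : Fin n)
    (v : F) : dkD f f' A H' i j v = sch (dd f f') A A (Matrix.of fun c d => H' c d v) i j := by
  rw [sch_apply_eq_sum]
  simp [dkD]

theorem MF3_dd_cont {f f' : ℝ → ℝ} {x : ℝ} (h : HasDerivAt f (f' x) x) (b : ℝ) :
    ContinuousAt (fun t => dd f f' t b) x := by
  by_cases hx : x = b
  · subst hx
    refine h.continuousAt_div.congr (Eventually.of_forall fun t => ?_)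
    by_cases ht : t = x
    · subst ht; simp [dd_self]
    · simp [dd_of_ne f f' ht, Function.update_of_ne ht]
  · have h1 : ContinuousAt (fun t => (f t - f b) / (t - b)) x :=
      (h.continuousAt.sub continuousAt_const).div (by fun_prop) (sub_ne_zero.2 hx)
    refine h1.congr ?_
    exact (eventually_ne_nhds hx).mono fun t ht => (dd_of_ne f f' ht).symm

theorem MF3_mul {S g : F → ℝ} {g' : F →L[ℝ] ℝ} {z : F} (hS : ContinuousAt S z)
    (hg : HasFDerivAt g g' z) : HasFDerivAt (fun y => S y * (g y - g z)) (S z • g') z := by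
  have h1 : HasFDerivAt (fun y => S z * (g y - g z)) (S z • g') z := (hg.sub_const _).const_mul _
  have h2 : HasFDerivAt (fun y => (S y - S z) * (g y - g z)) (0 : F →L[ℝ] ℝ) z := by
    rw [hasFDerivAt_iff_isLittleO]
    have a1 : (fun y => S y - S z) =o[𝓝 z] fun _ => (1 : ℝ) := by
      rw [Asymptotics.isLittleO_one_iff]
      simpa using hS.tendsto.sub_const (S z)
    have a2 := a1.smul_isBigO hg.isBigO_sub
    simpa using a2
  have h3 := h1.add h2
  rw [add_zero] at h3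
  refine h3.congr_of_eventuallyEq (Eventually.of_forall fun y => ?_)
  simp only [Pi.add_apply]
  ring

/-- **Daleckii–Krein**, pointwise: differentiability of `f` at the eigenvalues suffices.
Proof: `f(A) - f(B) - Df_B[X] = ∑_k (φ_k(A) - φ_k(B)) X Q_k` with `X = A - B`, `φ_k = dd f f' · b_k`
(`mf_sub_mf`, `sch_eq_sum_right`), and `φ_k` is continuous at the eigenvalues of `B` (`tendsto_mf`). -/
theorem mf_hasFDerivAt {f f' : ℝ → ℝ} {H : F → RM n} {H' : Fin n → Fin n → F →L[ℝ] ℝ} {z : F}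
    (hsym : ∀ y, (H y)ᵀ = H y) (hH : ∀ c d, HasFDerivAt (fun y => H y c d) (H' c d) z)
    (hf : ∀ x ∈ spectrum ℝ (H z), HasDerivAt f (f' x) x) (i j : Fin n) :
    HasFDerivAt (fun y => mf f (H y) i j) (dkD f f' (H z) H' i j) z := by
  obtain ⟨V, b, hV⟩ := exists_fr (hsym z)
  have tH : Tendsto H (𝓝 z) (𝓝 (H z)) := MF3_of fun c d => (hH c d).continuousAt
  have hS : ∀ X : RM n, ContinuousAt (fun y => sch (dd f f') (H y) (H z) X i j) z := by
    intro X
    refine MF3_apply (A := fun y => sch (dd f f') (H y) (H z) X) ?_ i j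
    simp only [fun y => sch_eq_sum_right (hsym y) hV (dd f f') X]
    refine tendsto_finsetSum _ fun k _ => ?_
    refine (Tendsto.mul_const _ ?_).mul_const _
    exact tendsto_mf (s := Set.univ) hsym (Eventually.of_forall fun _ => Set.subset_univ _) tH
      fun x hx => (MF3_dd_cont (hf x hx) (b k)).continuousWithinAt
  have h1 : HasFDerivAt (fun y => ∑ c, ∑ d,
      sch (dd f f') (H y) (H z) (Matrix.single c d 1) i j * (H y c d - H z c d))
      (dkD f f' (H z) H' i j) z :=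
    HasFDerivAt.fun_sum fun c _ => HasFDerivAt.fun_sum fun d _ => MF3_mul (hS _) (hH c d)
  refine (h1.add_const (mf f (H z) i j)).congr_of_eventuallyEq (Eventually.of_forall fun y => ?_)
  have h2 := congrFun (congrFun (mf_sub_mf (hsym y) (hsym z) f f') i) j
  rw [sch_apply_eq_sum] at h2
  simp only [Matrix.sub_apply] at h2 ⊢
  linarith

theorem mf_fderiv_apply {f f' : ℝ → ℝ} {H : F → RM n} {z : F}
    (hsym : ∀ y, (H y)ᵀ = H y) (hH : ∀ c d, DifferentiableAt ℝ (fun y => H y c d) z)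
    (hf : ∀ x ∈ spectrum ℝ (H z), HasDerivAt f (f' x) x) (i j : Fin n) (v : F) :
    fderiv ℝ (fun y => mf f (H y) i j) z v =
      sch (dd f f') (H z) (H z) (Matrix.of fun c d => fderiv ℝ (fun y => H y c d) z v) i j := by
  rw [(mf_hasFDerivAt hsym (fun c d => (hH c d).hasFDerivAt) hf i j).fderiv, dkD_apply]

/-- **Daleckii–Krein**, `C¹` version. -/
theorem mf_contDiff_one {f f' : ℝ → ℝ} {s : Set ℝ} (hs : IsOpen s)
    (hf : ∀ x ∈ s, HasDerivAt f (f' x) x) (hf' : ContinuousOn f' s) {H : F → RM n}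
    (hsym : ∀ y, (H y)ᵀ = H y) (hH : ∀ c d, ContDiff ℝ 1 (fun y => H y c d))
    (hsp : ∀ y, spectrum ℝ (H y) ⊆ s) (i j : Fin n) :
    ContDiff ℝ 1 (fun y => mf f (H y) i j) := by
  have hd : ∀ y, HasFDerivAt (fun y => mf f (H y) i j)
      (dkD f f' (H y) (fun c d => fderiv ℝ (fun y => H y c d) y) i j) y := fun y =>
    mf_hasFDerivAt hsym (fun c d => ((hH c d).differentiable one_ne_zero y).hasFDerivAt)
      (fun x hx => hf x (hsp y hx)) i j
  have cH : Continuous H := continuous_pi fun c => continuous_pi fun d => (hH c d).continuous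
  refine contDiff_one_iff_fderiv.2 ⟨fun y => (hd y).differentiableAt, ?_⟩
  have e : fderiv ℝ (fun y => mf f (H y) i j) = fun y =>
      dkD f f' (H y) (fun c d => fderiv ℝ (fun y => H y c d) y) i j := funext fun y => (hd y).fderiv
  rw [e]
  unfold dkD
  refine continuous_finsetSum _ fun c _ => continuous_finsetSum _ fun d _ => ?_
  have h1 : Continuous fun y => sch (dd f f') (H y) (H y) (Matrix.single c d 1) i j :=
    (continuous_sch hsym hsym cH cH continuous_const hsp hsp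
      (continuousOn_dd hs hf hf')).matrix_elem i j
  exact h1.smul (contDiff_one_iff_fderiv.1 (hH c d)).2

end DK

/-- The one-variable version (curves). -/
theorem mf_hasDerivAt {f f' : ℝ → ℝ} {H : ℝ → RM n} {H' : RM n} {t : ℝ}
    (hsym : ∀ y, (H y)ᵀ = H y) (hH : ∀ c d, HasDerivAt (fun y => H y c d) (H' c d) t)
    (hf : ∀ x ∈ spectrum ℝ (H t), HasDerivAt f (f' x) x) (i j : Fin n) :
    HasDerivAt (fun y => mf f (H y) i j) (sch (dd f f') (H t) (H t) H' i j) t := by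
  have h := (mf_hasFDerivAt hsym (fun c d => (hH c d).hasFDerivAt) hf i j).hasDerivAt
  rw [dkD_apply] at h
  convert h using 3
  ext c d
  simp

theorem MF3_evM_symm {τ : Mat n} (hsym : τᵀ = τ) (y : E n) : (evM y τ)ᵀ = evM y τ := by
  ext a b
  have := congrFun (congrFun hsym a) b
  simp only [transpose_apply, evM_apply] at this ⊢
  rw [this]

/-- The version for matrices of smooth functions: partial derivatives. -/
theorem mf_evM_fderiv {f f' : ℝ → ℝ} {τ : Mat n} (hsym : τᵀ = τ) {z : E n}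
    (hf : ∀ x ∈ spectrum ℝ (evM z τ), HasDerivAt f (f' x) x) (i j k : Fin n) :
    fderiv ℝ (fun y => mf f (evM y τ) i j) z (Pi.single k 1) =
      sch (dd f f') (evM z τ) (evM z τ) (evM z (pdM k τ)) i j := by
  exact mf_fderiv_apply (H := fun y => evM y τ) (MF3_evM_symm hsym)
    (fun c d => ev_differentiable (τ c d) z) hf i j _

theorem mf_evM_contDiff {f f' : ℝ → ℝ} {s : Set ℝ} (hs : IsOpen s)
    (hf : ∀ x ∈ s, HasDerivAt f (f' x) x) (hf' : ContinuousOn f' s) {τ : Mat n} (hsym : τᵀ = τ)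
    (hsp : ∀ y, spectrum ℝ (evM y τ) ⊆ s) (i j : Fin n) :
    ContDiff ℝ 1 (fun y => mf f (evM y τ) i j) := by
  exact mf_contDiff_one hs hf hf' (H := fun y => evM y τ) (MF3_evM_symm hsym)
    (fun c d => (ev_contDiff (τ c d)).of_le (by simp)) hsp i j

end Crest.Agent.R253
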