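import Crest.Agent.R253.B0
import Crest.Agent.R253.MF3
import Crest.Agent.R238.Poinc

/-!
# Row 253: Gaussian basics and first facts on Brenier data

`PG f`: `f` is continuous with polynomial growth; such functions are `gw`-integrable.
-/

set_option autoImplicit false
open MeasureTheory Matrix Filter Topology
open scoped ContDiff BigOperators

noncomputable section
namespace Crest.Agent.R253
open Crest.Agent.R238 Crest.Agent.R215

variable {n : ℕ}

theorem B1_prod_phi (z : E n) :
    ∏ i, phi (z i) = (√(2 * Real.pi))⁻¹ ^ n * Real.exp (-(∑ a, z a ^ 2) / 2) := by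
  simp only [phi, Finset.prod_mul_distrib, Finset.prod_const, Finset.card_univ, Fintype.card_fin,
    ← Real.exp_sum, ← Finset.sum_div, Finset.sum_neg_distrib]

theorem gw_eq_prod (z : E n) : gw z = ∏ i, phi (z i) := by
  have e : ∀ y : E n, ∏ i, phi (y i) =
      ((√(2 * Real.pi))⁻¹ ^ n * Iw (0 : Sm n) 1) * gw y := fun y => by
    have hZ := (Iw_one_pos (n := n) (sym_zero 0)).ne'
    rw [B1_prod_phi, gw]
    field_simp
  have h1 : ∫ y : E n, ∏ i, phi (y i) = 1 := by
    rw [integral_fintype_prod_volume_eq_prod (fun _ : Fin n => phi)]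
    simp [integral_phi]
  simp only [e] at h1
  rw [integral_const_mul, integral_gw, mul_one] at h1
  rw [e, h1, one_mul]

theorem log_gw (z : E n) :
    Real.log (gw z) = -(n / 2 * Real.log (2 * Real.pi)) - (∑ a, z a ^ 2) / 2 := by
  have h2 : 0 < 2 * Real.pi := by positivity
  rw [gw_eq_prod, B1_prod_phi, Real.log_mul (by positivity) (Real.exp_pos _).ne', Real.log_exp,
    Real.log_pow, Real.log_inv, Real.log_sqrt h2.le]
  ring

/-- Continuous functions of polynomial growth. -/
def PG (f : E n → ℝ) : Prop := Continuous f ∧ ∃ (C : ℝ) (k : ℕ), ∀ z, |f z| ≤ C * (1 + ‖z‖) ^ k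

namespace PG
variable {f g : E n → ℝ}

theorem cont (h : PG f) : Continuous f := h.1

theorem B1_bd (h : PG f) : ∃ (C : ℝ) (k : ℕ), 0 ≤ C ∧ ∀ z, |f z| ≤ C * (1 + ‖z‖) ^ k := by
  obtain ⟨C, k, hb⟩ := h.2
  exact ⟨|C|, k, abs_nonneg C, fun z =>
    (hb z).trans (mul_le_mul_of_nonneg_right (le_abs_self C) (by positivity))⟩

theorem B1_comp (hf : PG f) {T : E n → E n} (hT : Continuous T) {M : ℝ} (hM : 0 ≤ M)
    (h : ∀ z, ‖T z‖ ≤ M * ‖z‖) : PG (fun z => f (T z)) := by
  obtain ⟨C, k, hC, hb⟩ := hf.B1_bd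
  refine ⟨hf.1.comp hT, C * (1 + M) ^ k, k, fun z => (hb _).trans ?_⟩
  rw [mul_assoc, ← mul_pow]
  refine mul_le_mul_of_nonneg_left (pow_le_pow_left₀ (by positivity) ?_ k) hC
  nlinarith [h z, norm_nonneg z]

theorem integrable (h : PG f) : Integrable (fun z => f z * gw z) := by
  obtain ⟨C, k, hC, hb⟩ := h.B1_bd
  refine ((MehlerA_integrable_r (n := n) (k : ℝ)).const_mul (C * 2 ^ k)).mono'
    (h.1.mul MehlerA_continuous_gw).aestronglyMeasurable (.of_forall fun z => ?_)
  rw [Real.norm_eq_abs, abs_mul, abs_of_pos (gw_pos z), Real.rpow_natCast, ← mul_assoc]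
  refine mul_le_mul_of_nonneg_right ((hb z).trans ?_) (gw_pos z).le
  rw [mul_assoc, ← mul_pow]
  refine mul_le_mul_of_nonneg_left (pow_le_pow_left₀ (by positivity) ?_ k) hC
  linarith [norm_le_r z, one_le_r z]

theorem of_bdd (hc : Continuous f) {C : ℝ} (h : ∀ z, |f z| ≤ C) : PG f := by
  exact ⟨hc, C, 0, fun z => by simpa using h z⟩

theorem of_le (hc : Continuous f) (hg : PG g) (h : ∀ z, |f z| ≤ |g z|) : PG f := by
  obtain ⟨C, k, hb⟩ := hg.2
  exact ⟨hc, C, k, fun z => (h z).trans (hb z)⟩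

theorem const (c : ℝ) : PG (fun _ : E n => c) := by
  exact of_bdd continuous_const (C := |c|) fun _ => le_rfl

theorem coord (a : Fin n) : PG (fun z : E n => z a) := by
  refine ⟨continuous_apply a, 1, 1, fun z => ?_⟩
  have := norm_le_pi_norm z a
  rw [Real.norm_eq_abs] at this
  simp only [pow_one, one_mul]
  linarith

theorem norm : PG (fun z : E n => ‖z‖) := by
  refine ⟨continuous_norm, 1, 1, fun z => ?_⟩
  simp only [pow_one, one_mul, abs_norm]
  linarith

theorem add (hf : PG f) (hg : PG g) : PG (fun z => f z + g z) := by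
  obtain ⟨C, k, hC, hb⟩ := hf.B1_bd
  obtain ⟨D, l, hD, hd⟩ := hg.B1_bd
  refine ⟨hf.1.add hg.1, C + D, k + l, fun z => (abs_add_le _ _).trans ?_⟩
  have h1 : (1 : ℝ) ≤ 1 + ‖z‖ := by linarith [norm_nonneg z]
  rw [add_mul]
  exact add_le_add
    ((hb z).trans (mul_le_mul_of_nonneg_left (pow_le_pow_right₀ h1 (Nat.le_add_right _ _)) hC))
    ((hd z).trans (mul_le_mul_of_nonneg_left (pow_le_pow_right₀ h1 (Nat.le_add_left _ _)) hD))

theorem sub (hf : PG f) (hg : PG g) : PG (fun z => f z - g z) := by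
  obtain ⟨D, l, hd⟩ := hg.2
  have : PG (fun z => -g z) := ⟨hg.1.neg, D, l, fun z => by rw [abs_neg]; exact hd z⟩
  simpa only [sub_eq_add_neg] using hf.add this

theorem neg (hf : PG f) : PG (fun z => -f z) := by
  exact of_le hf.1.neg hf fun z => by rw [abs_neg]

theorem mul (hf : PG f) (hg : PG g) : PG (fun z => f z * g z) := by
  obtain ⟨C, k, hC, hb⟩ := hf.B1_bd
  obtain ⟨D, l, hD, hd⟩ := hg.B1_bd
  refine ⟨hf.1.mul hg.1, C * D, k + l, fun z => ?_⟩
  rw [abs_mul, pow_add, mul_mul_mul_comm]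
  exact mul_le_mul (hb z) (hd z) (abs_nonneg _) (by positivity)

theorem const_mul (hf : PG f) (c : ℝ) : PG (fun z => c * f z) := (const c).mul hf

theorem pow (hf : PG f) (k : ℕ) : PG (fun z => f z ^ k) := by
  induction k with
  | zero => simpa using const 1
  | succ k ih => simpa only [pow_succ] using ih.mul hf

theorem abs (hf : PG f) : PG (fun z => |f z|) := by
  exact of_le hf.1.abs hf fun z => by rw [abs_abs]

theorem sum {ι : Type*} (s : Finset ι) {f : ι → E n → ℝ} (h : ∀ i ∈ s, PG (f i)) :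
    PG (fun z => ∑ i ∈ s, f i z) := by
  classical
  induction s using Finset.induction_on with
  | empty => simpa using const 0
  | insert a s ha ih =>
    simp only [Finset.sum_insert ha]
    exact (h a (Finset.mem_insert_self _ _)).add (ih fun i hi => h i (Finset.mem_insert_of_mem hi))

theorem comp_smul (hf : PG f) (c : ℝ) : PG (fun z => f (c • z)) := by
  exact hf.B1_comp (by fun_prop) (M := |c|) (abs_nonneg c) fun z => by
    rw [norm_smul, Real.norm_eq_abs]

theorem comp_mulVec (hf : PG f) (A : RM n) : PG (fun z => f (A *ᵥ z)) := by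
  exact hf.B1_comp (T := fun z => A *ᵥ z) (by fun_prop)
    (M := ‖LinearMap.toContinuousLinearMap (Matrix.toLin' A)‖) (norm_nonneg _) fun z => by
      simpa using (LinearMap.toContinuousLinearMap (Matrix.toLin' A)).le_opNorm z

/-- Composition with a continuous scalar function of polynomial growth. -/
theorem comp (hf : PG f) {φ : ℝ → ℝ} (hφ : Continuous φ) {C : ℝ} {k : ℕ}
    (h : ∀ x, |φ x| ≤ C * (1 + |x|) ^ k) : PG (fun z => φ (f z)) := by
  refine of_le (hφ.comp hf.1) ((((const 1).add hf.abs).pow k).const_mul C) fun z => ?_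
  exact (h _).trans (le_abs_self _)

end PG

theorem Tm_pg {f : Sm n} (h : Tm f) : PG (fun z => ev z f) := by
  obtain ⟨C, s, hC, hs, hb⟩ := h.abs_le
  have hr : PG (fun z : E n => 1 + ∑ a, z a ^ 2) :=
    (PG.const 1).add (PG.sum _ fun a _ => (PG.coord a).pow 2)
  refine PG.of_le (ev_continuous f) ((hr.pow ⌈s⌉₊).const_mul C) fun z => ?_
  refine (hb z).trans (le_trans ?_ (le_abs_self _))
  refine mul_le_mul_of_nonneg_left ((r_rpow_mono z (Nat.le_ceil s)).trans ?_) hC
  rw [Real.rpow_natCast, ← r_sq]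
  refine pow_le_pow_left₀ (r_pos z).le ?_ _
  nlinarith [one_le_r z]

/-- Matrix valued `PG`. -/
def PGM (A : E n → RM n) : Prop := ∀ a b, PG (fun z => A z a b)

namespace PGM
variable {A B : E n → RM n}

theorem cont (h : PGM A) : Continuous A := by
  exact continuous_matrix fun a b => (h a b).1

theorem const (M : RM n) : PGM (fun _ : E n => M) := fun a b => PG.const _

theorem add (hA : PGM A) (hB : PGM B) : PGM (fun z => A z + B z) := fun a b => (hA a b).add (hB a b)

theorem sub (hA : PGM A) (hB : PGM B) : PGM (fun z => A z - B z) := fun a b => (hA a b).sub (hB a b)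

theorem mul (hA : PGM A) (hB : PGM B) : PGM (fun z => A z * B z) := by
  intro a b
  simp only [Matrix.mul_apply]
  exact PG.sum _ fun c _ => (hA a c).mul (hB c b)

theorem smul (hA : PGM A) {f : E n → ℝ} (hf : PG f) : PGM (fun z => f z • A z) :=
  fun a b => hf.mul (hA a b)

theorem sum {ι : Type*} (s : Finset ι) {A : ι → E n → RM n} (h : ∀ i ∈ s, PGM (A i)) :
    PGM (fun z => ∑ i ∈ s, A i z) := by
  intro a b
  simp only [Matrix.sum_apply]
  exact PG.sum _ fun i hi => h i hi a b

theorem hs (hA : PGM A) : PG (fun z => hs (A z)) := by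
  unfold R253.hs
  exact PG.sum _ fun a _ => PG.sum _ fun b _ => (hA a b).pow 2

theorem trace (hA : PGM A) : PG (fun z => (A z).trace) := by
  simp only [Matrix.trace, Matrix.diag]
  exact PG.sum _ fun a _ => hA a a

/-- Functional calculus with a continuous function of polynomial growth. -/
theorem mf (hA : PGM A) (hs : ∀ z, (A z)ᵀ = A z) {φ : ℝ → ℝ} (hφ : Continuous φ) {C : ℝ} {k : ℕ}
    (h : ∀ x, |φ x| ≤ C * (1 + |x|) ^ k) : PGM (fun z => mf φ (A z)) := by
  intro a b
  have hc : Continuous fun z => R253.mf φ (A z) :=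
    continuous_mf (s := Set.univ) hs hA.cont (fun _ => Set.subset_univ _) hφ.continuousOn
  refine PG.of_le (hc.matrix_elem a b)
    ((((PG.const 2).add hA.hs).pow k).const_mul |C|) fun z => ?_
  refine (abs_mf_apply_le (hs z) (L := |C| * (2 + R253.hs (A z)) ^ k) (fun x hx => ?_) a b).trans
    (le_abs_self _)
  refine (h x).trans (mul_le_mul (le_abs_self C) (pow_le_pow_left₀ (by positivity) ?_ k)
    (by positivity) (abs_nonneg C))
  have h1 := sq_le_hs_of_mem (hs z) hx
  rw [← sq_abs] at h1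
  nlinarith [abs_nonneg x, sq_nonneg (|x| - 1)]

end PGM

theorem TmM_pgm {M : Mat n} (h : TmM M) : PGM (fun z => evM z M) := fun a b => Tm_pg (h a b)

/-! ### The expectation -/

section GE
variable {f g : E n → ℝ}

theorem GE_const (c : ℝ) : GE (fun _ : E n => c) = c := by
  rw [GE, integral_const_mul, integral_gw, mul_one]

theorem GE_add (hf : PG f) (hg : PG g) : GE (fun z => f z + g z) = GE f + GE g := by
  simp only [GE, add_mul]
  exact integral_add hf.integrable hg.integrable

theorem GE_sub (hf : PG f) (hg : PG g) : GE (fun z => f z - g z) = GE f - GE g := by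
  simp only [GE, sub_mul]
  exact integral_sub hf.integrable hg.integrable

theorem GE_neg (f : E n → ℝ) : GE (fun z => -f z) = -GE f := by
  simp only [GE, neg_mul]
  exact integral_neg _

theorem GE_const_mul (c : ℝ) (f : E n → ℝ) : GE (fun z => c * f z) = c * GE f := by
  simp only [GE, mul_assoc]
  exact integral_const_mul _ _

theorem GE_mul_const (f : E n → ℝ) (c : ℝ) : GE (fun z => f z * c) = GE f * c := by
  simp only [mul_comm _ c]
  exact GE_const_mul c f

theorem GE_sum {ι : Type*} (s : Finset ι) {f : ι → E n → ℝ} (h : ∀ i ∈ s, PG (f i)) :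
    GE (fun z => ∑ i ∈ s, f i z) = ∑ i ∈ s, GE (f i) := by
  simp only [GE, Finset.sum_mul]
  exact integral_finsetSum _ fun i hi => (h i hi).integrable

theorem GE_nonneg (h : ∀ z, 0 ≤ f z) : 0 ≤ GE f := by
  exact integral_nonneg fun z => mul_nonneg (h z) (gw_pos z).le

theorem GE_mono (hf : PG f) (hg : PG g) (h : ∀ z, f z ≤ g z) : GE f ≤ GE g := by
  exact integral_mono hf.integrable hg.integrable fun z =>
    mul_le_mul_of_nonneg_right (h z) (gw_pos z).le

/-- Monotonicity when the smaller function is nonnegative (no integrability needed for it). -/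
theorem GE_mono' (h0 : ∀ z, 0 ≤ f z) (hg : PG g) (h : ∀ z, f z ≤ g z) : GE f ≤ GE g := by
  exact integral_mono_of_nonneg (.of_forall fun z => mul_nonneg (h0 z) (gw_pos z).le) hg.integrable
    (.of_forall fun z => mul_le_mul_of_nonneg_right (h z) (gw_pos z).le)

theorem abs_GE_le (f : E n → ℝ) : |GE f| ≤ GE (fun z => |f z|) := by
  refine (abs_integral_le_integral_abs).trans_eq ?_
  simp only [GE, abs_mul, abs_of_pos (gw_pos _)]

theorem GE_mul_sq_le (hf : PG f) (hg : PG g) :
    GE (fun z => f z * g z) ^ 2 ≤ GE (fun z => f z ^ 2) * GE (fun z => g z ^ 2) := by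
  have h : ∀ t : ℝ, 0 ≤ GE (fun z => f z ^ 2) * (t * t) + 2 * GE (fun z => f z * g z) * t +
      GE (fun z => g z ^ 2) := by
    intro t
    have e : GE (fun z => (t * f z + g z) ^ 2) = GE (fun z => f z ^ 2) * (t * t) +
        2 * GE (fun z => f z * g z) * t + GE (fun z => g z ^ 2) := by
      have : (fun z => (t * f z + g z) ^ 2) =
          fun z => ((t * t) * f z ^ 2 + (2 * t) * (f z * g z)) + g z ^ 2 := by
        funext z; ring
      rw [this, GE_add (((hf.pow 2).const_mul _).add ((hf.mul hg).const_mul _)) (hg.pow 2),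
        GE_add ((hf.pow 2).const_mul _) ((hf.mul hg).const_mul _), GE_const_mul, GE_const_mul]
      ring
    rw [← e]
    exact GE_nonneg fun z => sq_nonneg _
  have := discrim_le_zero h
  rw [discrim] at this
  nlinarith

theorem GE_sq_le (hf : PG f) : GE f ^ 2 ≤ GE (fun z => f z ^ 2) := by
  have := GE_mul_sq_le hf (PG.const 1)
  simpa [GE_const] using this

/-- The mean minimises the quadratic deviation. -/
theorem GE_var_le (hf : PG f) (m : ℝ) :
    GE (fun z => (f z - GE f) ^ 2) ≤ GE (fun z => (f z - m) ^ 2) := by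
  have e : ∀ c : ℝ, GE (fun z => (f z - c) ^ 2) = GE (fun z => f z ^ 2) - 2 * c * GE f + c ^ 2 := by
    intro c
    have : (fun z => (f z - c) ^ 2) = fun z => (f z ^ 2 - (2 * c) * f z) + c ^ 2 := by
      funext z; ring
    rw [this, GE_add ((hf.pow 2).sub (hf.const_mul _)) (PG.const _),
      GE_sub (hf.pow 2) (hf.const_mul _), GE_const_mul, GE_const]
  rw [e, e]
  nlinarith [sq_nonneg (GE f - m)]

theorem GE_neg_arg (f : E n → ℝ) : GE (fun z => f (-z)) = GE f := by
  have := integral_neg_eq_self (fun z => f z * gw z) (volume : Measure (E n))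
  rw [GE, GE, ← this]
  congr 1
  funext z
  simp [gw]

/-- Rotation invariance. -/
theorem GE_orth {O : RM n} (hO : Oᵀ * O = 1) (f : E n → ℝ) : GE (fun z => f (O *ᵥ z)) = GE f := by
  have hd : |O.det| = 1 := by
    have := congrArg Matrix.det hO
    rw [det_mul, det_transpose, det_one] at this
    have h2 : |O.det| ^ 2 = 1 := by rw [sq_abs, sq, this]
    exact (pow_eq_one_iff_of_nonneg (abs_nonneg _) two_ne_zero).1 h2
  have hd0 : O.det ≠ 0 := by
    intro h0
    rw [h0, abs_zero] at hd
    exact zero_ne_one hd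
  have hm : Measure.map (Matrix.toLin' O) (volume : Measure (E n)) = volume := by
    rw [Real.map_matrix_volume_pi_eq_smul_volume_pi hd0, abs_inv, hd]
    simp
  have hO' : O * Oᵀ = 1 := mul_eq_one_comm.1 hO
  let e : E n ≃ₜ E n :=
    { toFun := fun z => O *ᵥ z
      invFun := fun z => Oᵀ *ᵥ z
      left_inv := fun z => by simp only [mulVec_mulVec, hO, one_mulVec]
      right_inv := fun z => by simp only [mulVec_mulVec, hO', one_mulVec]
      continuous_toFun := by fun_prop
      continuous_invFun := by fun_prop }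
  have hp : MeasurePreserving e (volume : Measure (E n)) volume := ⟨e.measurable, hm⟩
  have := hp.integral_comp e.measurableEmbedding (fun z => f z * gw z)
  rw [GE, GE, ← this]
  congr 1
  funext z
  have hs : ∑ a, (O *ᵥ z) a ^ 2 = ∑ a, z a ^ 2 := by
    have h1 : (O *ᵥ z) ⬝ᵥ (O *ᵥ z) = z ⬝ᵥ z := by
      rw [dotProduct_mulVec, vecMul_mulVec, hO, vecMul_one]
    simpa only [dotProduct, sq] using h1
  change f (O *ᵥ z) * gw z = f (O *ᵥ z) * gw (O *ᵥ z)
  rw [gw, gw, hs]

/-- Scaling by `0 < ε ≤ 1` costs at most the factor `ε⁻ⁿ` on nonnegative functions. -/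
theorem GE_smul_le (hf : PG f) (h0 : ∀ z, 0 ≤ f z) {ε : ℝ} (hε : 0 < ε) (hε1 : ε ≤ 1) :
    GE (fun z => f (ε • z)) ≤ (ε ^ n)⁻¹ * GE f := by
  have h1 := Measure.integral_comp_smul (volume : Measure (E n)) (fun z => f z * gw z) ε
  rw [Module.finrank_fin_fun, abs_of_pos (by positivity), smul_eq_mul] at h1
  rw [GE, GE, ← h1]
  refine integral_mono_of_nonneg (.of_forall fun z => mul_nonneg (h0 _) (gw_pos z).le)
    (hf.integrable.comp_smul hε.ne') (.of_forall fun z => mul_le_mul_of_nonneg_left ?_ (h0 _))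
  refine mul_le_mul_of_nonneg_left (Real.exp_le_exp.2 ?_)
    (inv_pos.2 (Iw_one_pos (sym_zero 0))).le
  have : ∑ a, (ε • z) a ^ 2 ≤ ∑ a, z a ^ 2 := Finset.sum_le_sum fun a _ => by
    rw [Pi.smul_apply, smul_eq_mul, mul_pow]
    exact mul_le_of_le_one_left (sq_nonneg _) (pow_le_one₀ hε.le hε1)
  linarith

theorem GE_prod (F : Fin n → ℝ → ℝ) :
    GE (fun z : E n => ∏ i, F i (z i)) = ∏ i, ∫ x, F i x * phi x := by
  rw [GE, ← integral_fintype_prod_volume_eq_prod (fun i x => F i x * phi x)]
  simp only [gw_eq_prod, Finset.prod_mul_distrib]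

theorem GE_ev (h : Sm n) : GE (fun z => ev z h) = (Iw (0 : Sm n) 1)⁻¹ * Iw 0 h := MehlerA_int h

/-- Gaussian integration by parts. -/
theorem GE_ibp {h : Sm n} (hh : Tm h) (a : Fin n) :
    GE (fun z => z a * ev z h) = GE (fun z => ev z (pd a h)) := by
  rw [GE_ev, Iw_pd (sym_zero 0) hh a, ← GE_ev]
  simp

theorem GE_coord (a : Fin n) : GE (fun z : E n => z a) = 0 := by
  have := GE_ibp (tm_one (n := n)) a
  simpa [pd_one, GE_const] using this

theorem GE_coord_mul (a b : Fin n) : GE (fun z : E n => z a * z b) = if a = b then 1 else 0 := by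
  have := GE_ibp (tm_X (n := n) b) a
  rw [pd_X] at this
  by_cases h : a = b <;> simpa [h, GE_const] using this

theorem GE_coord_mul3 (a b c : Fin n) : GE (fun z : E n => z a * z b * z c) = 0 := by
  have h := GE_neg_arg (fun z : E n => z a * z b * z c)
  have e : (fun z : E n => (-z) a * (-z) b * (-z) c) = fun z => -(z a * z b * z c) := by
    funext z; simp
  rw [e, GE_neg] at h
  linarith

theorem GE_coord_mul4 (a b c d : Fin n) : GE (fun z : E n => z a * z b * z c * z d) =
    (if a = b then 1 else 0) * (if c = d then 1 else 0) +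
      (if a = c then 1 else 0) * (if b = d then 1 else 0) +
      (if a = d then 1 else 0) * (if b = c then 1 else 0) := by
  have h := GE_ibp (((tm_X (n := n) b).mul (tm_X c)).mul (tm_X d)) a
  have e1 : (fun z : E n => z a * ev z (X b * X c * X d)) = fun z => z a * z b * z c * z d := by
    funext z; simp only [map_mul, ev_X]; ring
  have e2 : (fun z : E n => ev z (pd a (X b * X c * X d))) = fun z =>
      ((if a = b then (1 : ℝ) else 0) * (z c * z d) + (if a = c then (1 : ℝ) else 0) * (z b * z d)) +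
        (if a = d then (1 : ℝ) else 0) * (z b * z c) := by
    funext z
    simp only [pd_mul, pd_X, map_add, map_mul, ev_X, apply_ite (ev z), map_one, map_zero]
    ring
  have p : ∀ (t : ℝ) (i j : Fin n), PG (fun z : E n => t * (z i * z j)) :=
    fun t i j => ((PG.coord i).mul (PG.coord j)).const_mul t
  rw [e1, e2, GE_add ((p _ _ _).add (p _ _ _)) (p _ _ _), GE_add (p _ _ _) (p _ _ _),
    GE_const_mul, GE_const_mul, GE_const_mul, GE_coord_mul, GE_coord_mul, GE_coord_mul] at h
  exact h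

/-- A Gaussian Poincaré inequality (with some constant). -/
theorem GE_poincare (n : ℕ) : ∃ C, 0 ≤ C ∧ ∀ h : Sm n, Tm h →
    GE (fun z => (ev z h - GE fun y => ev y h) ^ 2) ≤ C * ∑ a, GE (fun z => ev z (pd a h) ^ 2) := by
  obtain ⟨C, hC, H⟩ := poincare_gauss n
  refine ⟨C, hC, fun h hh => ?_⟩
  obtain ⟨m, hm⟩ := H h hh
  refine (GE_var_le (Tm_pg hh) m).trans ?_
  have e1 : (fun z => (ev z h - m) ^ 2) = fun z => ev z ((h - cst m) ^ 2) := by
    funext z; simp only [map_pow, map_sub, ev_cst]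
  have e2 : (fun z => ∑ a, ev z (pd a h) ^ 2) = fun z => ev z (q 1 h) := by
    funext z; simp only [q, map_sum, map_pow]
  rw [← GE_sum _ fun a _ => (Tm_pg (hh.pd a)).pow 2, e1, e2, GE_ev, GE_ev, mul_left_comm]
  exact mul_le_mul_of_nonneg_left hm (inv_pos.2 (Iw_one_pos (sym_zero 0))).le

theorem B1_tendsto {ι : Type*} {l : Filter ι} {F G : ι → E n → ℝ} {c : ℝ}
    (hF : ∀ i, PG (F i)) (hG : ∀ i, PG (G i))
    (h : Tendsto (fun i => GE fun z => F i z ^ 2) l (𝓝 0))
    (g : Tendsto (fun i => GE fun z => G i z ^ 2) l (𝓝 c)) :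
    Tendsto (fun i => GE fun z => F i z * G i z) l (𝓝 0) := by
  have h1 := (h.mul g).sqrt
  rw [zero_mul, Real.sqrt_zero] at h1
  refine squeeze_zero_norm (fun i => ?_) h1
  rw [Real.norm_eq_abs]
  exact Real.abs_le_sqrt (GE_mul_sq_le (hF i) (hG i))

/-- `L²(γ)` convergence implies convergence of pairings. -/
theorem tendsto_GE_mul {ι : Type*} {l : Filter ι} {F : ι → E n → ℝ} {F₀ p : E n → ℝ}
    (hF : ∀ i, PG (F i)) (h₀ : PG F₀) (hp : PG p)
    (h : Tendsto (fun i => GE fun z => (F i z - F₀ z) ^ 2) l (𝓝 0)) :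
    Tendsto (fun i => GE fun z => F i z * p z) l (𝓝 (GE fun z => F₀ z * p z)) := by
  have h1 := B1_tendsto (G := fun _ => p) (F := fun i z => F i z - F₀ z) (fun i => (hF i).sub h₀)
    (fun _ => hp) h tendsto_const_nhds
  have h2 := h1.add_const (GE fun z => F₀ z * p z)
  rw [zero_add] at h2
  refine h2.congr fun i => ?_
  rw [← GE_add (((hF i).sub h₀).mul hp) (h₀.mul hp)]
  congr 1
  funext z
  ring

/-- `L²(γ)` convergence of both factors implies convergence of pairings. -/
theorem tendsto_GE_mul₂ {ι : Type*} {l : Filter ι} {F G : ι → E n → ℝ} {F₀ G₀ : E n → ℝ}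
    (hF : ∀ i, PG (F i)) (hG : ∀ i, PG (G i)) (h₀ : PG F₀) (g₀ : PG G₀)
    (h : Tendsto (fun i => GE fun z => (F i z - F₀ z) ^ 2) l (𝓝 0))
    (g : Tendsto (fun i => GE fun z => (G i z - G₀ z) ^ 2) l (𝓝 0)) :
    Tendsto (fun i => GE fun z => F i z * G i z) l (𝓝 (GE fun z => F₀ z * G₀ z)) := by
  have h1 := B1_tendsto (G := fun i z => G i z - G₀ z) (F := fun i z => F i z - F₀ z)
    (fun i => (hF i).sub h₀) (fun i => (hG i).sub g₀) h g
  have h2 := tendsto_GE_mul hF h₀ g₀ h
  have h3 := tendsto_GE_mul hG g₀ h₀ g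
  have h4 := ((h1.add h2).add h3).sub_const (GE fun z => G₀ z * F₀ z)
  rw [zero_add, add_sub_cancel_right] at h4
  refine h4.congr fun i => ?_
  have p1 := ((hF i).sub h₀).mul ((hG i).sub g₀)
  have p2 := (hF i).mul g₀
  have p3 := (hG i).mul h₀
  rw [← GE_add p1 p2, ← GE_add (p1.add p2) p3, ← GE_sub ((p1.add p2).add p3) (g₀.mul h₀)]
  congr 1
  funext z
  ring

theorem GE_hs {A : E n → RM n} (hA : PGM A) :
    GE (fun z => hs (A z)) = ∑ a, ∑ b, GE (fun z => A z a b ^ 2) := by
  unfold hs
  rw [GE_sum _ fun a _ => PG.sum _ fun b _ => (hA a b).pow 2]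
  exact Finset.sum_congr rfl fun a _ => GE_sum _ fun b _ => (hA a b).pow 2

theorem GE_entry_sq_le {A : E n → RM n} (hA : PGM A) (a b : Fin n) :
    GE (fun z => A z a b ^ 2) ≤ GE (fun z => hs (A z)) := by
  exact GE_mono ((hA a b).pow 2) hA.hs fun z => sq_le_hs _ a b

/-- `E hs (∑ z_k J_k) = ∑ hs J_k`. -/
theorem GE_hs_lin (J : Fin n → RM n) : GE (fun z : E n => hs (∑ k, z k • J k)) = ∑ k, hs (J k) := by
  have hA : PGM (fun z : E n => ∑ k, z k • J k) :=
    PGM.sum _ fun k _ => (PGM.const (J k)).smul (PG.coord k)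
  have e : ∀ a b, GE (fun z : E n => (∑ k, z k • J k) a b ^ 2) = ∑ k, J k a b ^ 2 := by
    intro a b
    have e1 : (fun z : E n => (∑ k, z k • J k) a b ^ 2) =
        fun z => ∑ k, ∑ l, (J k a b * J l a b) * (z k * z l) := by
      funext z
      simp only [Matrix.sum_apply, Matrix.smul_apply, smul_eq_mul, sq, Finset.sum_mul_sum]
      exact Finset.sum_congr rfl fun k _ => Finset.sum_congr rfl fun l _ => by ring
    have p : ∀ k l : Fin n, PG (fun z : E n => (J k a b * J l a b) * (z k * z l)) :=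
      fun k l => ((PG.coord k).mul (PG.coord l)).const_mul _
    rw [e1, GE_sum _ fun k _ => PG.sum _ fun l _ => p k l]
    refine Finset.sum_congr rfl fun k _ => ?_
    rw [GE_sum _ fun l _ => p k l]
    simp only [GE_const_mul, GE_coord_mul]
    simp [sq]
  rw [GE_hs hA]
  simp only [e, hs]
  rw [Finset.sum_comm]
  refine (Finset.sum_congr rfl fun b _ => Finset.sum_comm).trans ?_
  rw [Finset.sum_comm]
  exact Finset.sum_congr rfl fun k _ => Finset.sum_comm

end GE

end Crest.Agent.R253
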