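import Crest.Agent.R253.B1

/-!
# Row 253: first facts on Brenier data
-/

set_option autoImplicit false
open MeasureTheory Matrix Filter Topology
open scoped ContDiff BigOperators

noncomputable section
namespace Crest.Agent.R253
open Crest.Agent.R238 Crest.Agent.R215

variable {n : ℕ}

/-! ### Brenier data -/

/-- The derivative of `vec T`. -/
theorem vec_hasFDerivAt (T : Fin n → Sm n) (z : E n) :
    HasFDerivAt (vec T) (LinearMap.toContinuousLinearMap (Matrix.toLin' (evM z (jac T)))) z := by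
  refine hasFDerivAt_pi'' fun a => (hasFDerivAt_ev (T a) z).congr_fderiv ?_
  refine ContinuousLinearMap.ext fun v => ?_
  simp [jac, Matrix.mulVec, dotProduct]

namespace GD
variable (D : GD n)

theorem H_symm (z : E n) : (D.H z)ᵀ = D.H z := Ell_symm D.ell z

theorem H_spec (z : E n) : spectrum ℝ (D.H z) ⊆ Set.Icc D.c (n * D.K) := Ell_spectrum D.ell z

theorem H_spec_pos (z : E n) : spectrum ℝ (D.H z) ⊆ Set.Ioi 0 :=
  fun _ hx => lt_of_lt_of_le D.c_pos (D.H_spec z hx).1

theorem H_posDef (z : E n) : (D.H z).PosDef :=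
  posDef_of_low (D.H_symm z) D.c_pos (D.ell.low z)

theorem tmM_jac : TmM (jac D.T) := fun a b => (D.tmT a).pd b

theorem H_pgm : PGM D.H := TmM_pgm D.tmM_jac

theorem T_pg (a : Fin n) : PG (fun z => ev z (D.T a)) := Tm_pg (D.tmT a)

theorem logdet_pg : PG (fun z => Real.log (D.H z).det) := by
  have hc : Continuous fun z => mf Real.log (D.H z) :=
    continuous_mf D.H_symm D.H_pgm.cont D.H_spec_pos
      (Real.continuousOn_log.mono fun x hx => ne_of_gt hx)
  obtain ⟨C, hC⟩ := (isCompact_Icc (a := D.c) (b := n * D.K)).exists_bound_of_continuousOn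
    (Real.continuousOn_log.mono fun x hx => (D.c_pos.trans_le hx.1).ne')
  simp only [fun z => log_det_eq (D.H_posDef z)]
  exact PGM.trace fun a b => PG.of_bdd (hc.matrix_elem a b) fun z =>
    abs_mf_apply_le (D.H_symm z) (fun x hx => hC x (D.H_spec z hx)) a b

theorem M_symm (z : E n) : (D.M z)ᵀ = D.M z := mf_symm _ _

theorem M_cont : Continuous D.M :=
  continuous_mf D.H_symm D.H_pgm.cont D.H_spec_pos continuousOn_lamI

theorem M_bdd : ∃ C, ∀ z a b, |D.M z a b| ≤ C := by
  obtain ⟨C, hC⟩ := lamI_bdd (K := n * D.K) D.c_pos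
  exact ⟨_, fun z a b => abs_mf_apply_le (D.H_symm z) (fun x hx => hC x (D.H_spec z hx)) a b⟩

theorem M_pgm : PGM D.M := by
  obtain ⟨C, hC⟩ := D.M_bdd
  exact fun a b => PG.of_bdd (D.M_cont.matrix_elem a b) fun z => hC z a b

theorem mf_lam_M (z : E n) : mf lam (D.M z) = D.H z := by
  rw [M, mf_comp (D.H_symm z), mf_congr (D.H_symm z) (g := fun x => x)
    fun x hx => lam_lamI (D.H_spec_pos z hx), mf_id (D.H_symm z)]

theorem M_contDiff (a b : Fin n) : ContDiff ℝ 1 (fun z => D.M z a b) :=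
  mf_evM_contDiff isOpen_Ioi (fun _ hx => hasDerivAt_lamI hx) continuousOn_lamI_deriv D.ell.symm
    D.H_spec_pos a b

theorem Jm_symm (k : Fin n) : (D.Jm k)ᵀ = D.Jm k := by
  ext a b
  simp only [Jm, transpose_apply, of_apply]
  congr 1
  funext z
  rw [← transpose_apply (D.M z), D.M_symm]

theorem Lm_symm (z : E n) : (D.Lm z)ᵀ = D.Lm z := by
  simp only [Lm, transpose_sum, transpose_smul, D.Jm_symm]

theorem Lm_pgm : PGM D.Lm :=
  PGM.sum _ fun k _ => (PGM.const (D.Jm k)).smul (PG.coord k)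

theorem Nm_symm : D.Nmᵀ = D.Nm := by
  simp only [Nm, transpose_sum, transpose_mul, D.Jm_symm]

theorem trace_Nm : D.Nm.trace = ∑ k, hs (D.Jm k) := by
  simp only [Nm, trace_sum, hs_eq_trace, D.Jm_symm]

theorem Q_symm : D.Qᵀ = D.Q := by
  ext a b
  simp only [Q, transpose_apply, of_apply, mul_comm]

theorem gain_nonneg : 0 ≤ D.gain :=
  add_nonneg (GE_nonneg fun _ => hs_nonneg _) (le_min zero_le_one (hs_nonneg _))

end GD

end Crest.Agent.R253
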