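import Crest.Agent.R253.MF1

/-!
# Row 253: matrix functional calculus, part 2 (Schur multipliers, divided differences, Lipschitz bound)

`sch φ A B X = ∑ φ(a_i, b_j) P_i X Q_j` (a finite double operator integral).
-/

set_option autoImplicit false
open MeasureTheory Matrix Filter Topology
open scoped BigOperators

noncomputable section
namespace Crest.Agent.R253
open Crest.Agent.R238

variable {n : ℕ}

open Classical in
/-- A chosen eigenframe (junk value for non-symmetric matrices). -/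
def frm (A : RM n) : RM n × (Fin n → ℝ) :=
  if h : Aᵀ = A then ((exists_fr h).choose, (exists_fr h).choose_spec.choose) else (1, 0)

theorem frm_fr {A : RM n} (h : Aᵀ = A) : Fr A (frm A).1 (frm A).2 := by
  unfold frm
  rw [dif_pos h]
  exact (exists_fr h).choose_spec.choose_spec

/-- The Schur multiplier with symbol `φ` in explicit frames. -/
def schF (φ : ℝ → ℝ → ℝ) (U : RM n) (a : Fin n → ℝ) (V : RM n) (b : Fin n → ℝ) (X : RM n) : RM n :=
  U * (Matrix.of fun i j => φ (a i) (b j) * (Uᵀ * X * V) i j) * Vᵀ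

/-- The Schur multiplier (double operator integral) with symbol `φ`. -/
def sch (φ : ℝ → ℝ → ℝ) (A B X : RM n) : RM n :=
  schF φ (frm A).1 (frm A).2 (frm B).1 (frm B).2 X

theorem MF2_vecMulVec (V : RM n) (j : Fin n) :
    vecMulVec (fun i => V i j) (fun i => V i j) = V * diagonal (Pi.single j 1) * Vᵀ := by
  ext k l
  rw [Matrix.mul_apply, Finset.sum_eq_single j]
  · simp [vecMulVec_apply, Matrix.mul_diagonal]
  · intro c _ hc
    simp [Matrix.mul_diagonal, hc]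
  · simp

theorem MF2_schF_sum {A U : RM n} {a : Fin n → ℝ} (hA : Fr A U a) (V : RM n) (b : Fin n → ℝ)
    (φ : ℝ → ℝ → ℝ) (X : RM n) :
    schF φ U a V b X =
      ∑ j, mf (fun x => φ x (b j)) A * X * vecMulVec (fun i => V i j) (fun i => V i j) := by
  have h1 : ∀ j, mf (fun x => φ x (b j)) A * X * vecMulVec (fun i => V i j) (fun i => V i j) =
      U * (diagonal (fun i => φ (a i) (b j)) * (Uᵀ * X * V) * diagonal (Pi.single j 1)) * Vᵀ := by
    intro j
    rw [hA.mf_eq, MF2_vecMulVec]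
    simp only [Matrix.mul_assoc]
  simp only [h1]
  rw [← Finset.sum_mul, ← Finset.mul_sum]
  unfold schF
  congr 2
  ext i k
  rw [Matrix.sum_apply, Finset.sum_eq_single k]
  · simp [Matrix.mul_diagonal, Matrix.diagonal_mul]
  · intro c _ hc
    simp [Matrix.mul_diagonal, Matrix.diagonal_mul, hc.symm]
  · simp

theorem MF2_schF_transpose (φ : ℝ → ℝ → ℝ) (U : RM n) (a : Fin n → ℝ) (V : RM n) (b : Fin n → ℝ)
    (X : RM n) : (schF φ U a V b X)ᵀ = schF (fun y x => φ x y) V b U a Xᵀ := by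
  unfold schF
  rw [Matrix.transpose_mul, Matrix.transpose_mul, Matrix.transpose_transpose, ← Matrix.mul_assoc]
  congr 2
  ext i j
  have : (Vᵀ * Xᵀ * U) i j = (Uᵀ * X * V) j i := by
    have h2 : Vᵀ * Xᵀ * U = (Uᵀ * X * V)ᵀ := by
      simp [Matrix.transpose_mul, Matrix.mul_assoc]
    rw [h2, Matrix.transpose_apply]
  simp [this]

theorem MF2_schF_left {A U U' : RM n} {a a' : Fin n → ℝ} (h : Fr A U a) (h' : Fr A U' a')
    (V : RM n) (b : Fin n → ℝ) (φ : ℝ → ℝ → ℝ) (X : RM n) :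
    schF φ U a V b X = schF φ U' a' V b X := by
  rw [MF2_schF_sum h, MF2_schF_sum h']

theorem MF2_schF_right {B V V' : RM n} {b b' : Fin n → ℝ} (h : Fr B V b) (h' : Fr B V' b')
    (U : RM n) (a : Fin n → ℝ) (φ : ℝ → ℝ → ℝ) (X : RM n) :
    schF φ U a V b X = schF φ U a V' b' X := by
  apply Matrix.transpose_injective
  rw [MF2_schF_transpose, MF2_schF_transpose, MF2_schF_left h h']

/-- Matrices agreeing after conjugation by orthogonal matrices agree. -/
theorem MF2_ext {U V X Y : RM n} (hU : U * Uᵀ = 1) (hV : V * Vᵀ = 1)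
    (h : ∀ i j, (Uᵀ * X * V) i j = (Uᵀ * Y * V) i j) : X = Y := by
  have h1 : Uᵀ * X * V = Uᵀ * Y * V := by ext i j; exact h i j
  have h2 : ∀ Z : RM n, Z = U * (Uᵀ * Z * V) * Vᵀ := by
    intro Z
    calc Z = (U * Uᵀ) * Z * (V * Vᵀ) := by rw [hU, hV]; simp
      _ = _ := by simp only [Matrix.mul_assoc]
  rw [h2 X, h2 Y, h1]

theorem MF2_conj_conj {U V : RM n} (hU : Uᵀ * U = 1) (hV : Vᵀ * V = 1) (S : RM n) :
    Uᵀ * (U * S * Vᵀ) * V = S := by
  calc Uᵀ * (U * S * Vᵀ) * V = (Uᵀ * U) * S * (Vᵀ * V) := by simp only [Matrix.mul_assoc]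
    _ = S := by rw [hU, hV]; simp

theorem MF2_hs_conj {U V : RM n} (hU : U * Uᵀ = 1) (hV : Vᵀ * V = 1) (X : RM n) :
    hs X = ∑ i, ∑ j, (Uᵀ * X * V) i j ^ 2 := by
  have h1 : hs (Uᵀ * X * V) = hs X := by
    rw [hs_orth_right hV, hs_orth_left (by simpa using hU)]
  rw [← h1]; rfl

theorem MF2_trace_conj {U V : RM n} (hU : U * Uᵀ = 1) (hV : V * Vᵀ = 1) (X Y : RM n) :
    (Xᵀ * Y).trace = ∑ i, ∑ j, (Uᵀ * X * V) i j * (Uᵀ * Y * V) i j := by
  have h1 : ((Uᵀ * X * V)ᵀ * (Uᵀ * Y * V)).trace = (Xᵀ * Y).trace := by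
    have : (Uᵀ * X * V)ᵀ * (Uᵀ * Y * V) = Vᵀ * (Xᵀ * (U * Uᵀ) * Y * V) := by
      simp only [Matrix.transpose_mul, Matrix.transpose_transpose, Matrix.mul_assoc]
    rw [this, Matrix.trace_mul_comm, hU, Matrix.mul_assoc, hV]
    simp
  rw [← h1, Matrix.trace, Finset.sum_comm]
  refine Finset.sum_congr rfl fun j _ => ?_
  rw [Matrix.diag_apply, Matrix.mul_apply]
  simp only [Matrix.transpose_apply]

theorem MF2_mf_conj {A U B V : RM n} {a b : Fin n → ℝ} (hA : Fr A U a) (hB : Fr B V b)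
    (f g : ℝ → ℝ) (X : RM n) (i j : Fin n) :
    (Uᵀ * (mf f A * X * mf g B) * V) i j = f (a i) * g (b j) * (Uᵀ * X * V) i j := by
  have : Uᵀ * (mf f A * X * mf g B) * V =
      diagonal (fun i => f (a i)) * (Uᵀ * X * V) * diagonal (fun j => g (b j)) := by
    rw [hA.mf_eq, hB.mf_eq]
    calc _ = (Uᵀ * U) * diagonal (fun i => f (a i)) * (Uᵀ * X * V) * diagonal (fun j => g (b j)) *
          (Vᵀ * V) := by simp only [Matrix.mul_assoc]
      _ = _ := by rw [hA.orth, hB.orth]; simp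
  rw [this, Matrix.mul_diagonal, Matrix.diagonal_mul]
  ring

theorem MF2_sub_conj {A U B V : RM n} {a b : Fin n → ℝ} (hA : Fr A U a) (hB : Fr B V b)
    (i j : Fin n) : (Uᵀ * (A - B) * V) i j = (a i - b j) * (Uᵀ * V) i j := by
  have h1 : Uᵀ * A * V = diagonal a * (Uᵀ * V) := by
    conv_lhs => rw [hA.eq]
    calc _ = (Uᵀ * U) * diagonal a * (Uᵀ * V) := by simp only [Matrix.mul_assoc]
      _ = _ := by rw [hA.orth]; simp
  have h2 : Uᵀ * B * V = (Uᵀ * V) * diagonal b := by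
    rw [Matrix.mul_assoc, hB.mul_U, Matrix.mul_assoc]
  rw [Matrix.mul_sub, Matrix.sub_mul, h1, h2, Matrix.sub_apply, Matrix.mul_diagonal,
    Matrix.diagonal_mul]
  ring

/-- Frame independence. -/
theorem sch_eq {A U B V : RM n} {a b : Fin n → ℝ} (hA : Fr A U a) (hB : Fr B V b)
    (φ : ℝ → ℝ → ℝ) (X : RM n) :
    sch φ A B X = U * (Matrix.of fun i j => φ (a i) (b j) * (Uᵀ * X * V) i j) * Vᵀ := by
  unfold sch
  rw [MF2_schF_left (frm_fr hA.symm) hA, MF2_schF_right (frm_fr hB.symm) hB]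
  rfl

theorem sch_conj {A U B V : RM n} {a b : Fin n → ℝ} (hA : Fr A U a) (hB : Fr B V b)
    (φ : ℝ → ℝ → ℝ) (X : RM n) (i j : Fin n) :
    (Uᵀ * sch φ A B X * V) i j = φ (a i) (b j) * (Uᵀ * X * V) i j := by
  rw [sch_eq hA hB, MF2_conj_conj hA.orth hB.orth]
  rfl

/-- Expansion along the eigenvectors of the right matrix. -/
theorem sch_eq_sum_right {A B V : RM n} {b : Fin n → ℝ} (hA : Aᵀ = A) (hB : Fr B V b)
    (φ : ℝ → ℝ → ℝ) (X : RM n) :
    sch φ A B X = ∑ j, mf (fun x => φ x (b j)) A * X * vecMulVec (fun i => V i j) (fun i => V i j) := by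
  unfold sch
  rw [MF2_schF_right (frm_fr hB.symm) hB, MF2_schF_sum (frm_fr hA)]

section
variable {A B : RM n}

theorem sch_add (φ : ℝ → ℝ → ℝ) (A B X Y : RM n) :
    sch φ A B (X + Y) = sch φ A B X + sch φ A B Y := by
  unfold sch schF
  rw [← Matrix.add_mul, ← Matrix.mul_add]
  congr 2
  ext i j
  simp only [Matrix.mul_add, Matrix.add_mul, Matrix.of_apply, Matrix.add_apply]
  ring

theorem sch_sub (φ : ℝ → ℝ → ℝ) (A B X Y : RM n) :
    sch φ A B (X - Y) = sch φ A B X - sch φ A B Y := by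
  unfold sch schF
  rw [← Matrix.sub_mul, ← Matrix.mul_sub]
  congr 2
  ext i j
  simp only [Matrix.mul_sub, Matrix.sub_mul, Matrix.of_apply, Matrix.sub_apply]
  ring

theorem sch_smul (φ : ℝ → ℝ → ℝ) (A B : RM n) (c : ℝ) (X : RM n) :
    sch φ A B (c • X) = c • sch φ A B X := by
  unfold sch schF
  rw [← Matrix.smul_mul, ← Matrix.mul_smul]
  congr 2
  ext i j
  simp only [Matrix.mul_smul, Matrix.smul_mul, Matrix.of_apply, Matrix.smul_apply, smul_eq_mul]
  ring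

theorem sch_sum (φ : ℝ → ℝ → ℝ) (A B : RM n) {ι : Type*} (s : Finset ι) (X : ι → RM n) :
    sch φ A B (∑ i ∈ s, X i) = ∑ i ∈ s, sch φ A B (X i) := by
  classical
  induction s using Finset.induction_on with
  | empty =>
    have := sch_smul φ A B 0 (0 : RM n)
    simpa using this
  | insert i s hi ih => rw [Finset.sum_insert hi, Finset.sum_insert hi, sch_add, ih]

/-- Expansion in matrix units. -/
theorem sch_apply_eq_sum (φ : ℝ → ℝ → ℝ) (A B X : RM n) (i j : Fin n) :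
    sch φ A B X i j = ∑ c, ∑ d, sch φ A B (Matrix.single c d 1) i j * X c d := by
  have hX : X = ∑ c, ∑ d, X c d • Matrix.single c d (1 : ℝ) := by
    conv_lhs => rw [Matrix.matrix_eq_sum_single X]
    simp [Matrix.smul_single]
  conv_lhs => rw [hX]
  rw [sch_sum, Matrix.sum_apply]
  refine Finset.sum_congr rfl fun c _ => ?_
  rw [sch_sum, Matrix.sum_apply]
  refine Finset.sum_congr rfl fun d _ => ?_
  rw [sch_smul, Matrix.smul_apply, smul_eq_mul, mul_comm]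

theorem sch_add_sym (φ ψ : ℝ → ℝ → ℝ) (A B X : RM n) :
    sch (fun x y => φ x y + ψ x y) A B X = sch φ A B X + sch ψ A B X := by
  unfold sch schF
  rw [← Matrix.add_mul, ← Matrix.mul_add]
  congr 2
  ext i j
  simp only [Matrix.of_apply, Matrix.add_apply]
  ring

theorem sch_sub_sym (φ ψ : ℝ → ℝ → ℝ) (A B X : RM n) :
    sch (fun x y => φ x y - ψ x y) A B X = sch φ A B X - sch ψ A B X := by
  unfold sch schF
  rw [← Matrix.sub_mul, ← Matrix.mul_sub]
  congr 2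
  ext i j
  simp only [Matrix.of_apply, Matrix.sub_apply]
  ring

theorem sch_smul_sym (c : ℝ) (φ : ℝ → ℝ → ℝ) (A B X : RM n) :
    sch (fun x y => c * φ x y) A B X = c • sch φ A B X := by
  unfold sch schF
  rw [← Matrix.smul_mul, ← Matrix.mul_smul]
  congr 2
  ext i j
  simp only [Matrix.of_apply, Matrix.smul_apply, smul_eq_mul]
  ring

theorem sch_congr (hA : Aᵀ = A) (hB : Bᵀ = B) {φ ψ : ℝ → ℝ → ℝ}
    (h : ∀ x ∈ spectrum ℝ A, ∀ y ∈ spectrum ℝ B, φ x y = ψ x y) (X : RM n) :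
    sch φ A B X = sch ψ A B X := by
  obtain ⟨U, a, hU⟩ := exists_fr hA
  obtain ⟨V, b, hV⟩ := exists_fr hB
  refine MF2_ext hU.orth' hV.orth' fun i j => ?_
  rw [sch_conj hU hV, sch_conj hU hV, h _ (hU.mem_spectrum i) _ (hV.mem_spectrum j)]

theorem sch_prod (hA : Aᵀ = A) (hB : Bᵀ = B) (f g : ℝ → ℝ) (X : RM n) :
    sch (fun x y => f x * g y) A B X = mf f A * X * mf g B := by
  obtain ⟨U, a, hU⟩ := exists_fr hA
  obtain ⟨V, b, hV⟩ := exists_fr hB
  refine MF2_ext hU.orth' hV.orth' fun i j => ?_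
  rw [sch_conj hU hV, MF2_mf_conj hU hV]

theorem sch_one (hA : Aᵀ = A) (hB : Bᵀ = B) (X : RM n) : sch (fun _ _ => 1) A B X = X := by
  obtain ⟨U, a, hU⟩ := exists_fr hA
  obtain ⟨V, b, hV⟩ := exists_fr hB
  refine MF2_ext hU.orth' hV.orth' fun i j => ?_
  rw [sch_conj hU hV, one_mul]

theorem sch_left (hA : Aᵀ = A) (hB : Bᵀ = B) (f : ℝ → ℝ) (X : RM n) :
    sch (fun x _ => f x) A B X = mf f A * X := by
  have := sch_prod hA hB f (fun _ => 1) X
  rw [mf_const hB] at this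
  simpa using this

theorem sch_right (hA : Aᵀ = A) (hB : Bᵀ = B) (g : ℝ → ℝ) (X : RM n) :
    sch (fun _ y => g y) A B X = X * mf g B := by
  have := sch_prod hA hB (fun _ => 1) g X
  rw [mf_const hA] at this
  simpa using this

theorem sch_sch (hA : Aᵀ = A) (hB : Bᵀ = B) (φ ψ : ℝ → ℝ → ℝ) (X : RM n) :
    sch φ A B (sch ψ A B X) = sch (fun x y => φ x y * ψ x y) A B X := by
  obtain ⟨U, a, hU⟩ := exists_fr hA
  obtain ⟨V, b, hV⟩ := exists_fr hB
  refine MF2_ext hU.orth' hV.orth' fun i j => ?_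
  rw [sch_conj hU hV, sch_conj hU hV, sch_conj hU hV]
  ring

theorem sch_transpose (φ : ℝ → ℝ → ℝ) (A B X : RM n) :
    (sch φ A B X)ᵀ = sch (fun y x => φ x y) B A Xᵀ := by
  unfold sch
  rw [MF2_schF_transpose]

theorem sch_symm {φ : ℝ → ℝ → ℝ} (hφ : ∀ x y, φ x y = φ y x) (A : RM n) {X : RM n} (hX : Xᵀ = X) :
    (sch φ A A X)ᵀ = sch φ A A X := by
  rw [sch_transpose, hX]
  congr 1
  ext y x
  exact hφ x y

/-- Symbols may be transported through the functional calculus. -/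
theorem sch_mf (hA : Aᵀ = A) (hB : Bᵀ = B) (φ : ℝ → ℝ → ℝ) (f g : ℝ → ℝ) (X : RM n) :
    sch φ (mf f A) (mf g B) X = sch (fun x y => φ (f x) (g y)) A B X := by
  obtain ⟨U, a, hU⟩ := exists_fr hA
  obtain ⟨V, b, hV⟩ := exists_fr hB
  rw [sch_eq (hU.mf_fr f) (hV.mf_fr g), sch_eq hU hV]

/-- `sch φ A B` is self-adjoint for the trace pairing. -/
theorem trace_sch_mul (hA : Aᵀ = A) (hB : Bᵀ = B) (φ : ℝ → ℝ → ℝ) (X Y : RM n) :
    ((sch φ A B X)ᵀ * Y).trace = (Xᵀ * sch φ A B Y).trace := by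
  obtain ⟨U, a, hU⟩ := exists_fr hA
  obtain ⟨V, b, hV⟩ := exists_fr hB
  rw [MF2_trace_conj hU.orth' hV.orth', MF2_trace_conj hU.orth' hV.orth']
  refine Finset.sum_congr rfl fun i _ => Finset.sum_congr rfl fun j _ => ?_
  rw [sch_conj hU hV, sch_conj hU hV]
  ring

theorem trace_sch (hA : Aᵀ = A) (φ : ℝ → ℝ → ℝ) (X : RM n) :
    (sch φ A A X).trace = (mf (fun x => φ x x) A * X).trace := by
  obtain ⟨U, a, hU⟩ := exists_fr hA
  have key : ∀ Y : RM n, Y.trace = ∑ i, (Uᵀ * Y * U) i i := by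
    intro Y
    have : (Uᵀ * Y * U).trace = Y.trace := by
      rw [Matrix.trace_mul_comm, ← Matrix.mul_assoc, hU.orth', Matrix.one_mul]
    rw [← this]; rfl
  rw [key, key (mf (fun x => φ x x) A * X)]
  refine Finset.sum_congr rfl fun i _ => ?_
  have h2 := MF2_mf_conj hU hU (fun x => φ x x) (fun _ => 1) X i i
  rw [mf_const hA] at h2
  rw [sch_conj hU hU]
  simpa using h2.symm

theorem trace_sch_pair {U V : RM n} {a b : Fin n → ℝ} (hA : Fr A U a) (hB : Fr B V b)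
    (φ : ℝ → ℝ → ℝ) (X Y : RM n) :
    (Xᵀ * sch φ A B Y).trace = ∑ i, ∑ j, φ (a i) (b j) * ((Uᵀ * X * V) i j * (Uᵀ * Y * V) i j) := by
  rw [MF2_trace_conj hA.orth' hB.orth']
  refine Finset.sum_congr rfl fun i _ => Finset.sum_congr rfl fun j _ => ?_
  rw [sch_conj hA hB]
  ring

theorem hs_sch_eq {U V : RM n} {a b : Fin n → ℝ} (hA : Fr A U a) (hB : Fr B V b)
    (φ : ℝ → ℝ → ℝ) (X : RM n) :
    hs (sch φ A B X) = ∑ i, ∑ j, φ (a i) (b j) ^ 2 * (Uᵀ * X * V) i j ^ 2 := by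
  rw [MF2_hs_conj hA.orth' hB.orth]
  refine Finset.sum_congr rfl fun i _ => Finset.sum_congr rfl fun j _ => ?_
  rw [sch_conj hA hB, mul_pow]

theorem hs_sch_mono (hA : Aᵀ = A) (hB : Bᵀ = B) {φ ψ : ℝ → ℝ → ℝ}
    (h : ∀ x ∈ spectrum ℝ A, ∀ y ∈ spectrum ℝ B, φ x y ^ 2 ≤ ψ x y ^ 2) (X : RM n) :
    hs (sch φ A B X) ≤ hs (sch ψ A B X) := by
  obtain ⟨U, a, hU⟩ := exists_fr hA
  obtain ⟨V, b, hV⟩ := exists_fr hB
  rw [hs_sch_eq hU hV, hs_sch_eq hU hV]
  refine Finset.sum_le_sum fun i _ => Finset.sum_le_sum fun j _ => ?_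
  exact mul_le_mul_of_nonneg_right (h _ (hU.mem_spectrum i) _ (hV.mem_spectrum j)) (sq_nonneg _)

theorem hs_sch_le (hA : Aᵀ = A) (hB : Bᵀ = B) {φ : ℝ → ℝ → ℝ} {L : ℝ}
    (h : ∀ x ∈ spectrum ℝ A, ∀ y ∈ spectrum ℝ B, |φ x y| ≤ L) (X : RM n) :
    hs (sch φ A B X) ≤ L ^ 2 * hs X := by
  obtain ⟨U, a, hU⟩ := exists_fr hA
  obtain ⟨V, b, hV⟩ := exists_fr hB
  rw [hs_sch_eq hU hV, MF2_hs_conj hU.orth' hV.orth X, Finset.mul_sum]
  refine Finset.sum_le_sum fun i _ => ?_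
  rw [Finset.mul_sum]
  refine Finset.sum_le_sum fun j _ => ?_
  refine mul_le_mul_of_nonneg_right ?_ (sq_nonneg _)
  have h1 := h _ (hU.mem_spectrum i) _ (hV.mem_spectrum j)
  rw [← sq_abs (φ _ _)]
  exact pow_le_pow_left₀ (abs_nonneg _) h1 2

theorem trace_sch_mono (hA : Aᵀ = A) (hB : Bᵀ = B) {φ ψ : ℝ → ℝ → ℝ}
    (h : ∀ x ∈ spectrum ℝ A, ∀ y ∈ spectrum ℝ B, φ x y ≤ ψ x y) (X : RM n) :
    (Xᵀ * sch φ A B X).trace ≤ (Xᵀ * sch ψ A B X).trace := by
  obtain ⟨U, a, hU⟩ := exists_fr hA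
  obtain ⟨V, b, hV⟩ := exists_fr hB
  rw [trace_sch_pair hU hV, trace_sch_pair hU hV]
  refine Finset.sum_le_sum fun i _ => Finset.sum_le_sum fun j _ => ?_
  exact mul_le_mul_of_nonneg_right (h _ (hU.mem_spectrum i) _ (hV.mem_spectrum j))
    (mul_self_nonneg _)

/-- If `X` commutes with `A`, only the diagonal of the symbol matters. -/
theorem sch_of_commute (hA : Aᵀ = A) (φ : ℝ → ℝ → ℝ) {X : RM n} (hX : A * X = X * A) :
    sch φ A A X = mf (fun x => φ x x) A * X := by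
  obtain ⟨U, a, hU⟩ := exists_fr hA
  refine MF2_ext hU.orth' hU.orth' fun i j => ?_
  have h2 := MF2_mf_conj hU hU (fun x => φ x x) (fun _ => 1) X i j
  rw [mf_const hA] at h2
  have h3 := MF2_mf_conj hU hU (fun x => x) (fun _ => 1) X i j
  have h4 := MF2_mf_conj hU hU (fun _ => 1) (fun x => x) X i j
  rw [mf_const hA, mf_id hA] at h3 h4
  simp only [one_smul, Matrix.mul_one, Matrix.one_mul, mul_one, one_mul] at h2 h3 h4
  rw [sch_conj hU hU, h2]
  rw [hX, h4] at h3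
  by_cases hij : a i = a j
  · rw [← hij]
  · have : (Uᵀ * X * U) i j = 0 := by
      have h5 : (a i - a j) * (Uᵀ * X * U) i j = 0 := by linarith
      exact (mul_eq_zero.1 h5).resolve_left (sub_ne_zero.2 hij)
    rw [this, mul_zero, mul_zero]

end

open Classical in
/-- The divided difference of `f`, with `f'` on the diagonal. -/
def dd (f f' : ℝ → ℝ) (x y : ℝ) : ℝ := if x = y then f' x else (f x - f y) / (x - y)

theorem dd_self (f f' : ℝ → ℝ) (x : ℝ) : dd f f' x x = f' x := by simp [dd]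

theorem dd_of_ne (f f' : ℝ → ℝ) {x y : ℝ} (h : x ≠ y) : dd f f' x y = (f x - f y) / (x - y) := by
  simp [dd, h]

theorem dd_symm (f f' : ℝ → ℝ) (x y : ℝ) : dd f f' x y = dd f f' y x := by
  by_cases h : x = y
  · rw [h]
  · rw [dd_of_ne _ _ h, dd_of_ne _ _ (Ne.symm h), ← neg_sub (f y), ← neg_sub y, neg_div_neg_eq]

theorem dd_mul (f f' : ℝ → ℝ) (x y : ℝ) : dd f f' x y * (x - y) = f x - f y := by
  by_cases h : x = y
  · rw [h]; simp
  · rw [dd_of_ne _ _ h, div_mul_cancel₀ _ (sub_ne_zero.2 h)]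

/-- Mean value form of the divided difference. -/
theorem dd_eq_deriv {f f' : ℝ → ℝ} {s : Set ℝ} (hs : Convex ℝ s)
    (hf : ∀ x ∈ s, HasDerivAt f (f' x) x) {x y : ℝ} (hx : x ∈ s) (hy : y ∈ s) :
    ∃ t ∈ Set.uIcc x y, dd f f' x y = f' t := by
  have key : ∀ {x y : ℝ}, x ∈ s → y ∈ s → x < y → ∃ t ∈ Set.Icc x y, dd f f' x y = f' t := by
    intro x y hx hy hxy
    have hsub : Set.Icc x y ⊆ s := hs.ordConnected.out hx hy
    obtain ⟨t, ht, h⟩ := exists_hasDerivAt_eq_slope f f' hxy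
      (fun z hz => (hf z (hsub hz)).continuousAt.continuousWithinAt)
      (fun z hz => hf z (hsub (Set.Ioo_subset_Icc_self hz)))
    refine ⟨t, Set.Ioo_subset_Icc_self ht, ?_⟩
    rw [dd_symm, dd_of_ne _ _ hxy.ne', h]
  rcases lt_trichotomy x y with h | h | h
  · obtain ⟨t, ht, h'⟩ := key hx hy h
    exact ⟨t, by rwa [Set.uIcc_of_le h.le], h'⟩
  · subst h
    exact ⟨x, Set.left_mem_uIcc, dd_self _ _ _⟩
  · obtain ⟨t, ht, h'⟩ := key hy hx h
    exact ⟨t, by rwa [Set.uIcc_of_ge h.le], by rw [dd_symm, h']⟩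

/-- Integral form of the divided difference. -/
theorem dd_eq_integral {f f' : ℝ → ℝ} {s : Set ℝ} (hs : Convex ℝ s)
    (hf : ∀ x ∈ s, HasDerivAt f (f' x) x) (hf' : ContinuousOn f' s) {x y : ℝ} (hx : x ∈ s)
    (hy : y ∈ s) : dd f f' x y = ∫ t in (0 : ℝ)..1, f' ((1 - t) * x + t * y) := by
  by_cases h : x = y
  · subst h
    have : (fun t : ℝ => f' ((1 - t) * x + t * x)) = fun _ => f' x := by
      ext t; congr 1; ring
    rw [dd_self, this]; simp
  · have hmem : ∀ t ∈ Set.uIcc (0 : ℝ) 1, (1 - t) * x + t * y ∈ s := by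
      intro t ht
      rw [Set.uIcc_of_le zero_le_one] at ht
      have := hs hx hy (a := 1 - t) (b := t) (by linarith [ht.2]) ht.1 (by ring)
      simpa using this
    have hc : ContinuousOn (fun t : ℝ => f' ((1 - t) * x + t * y)) (Set.uIcc 0 1) :=
      hf'.comp (by fun_prop) hmem
    have hd : ∀ t ∈ Set.uIcc (0 : ℝ) 1, HasDerivAt (fun t : ℝ => f ((1 - t) * x + t * y))
        (f' ((1 - t) * x + t * y) * (y - x)) t := by
      intro t ht
      have h1 : HasDerivAt (fun t : ℝ => (1 - t) * x + t * y) (y - x) t := by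
        have := (((hasDerivAt_id t).const_sub 1).mul_const x).add ((hasDerivAt_id t).mul_const y)
        refine HasDerivAt.congr_deriv this ?_
        ring
      exact (hf _ (hmem t ht)).comp t h1
    have hI := intervalIntegral.integral_eq_sub_of_hasDerivAt hd
      ((hc.mul continuousOn_const).intervalIntegrable)
    rw [intervalIntegral.integral_mul_const] at hI
    have hne : y - x ≠ 0 := sub_ne_zero.2 (Ne.symm h)
    rw [dd_symm, dd_of_ne _ _ (Ne.symm h), div_eq_iff hne, hI]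
    simp

theorem abs_dd_le {f f' : ℝ → ℝ} {s : Set ℝ} (hs : Convex ℝ s)
    (hf : ∀ x ∈ s, HasDerivAt f (f' x) x) {L : ℝ} (hL : ∀ x ∈ s, |f' x| ≤ L) {x y : ℝ} (hx : x ∈ s)
    (hy : y ∈ s) : |dd f f' x y| ≤ L := by
  obtain ⟨t, ht, h⟩ := dd_eq_deriv hs hf hx hy
  rw [h]
  exact hL t (hs.ordConnected.uIcc_subset hx hy ht)

/-- Chain rule for divided differences. -/
theorem dd_comp (f f' g g' : ℝ → ℝ) {x y : ℝ} (h : g x = g y → x = y) :
    dd (fun t => f (g t)) (fun t => f' (g t) * g' t) x y = dd f f' (g x) (g y) * dd g g' x y := by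
  by_cases hxy : x = y
  · subst hxy
    simp only [dd_self]
  · have hg : g x ≠ g y := fun h' => hxy (h h')
    rw [dd_of_ne _ _ hxy, dd_of_ne _ _ hxy, dd_of_ne _ _ hg]
    have h1 := sub_ne_zero.2 hxy
    have h2 := sub_ne_zero.2 hg
    field_simp

/-- Product rule for divided differences. -/
theorem dd_mul_fun (f f' g g' : ℝ → ℝ) (x y : ℝ) :
    dd (fun t => f t * g t) (fun t => f' t * g t + f t * g' t) x y =
      dd f f' x y * g y + f x * dd g g' x y := by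
  by_cases hxy : x = y
  · subst hxy
    simp only [dd_self]
  · rw [dd_of_ne _ _ hxy, dd_of_ne _ _ hxy, dd_of_ne _ _ hxy]
    have h1 := sub_ne_zero.2 hxy
    field_simp
    ring

/-- The exact difference formula. -/
theorem mf_sub_mf {A B : RM n} (hA : Aᵀ = A) (hB : Bᵀ = B) (f f' : ℝ → ℝ) :
    mf f A - mf f B = sch (dd f f') A B (A - B) := by
  obtain ⟨U, a, hU⟩ := exists_fr hA
  obtain ⟨V, b, hV⟩ := exists_fr hB
  refine MF2_ext hU.orth' hV.orth' fun i j => ?_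
  rw [sch_conj hU hV, MF2_sub_conj hU hV, MF2_sub_conj (hU.mf_fr f) (hV.mf_fr f), ← mul_assoc,
    dd_mul]

/-- `mf f` is Lipschitz for the Hilbert–Schmidt norm with the scalar Lipschitz constant. -/
theorem hs_mf_sub_le {A B : RM n} (hA : Aᵀ = A) (hB : Bᵀ = B) {f : ℝ → ℝ} {L : ℝ}
    (h : ∀ x ∈ spectrum ℝ A, ∀ y ∈ spectrum ℝ B, |f x - f y| ≤ L * |x - y|) :
    hs (mf f A - mf f B) ≤ L ^ 2 * hs (A - B) := by
  obtain ⟨U, a, hU⟩ := exists_fr hA
  obtain ⟨V, b, hV⟩ := exists_fr hB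
  rw [MF2_hs_conj hU.orth' hV.orth, MF2_hs_conj hU.orth' hV.orth (A - B), Finset.mul_sum]
  refine Finset.sum_le_sum fun i _ => ?_
  rw [Finset.mul_sum]
  refine Finset.sum_le_sum fun j _ => ?_
  rw [MF2_sub_conj hU hV, MF2_sub_conj (hU.mf_fr f) (hV.mf_fr f), mul_pow, mul_pow, ← mul_assoc]
  refine mul_le_mul_of_nonneg_right ?_ (sq_nonneg _)
  have h1 := h _ (hU.mem_spectrum i) _ (hV.mem_spectrum j)
  rw [← sq_abs (f _ - f _), ← sq_abs (a i - b j), ← mul_pow]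
  exact pow_le_pow_left₀ (abs_nonneg _) h1 2

/-- Two-function version: `hs (f(A) - g(B))` is controlled by a scalar bound. -/
theorem hs_mf_sub_mf_eq {A U B V : RM n} {a b : Fin n → ℝ} (hA : Fr A U a) (hB : Fr B V b)
    (f g : ℝ → ℝ) :
    hs (mf f A - mf g B) = ∑ i, ∑ j, (f (a i) - g (b j)) ^ 2 * (Uᵀ * V) i j ^ 2 := by
  rw [MF2_hs_conj hA.orth' hB.orth]
  refine Finset.sum_congr rfl fun i _ => Finset.sum_congr rfl fun j _ => ?_
  rw [MF2_sub_conj (hA.mf_fr f) (hB.mf_fr g), mul_pow]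

end Crest.Agent.R253
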