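import Crest.Agent.R253.SFDefs
import Crest.Agent.R253.MF2

/-!
# Row 253: the divided difference of `lam`
-/

set_option autoImplicit false
open MeasureTheory Matrix Filter Topology
open scoped ContDiff BigOperators

noncomputable section
namespace Crest.Agent.R253
open Crest.Agent.R238 Crest.Agent.R215

variable {n : ℕ}

/-- The divided difference of `lam` (the same as `ell` of `SFPair1`). -/
def ldd (x y : ℝ) : ℝ := dd lam lam1 x y

theorem be_nonneg (x : ℝ) : 0 ≤ be x := by unfold be; positivity

theorem ldd_pos (x y : ℝ) : 0 < ldd x y := by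
  obtain ⟨t, -, ht⟩ := dd_eq_deriv convex_univ (fun x _ => hasDerivAt_lam x) (Set.mem_univ x)
    (Set.mem_univ y)
  rw [ldd, ht]
  exact lam1_pos t

theorem ldd_symm (x y : ℝ) : ldd x y = ldd y x := dd_symm _ _ _ _

theorem log_lam (x : ℝ) : Real.log (lam x) = tt x - x ^ 2 / 2 - Real.log (2 * Real.pi) / 2 :=
  uu_eq x

end Crest.Agent.R253
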