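import Crest.Agent.R253.B1

/-!
# Row 253: `C¹` functions of polynomial growth and Gaussian integration by parts

`GE_ibp1`: Mathlib's `integral_mul_fderiv_eq_neg_fderiv_mul_of_integrable` (or
`integral_bilinear_hasLineDerivAt_right_eq_neg_left_of_integrable`) with the weight `gw`,
`∂_k gw = - z_k gw`.
-/

set_option autoImplicit false
open MeasureTheory Matrix Filter Topology
open scoped ContDiff BigOperators

noncomputable section
namespace Crest.Agent.R253
open Crest.Agent.R238 Crest.Agent.R215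

variable {n : ℕ}

/-- The partial derivative. -/
def dk (k : Fin n) (F : E n → ℝ) (z : E n) : ℝ := fderiv ℝ F z (Pi.single k 1)

/-- `C¹` functions with polynomial growth of the function and its gradient. -/
structure C1 (F : E n → ℝ) : Prop where
  cd : ContDiff ℝ 1 F
  pg : PG F
  pgd : ∀ k, PG (dk k F)

/-- The Dirichlet form `E ∇F · ∇G`. -/
def EG (F G : E n → ℝ) : ℝ := ∑ k, GE (fun z => dk k F z * dk k G z)

section dk
variable {F G : E n → ℝ} (k : Fin n)

theorem dk_const (c : ℝ) (z : E n) : dk k (fun _ => c) z = 0 := by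
  simp [dk]

theorem dk_coord (a : Fin n) (z : E n) : dk k (fun y : E n => y a) z = if k = a then 1 else 0 := by
  rw [dk, (hasFDerivAt_apply (𝕜 := ℝ) a z).fderiv]
  simp [Pi.single_apply, eq_comm]

theorem dk_add (hF : C1 F) (hG : C1 G) (z : E n) :
    dk k (fun y => F y + G y) z = dk k F z + dk k G z := by
  rw [dk, fderiv_fun_add (hF.cd.differentiable (by simp) z) (hG.cd.differentiable (by simp) z)]
  rfl

theorem dk_sub (hF : C1 F) (hG : C1 G) (z : E n) :
    dk k (fun y => F y - G y) z = dk k F z - dk k G z := by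
  rw [dk, fderiv_fun_sub (hF.cd.differentiable (by simp) z) (hG.cd.differentiable (by simp) z)]
  rfl

theorem dk_neg (F : E n → ℝ) (z : E n) : dk k (fun y => -F y) z = -dk k F z := by
  rw [dk, fderiv_fun_neg]
  rfl

theorem dk_mul (hF : C1 F) (hG : C1 G) (z : E n) :
    dk k (fun y => F y * G y) z = dk k F z * G z + F z * dk k G z := by
  rw [dk, fderiv_fun_mul (hF.cd.differentiable (by simp) z) (hG.cd.differentiable (by simp) z)]
  simp only [dk, _root_.add_apply, _root_.smul_apply, smul_eq_mul]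
  ring

theorem dk_const_mul (c : ℝ) (F : E n → ℝ) (z : E n) :
    dk k (fun y => c * F y) z = c * dk k F z := by
  rw [dk, show (fun y => c * F y) = c • F from rfl, fderiv_const_smul_field]
  rfl

theorem dk_mul_const (F : E n → ℝ) (c : ℝ) (z : E n) :
    dk k (fun y => F y * c) z = dk k F z * c := by
  rw [mul_comm, ← dk_const_mul]
  simp only [mul_comm]

theorem dk_sum {ι : Type*} (s : Finset ι) {F : ι → E n → ℝ} (h : ∀ i ∈ s, C1 (F i)) (z : E n) :
    dk k (fun y => ∑ i ∈ s, F i y) z = ∑ i ∈ s, dk k (F i) z := by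
  rw [dk, fderiv_fun_sum fun i hi => (h i hi).cd.differentiable (by simp) z]
  simp only [dk, _root_.sum_apply]

theorem dk_ev (h : Sm n) (z : E n) : dk k (fun y => ev y h) z = ev z (pd k h) := rfl

theorem dk_comp_neg (F : E n → ℝ) (z : E n) : dk k (fun y => F (-y)) z = -dk k F (-z) := by
  have h := fderiv_comp_smul (𝕜 := ℝ) (f := F) (x := z) (-1)
  simp only [neg_smul, one_smul] at h
  rw [dk, h]
  rfl

end dk

theorem Her1_cont_dk {F : E n → ℝ} (hF : ContDiff ℝ 1 F) (k : Fin n) : Continuous (dk k F) :=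
  (hF.continuous_fderiv (by simp)).clm_apply continuous_const

namespace C1
variable {F G : E n → ℝ}

theorem diff (h : C1 F) : Differentiable ℝ F := h.cd.differentiable (by simp)

/-- Bounded gradient version. -/
theorem of_bdd (hF : ContDiff ℝ 1 F) {C : ℝ} (h : ∀ k z, |dk k F z| ≤ C) : C1 F := by
  refine ⟨hF, ⟨hF.continuous, |F 0| + n * |C|, 1, fun z => ?_⟩,
    fun k => PG.of_bdd (Her1_cont_dk hF k) (h k)⟩
  have h1 : ∀ y, ‖fderiv ℝ F y‖ ≤ n * |C| := fun y => by
    refine ContinuousLinearMap.opNorm_le_bound _ (by positivity) fun v => ?_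
    have e : fderiv ℝ F y v = ∑ k, v k * dk k F y := by
      conv_lhs => rw [pi_eq_sum_univ v]
      simp only [map_sum, map_smul, smul_eq_mul, dk]
      refine Finset.sum_congr rfl fun k _ => ?_
      congr 2
      ext j
      simp [Pi.single_apply, eq_comm]
    rw [e]
    refine (norm_sum_le _ _).trans ((Finset.sum_le_card_nsmul _ _ (|C| * ‖v‖) fun k _ => ?_).trans_eq
      (by simp [mul_assoc]))
    rw [norm_mul, mul_comm]
    exact mul_le_mul ((h k y).trans (le_abs_self C)) (norm_le_pi_norm v k) (norm_nonneg _)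
      (abs_nonneg C)
  have h2 := Convex.norm_image_sub_le_of_norm_fderiv_le (𝕜 := ℝ) (f := F) (s := Set.univ)
    (fun x _ => hF.differentiable (by simp) x) (fun x _ => h1 x) convex_univ (Set.mem_univ 0)
    (Set.mem_univ z)
  rw [sub_zero, Real.norm_eq_abs] at h2
  have h3 := abs_sub_abs_le_abs_sub (F z) (F 0)
  have h4 : 0 ≤ |F 0| * ‖z‖ := by positivity
  have h5 : 0 ≤ (n : ℝ) * |C| := by positivity
  rw [pow_one]
  nlinarith

theorem of_le (hF : ContDiff ℝ 1 F) (hp : PG F) {g : E n → ℝ} (hg : PG g)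
    (h : ∀ k z, |dk k F z| ≤ g z) : C1 F := by
  exact ⟨hF, hp, fun k => PG.of_le (Her1_cont_dk hF k) hg fun z => (h k z).trans (le_abs_self _)⟩

theorem const (c : ℝ) : C1 (fun _ : E n => c) := by
  refine ⟨contDiff_const, PG.const c, fun k => ?_⟩
  rw [show dk k (fun _ : E n => c) = fun _ => 0 from funext (dk_const k c)]
  exact PG.const 0

theorem coord (a : Fin n) : C1 (fun z : E n => z a) := by
  refine ⟨contDiff_apply ℝ ℝ a, PG.coord a, fun k => ?_⟩
  rw [show dk k (fun z : E n => z a) = fun _ => if k = a then 1 else 0 from funext (dk_coord k a)]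
  exact PG.const _

theorem add (hF : C1 F) (hG : C1 G) : C1 (fun z => F z + G z) := by
  refine ⟨hF.cd.add hG.cd, hF.pg.add hG.pg, fun k => ?_⟩
  rw [funext (dk_add k hF hG)]
  exact (hF.pgd k).add (hG.pgd k)

theorem sub (hF : C1 F) (hG : C1 G) : C1 (fun z => F z - G z) := by
  refine ⟨hF.cd.sub hG.cd, hF.pg.sub hG.pg, fun k => ?_⟩
  rw [funext (dk_sub k hF hG)]
  exact (hF.pgd k).sub (hG.pgd k)

theorem neg (hF : C1 F) : C1 (fun z => -F z) := by
  refine ⟨hF.cd.neg, hF.pg.neg, fun k => ?_⟩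
  rw [funext (dk_neg k F)]
  exact (hF.pgd k).neg

theorem mul (hF : C1 F) (hG : C1 G) : C1 (fun z => F z * G z) := by
  refine ⟨hF.cd.mul hG.cd, hF.pg.mul hG.pg, fun k => ?_⟩
  rw [funext (dk_mul k hF hG)]
  exact ((hF.pgd k).mul hG.pg).add (hF.pg.mul (hG.pgd k))

theorem const_mul (hF : C1 F) (c : ℝ) : C1 (fun z => c * F z) := (const c).mul hF

theorem mul_const (hF : C1 F) (c : ℝ) : C1 (fun z => F z * c) := hF.mul (const c)

theorem sum {ι : Type*} (s : Finset ι) {F : ι → E n → ℝ} (h : ∀ i ∈ s, C1 (F i)) :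
    C1 (fun z => ∑ i ∈ s, F i z) := by
  refine ⟨ContDiff.sum fun i hi => (h i hi).cd, PG.sum s fun i hi => (h i hi).pg, fun k => ?_⟩
  rw [funext (dk_sum k s h)]
  exact PG.sum s fun i hi => (h i hi).pgd k

theorem prod {ι : Type*} (s : Finset ι) {F : ι → E n → ℝ} (h : ∀ i ∈ s, C1 (F i)) :
    C1 (fun z => ∏ i ∈ s, F i z) := by
  classical
  induction s using Finset.induction_on with
  | empty => simpa using const 1
  | insert a s ha ih =>
    simp only [Finset.prod_insert ha]
    exact (h a (Finset.mem_insert_self _ _)).mul (ih fun i hi => h i (Finset.mem_insert_of_mem hi))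

theorem comp_neg (hF : C1 F) : C1 (fun z => F (-z)) := by
  have e : ∀ {f : E n → ℝ}, PG f → PG fun z => f (-z) := fun hf => by
    simpa using hf.comp_smul (-1)
  refine ⟨hF.cd.comp contDiff_neg, e hF.pg, fun k => ?_⟩
  rw [funext (dk_comp_neg k F)]
  exact (e (hF.pgd k)).neg

end C1

theorem Tm_c1 {h : Sm n} (hh : Tm h) : C1 (fun z => ev z h) := by
  exact ⟨(ev_contDiff h).of_le (by simp), Tm_pg hh, fun k => Tm_pg (hh.pd k)⟩

section ibp
variable {F G : E n → ℝ}

theorem GE_ibp1 (hF : C1 F) (k : Fin n) : GE (fun z => z k * F z) = GE (dk k F) := by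
  set w : Sm n := (Iw (0 : Sm n) 1)⁻¹ • expS (-Wp 0) with hw
  have e : (gw : E n → ℝ) = fun z => ev z w := funext fun z => by
    rw [MehlerA_gw_eq, hw, ev_smul, ev_expS, map_neg]
  have e1 : ∀ z, fderiv ℝ (gw : E n → ℝ) z (Pi.single k 1) = -(z k * gw z) := fun z => by
    rw [e, ← ev_pd, hw, Derivation.map_smul, pd_expS, map_neg, pd_Wp]
    simp only [ev_smul, map_mul, map_neg, map_add, map_zero, ev_X]
    ring
  have h := integral_mul_fderiv_eq_neg_fderiv_mul_of_integrable (μ := volume) (f := F) (g := gw)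
    (v := Pi.single k 1) (hF.pgd k).integrable
    (by
      simp only [e1]
      refine ((PG.coord k).mul hF.pg).neg.integrable.congr (Eventually.of_forall fun z => ?_)
      ring)
    hF.pg.integrable (fun x _ => hF.diff x) (fun x _ => e ▸ ev_differentiable w x)
  simp only [e1, mul_neg, integral_neg, neg_inj] at h
  rw [GE, GE]
  refine Eq.trans (integral_congr_ae (Eventually.of_forall fun z => ?_)) h
  ring

theorem GE_ibp2 (hF : C1 F) (hG : C1 G) (k : Fin n) :
    GE (fun z => dk k F z * G z) = GE (fun z => F z * (z k * G z - dk k G z)) := by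
  have h := GE_ibp1 (hF.mul hG) k
  rw [funext (dk_mul k hF hG), GE_add ((hF.pgd k).mul hG.pg) (hF.pg.mul (hG.pgd k))] at h
  rw [eq_sub_of_add_eq h.symm, ← GE_sub ((PG.coord k).mul (hF.pg.mul hG.pg)) (hF.pg.mul (hG.pgd k))]
  congr 1
  ext z
  ring

theorem EG_comm (F G : E n → ℝ) : EG F G = EG G F := by
  simp only [EG, mul_comm]

theorem EG_self_nonneg (F : E n → ℝ) : 0 ≤ EG F F := by
  exact Finset.sum_nonneg fun k _ => GE_nonneg fun z => mul_self_nonneg _

theorem EG_add_left {F' : E n → ℝ} (hF : C1 F) (hF' : C1 F') (hG : C1 G) :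
    EG (fun z => F z + F' z) G = EG F G + EG F' G := by
  simp only [EG, dk_add _ hF hF', add_mul, ← Finset.sum_add_distrib]
  exact Finset.sum_congr rfl fun k _ =>
    GE_add ((hF.pgd k).mul (hG.pgd k)) ((hF'.pgd k).mul (hG.pgd k))

theorem EG_sub_left {F' : E n → ℝ} (hF : C1 F) (hF' : C1 F') (hG : C1 G) :
    EG (fun z => F z - F' z) G = EG F G - EG F' G := by
  simp only [EG, dk_sub _ hF hF', sub_mul, ← Finset.sum_sub_distrib]
  exact Finset.sum_congr rfl fun k _ =>
    GE_sub ((hF.pgd k).mul (hG.pgd k)) ((hF'.pgd k).mul (hG.pgd k))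

theorem EG_add_right {G' : E n → ℝ} (hF : C1 F) (hG : C1 G) (hG' : C1 G') :
    EG F (fun z => G z + G' z) = EG F G + EG F G' := by
  rw [EG_comm, EG_add_left hG hG' hF, EG_comm G, EG_comm G']

theorem EG_sub_right {G' : E n → ℝ} (hF : C1 F) (hG : C1 G) (hG' : C1 G') :
    EG F (fun z => G z - G' z) = EG F G - EG F G' := by
  rw [EG_comm, EG_sub_left hG hG' hF, EG_comm G, EG_comm G']

theorem EG_const_mul_left (c : ℝ) (F G : E n → ℝ) : EG (fun z => c * F z) G = c * EG F G := by
  simp only [EG, dk_const_mul, mul_assoc, GE_const_mul, Finset.mul_sum]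

theorem EG_const_mul_right (c : ℝ) (F G : E n → ℝ) : EG F (fun z => c * G z) = c * EG F G := by
  rw [EG_comm, EG_const_mul_left, EG_comm]

theorem EG_sum_left {ι : Type*} (s : Finset ι) {F : ι → E n → ℝ} (h : ∀ i ∈ s, C1 (F i))
    (hG : C1 G) : EG (fun z => ∑ i ∈ s, F i z) G = ∑ i ∈ s, EG (F i) G := by
  simp only [EG, dk_sum _ s h, Finset.sum_mul]
  rw [Finset.sum_comm]
  exact Finset.sum_congr rfl fun k _ => GE_sum s fun i hi => ((h i hi).pgd k).mul (hG.pgd k)

theorem EG_coord (k : Fin n) (hG : C1 G) : EG (fun z => z k) G = GE (fun z => z k * G z) := by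
  rw [GE_ibp1 hG, EG, Finset.sum_eq_single k]
  · simp [dk_coord]
  · intro j _ hj
    simp [dk_coord, hj, GE_const]
  · exact fun h => absurd (Finset.mem_univ _) h

theorem EG_sq_le (hF : C1 F) (hG : C1 G) : EG F G ^ 2 ≤ EG F F * EG G G := by
  have h : ∀ t : ℝ, 0 ≤ EG F F * (t * t) + 2 * EG F G * t + EG G G := fun t => by
    have h1 := EG_self_nonneg fun z => t * F z + G z
    have h2 := (hF.const_mul t).add hG
    rw [EG_add_left (hF.const_mul t) hG h2, EG_add_right (hF.const_mul t) (hF.const_mul t) hG,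
      EG_add_right hG (hF.const_mul t) hG, EG_const_mul_left, EG_const_mul_right, EG_const_mul_left,
      EG_const_mul_right, EG_comm G F] at h1
    linarith
  have h1 := discrim_le_zero h
  rw [discrim] at h1
  linarith

end ibp

end Crest.Agent.R253
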