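import Crest.Agent.R253.B2
import Crest.Agent.R253.B3
import Crest.Agent.R253.Her1

/-!
# Row 253: calculus of the matrix field `M = λ⁻¹(H)`
-/

set_option autoImplicit false
open MeasureTheory Matrix Filter Topology
open scoped ContDiff BigOperators

noncomputable section
namespace Crest.Agent.R253
open Crest.Agent.R238 Crest.Agent.R215

variable {n : ℕ}

/-- Matrix fields with `C1` entries. -/
def C1M (A : E n → RM n) : Prop := ∀ a b, C1 (fun z => A z a b)

/-- The entrywise partial derivative of a matrix field. -/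
def dkM (k : Fin n) (A : E n → RM n) (z : E n) : RM n :=
  Matrix.of fun a b => dk k (fun y => A y a b) z

theorem dkM_apply (k : Fin n) (A : E n → RM n) (z : E n) (a b : Fin n) :
    dkM k A z a b = dk k (fun y => A y a b) z := rfl

theorem C1M.pgm {A : E n → RM n} (h : C1M A) : PGM A := fun a b => (h a b).pg

theorem C1M.pgmd {A : E n → RM n} (h : C1M A) (k : Fin n) : PGM (dkM k A) :=
  fun a b => (h a b).pgd k

theorem C1M.mulVec {A : E n → RM n} (h : C1M A) (v : E n) (a : Fin n) :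
    C1 (fun z => (A z *ᵥ v) a) :=
  C1.sum Finset.univ fun b _ => (h a b).mul_const (v b)

theorem C1M.dk_mulVec {A : E n → RM n} (h : C1M A) (v : E n) (k a : Fin n) (z : E n) :
    dk k (fun y => (A y *ᵥ v) a) z = (dkM k A z *ᵥ v) a := by
  simp only [Matrix.mulVec, dotProduct]
  rw [dk_sum k _ fun b _ => (h a b).mul_const (v b)]
  simp only [dk_mul_const, dkM_apply]

theorem PGM.mulVec {A : E n → RM n} (h : PGM A) {w : E n → E n} (hw : ∀ a, PG fun z => w z a)
    (a : Fin n) : PG (fun z => (A z *ᵥ w z) a) :=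
  PG.sum Finset.univ fun b _ => (h a b).mul (hw b)

theorem PG.dot {u w : E n → E n} (hu : ∀ a, PG fun z => u z a) (hw : ∀ a, PG fun z => w z a) :
    PG (fun z => u z ⬝ᵥ w z) :=
  PG.sum Finset.univ fun a _ => (hu a).mul (hw a)

theorem PGM.transpose {A : E n → RM n} (h : PGM A) : PGM (fun z => (A z)ᵀ) := fun a b => h b a

theorem continuous_dd {f f' : ℝ → ℝ} (hf : ∀ x, HasDerivAt f (f' x) x) (hf' : Continuous f') :
    Continuous (fun p : ℝ × ℝ => dd f f' p.1 p.2) := by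
  rw [← continuousOn_univ, ← Set.univ_prod_univ]
  exact continuousOn_dd isOpen_univ (fun x _ => hf x) hf'.continuousOn

theorem continuous_ldd : Continuous (fun p : ℝ × ℝ => ldd p.1 p.2) :=
  continuous_dd hasDerivAt_lam continuous_lam1

namespace GD
variable (D : GD n)

/-- `∂_k H`. -/
def dH (k : Fin n) (z : E n) : RM n := evM z (pdM k (jac D.T))
/-- `∂_k M`. -/
def dM (k : Fin n) (z : E n) : RM n := dkM k D.M z

theorem dkM_H (k : Fin n) (z : E n) : dkM k D.H z = D.dH k z := rfl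

theorem H_c1 : C1M D.H := fun a b => Tm_c1 (D.tmM_jac a b)

theorem dH_symm (k : Fin n) (z : E n) : (D.dH k z)ᵀ = D.dH k z := by
  ext a b
  have := congrFun (congrFun D.ell.symm a) b
  simp only [transpose_apply] at this
  simp only [dH, transpose_apply, evM_apply, pdM_apply, this]

/-- Total symmetry of the third derivatives. -/
theorem dH_symm3 (z : E n) (a b c : Fin n) : D.dH c z a b = D.dH b z a c := by
  simp only [dH, evM_apply, pdM_apply, jac, of_apply]
  rw [pd_comm]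

theorem dH_pgm (k : Fin n) : PGM (D.dH k) := D.H_c1.pgmd k

theorem M_spec : ∃ R : ℝ, ∀ z, spectrum ℝ (D.M z) ⊆ Set.Icc (-R) R := by
  obtain ⟨C, hC⟩ := D.M_bdd
  exact ⟨n * C, fun z x hx => abs_le.1 (abs_le_of_mem_spectrum (D.M_symm z) (hC z) hx)⟩

theorem mf_pgm {f : ℝ → ℝ} (hf : Continuous f) : PGM (fun z => mf f (D.M z)) := by
  obtain ⟨R, hR⟩ := D.M_spec
  obtain ⟨C, hC⟩ := (isCompact_Icc (a := -R) (b := R)).exists_bound_of_continuousOn hf.continuousOn
  have hc : Continuous fun z => mf f (D.M z) :=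
    continuous_mf D.M_symm D.M_cont (fun z => Set.subset_univ _) hf.continuousOn
  exact fun a b => PG.of_bdd (hc.matrix_elem a b) (C := C) fun z =>
    abs_mf_apply_le (D.M_symm z) (fun x hx => hC x (hR z hx)) a b

theorem sch_pgm {φ : ℝ → ℝ → ℝ} (hφ : Continuous fun p : ℝ × ℝ => φ p.1 p.2) {X : E n → RM n}
    (hX : PGM X) : PGM (fun z => sch φ (D.M z) (D.M z) (X z)) := by
  obtain ⟨R, hR⟩ := D.M_spec
  obtain ⟨C, hC⟩ := ((isCompact_Icc (a := -R) (b := R)).prod
    (isCompact_Icc (a := -R) (b := R))).exists_bound_of_continuousOn hφ.continuousOn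
  have hc : Continuous fun z => sch φ (D.M z) (D.M z) (X z) :=
    continuous_sch D.M_symm D.M_symm D.M_cont D.M_cont hX.cont (fun z => Set.subset_univ _)
      (fun z => Set.subset_univ _) hφ.continuousOn
  refine fun a b => PG.of_le (hc.matrix_elem a b)
    ((PG.const 1).add (hX.hs.const_mul (C ^ 2))) fun z => ?_
  have h1 := (sq_le_hs _ a b).trans (hs_sch_le (D.M_symm z) (D.M_symm z) (φ := φ) (L := C)
    (fun x hx y hy => hC (x, y) ⟨hR z hx, hR z hy⟩) (X z))
  rw [← sq_abs] at h1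
  refine le_trans ?_ (le_abs_self _)
  nlinarith [sq_nonneg (|sch φ (D.M z) (D.M z) (X z) a b| - 1),
    sq_nonneg |sch φ (D.M z) (D.M z) (X z) a b|]

/-- The chain rule for functions of `M`. -/
theorem dkM_mf {f f' : ℝ → ℝ} (hf : ∀ x, HasDerivAt f (f' x) x) (k : Fin n) (z : E n) :
    dkM k (fun y => mf f (D.M y)) z = sch (dd f f') (D.M z) (D.M z) (D.dM k z) := by
  ext a b
  exact mf_fderiv_apply D.M_symm (fun c d => (D.M_contDiff c d).differentiable (by simp) z)
    (fun x _ => hf x) a b _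

theorem dH_eq (k : Fin n) (z : E n) : D.dH k z = sch ldd (D.M z) (D.M z) (D.dM k z) := by
  have h := D.dkM_mf hasDerivAt_lam k z
  simp only [D.mf_lam_M] at h
  exact h

theorem dM_eq (k : Fin n) (z : E n) :
    D.dM k z = sch (fun x y => (ldd x y)⁻¹) (D.M z) (D.M z) (D.dH k z) := by
  rw [dH_eq, sch_sch (D.M_symm z) (D.M_symm z)]
  simp only [inv_mul_cancel₀ (ldd_pos _ _).ne']
  rw [sch_one (D.M_symm z) (D.M_symm z)]

theorem dM_symm (k : Fin n) (z : E n) : (D.dM k z)ᵀ = D.dM k z := by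
  rw [dM_eq]
  exact sch_symm (fun x y => by rw [ldd_symm]) _ (D.dH_symm k z)

theorem dM_pgm (k : Fin n) : PGM (D.dM k) := by
  have := D.sch_pgm (φ := fun x y => (ldd x y)⁻¹)
    (continuous_ldd.inv₀ fun p => (ldd_pos _ _).ne') (D.dH_pgm k)
  simpa only [← D.dM_eq] using this

theorem M_c1 : C1M D.M := fun a b => ⟨D.M_contDiff a b, D.M_pgm a b, fun k => D.dM_pgm k a b⟩

theorem mf_c1 {f f' : ℝ → ℝ} (hf : ∀ x, HasDerivAt f (f' x) x) (hf' : Continuous f') :
    C1M (fun z => mf f (D.M z)) := fun a b => by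
  refine ⟨mf_contDiff_one isOpen_univ (fun x _ => hf x) hf'.continuousOn D.M_symm D.M_contDiff
    (fun _ => Set.subset_univ _) a b,
    D.mf_pgm (continuous_iff_continuousAt.2 fun x => (hf x).continuousAt) a b, fun k => ?_⟩
  have := D.sch_pgm (continuous_dd hf hf') (D.dM_pgm k) a b
  simp only [← D.dkM_mf hf] at this
  exact this

/-- `E |∇M|²`. -/
def gM : ℝ := GE fun z => ∑ k, hs (D.dM k z)
/-- `E ∑_k hs (φ ∘ ∂_k M)` for a symbol `φ`. -/
def gS (φ : ℝ → ℝ → ℝ) : ℝ := GE fun z => ∑ k, hs (sch φ (D.M z) (D.M z) (D.dM k z))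

theorem gS_nonneg (φ : ℝ → ℝ → ℝ) : 0 ≤ D.gS φ :=
  GE_nonneg fun _ => Finset.sum_nonneg fun _ _ => hs_nonneg _

theorem gS_pg {φ : ℝ → ℝ → ℝ} (hφ : Continuous fun p : ℝ × ℝ => φ p.1 p.2) :
    PG fun z => ∑ k, hs (sch φ (D.M z) (D.M z) (D.dM k z)) :=
  PG.sum _ fun k _ => (D.sch_pgm hφ (D.dM_pgm k)).hs

/-- Comparison of error symbols. -/
theorem gS_le {φ ψ : ℝ → ℝ → ℝ} (hψ : Continuous fun p : ℝ × ℝ => ψ p.1 p.2) {L : ℝ}
    (h : ∀ x y, φ x y ^ 2 ≤ L ^ 2 * ψ x y ^ 2) : D.gS φ ≤ L ^ 2 * D.gS ψ := by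
  rw [gS, gS, ← GE_const_mul]
  refine GE_mono' (fun z => Finset.sum_nonneg fun _ _ => hs_nonneg _) ((D.gS_pg hψ).const_mul _)
    fun z => ?_
  rw [Finset.mul_sum]
  refine Finset.sum_le_sum fun k _ => ?_
  rw [← hs_smul, ← sch_smul_sym]
  exact hs_sch_mono (D.M_symm z) (D.M_symm z) (fun x _ y _ => by rw [mul_pow]; exact h x y) _

/-- Comparison of error symbols, symmetrised version. -/
theorem gS_le_sym {φ ψ : ℝ → ℝ → ℝ} (hψ : Continuous fun p : ℝ × ℝ => ψ p.1 p.2) {L : ℝ}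
    (h : ∀ x y, φ x y ^ 2 + φ y x ^ 2 ≤ L * ψ x y ^ 2) : 2 * D.gS φ ≤ L * D.gS ψ := by
  rw [gS, gS, ← GE_const_mul, ← GE_const_mul]
  refine GE_mono' (fun z => mul_nonneg zero_le_two (Finset.sum_nonneg fun _ _ => hs_nonneg _))
    ((D.gS_pg hψ).const_mul _) fun z => ?_
  rw [Finset.mul_sum, Finset.mul_sum]
  refine Finset.sum_le_sum fun k _ => ?_
  obtain ⟨U, x, hU⟩ := exists_fr (D.M_symm z)
  have hX : ∀ i j, (Uᵀ * D.dM k z * U) j i = (Uᵀ * D.dM k z * U) i j := fun i j => by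
    rw [← transpose_apply (Uᵀ * D.dM k z * U) i j, transpose_mul, transpose_mul,
      transpose_transpose, D.dM_symm, Matrix.mul_assoc]
  rw [hs_sch_eq hU hU, hs_sch_eq hU hU, two_mul]
  nth_rewrite 2 [Finset.sum_comm]
  simp only [Finset.mul_sum, ← Finset.sum_add_distrib]
  refine Finset.sum_le_sum fun i _ => Finset.sum_le_sum fun j _ => ?_
  rw [hX i j, ← add_mul, ← mul_assoc]
  exact mul_le_mul_of_nonneg_right (h _ _) (sq_nonneg _)

end GD

end Crest.Agent.R253
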