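import Crest.Agent.R253.ConeInt

/-!
# Row 253: covariance of the lifted density

With `c = centroid K`, `S = covMatrix K`: mean `((n+1), (n+1) c)`; covariance entries
`(0,0) = n+1`, `(0,i+1) = (n+1) c i`, `(i+1,j+1) = (n+1)(n+2) S i j + (n+1) c i c j`
(use `cone_integral` with `k = 0,1,2` and `g = 1, x i, x i * x j`; on the cone
`y (i+1) = y 0 * ((y 0)⁻¹ • tail y) i`).  The determinant: subtract `c i` times row `0` from row
`i+1` (or write the matrix as `Lᵀ * blockdiag * L` with `L` unitriangular, `Matrix.det_succ_row_zero`).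
`covMatrix_posDef`: `vᵀ S v = ∫_K (v·(x-c))² / vol K > 0` since the continuous nonnegative integrand
is not a.e. zero on the open set `interior K` (`IsOpen.measure_pos`, `integral_pos_iff_support_of_nonneg`).
-/

set_option autoImplicit false
open MeasureTheory Crest.GeometryTopology.Isotropic
open scoped Pointwise

noncomputable section
namespace Crest.Agent.R253

variable {n : ℕ} {K : Set (Fin n → ℝ)}

theorem cc_int (hK : IsCompact K) {g : (Fin n → ℝ) → ℝ} (hg : Continuous g) :
    IntegrableOn g K volume := hg.continuousOn.integrableOn_compact hK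

theorem cc_quad (hK : IsCompact K) (v : Fin n → ℝ) :
    star v ⬝ᵥ ((covMatrix K).mulVec v) =
      (∫ x in K, (∑ i, v i * (x i - centroid K i)) ^ 2) / (volume K).toReal := by
  have e : ∀ x : Fin n → ℝ, (∑ i, v i * (x i - centroid K i)) ^ 2 =
      ∑ i, ∑ j, v i * v j * ((x i - centroid K i) * (x j - centroid K j)) := by
    intro x
    rw [sq, Finset.sum_mul_sum]
    exact Finset.sum_congr rfl fun i _ => Finset.sum_congr rfl fun j _ => by ring
  simp only [e]
  rw [integral_finsetSum _ (fun i _ => integrable_finsetSum _ fun j _ => cc_int hK (by fun_prop))]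
  simp only [dotProduct, Matrix.mulVec, covMatrix, Matrix.of_apply, star_trivial, Finset.sum_div,
    Finset.mul_sum]
  refine Finset.sum_congr rfl fun i _ => ?_
  rw [integral_finsetSum _ (fun j _ => cc_int hK (by fun_prop)), Finset.sum_div]
  refine Finset.sum_congr rfl fun j _ => ?_
  rw [integral_const_mul]
  ring

theorem cc_posDef (hK : IsCompact K) (hKi : (interior K).Nonempty) : (covMatrix K).PosDef := by
  refine Matrix.PosDef.of_dotProduct_mulVec_pos ?_ fun v hv => ?_
  · ext i j
    simp only [covMatrix, Matrix.conjTranspose_apply, Matrix.of_apply, star_trivial, mul_comm]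
  rw [cc_quad hK]
  refine div_pos ?_ (vol_pos hK hKi)
  have hc : Continuous fun x : Fin n → ℝ => (∑ i, v i * (x i - centroid K i)) ^ 2 := by fun_prop
  rw [setIntegral_pos_iff_support_of_nonneg_ae (Filter.Eventually.of_forall fun x => sq_nonneg _)
    (cc_int hK hc)]
  refine lt_of_lt_of_le ?_ (measure_mono (Set.inter_subset_inter_right _ interior_subset))
  refine (hc.isOpen_support.inter isOpen_interior).measure_pos _ ?_
  obtain ⟨x0, hx0⟩ := hKi
  by_cases h0 : ∑ i, v i * (x0 i - centroid K i) = 0
  · have hcont : Continuous fun ε : ℝ => x0 + ε • v := by fun_prop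
    have hmem : ∀ᶠ ε in nhds (0 : ℝ), x0 + ε • v ∈ interior K :=
      hcont.continuousAt.eventually_mem (isOpen_interior.mem_nhds (by simpa using hx0))
    obtain ⟨ε, hε, hε0⟩ := ((hmem.filter_mono nhdsWithin_le_nhds).and
      (self_mem_nhdsWithin (s := {(0 : ℝ)}ᶜ))).exists
    refine ⟨x0 + ε • v, ?_, hε⟩
    have e : ∑ i, v i * ((x0 + ε • v) i - centroid K i) =
        ∑ i, v i * (x0 i - centroid K i) + ε * (v ⬝ᵥ v) := by
      simp only [dotProduct, Finset.mul_sum, ← Finset.sum_add_distrib, Pi.add_apply, Pi.smul_apply,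
        smul_eq_mul]
      exact Finset.sum_congr rfl fun i _ => by ring
    have hvv : v ⬝ᵥ v ≠ 0 := fun h => hv (dotProduct_self_eq_zero.1 h)
    rw [Function.mem_support, e, h0, zero_add]
    exact pow_ne_zero _ (mul_ne_zero hε0 hvv)
  · exact ⟨x0, pow_ne_zero _ h0, hx0⟩

/-- homogeneous coordinates -/
def ccH (a : Fin (n + 1)) (x : Fin n → ℝ) : ℝ := (Fin.cons 1 x : Fin (n + 1) → ℝ) a

theorem cc_cont (a : Fin (n + 1)) : Continuous (ccH (n := n) a) := by
  refine Fin.cases ?_ (fun i => ?_) a
  · exact continuous_const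
  · exact continuous_apply i

theorem cc_coord (a : Fin (n + 1)) (y : Fin (n + 1) → ℝ) (hy : y 0 ≠ 0) :
    y a = y 0 * ccH a ((y 0)⁻¹ • Fin.tail y) := by
  refine Fin.cases ?_ (fun i => ?_) a
  · simp [ccH]
  · simp only [ccH, Fin.cons_succ, Pi.smul_apply, smul_eq_mul, Fin.tail]
    field_simp

theorem cc_zero (y : Fin (n + 1) → ℝ) (hy : y 0 = 0) : coneDens K y = 0 := by
  unfold coneDens
  refine Set.indicator_of_notMem (fun h => ?_) _
  exact absurd h.1 (by simp [hy])

theorem cc_eq1 (a : Fin (n + 1)) (y : Fin (n + 1) → ℝ) :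
    y a * coneDens K y = (y 0) ^ 1 * ccH a ((y 0)⁻¹ • Fin.tail y) * coneDens K y := by
  by_cases hy : y 0 = 0
  · simp [cc_zero y hy]
  · rw [pow_one, ← cc_coord a y hy]

theorem cc_eq2 (a b : Fin (n + 1)) (y : Fin (n + 1) → ℝ) :
    y a * y b * coneDens K y = (y 0) ^ 2 *
      (fun x => ccH a x * ccH b x) ((y 0)⁻¹ • Fin.tail y) * coneDens K y := by
  by_cases hy : y 0 = 0
  · simp [cc_zero y hy]
  · have h1 := cc_coord a y hy
    have h2 := cc_coord b y hy
    simp only
    calc y a * y b * coneDens K y
        = (y 0 * ccH a ((y 0)⁻¹ • Fin.tail y)) * (y 0 * ccH b ((y 0)⁻¹ • Fin.tail y)) *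
          coneDens K y := by rw [← h1, ← h2]
      _ = _ := by ring

theorem cc_fact1 : ((Nat.factorial (n + 1) : ℝ) / (Nat.factorial n : ℝ)) = (n : ℝ) + 1 := by
  have : (Nat.factorial n : ℝ) ≠ 0 := by positivity
  rw [Nat.factorial_succ]
  push_cast
  field_simp

theorem cc_fact2 :
    ((Nat.factorial (n + 2) : ℝ) / (Nat.factorial n : ℝ)) = ((n : ℝ) + 1) * ((n : ℝ) + 2) := by
  have : (Nat.factorial n : ℝ) ≠ 0 := by positivity
  rw [Nat.factorial_succ, Nat.factorial_succ]
  push_cast
  field_simp
  ring

theorem cc_mean (hK : IsCompact K) (hKi : (interior K).Nonempty) (a : Fin (n + 1)) :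
    densMean (coneDens K) a = ((n : ℝ) + 1) * ((∫ x in K, ccH a x) / (volume K).toReal) := by
  unfold densMean
  simp only [cc_eq1 a]
  rw [cone_integral hK hKi 1 _ (cc_cont a), cc_fact1]

theorem cc_cov (hK : IsCompact K) (hKi : (interior K).Nonempty) (a b : Fin (n + 1)) :
    densCov (coneDens K) a b =
      ((n : ℝ) + 1) * ((n : ℝ) + 2) * ((∫ x in K, ccH a x * ccH b x) / (volume K).toReal) -
        densMean (coneDens K) a * densMean (coneDens K) b := by
  have i0 : Integrable (coneDens K) := by
    simpa using cone_integrable hK 0 (fun _ => 1) continuous_const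
  have i1 : ∀ a : Fin (n + 1), Integrable (fun y : Fin (n + 1) → ℝ => y a * coneDens K y) := by
    intro a
    simp only [cc_eq1 a]
    exact cone_integrable hK 1 _ (cc_cont a)
  have hc : Continuous fun x : Fin n → ℝ => ccH a x * ccH b x := (cc_cont a).mul (cc_cont b)
  have i2 : Integrable (fun y : Fin (n + 1) → ℝ => y a * y b * coneDens K y) := by
    simp only [cc_eq2 a b]
    exact cone_integrable hK 2 _ hc
  have e2 : ∫ y : Fin (n + 1) → ℝ, y a * y b * coneDens K y =
      ((n : ℝ) + 1) * ((n : ℝ) + 2) * ((∫ x in K, ccH a x * ccH b x) / (volume K).toReal) := by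
    simp only [cc_eq2 a b]
    rw [cone_integral hK hKi 2 _ hc, cc_fact2]
  have e : ∀ y : Fin (n + 1) → ℝ,
      (y a - densMean (coneDens K) a) * (y b - densMean (coneDens K) b) * coneDens K y =
      (y a * y b * coneDens K y - densMean (coneDens K) b * (y a * coneDens K y)) -
        (densMean (coneDens K) a * (y b * coneDens K y) -
          densMean (coneDens K) a * densMean (coneDens K) b * coneDens K y) := by
    intro y
    ring
  simp only [densCov, Matrix.of_apply, e]
  rw [integral_sub (by exact i2.sub ((i1 a).const_mul _))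
      (by exact ((i1 b).const_mul _).sub (i0.const_mul _)),
    integral_sub i2 ((i1 a).const_mul _), integral_sub ((i1 b).const_mul _) (i0.const_mul _),
    integral_const_mul, integral_const_mul, integral_const_mul, coneDens_integral hK hKi, e2]
  show _ - _ * densMean (coneDens K) a - (_ * densMean (coneDens K) b - _) = _
  ring

theorem cc_second (hK : IsCompact K) (hKi : (interior K).Nonempty) (i j : Fin n) :
    (∫ x in K, x i * x j) / (volume K).toReal = covMatrix K i j + centroid K i * centroid K j := by
  have hv := (vol_pos hK hKi).ne'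
  have e : ∀ x : Fin n → ℝ, (x i - centroid K i) * (x j - centroid K j) =
      (x i * x j - centroid K j * x i) - (centroid K i * x j - centroid K i * centroid K j) := by
    intro x
    ring
  have hc : ∀ i, ∫ x in K, x i = centroid K i * (volume K).toReal := by
    intro i
    unfold centroid
    field_simp
  simp only [covMatrix, Matrix.of_apply, e]
  rw [integral_sub (cc_int hK (by fun_prop)) (cc_int hK (by fun_prop)),
    integral_sub (cc_int hK (by fun_prop)) (cc_int hK (by fun_prop)),
    integral_sub (cc_int hK (by fun_prop)) (cc_int hK (by fun_prop)),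
    integral_const_mul, integral_const_mul, hc, hc, setIntegral_const]
  simp only [smul_eq_mul, Measure.real]
  field_simp
  ring

theorem covMatrix_det_pos (hK : IsCompact K) (hKi : (interior K).Nonempty) :
    0 < (covMatrix K).det := by
  exact (cc_posDef hK hKi).det_pos

theorem coneDens_cov_det (hK : IsCompact K) (hKi : (interior K).Nonempty) :
    (densCov (coneDens K)).det =
      (covMatrix K).det * ((n : ℝ) + 1) ^ (n + 1) * ((n : ℝ) + 2) ^ n := by
  have hv := (vol_pos hK hKi).ne'
  have h1 : (∫ _x in K, (1 : ℝ)) / (volume K).toReal = 1 := by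
    rw [setIntegral_const]
    simp only [smul_eq_mul, Measure.real, mul_one]
    exact div_self hv
  have m0 : densMean (coneDens K) 0 = (n : ℝ) + 1 := by
    rw [cc_mean hK hKi]
    simp only [ccH, Fin.cons_zero, h1, mul_one]
  have ms : ∀ i : Fin n, densMean (coneDens K) i.succ = ((n : ℝ) + 1) * centroid K i := by
    intro i
    rw [cc_mean hK hKi]
    simp only [ccH, Fin.cons_succ, centroid]
  let B : Matrix (Fin (n + 1)) (Fin (n + 1)) ℝ := Matrix.of fun a b =>
    Fin.cases (motive := fun _ => ℝ) (densMean (coneDens K) b)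
      (fun i => Fin.cases (motive := fun _ => ℝ) 0
        (fun j => ((n : ℝ) + 1) * ((n : ℝ) + 2) * covMatrix K i j) b) a
  have hB : (densCov (coneDens K)).det = B.det := by
    refine Matrix.det_eq_of_forall_row_eq_smul_add_const
      (Fin.cons 0 (centroid K) : Fin (n + 1) → ℝ) 0 rfl fun a b => ?_
    rw [cc_cov hK hKi]
    refine Fin.cases ?_ (fun i => ?_) a <;> refine Fin.cases ?_ (fun j => ?_) b
    · simp only [B, Matrix.of_apply, Fin.cases_zero, ccH, Fin.cons_zero, m0, mul_one, h1]
      ring
    · simp only [B, Matrix.of_apply, Fin.cases_zero, ccH, Fin.cons_zero, Fin.cons_succ, m0, ms,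
        one_mul, centroid]
      ring
    · simp only [B, Matrix.of_apply, Fin.cases_zero, Fin.cases_succ, ccH, Fin.cons_zero,
        Fin.cons_succ, m0, ms, mul_one, centroid]
      ring
    · simp only [B, Matrix.of_apply, Fin.cases_zero, Fin.cases_succ, ccH,
        Fin.cons_succ, ms, cc_second hK hKi]
      ring
  have hsub : B.submatrix (Fin.succAbove 0) Fin.succ =
      (((n : ℝ) + 1) * ((n : ℝ) + 2)) • covMatrix K := by
    ext i j
    simp [B]
  rw [hB, Matrix.det_succ_column_zero, Fin.sum_univ_succ, hsub, Matrix.det_smul]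
  simp only [B, Matrix.of_apply, Fin.cases_zero, Fin.cases_succ, m0, mul_zero, zero_mul,
    Finset.sum_const_zero, Fintype.card_fin, Fin.val_zero, pow_zero, mul_pow]
  ring

end Crest.Agent.R253
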