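import Mathlib
import Crest.Prelude.Def_Isotropic

/-!
# Row 253: the cone lift (S0390 from S0391) — definitions

For a convex body `K ⊆ ℝ^n` the lifted density on `ℝ^{n+1}` (coordinate `0` is the height `s`,
the tail is `x`) is `exp (-s) / (n! · vol K)` on the open-at-the-apex cone `{s > 0, x ∈ s • K}`.
-/

set_option autoImplicit false
open MeasureTheory Crest.GeometryTopology.Isotropic
open scoped Pointwise

noncomputable section
namespace Crest.Agent.R253

/-- The statement of S0391 (sharp entropy bound with its equality case). -/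
def Stmt391 : Prop :=
  ∀ (m : ℕ), 1 ≤ m → ∀ (f : (Fin m → ℝ) → ℝ), Measurable f → (∀ x, 0 ≤ f x) → ∫ x, f x = 1 →
    Convex ℝ {x | 0 < f x} → ConcaveOn ℝ {x | 0 < f x} (fun x => Real.log (f x)) →
    (m : ℝ) + Real.log (densCov f).det / 2 ≤ diffEntropy f ∧
      (diffEntropy f = (m : ℝ) + Real.log (densCov f).det / 2 ↔
        ∃ (M : Matrix (Fin m) (Fin m) ℝ) (b : Fin m → ℝ), M.det ≠ 0 ∧
          f =ᵐ[volume] fun x => |M.det|⁻¹ *
            Set.indicator {y : Fin m → ℝ | ∀ i, 0 ≤ (M⁻¹.mulVec (y - b)) i}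
              (fun y => Real.exp (- ∑ i, (M⁻¹.mulVec (y - b)) i)) x)

/-- The cone over `K` without its apex: height `y 0 > 0` and `tail y ∈ (y 0) • K`. -/
def coneSet {n : ℕ} (K : Set (Fin n → ℝ)) : Set (Fin (n + 1) → ℝ) :=
  {y | 0 < y 0 ∧ (y 0)⁻¹ • Fin.tail y ∈ K}

/-- The lifted density `exp (-s) / (n! vol K)` on the cone over `K`. -/
def coneDens {n : ℕ} (K : Set (Fin n → ℝ)) : (Fin (n + 1) → ℝ) → ℝ :=
  (coneSet K).indicator (fun y => Real.exp (- y 0) / ((Nat.factorial n : ℝ) * (volume K).toReal))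

/-- The density of an invertible affine image of independent one-sided exponentials. -/
def expDens {m : ℕ} (M : Matrix (Fin m) (Fin m) ℝ) (b : Fin m → ℝ) : (Fin m → ℝ) → ℝ :=
  fun x => |M.det|⁻¹ *
    Set.indicator {y : Fin m → ℝ | ∀ i, 0 ≤ (M⁻¹.mulVec (y - b)) i}
      (fun y => Real.exp (- ∑ i, (M⁻¹.mulVec (y - b)) i)) x

end Crest.Agent.R253
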