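import Crest.Agent.R253.ConeInt

/-!
# Row 253: the lifted density is an affine image of exponentials iff `K` is a simplex

`simplex_of_expDens`: the positivity sets `coneSet K` and `b + M·orthant` agree a.e.  Let
`D = {y | ∀ i, 0 ≤ (M⁻¹ (y-b)) i}` (closed, convex, nonempty interior) and
`C = insert 0 (coneSet K)` (closed since `K` is compact; convex; nonempty interior).  Two closed
convex sets with nonempty interior that agree a.e. are equal (a point of `interior C \ D` has an open
neighbourhood of positive measure in `C \ D`; a convex set with nonempty interior is contained in the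
closure of its interior, `Convex.closure_interior_eq_closure_of_nonempty_interior`).  `C` is invariant
under positive scalings, so `M⁻¹ b = 0`, `b = 0`.  The columns `M e_i ∈ C \ {0}` have height
`s_i > 0`; put `v i = s_i⁻¹ • tail (M e_i)`.  Then `x ∈ K ↔ cons 1 x ∈ C ↔ cons 1 x = M u, u ≥ 0
↔ x = ∑ (u_i s_i) v_i, ∑ u_i s_i = 1`; affine independence from `det M ≠ 0`.

`expDens_of_simplex`: `M` = matrix with columns `cons 1 (v i)`, `b = 0`.  `det M ≠ 0` by affine
independence; `∑ i, (M⁻¹ y) i = y 0`; `coneSet K = D \ {0}`; so `coneDens K = c • expDens M 0` off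
`{0}` and both integrate to `1` (`expDens_integral`: linear change of variables
`integral_comp_mulVec`-style via `Real.map_matrix_volume_pi_eq_smul_volume_pi` /
`MeasureTheory.integral_fintype_prod_volume_eq_prod`), hence `c = 1`.
-/

set_option autoImplicit false
open MeasureTheory Crest.GeometryTopology.Isotropic
open scoped Pointwise

noncomputable section
namespace Crest.Agent.R253

variable {n : ℕ} {K : Set (Fin n → ℝ)}

theorem ConeEq_sub {m : ℕ} {A B : Set (Fin m → ℝ)} (hA : Convex ℝ A) (hAi : (interior A).Nonempty)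
    (hB : IsClosed B) (h : ∀ᵐ y, y ∈ A → y ∈ B) : A ⊆ B := by
  have h1 : volume (interior A \ B) = 0 :=
    measure_eq_zero_iff_ae_notMem.2 (h.mono fun y hy hy' => hy'.2 (hy (interior_subset hy'.1)))
  rw [(isOpen_interior.sdiff hB).measure_eq_zero_iff volume, Set.sdiff_eq_empty] at h1
  refine subset_closure.trans ?_
  rw [← hA.closure_interior_eq_closure_of_nonempty_interior hAi]
  exact closure_minimal h1 hB

theorem ConeEq_cons (x : Fin n → ℝ) : (Fin.cons 1 x : Fin (n + 1) → ℝ) ∈ coneSet K ↔ x ∈ K := by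
  simp [coneSet]

theorem ConeEq_smul {y : Fin (n + 1) → ℝ} (hy : y ∈ coneSet K) {c : ℝ} (hc : 0 < c) :
    c • y ∈ coneSet K := by
  refine ⟨mul_pos hc hy.1, ?_⟩
  have e : ((c • y) 0)⁻¹ • Fin.tail (c • y) = (y 0)⁻¹ • Fin.tail y := by
    ext j
    have := hc.ne'
    have := hy.1.ne'
    simp only [Pi.smul_apply, smul_eq_mul, Fin.tail]
    field_simp
  rw [e]
  exact hy.2

theorem ConeEq_tail : Continuous (Fin.tail : (Fin (n + 1) → ℝ) → Fin n → ℝ) :=
  continuous_pi fun j => continuous_apply j.succ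

theorem ConeEq_closed (hK : IsCompact K) (hne : K.Nonempty) :
    IsClosed (insert 0 (coneSet K)) := by
  have : CompactSpace K := isCompact_iff_compactSpace.1 hK
  have h1 : IsClosed {p : (Fin (n + 1) → ℝ) × K |
      0 ≤ p.1 0 ∧ Fin.tail p.1 = p.1 0 • (p.2 : Fin n → ℝ)} :=
    (isClosed_le (g := fun p : (Fin (n + 1) → ℝ) × K => p.1 0) continuous_const (by fun_prop)).inter
      (isClosed_eq (g := fun p : (Fin (n + 1) → ℝ) × K => p.1 0 • (p.2 : Fin n → ℝ))
        (ConeEq_tail.comp continuous_fst) (by fun_prop))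
  convert isClosedMap_fst_of_compactSpace _ h1 using 1
  ext y
  constructor
  · rintro (rfl | hy)
    · obtain ⟨x, hx⟩ := hne
      exact ⟨(0, ⟨x, hx⟩), ⟨le_rfl, by ext j; simp [Fin.tail]⟩, rfl⟩
    · exact ⟨(y, ⟨_, hy.2⟩), ⟨hy.1.le, (smul_inv_smul₀ hy.1.ne' _).symm⟩, rfl⟩
  · rintro ⟨⟨y, x⟩, ⟨h0, h1⟩, rfl⟩
    simp only at h0 h1 ⊢
    rcases h0.eq_or_lt with h0 | h0
    · left
      rw [← Fin.cons_self_tail y, h1, ← h0, zero_smul]
      ext j
      refine Fin.cases rfl (fun _ => rfl) j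
    · right
      refine ⟨h0, ?_⟩
      rw [h1, inv_smul_smul₀ h0.ne']
      exact x.2

theorem ConeEq_int (hKi : (interior K).Nonempty) : (interior (coneSet K)).Nonempty := by
  obtain ⟨x, hx⟩ := hKi
  have h1 : IsOpen (coneSet (interior K)) :=
    ContinuousOn.isOpen_inter_preimage (s := {y : Fin (n + 1) → ℝ | 0 < y 0})
      (f := fun y => (y 0)⁻¹ • Fin.tail y)
      (((continuous_apply 0).continuousOn.inv₀ fun _ hy => ne_of_gt hy).smul
        ConeEq_tail.continuousOn)
      (isOpen_lt continuous_const (continuous_apply 0)) isOpen_interior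
  exact ⟨_, interior_maximal (s := coneSet K) (fun y hy => ⟨hy.1, interior_subset hy.2⟩) h1 ((ConeEq_cons x).2 hx)⟩

theorem ConeEq_inv_mul {m : ℕ} {M : Matrix (Fin m) (Fin m) ℝ} (hM : M.det ≠ 0) (u : Fin m → ℝ) :
    M⁻¹.mulVec (M.mulVec u) = u := by
  rw [Matrix.mulVec_mulVec, Matrix.nonsing_inv_mul _ hM.isUnit, Matrix.one_mulVec]

theorem ConeEq_mul_inv {m : ℕ} {M : Matrix (Fin m) (Fin m) ℝ} (hM : M.det ≠ 0) (u : Fin m → ℝ) :
    M.mulVec (M⁻¹.mulVec u) = u := by
  rw [Matrix.mulVec_mulVec, Matrix.mul_nonsing_inv _ hM.isUnit, Matrix.one_mulVec]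

theorem ConeEq_cols {M : Matrix (Fin (n + 1)) (Fin (n + 1)) ℝ} {v : Fin (n + 1) → Fin n → ℝ}
    (h : ∀ i j, M j.succ i = M 0 i * v i j) (u : Fin (n + 1) → ℝ) :
    M.mulVec u = Fin.cons (∑ i, M 0 i * u i) (∑ i, (M 0 i * u i) • v i) := by
  ext j
  refine Fin.cases rfl (fun j => ?_) j
  simp only [Fin.cons_succ, Matrix.mulVec, dotProduct, h, Finset.sum_apply, Pi.smul_apply,
    smul_eq_mul]
  exact Finset.sum_congr rfl fun i _ => by ring

theorem ConeEq_hull {ι : Type} [Fintype ι] {v : ι → Fin n → ℝ} {x : Fin n → ℝ}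
    (hx : x ∈ convexHull ℝ (Set.range v)) :
    ∃ w : ι → ℝ, (∀ i, 0 ≤ w i) ∧ ∑ i, w i = 1 ∧ ∑ i, w i • v i = x := by
  classical
  refine convexHull_min (t := {x | ∃ w : ι → ℝ, (∀ i, 0 ≤ w i) ∧ ∑ i, w i = 1 ∧
    ∑ i, w i • v i = x}) ?_ ?_ hx
  · rintro _ ⟨i, rfl⟩
    refine ⟨Pi.single i 1, fun j => ?_, by simp, by simp [Pi.single_apply]⟩
    rw [Pi.single_apply]
    split_ifs <;> norm_num
  · rintro _ ⟨w, h0, h1, rfl⟩ _ ⟨w', h0', h1', rfl⟩ a b ha hb hab
    refine ⟨fun i => a * w i + b * w' i,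
      fun i => add_nonneg (mul_nonneg ha (h0 i)) (mul_nonneg hb (h0' i)), ?_, ?_⟩
    · rw [Finset.sum_add_distrib, ← Finset.mul_sum, ← Finset.mul_sum, h1, h1', mul_one, mul_one, hab]
    · simp only [add_smul, mul_smul, Finset.sum_add_distrib, Finset.smul_sum]

theorem ConeEq_pos {m : ℕ} {M : Matrix (Fin m) (Fin m) ℝ} (hM : M.det ≠ 0) (b y : Fin m → ℝ) :
    0 < expDens M b y ↔ ∀ i, 0 ≤ (M⁻¹.mulVec (y - b)) i := by
  unfold expDens
  by_cases h : y ∈ {y : Fin m → ℝ | ∀ i, 0 ≤ (M⁻¹.mulVec (y - b)) i}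
  · rw [Set.indicator_of_mem h]
    exact ⟨fun _ => h, fun _ => mul_pos (inv_pos.2 (abs_pos.2 hM)) (Real.exp_pos _)⟩
  · rw [Set.indicator_of_notMem h, mul_zero]
    exact ⟨fun h' => absurd h' (lt_irrefl _), fun h' => absurd h' h⟩

theorem expDens_integral {m : ℕ} (M : Matrix (Fin m) (Fin m) ℝ) (hM : M.det ≠ 0) (b : Fin m → ℝ) :
    ∫ y, expDens M b y = 1 := by
  set g : (Fin m → ℝ) → ℝ := fun u => ∏ i, (Set.Ici (0 : ℝ)).indicator (fun t => Real.exp (-t)) (u i)
    with hg
  have hgm : Measurable g := Finset.measurable_prod _ fun i _ =>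
    (Measurable.indicator (by fun_prop) measurableSet_Ici).comp (measurable_pi_apply i)
  have h1 : ∫ u, g u = 1 := by
    rw [hg, integral_fintype_prod_volume_eq_prod
      fun _ : Fin m => (Set.Ici (0 : ℝ)).indicator fun t => Real.exp (-t)]
    refine Finset.prod_eq_one fun i _ => ?_
    rw [integral_indicator measurableSet_Ici, integral_Ici_eq_integral_Ioi, integral_exp_neg_Ioi_zero]
  have h2 : ∀ y, expDens M b y = |M.det|⁻¹ * g (M⁻¹.mulVec (y - b)) := fun y => by
    unfold expDens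
    congr 1
    by_cases h : y ∈ {y : Fin m → ℝ | ∀ i, 0 ≤ (M⁻¹.mulVec (y - b)) i}
    · rw [Set.indicator_of_mem h, ← Finset.sum_neg_distrib, Real.exp_sum]
      exact Finset.prod_congr rfl fun i _ => (Set.indicator_of_mem (s := Set.Ici (0 : ℝ)) (h i)
        fun t => Real.exp (-t)).symm
    · rw [Set.indicator_of_notMem h]
      obtain ⟨i, hi⟩ := not_forall.1 h
      exact (Finset.prod_eq_zero (Finset.mem_univ i) (Set.indicator_of_notMem hi _)).symm
  have hdet : M⁻¹.det = M.det⁻¹ := by rw [Matrix.det_nonsing_inv, Ring.inverse_eq_inv']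
  have h3 : ∫ y, g (M⁻¹.mulVec y) = |M.det| := by
    have h4 := integral_map (μ := (volume : Measure (Fin m → ℝ))) (φ := Matrix.toLin' M⁻¹) (f := g)
      (LinearMap.continuous_on_pi _).measurable.aemeasurable hgm.aestronglyMeasurable
    rw [Real.map_matrix_volume_pi_eq_smul_volume_pi (by rw [hdet]; exact inv_ne_zero hM),
      integral_smul_measure, h1, hdet, inv_inv, ENNReal.toReal_ofReal (abs_nonneg _), smul_eq_mul,
      mul_one] at h4
    exact h4.symm
  simp only [h2]
  rw [integral_const_mul, integral_sub_right_eq_self (fun y => g (M⁻¹.mulVec y)) b, h3,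
    inv_mul_cancel₀ (abs_ne_zero.2 hM)]

theorem simplex_of_expDens (hK : IsCompact K) (hKc : Convex ℝ K) (hKi : (interior K).Nonempty)
    (M : Matrix (Fin (n + 1)) (Fin (n + 1)) ℝ) (b : Fin (n + 1) → ℝ) (hM : M.det ≠ 0)
    (h : coneDens K =ᵐ[volume] expDens M b) :
    ∃ v : Fin (n + 1) → (Fin n → ℝ), AffineIndependent ℝ v ∧ K = convexHull ℝ (Set.range v) := by
  have hc : ∀ i, Continuous fun y : Fin (n + 1) → ℝ => (M⁻¹.mulVec (y - b)) i := fun i =>
    (continuous_apply i).comp (continuous_const.matrix_mulVec (continuous_id.sub continuous_const))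
  have hpos : ∀ y, y ∈ coneSet K ↔ 0 < coneDens K y := fun y => by
    rw [← coneDens_pos_set hK hKi]; rfl
  have h1 : coneSet K ⊆ {y | ∀ i, 0 ≤ (M⁻¹.mulVec (y - b)) i} := by
    refine ConeEq_sub (coneSet_convex hKc) (ConeEq_int hKi) ?_ ?_
    · rw [Set.ofPred_forall]
      exact isClosed_iInter fun i => isClosed_le continuous_const (hc i)
    · filter_upwards [h] with y hy hy'
      exact (ConeEq_pos hM b y).1 (hy ▸ (hpos y).1 hy')
  have h2 : {y | ∀ i, 0 ≤ (M⁻¹.mulVec (y - b)) i} ⊆ insert 0 (coneSet K) := by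
    refine ConeEq_sub ?_ ?_ (ConeEq_closed hK (hKi.mono interior_subset)) ?_
    · intro y hy z hz a c ha hc' hac i
      have e : a • y + c • z - b = a • (y - b) + c • (z - b) := by
        rw [smul_sub, smul_sub, sub_add_sub_comm, ← add_smul, hac, one_smul]
      rw [e, Matrix.mulVec_add, Matrix.mulVec_smul, Matrix.mulVec_smul]
      exact add_nonneg (mul_nonneg ha (hy i)) (mul_nonneg hc' (hz i))
    · have ho : IsOpen {y : Fin (n + 1) → ℝ | ∀ i, 0 < (M⁻¹.mulVec (y - b)) i} := by
        rw [Set.ofPred_forall]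
        exact isOpen_iInter_of_finite fun i => isOpen_lt continuous_const (hc i)
      refine ⟨M.mulVec 1 + b, interior_maximal (fun y hy i => (hy i).le) ho fun i => ?_⟩
      rw [add_sub_cancel_right, ConeEq_inv_mul hM]
      exact one_pos
    · filter_upwards [h] with y hy hy'
      exact Or.inr ((hpos y).2 (hy ▸ (ConeEq_pos hM b y).2 hy'))
  have hb : b = 0 := by
    rcases h2 (show b ∈ _ from fun i => by simp) with hb | hb
    · exact hb
    · have a1 := h1 (ConeEq_smul hb two_pos)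
      have a2 := h1 (ConeEq_smul hb one_half_pos)
      have e1 : (2 : ℝ) • b - b = b := by module
      have e2 : (1 / 2 : ℝ) • b - b = (-(1 / 2) : ℝ) • b := by module
      simp only [Set.mem_ofPred_eq, e1, e2, Matrix.mulVec_smul, Pi.smul_apply, smul_eq_mul] at a1 a2
      have a3 : M⁻¹.mulVec b = 0 := funext fun i => le_antisymm (by have := a2 i; rw [Pi.zero_apply]; linarith) (a1 i)
      rw [← ConeEq_mul_inv hM b, a3, Matrix.mulVec_zero]
  subst hb
  simp only [sub_zero] at h1 h2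
  have hcol : ∀ i, M.mulVec (Pi.single i 1) ∈ coneSet K := fun i => by
    refine (h2 (show M.mulVec (Pi.single i 1) ∈ _ from fun j => ?_)).resolve_left fun h0 => ?_
    · rw [ConeEq_inv_mul hM, Pi.single_apply]
      split_ifs <;> norm_num
    · have := congrFun (Matrix.eq_zero_of_mulVec_eq_zero hM h0) i
      simp at this
  simp only [Matrix.mulVec_single_one] at hcol
  have hs : ∀ i, 0 < M 0 i := fun i => (hcol i).1
  have hv : ∀ (i : Fin (n + 1)) (j : Fin n),
      M j.succ i = M 0 i * ((M.col i 0)⁻¹ • Fin.tail (M.col i)) j :=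
    fun i j => (mul_inv_cancel_left₀ (hs i).ne' _).symm
  refine ⟨fun i => (M.col i 0)⁻¹ • Fin.tail (M.col i), ?_, Set.Subset.antisymm (fun x hx => ?_)
    (convexHull_min (by rintro _ ⟨i, rfl⟩; exact (hcol i).2) hKc)⟩
  · rw [affineIndependent_iff_of_fintype]
    intro w hw hw' i
    rw [Finset.weightedVSub_eq_linear_combination _ hw] at hw'
    have e : ∀ i, M 0 i * ((M 0 i)⁻¹ * w i) = w i := fun i => mul_inv_cancel_left₀ (hs i).ne' _
    have a1 := ConeEq_cols hv fun i => (M 0 i)⁻¹ * w i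
    simp only [e] at a1
    rw [hw, hw'] at a1
    have a2 := congrFun (Matrix.eq_zero_of_mulVec_eq_zero hM
      (a1.trans (funext fun j => Fin.cases rfl (fun _ => rfl) j))) i
    rw [← e i, a2, Pi.zero_apply, mul_zero]
  · have a1 := h1 ((ConeEq_cons x).2 hx)
    have a2 := ConeEq_cols hv (M⁻¹.mulVec (Fin.cons 1 x))
    rw [ConeEq_mul_inv hM, Fin.cons_inj] at a2
    exact mem_convexHull_of_exists_fintype _ _ (fun i => mul_nonneg (hs i).le (a1 i)) a2.1.symm
      (fun i => Set.mem_range_self i) a2.2.symm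

theorem expDens_of_simplex (hK : IsCompact K) (hKi : (interior K).Nonempty)
    (v : Fin (n + 1) → (Fin n → ℝ)) (hv : AffineIndependent ℝ v)
    (hKv : K = convexHull ℝ (Set.range v)) :
    ∃ (M : Matrix (Fin (n + 1)) (Fin (n + 1)) ℝ) (b : Fin (n + 1) → ℝ), M.det ≠ 0 ∧
      coneDens K =ᵐ[volume] expDens M b := by
  set M : Matrix (Fin (n + 1)) (Fin (n + 1)) ℝ :=
    Matrix.of fun j i => (Fin.cons 1 (v i) : Fin (n + 1) → ℝ) j with hMdef
  have hcols : ∀ u, M.mulVec u = Fin.cons (∑ i, u i) (∑ i, u i • v i) := fun u => by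
    have := ConeEq_cols (M := M) (v := v) (fun i j => by simp [hMdef]) u
    simpa [hMdef] using this
  have hM : M.det ≠ 0 := fun h0 => by
    obtain ⟨u, hu, hu'⟩ := Matrix.exists_mulVec_eq_zero_iff.2 h0
    rw [hcols] at hu'
    exact hu (funext fun i => hv.eq_zero_of_sum_eq_zero (s := Finset.univ) (w := u) (congrFun hu' 0)
      (funext fun j => congrFun hu' j.succ) i (Finset.mem_univ i))
  have hy : ∀ y : Fin (n + 1) → ℝ, y 0 = ∑ i, M⁻¹.mulVec y i ∧
      Fin.tail y = ∑ i, M⁻¹.mulVec y i • v i := fun y => by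
    have := hcols (M⁻¹.mulVec y)
    rw [ConeEq_mul_inv hM] at this
    exact ⟨congrFun this 0, funext fun j => congrFun this j.succ⟩
  have hmem : ∀ y : Fin (n + 1) → ℝ, y ≠ 0 → (y ∈ coneSet K ↔ ∀ i, 0 ≤ M⁻¹.mulVec y i) :=
    fun y hy0 => by
    constructor
    · rintro ⟨h0, h1⟩ i
      rw [hKv] at h1
      obtain ⟨w, a1, a2, a3⟩ := ConeEq_hull h1
      have e : M.mulVec (y 0 • w) = y := by
        rw [Matrix.mulVec_smul, hcols, a2, a3]
        ext j
        refine Fin.cases (by simp) (fun j => ?_) j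
        exact mul_inv_cancel_left₀ h0.ne' _
      rw [← e, ConeEq_inv_mul hM]
      exact mul_nonneg h0.le (a1 i)
    · intro h
      have h0 : 0 < y 0 := by
        rw [(hy y).1]
        refine (Finset.sum_nonneg fun i _ => h i).lt_of_ne fun h1 => hy0 ?_
        have h2 : M⁻¹.mulVec y = 0 := funext fun i =>
          (Finset.sum_eq_zero_iff_of_nonneg fun i _ => h i).1 h1.symm i (Finset.mem_univ i)
        rw [← ConeEq_mul_inv hM y, h2, Matrix.mulVec_zero]
      refine ⟨h0, ?_⟩
      rw [hKv]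
      refine mem_convexHull_of_exists_fintype (fun i => (y 0)⁻¹ * M⁻¹.mulVec y i) v
        (fun i => mul_nonneg (inv_pos.2 h0).le (h i)) ?_ (fun i => Set.mem_range_self i) ?_
      · rw [← Finset.mul_sum, ← (hy y).1, inv_mul_cancel₀ h0.ne']
      · rw [(hy y).2, Finset.smul_sum]
        simp only [mul_smul]
  have hae : coneDens K =ᵐ[volume] fun y =>
      |M.det| / ((Nat.factorial n : ℝ) * (volume K).toReal) * expDens M 0 y := by
    filter_upwards [compl_mem_ae_iff.2 (measure_singleton (0 : Fin (n + 1) → ℝ))] with y hy0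
    unfold coneDens expDens
    simp only [sub_zero]
    by_cases h : y ∈ coneSet K
    · rw [Set.indicator_of_mem h, Set.indicator_of_mem (show y ∈ {y : Fin (n + 1) → ℝ |
        ∀ i, 0 ≤ M⁻¹.mulVec y i} from (hmem y hy0).1 h), ← (hy y).1]
      have := abs_ne_zero.2 hM
      field_simp
    · rw [Set.indicator_of_notMem h, Set.indicator_of_notMem (show y ∉ {y : Fin (n + 1) → ℝ |
        ∀ i, 0 ≤ M⁻¹.mulVec y i} from fun h' => h ((hmem y hy0).2 h')), mul_zero, mul_zero]
  have h1 := integral_congr_ae hae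
  rw [coneDens_integral hK hKi, integral_const_mul, expDens_integral M hM, mul_one] at h1
  refine ⟨M, 0, hM, ?_⟩
  simpa only [← h1, one_mul] using hae

end Crest.Agent.R253
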