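import Crest.Agent.R253.ConeDefs

/-!
# Row 253: integrals against the lifted density

Plan. `cone_integral`: Fubini along `MeasurableEquiv.piFinSuccAbove _ 0` (or `Fin.consEquiv`,
`volume_preserving_piFinSuccAbove`), then the scaling `x = s • u` in the fibre
(`Measure.integral_comp_smul`/`integral_comp_inv_smul`), then
`∫_0^∞ e^{-s} s^{n+k} ds = (n+k)!` (`Real.Gamma_eq_integral`, `Real.Gamma_nat_eq_factorial`,
or `integral_rpow_mul_exp_neg_mul_Ioi`).  Everything else is a specialisation.
-/

set_option autoImplicit false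
open MeasureTheory Crest.GeometryTopology.Isotropic
open scoped Pointwise

noncomputable section
namespace Crest.Agent.R253

variable {n : ℕ} {K : Set (Fin n → ℝ)}

theorem vol_pos (hK : IsCompact K) (hKi : (interior K).Nonempty) : 0 < (volume K).toReal := by
  refine ENNReal.toReal_pos ?_ hK.measure_lt_top.ne
  exact (Measure.measure_pos_of_nonempty_interior _ hKi).ne'

theorem coneInt_meas : Measurable fun y : Fin (n + 1) → ℝ => (y 0)⁻¹ • Fin.tail y := by
  refine Measurable.smul (measurable_pi_apply 0).inv ?_
  exact measurable_pi_lambda _ fun i => measurable_pi_apply _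

theorem coneSet_measurable (hK : IsCompact K) : MeasurableSet (coneSet K) := by
  exact (measurableSet_lt measurable_const (measurable_pi_apply 0)).inter
    (coneInt_meas hK.measurableSet)

theorem coneDens_measurable (hK : IsCompact K) : Measurable (coneDens K) := by
  refine Measurable.indicator ?_ (coneSet_measurable hK)
  exact ((measurable_pi_apply 0).neg.exp).div_const _

theorem coneDens_nonneg (y : Fin (n + 1) → ℝ) : 0 ≤ coneDens K y := by
  exact Set.indicator_nonneg (fun y _ => by positivity) y

theorem coneDens_pos_set (hK : IsCompact K) (hKi : (interior K).Nonempty) :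
    {y | 0 < coneDens K y} = coneSet K := by
  have hv := vol_pos hK hKi
  ext y
  simp only [Set.mem_ofPred_eq, coneDens]
  by_cases h : y ∈ coneSet K
  · rw [Set.indicator_of_mem h]
    refine ⟨fun _ => h, fun _ => ?_⟩
    have : (0 : ℝ) < Nat.factorial n := by exact_mod_cast Nat.factorial_pos n
    positivity
  · rw [Set.indicator_of_notMem h]
    exact ⟨fun h' => absurd h' (lt_irrefl _), fun h' => absurd h' h⟩

theorem coneSet_convex (hKc : Convex ℝ K) : Convex ℝ (coneSet K) := by
  intro y hy z hz a b ha hb hab
  have hpos : 0 < a * y 0 + b * z 0 := by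
    have h1 := hy.1
    have h2 := hz.1
    rcases ha.eq_or_lt with h | h
    · subst h
      have : b = 1 := by linarith
      subst this
      linarith
    · have := mul_pos h h1
      have := mul_nonneg hb h2.le
      linarith
  refine ⟨by simpa using hpos, ?_⟩
  have hm := hKc hy.2 hz.2 (a := a * y 0 / (a * y 0 + b * z 0)) (b := b * z 0 / (a * y 0 + b * z 0))
    (div_nonneg (mul_nonneg ha hy.1.le) hpos.le) (div_nonneg (mul_nonneg hb hz.1.le) hpos.le)
    (by rw [← add_div, div_self hpos.ne'])
  convert hm using 1
  funext i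
  have h1 := hy.1.ne'
  have h2 := hz.1.ne'
  have h3 := hpos.ne'
  simp only [Pi.smul_apply, Pi.add_apply, smul_eq_mul, Fin.tail]
  field_simp

theorem coneDens_logConcave (hK : IsCompact K) (hKc : Convex ℝ K) (hKi : (interior K).Nonempty) :
    ConcaveOn ℝ {y | 0 < coneDens K y} (fun y => Real.log (coneDens K y)) := by
  rw [coneDens_pos_set hK hKi]
  have hv := vol_pos hK hKi
  have hf : (0 : ℝ) < Nat.factorial n := by exact_mod_cast Nat.factorial_pos n
  have key : ∀ y ∈ coneSet K, Real.log (coneDens K y) =
      - y 0 - Real.log ((Nat.factorial n : ℝ) * (volume K).toReal) := by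
    intro y hy
    rw [coneDens, Set.indicator_of_mem hy, Real.log_div (Real.exp_pos _).ne' (by positivity),
      Real.log_exp]
  refine ⟨coneSet_convex hKc, fun y hy z hz a b ha hb hab => ?_⟩
  have hm := coneSet_convex hKc hy hz ha hb hab
  simp only [key _ hy, key _ hz, key _ hm, Pi.add_apply, Pi.smul_apply, smul_eq_mul]
  apply le_of_eq
  have : b = 1 - a := by linarith
  subst this
  ring

theorem coneInt_gamma (m : ℕ) : IntegrableOn (fun s : ℝ => Real.exp (-s) * s ^ m) (Set.Ioi 0) ∧
    ∫ s in Set.Ioi (0 : ℝ), Real.exp (-s) * s ^ m = Nat.factorial m := by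
  have h0 : (0 : ℝ) < (m : ℝ) + 1 := by positivity
  have h1 := Real.GammaIntegral_convergent h0
  have h2 := Real.Gamma_eq_integral h0
  rw [Real.Gamma_nat_eq_factorial] at h2
  simp only [add_sub_cancel_right, Real.rpow_natCast] at h1 h2
  exact ⟨h1, h2.symm⟩

/-- the integrand on the product space -/
def coneIntF (k : ℕ) (c : ℝ) (G : (Fin n → ℝ) → ℝ) (p : ℝ × (Fin n → ℝ)) : ℝ :=
  (Set.Ioi (0 : ℝ)).indicator (fun s => s ^ k * Real.exp (-s) / c) p.1 * G (p.1⁻¹ • p.2)

theorem coneInt_fibre (k : ℕ) (c : ℝ) (G : (Fin n → ℝ) → ℝ) (s : ℝ) :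
    ∫ x, coneIntF k c G (s, x) =
      (Set.Ioi (0 : ℝ)).indicator (fun s => Real.exp (-s) * s ^ (n + k) * ((∫ x, G x) / c)) s := by
  simp only [coneIntF]
  rw [integral_const_mul]
  by_cases hs : s ∈ Set.Ioi (0 : ℝ)
  · rw [Set.indicator_of_mem hs, Set.indicator_of_mem hs,
      Measure.integral_comp_inv_smul_of_nonneg volume G (le_of_lt hs)]
    simp only [Module.finrank_fintype_fun_eq_card, Fintype.card_fin, smul_eq_mul]
    ring
  · rw [Set.indicator_of_notMem hs, Set.indicator_of_notMem hs, zero_mul]

theorem coneInt_integrable (k : ℕ) {c : ℝ} (hc : 0 ≤ c) {G : (Fin n → ℝ) → ℝ} (hm : Measurable G)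
    (hG : Integrable G) : Integrable (coneIntF k c G) (volume.prod volume) := by
  have hF : Measurable (coneIntF k c G) := by
    refine Measurable.mul ?_ (hm.comp (measurable_fst.inv.smul measurable_snd))
    refine (Measurable.indicator ?_ measurableSet_Ioi).comp measurable_fst
    fun_prop
  rw [integrable_prod_iff hF.aestronglyMeasurable]
  constructor
  · refine Filter.Eventually.of_forall fun s => ?_
    simp only [coneIntF]
    by_cases hs : s ∈ Set.Ioi (0 : ℝ)
    · exact (hG.comp_smul (inv_ne_zero (ne_of_gt hs))).const_mul _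
    · simp only [Set.indicator_of_notMem hs, zero_mul]
      exact integrable_zero _ _ _
  · have : (fun s => ∫ x, ‖coneIntF k c G (s, x)‖) = fun s => ∫ x, coneIntF k c (fun x => ‖G x‖) (s, x) := by
      funext s
      congr 1
      funext x
      simp only [coneIntF, norm_mul]
      congr 1
      refine Real.norm_of_nonneg (Set.indicator_nonneg (fun t ht => ?_) _)
      have : 0 < t := ht
      positivity
    rw [this]
    simp only [coneInt_fibre]
    rw [integrable_indicator_iff measurableSet_Ioi]
    exact (coneInt_gamma (n + k)).1.mul_const _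

theorem coneInt_eq (K : Set (Fin n → ℝ)) (k : ℕ) (g : (Fin n → ℝ) → ℝ) :
    (fun y : Fin (n + 1) → ℝ => (y 0) ^ k * g ((y 0)⁻¹ • Fin.tail y) * coneDens K y) =
      coneIntF k ((Nat.factorial n : ℝ) * (volume K).toReal) (K.indicator g) ∘
        MeasurableEquiv.piFinSuccAbove (fun _ : Fin (n + 1) => ℝ) 0 := by
  funext y
  have he : MeasurableEquiv.piFinSuccAbove (fun _ : Fin (n + 1) => ℝ) 0 y = (y 0, Fin.tail y) := by
    rfl
  simp only [Function.comp, he, coneIntF, coneDens]
  by_cases h1 : y 0 ∈ Set.Ioi (0 : ℝ)
  · by_cases h2 : (y 0)⁻¹ • Fin.tail y ∈ K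
    · have h : y ∈ coneSet K := ⟨h1, h2⟩
      rw [Set.indicator_of_mem h, Set.indicator_of_mem h1, Set.indicator_of_mem h2]
      ring
    · have h : y ∉ coneSet K := fun h => h2 h.2
      rw [Set.indicator_of_notMem h, Set.indicator_of_notMem h2]
      ring
  · have h : y ∉ coneSet K := fun h => h1 h.1
    rw [Set.indicator_of_notMem h, Set.indicator_of_notMem h1]
    ring

theorem coneInt_ind (hK : IsCompact K) (k : ℕ) {g : (Fin n → ℝ) → ℝ} (hg : Continuous g) :
    Integrable (coneIntF k ((Nat.factorial n : ℝ) * (volume K).toReal) (K.indicator g))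
      (volume.prod volume) := by
  refine coneInt_integrable k (by positivity) (hg.measurable.indicator hK.measurableSet) ?_
  rw [integrable_indicator_iff hK.measurableSet]
  exact hg.continuousOn.integrableOn_compact hK

/-- Integrability of `s^k g(x/s)` against the lifted density. -/
theorem cone_integrable (hK : IsCompact K) (k : ℕ) (g : (Fin n → ℝ) → ℝ) (hg : Continuous g) :
    Integrable (fun y : Fin (n + 1) → ℝ =>
      (y 0) ^ k * g ((y 0)⁻¹ • Fin.tail y) * coneDens K y) := by
  rw [coneInt_eq]
  exact (volume_preserving_piFinSuccAbove (fun _ : Fin (n + 1) => ℝ) 0).integrable_comp_of_integrable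
    (coneInt_ind hK k hg)

/-- The basic formula: `E[s^k g(U)] = ((n+k)!/n!) · (∫_K g)/vol K`. -/
theorem cone_integral (hK : IsCompact K) (hKi : (interior K).Nonempty) (k : ℕ)
    (g : (Fin n → ℝ) → ℝ) (hg : Continuous g) :
    ∫ y : Fin (n + 1) → ℝ, (y 0) ^ k * g ((y 0)⁻¹ • Fin.tail y) * coneDens K y =
      ((Nat.factorial (n + k) : ℝ) / (Nat.factorial n : ℝ)) * ((∫ x in K, g x) / (volume K).toReal) := by
  rw [coneInt_eq]
  have h1 := (volume_preserving_piFinSuccAbove (fun _ : Fin (n + 1) => ℝ) 0).integral_comp'
    (coneIntF k ((Nat.factorial n : ℝ) * (volume K).toReal) (K.indicator g))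
  refine h1.trans ?_
  rw [Measure.volume_eq_prod, integral_prod _ (coneInt_ind hK k hg)]
  simp only [coneInt_fibre]
  rw [integral_indicator measurableSet_Ioi, integral_mul_const, (coneInt_gamma (n + k)).2,
    integral_indicator hK.measurableSet]
  have hv := (vol_pos hK hKi).ne'
  have hf : (Nat.factorial n : ℝ) ≠ 0 := by exact_mod_cast (Nat.factorial_pos n).ne'
  field_simp

theorem coneDens_integral (hK : IsCompact K) (hKi : (interior K).Nonempty) :
    ∫ y, coneDens K y = 1 := by
  have h := cone_integral hK hKi 0 (fun _ => 1) continuous_const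
  have hv := (vol_pos hK hKi).ne'
  have hf : (Nat.factorial n : ℝ) ≠ 0 := by exact_mod_cast (Nat.factorial_pos n).ne'
  simp only [pow_zero, mul_one, one_mul, add_zero, integral_const, smul_eq_mul,
    measureReal_restrict_apply_univ] at h
  rw [h, div_self hf, measureReal_def, div_self hv, one_mul]

theorem coneDens_entropy (hK : IsCompact K) (hKi : (interior K).Nonempty) :
    diffEntropy (coneDens K) =
      ((n + 1 : ℕ) : ℝ) + Real.log ((Nat.factorial n : ℝ) * (volume K).toReal) := by
  have hv := vol_pos hK hKi
  have hf : (0 : ℝ) < Nat.factorial n := by exact_mod_cast Nat.factorial_pos n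
  have h1 := cone_integral hK hKi 1 (fun _ => 1) continuous_const
  have i1 := cone_integrable hK 1 (fun _ => 1) continuous_const
  have i0 := cone_integrable hK 0 (fun _ => 1) continuous_const
  have h0 := coneDens_integral hK hKi
  simp only [pow_zero, pow_one, mul_one, one_mul, integral_const, smul_eq_mul,
    measureReal_restrict_apply_univ] at h1 i1 i0
  rw [measureReal_def, div_self hv.ne', mul_one, Nat.factorial_succ, Nat.cast_mul, mul_div_assoc,
    div_self hf.ne', mul_one] at h1
  set L := Real.log ((Nat.factorial n : ℝ) * (volume K).toReal) with hL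
  have key : ∀ y, coneDens K y * Real.log (coneDens K y) =
      -(y 0 * coneDens K y + L * coneDens K y) := by
    intro y
    by_cases hy : y ∈ coneSet K
    · have : Real.log (coneDens K y) = - y 0 - L := by
        rw [coneDens, Set.indicator_of_mem hy, Real.log_div (Real.exp_pos _).ne' (by positivity),
          Real.log_exp]
      rw [this]
      ring
    · rw [coneDens, Set.indicator_of_notMem hy]
      ring
  rw [diffEntropy]
  simp only [key]
  rw [integral_neg, neg_neg, integral_add i1 (i0.const_mul L), integral_const_mul, h1, h0, mul_one]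

end Crest.Agent.R253
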