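import Crest.Agent.R253.ConeCov
import Crest.Agent.R253.ConeEq

/-!
# Row 253: S0390 from S0391
-/

set_option autoImplicit false
open MeasureTheory Crest.GeometryTopology.Isotropic
open scoped Pointwise

noncomputable section
namespace Crest.Agent.R253

theorem s0390_of_stmt391 (H : Stmt391) (n : ℕ)
    (K : Set (Fin n → ℝ)) (hK : IsCompact K) (hKc : Convex ℝ K) (hKi : (interior K).Nonempty) :
    (covMatrix K).det * ((n : ℝ) + 1) ^ (n + 1) * ((n : ℝ) + 2) ^ n ≤
        (Nat.factorial n : ℝ) ^ 2 * (volume K).toReal ^ 2 ∧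
      ((covMatrix K).det * ((n : ℝ) + 1) ^ (n + 1) * ((n : ℝ) + 2) ^ n =
          (Nat.factorial n : ℝ) ^ 2 * (volume K).toReal ^ 2 ↔
        ∃ v : Fin (n + 1) → (Fin n → ℝ), AffineIndependent ℝ v ∧ K = convexHull ℝ (Set.range v)) := by
  have hcv : Convex ℝ {y | 0 < coneDens K y} := by
    rw [coneDens_pos_set hK hKi]; exact coneSet_convex hKc
  obtain ⟨h1, h2⟩ := H (n + 1) (Nat.le_add_left 1 n) (coneDens K) (coneDens_measurable hK)
    coneDens_nonneg (coneDens_integral hK hKi) hcv (coneDens_logConcave hK hKc hKi)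
  rw [coneDens_entropy hK hKi, coneDens_cov_det hK hKi] at h1 h2
  set A := (covMatrix K).det * ((n : ℝ) + 1) ^ (n + 1) * ((n : ℝ) + 2) ^ n with hA
  set B := (Nat.factorial n : ℝ) * (volume K).toReal with hB
  have hApos : 0 < A := by
    have := covMatrix_det_pos hK hKi
    positivity
  have hBpos : 0 < B := by
    have := vol_pos hK hKi
    have h3 : (0 : ℝ) < Nat.factorial n := by exact_mod_cast Nat.factorial_pos n
    positivity
  have hB2 : (Nat.factorial n : ℝ) ^ 2 * (volume K).toReal ^ 2 = B ^ 2 := by rw [hB]; ring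
  have hlog : Real.log (B ^ 2) = 2 * Real.log B := by rw [Real.log_pow]; norm_num
  rw [hB2]
  refine ⟨?_, ?_⟩
  · rw [← Real.log_le_log_iff hApos (by positivity), hlog]; linarith
  · have h3 : A = B ^ 2 ↔ ((n + 1 : ℕ) : ℝ) + Real.log B = ((n + 1 : ℕ) : ℝ) + Real.log A / 2 := by
      constructor
      · intro h; rw [h, hlog]; ring
      · intro h
        apply Real.log_injOn_pos (Set.mem_Ioi.2 hApos) (Set.mem_Ioi.2 (by positivity))
        rw [hlog]; linarith
    rw [h3, h2]
    constructor
    · rintro ⟨M, b, hM, h⟩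
      exact simplex_of_expDens hK hKc hKi M b hM h
    · rintro ⟨v, hv, hKv⟩
      exact expDens_of_simplex hK hKi v hv hKv

end Crest.Agent.R253
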