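import Crest.Agent.R253.SFPair1

/-!
# Row 253: the second pair inequality and the three-variable Bochner inequality

For `b < a`, `Δ = u_a - u_b`: `trap` applied to `x - κ` (`φ₁ = κ`, `(φ₁)_u = p m` increasing), to `x + κ`
(`φ₂ = (1 + p) m`, `(φ₂)_u = (2ν - p) m`, whose `u`-derivative is `m Θ ≥ 0`, `theta_nonneg`) and to `x`
(`φ = m`, `m_u = ν m` increasing).  `φ₁ φ₂ = 2 ξ`, both increasing, so (Chebyshev)
`(a - b)² - (κ_a - κ_b)² ≤ Δ² (ξ_a + ξ_b)`; `(a - b)² ≤ Δ² ((m_a + m_b)/2)² ≤ Δ² (4/3) (ξ_a + ξ_b)`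
(`p < 1/2`); `(h_a - h_b)² = h_a h_b (e^Δ + e^{-Δ} - 2) ≥ h_a h_b (Δ² + Δ⁴/12 + Δ⁶/360)`.
-/

set_option autoImplicit false
open Filter Topology Set
open scoped BigOperators

noncomputable section
namespace Crest.Agent.R253
open Crest.Agent.R238 Crest.Agent.R215

/-- `ξ = h β' + β`. -/
def xi (x : ℝ) : ℝ := (1 - pp x ^ 2) * mm x ^ 2 / 2

theorem xi_eq (x : ℝ) : xi x = lam x * bh1 x + be x := by
  have h1 := (mu_pos x).ne'
  have h2 := (lam_pos x).ne'
  have h3 := mu_mul_mm x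
  have hm : mm x = (mu x)⁻¹ := rfl
  simp only [xi, bh1, be, be1, lam1_eq, kap_eq, hm]
  field_simp
  ring

/-- Trapezoid rule for functions which are convex in the variable `u`. -/
theorem trap {Φ φ φ₁ : ℝ → ℝ} (hΦ : ∀ x, HasDerivAt Φ (φ x * mu x) x)
    (hφ : ∀ x, HasDerivAt φ (φ₁ x * mu x) x) (hm : Monotone φ₁) {a b : ℝ} (h : b ≤ a) :
    Φ a - Φ b ≤ (uu a - uu b) * (φ a + φ b) / 2 := by
  have key : ∀ x, b ≤ x → φ x - φ b ≤ φ₁ x * (uu x - uu b) := by
    intro x hx
    have hd : ∀ y, HasDerivAt (fun y => φ y - φ₁ x * uu y) (φ₁ y * mu y - φ₁ x * mu y) y :=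
      fun y => (hφ y).sub ((hasDerivAt_uu y).const_mul (φ₁ x))
    have hanti : AntitoneOn (fun y => φ y - φ₁ x * uu y) (Iic x) := by
      refine antitoneOn_of_deriv_nonpos (convex_Iic x)
        (fun y _ => (hd y).continuousAt.continuousWithinAt)
        (fun y _ => (hd y).differentiableAt.differentiableWithinAt) fun y hy => ?_
      rw [interior_Iic] at hy
      rw [(hd y).deriv]
      have := hm (le_of_lt hy)
      nlinarith [mu_pos y]
    have := hanti (mem_Iic.2 hx) (mem_Iic.2 le_rfl) hx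
    simp only at this
    nlinarith
  have hd : ∀ y, HasDerivAt (fun y => (uu y - uu b) * (φ y + φ b) / 2 - Φ y)
      ((mu y * (φ y + φ b) + (uu y - uu b) * (φ₁ y * mu y)) / 2 - φ y * mu y) y :=
    fun y => ((((hasDerivAt_uu y).sub_const (uu b)).mul ((hφ y).add_const (φ b))).div_const 2).sub (hΦ y)
  have hmono : MonotoneOn (fun y => (uu y - uu b) * (φ y + φ b) / 2 - Φ y) (Ici b) := by
    refine monotoneOn_of_deriv_nonneg (convex_Ici b)
      (fun y _ => (hd y).continuousAt.continuousWithinAt)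
      (fun y _ => (hd y).differentiableAt.differentiableWithinAt) fun y hy => ?_
    rw [interior_Ici] at hy
    rw [(hd y).deriv]
    have h1 := key y (le_of_lt hy)
    have h2 := mul_le_mul_of_nonneg_left h1 (mu_pos y).le
    nlinarith
  have := hmono (mem_Ici.2 le_rfl) (mem_Ici.2 h) h
  simp only at this
  nlinarith

theorem cosh_low (t : ℝ) : t ^ 2 + t ^ 4 / 12 + t ^ 6 / 360 ≤ Real.exp t + Real.exp (-t) - 2 := by
  have h := sum_le_hasSum (Finset.range 4)
    (fun n _ => div_nonneg (by rw [pow_mul]; positivity) (by positivity)) (Real.hasSum_cosh t)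
  rw [Real.cosh_eq] at h
  simp only [Finset.sum_range_succ, Finset.sum_range_zero] at h
  norm_num [Nat.factorial] at h
  linarith

theorem SFPair2_xi_low (x : ℝ) : mm x ^ 2 / 2 ≤ 4 / 3 * xi x := by
  have h1 := pp_pos x
  have h2 := pp_lt_half x
  have h3 : 0 ≤ mm x ^ 2 := sq_nonneg _
  have h4 : 3 / 4 ≤ 1 - pp x ^ 2 := by nlinarith
  unfold xi
  nlinarith

theorem SFPair2_xi_nonneg (x : ℝ) : 0 ≤ xi x := by
  have := SFPair2_xi_low x
  nlinarith [sq_nonneg (mm x)]

theorem SFPair2_mono_mul {f g : ℝ → ℝ} (hf : Monotone f) (hg : Monotone g) (h0 : ∀ x, 0 ≤ f x)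
    (h1 : ∀ x, 0 ≤ g x) : Monotone fun x => f x * g x :=
  fun _ y h => mul_le_mul (hf h) (hg h) (h1 _) (h0 y)

theorem SFPair2_t1 {a b : ℝ} (h : b ≤ a) :
    (a - kap a) - (b - kap b) ≤ (uu a - uu b) * (kap a + kap b) / 2 := by
  refine trap (Φ := fun x => x - kap x) (φ := kap) (φ₁ := fun x => pp x * mm x) (fun x => ?_)
    (fun x => ?_) (SFPair2_mono_mul monotone_pp strictMono_mm.monotone (fun x => (pp_pos x).le)
      fun x => (mm_pos x).le) h
  · refine ((hasDerivAt_id x).sub (hasDerivAt_kap x)).congr_deriv ?_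
    rw [kap_eq]
    linear_combination (-(1 - pp x)) * mu_mul_mm x
  · refine (hasDerivAt_kap x).congr_deriv ?_
    linear_combination (-pp x) * mu_mul_mm x

theorem SFPair2_mono2 : Monotone fun x => (2 * nu x - pp x) * mm x := by
  have hd : ∀ x, HasDerivAt (fun x => (2 * nu x - pp x) * mm x)
      ((2 * (DD x * mu x) - k2 x) * mm x + (2 * nu x - pp x) * nu x) x := fun x =>
    (((hasDerivAt_nu x).const_mul 2).sub (hasDerivAt_pp x)).mul (hasDerivAt_mm x)
  refine monotone_of_deriv_nonneg (fun x => (hd x).differentiableAt) fun x => ?_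
  rw [(hd x).deriv]
  have e : (2 * (DD x * mu x) - k2 x) * mm x + (2 * nu x - pp x) * nu x =
      2 * DD x + 2 * nu x ^ 2 + pp x - nu x := by
    simp only [k2, qq]
    linear_combination (2 * DD x - (nu x * (1 - pp x) - pp x)) * mu_mul_mm x
  rw [e]
  exact theta_nonneg x

theorem SFPair2_t2 {a b : ℝ} (h : b ≤ a) :
    (a + kap a) - (b + kap b) ≤ (uu a - uu b) * ((1 + pp a) * mm a + (1 + pp b) * mm b) / 2 := by
  refine trap (Φ := fun x => x + kap x) (φ := fun x => (1 + pp x) * mm x)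
    (φ₁ := fun x => (2 * nu x - pp x) * mm x) (fun x => ?_) (fun x => ?_) SFPair2_mono2 h
  · refine ((hasDerivAt_id x).add (hasDerivAt_kap x)).congr_deriv ?_
    linear_combination (-(1 + pp x)) * mu_mul_mm x
  · refine (((hasDerivAt_pp x).const_add 1).mul (hasDerivAt_mm x)).congr_deriv ?_
    simp only [k2, qq]
    linear_combination (-((1 + pp x) * nu x)) * mu_mul_mm x

theorem SFPair2_t3 {a b : ℝ} (h : b ≤ a) : a - b ≤ (uu a - uu b) * (mm a + mm b) / 2 := by
  refine trap (Φ := fun x => x) (φ := mm) (φ₁ := fun x => nu x * mm x) (fun x => ?_)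
    (fun x => ?_) (SFPair2_mono_mul strictMono_nu.monotone strictMono_mm.monotone
      (fun x => (nu_pos x).le) fun x => (mm_pos x).le) h
  · refine (hasDerivAt_id x).congr_deriv ?_
    linear_combination -mu_mul_mm x
  · refine (hasDerivAt_mm x).congr_deriv ?_
    linear_combination (-nu x) * mu_mul_mm x

theorem SFPair2_lt {a b : ℝ} (h : b < a) :
    lam a * lam b * (1 - dd kap pp a b ^ 2 + (uu a - uu b) ^ 2 / 16 + (uu a - uu b) ^ 4 / 480) ≤
      (xi a + xi b) * ell a b ^ 2 := by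
  set Δ := uu a - uu b with hΔ
  have hΔ0 : 0 ≤ Δ := sub_nonneg.2 (strictMono_uu.monotone h.le)
  have hd : 0 < a - b := sub_pos.2 h
  have hk : kap b ≤ kap a := monotone_kap h.le
  have hS : 0 ≤ xi a + xi b := add_nonneg (SFPair2_xi_nonneg a) (SFPair2_xi_nonneg b)
  have t1 := SFPair2_t1 h.le
  have t2 := SFPair2_t2 h.le
  have t3 := SFPair2_t3 h.le
  rw [← hΔ] at t1 t2 t3
  have hφ2 : (1 + pp b) * mm b ≤ (1 + pp a) * mm a :=
    mul_le_mul (by linarith [monotone_pp h.le]) (strictMono_mm.monotone h.le) (mm_pos b).le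
      (by linarith [pp_pos a])
  have e1 : ∀ x, kap x * ((1 + pp x) * mm x) = 2 * xi x := fun x => by
    rw [kap_eq, xi]; ring
  have hA : (a - b) ^ 2 - (kap a - kap b) ^ 2 ≤ Δ ^ 2 * (xi a + xi b) := by
    have h1 : ((a - kap a) - (b - kap b)) * ((a + kap a) - (b + kap b)) ≤
        (Δ * (kap a + kap b) / 2) * (Δ * ((1 + pp a) * mm a + (1 + pp b) * mm b) / 2) :=
      mul_le_mul t1 t2 (by linarith)
        (by have := kap_pos a; have := kap_pos b; positivity)
    have h2 : (kap a + kap b) * ((1 + pp a) * mm a + (1 + pp b) * mm b) ≤ 4 * (xi a + xi b) := by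
      have h3 := mul_nonneg (sub_nonneg.2 hk) (sub_nonneg.2 hφ2)
      nlinarith [e1 a, e1 b]
    have h3 := mul_le_mul_of_nonneg_left h2 (sq_nonneg Δ)
    nlinarith
  have hB : (a - b) ^ 2 ≤ Δ ^ 2 * (4 / 3 * (xi a + xi b)) := by
    have h1 : (a - b) ^ 2 ≤ (Δ * (mm a + mm b) / 2) ^ 2 := pow_le_pow_left₀ hd.le t3 2
    have h2 : ((mm a + mm b) / 2) ^ 2 ≤ 4 / 3 * (xi a + xi b) := by
      nlinarith [SFPair2_xi_low a, SFPair2_xi_low b, sq_nonneg (mm a - mm b)]
    have h3 := mul_le_mul_of_nonneg_left h2 (sq_nonneg Δ)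
    nlinarith
  have hH : 0 < lam a * lam b := mul_pos (lam_pos a) (lam_pos b)
  have hC : lam a * lam b * (Δ ^ 2 + Δ ^ 4 / 12 + Δ ^ 6 / 360) ≤ (lam a - lam b) ^ 2 := by
    have h1 := mul_le_mul_of_nonneg_left (cosh_low Δ) hH.le
    have h2 : lam a * lam b * (Real.exp Δ + Real.exp (-Δ) - 2) = (lam a - lam b) ^ 2 := by
      rw [Real.exp_neg, hΔ, Real.exp_sub, exp_uu, exp_uu]
      have := (lam_pos a).ne'
      have := (lam_pos b).ne'
      field_simp
      ring
    linarith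
  have eK : dd kap pp a b * (a - b) = kap a - kap b := dd_mul _ _ _ _
  have eL : ell a b * (a - b) = lam a - lam b := dd_mul _ _ _ _
  refine le_of_mul_le_mul_right ?_ (pow_pos hd 2)
  have hw : 0 ≤ Δ ^ 2 / 16 + Δ ^ 4 / 480 := by positivity
  have hB' := mul_le_mul_of_nonneg_right hB hw
  calc lam a * lam b * (1 - dd kap pp a b ^ 2 + Δ ^ 2 / 16 + Δ ^ 4 / 480) * (a - b) ^ 2
      = lam a * lam b * (((a - b) ^ 2 - (kap a - kap b) ^ 2) +
          (a - b) ^ 2 * (Δ ^ 2 / 16 + Δ ^ 4 / 480)) := by rw [← eK]; ring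
    _ ≤ lam a * lam b * (Δ ^ 2 * (xi a + xi b) +
          Δ ^ 2 * (4 / 3 * (xi a + xi b)) * (Δ ^ 2 / 16 + Δ ^ 4 / 480)) :=
        mul_le_mul_of_nonneg_left (add_le_add hA hB') hH.le
    _ = (xi a + xi b) * (lam a * lam b * (Δ ^ 2 + Δ ^ 4 / 12 + Δ ^ 6 / 360)) := by ring
    _ ≤ (xi a + xi b) * (lam a - lam b) ^ 2 := mul_le_mul_of_nonneg_left hC hS
    _ = (xi a + xi b) * ell a b ^ 2 * (a - b) ^ 2 := by rw [← eL]; ring

theorem pair2 (a b : ℝ) :
    lam a * lam b * (1 - dd kap pp a b ^ 2 + (uu a - uu b) ^ 2 / 16 + (uu a - uu b) ^ 4 / 480) ≤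
      (xi a + xi b) * ell a b ^ 2 := by
  rcases lt_trichotomy a b with h | h | h
  · have := SFPair2_lt h
    rw [dd_symm kap pp b a, ell_symm b a] at this
    have e2 : (uu b - uu a) ^ 2 = (uu a - uu b) ^ 2 := by ring
    have e4 : (uu b - uu a) ^ 4 = (uu a - uu b) ^ 4 := by ring
    rw [e2, e4, mul_comm (lam b), add_comm (xi b)] at this
    exact this
  · subst h
    apply le_of_eq
    rw [ell, dd_self, dd_self, lam1_eq, xi]
    have h := mu_mul_mm a
    have h2 : (mu a * mm a) ^ 2 = 1 := by rw [h]; norm_num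
    linear_combination (-(lam a ^ 2 * (1 - pp a ^ 2))) * h2
  · exact SFPair2_lt h

/-- The symbol to be dominated. -/
def tgt (a b : ℝ) : ℝ :=
  ((1 - dd kap pp a b ^ 2) / 2 + (uu a - uu b) ^ 2 / 32 + (uu a - uu b) ^ 4 / 960) / ell a b ^ 2

/-- The Bochner symbol. -/
def wgt (a b c : ℝ) : ℝ := dd be be1 a b / (ell a b * lam c) + be c / (lam a * lam b)

theorem SFPair2_tgt (a b : ℝ) : tgt a b * (lam a * lam b) ≤ (xi a + xi b) / 2 := by
  have h := pair2 a b
  have hl : 0 < ell a b ^ 2 := pow_pos (ell_pos a b) 2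
  rw [tgt, div_mul_eq_mul_div, div_le_iff₀ hl]
  linarith

theorem SFPair2_be (a b : ℝ) : dd be be1 a b / ell a b * (lam a - lam b) = be a - be b := by
  have eL : ell a b * (a - b) = lam a - lam b := dd_mul _ _ _ _
  rw [← eL, ← dd_mul be be1 a b]
  have := (ell_pos a b).ne'
  field_simp

theorem SFPair2_wgt (a b c : ℝ) : wgt a b c * (lam a * lam b * lam c) =
    dd be be1 a b / ell a b * (lam a * lam b) + be c * lam c := by
  have := (ell_pos a b).ne'
  have := (lam_pos a).ne'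
  have := (lam_pos b).ne'
  have := (lam_pos c).ne'
  rw [wgt]
  field_simp

/-- Multiply by `h_a h_b h_c`; use `pair2` (`tgt a b * h_a h_b ≤ (ξ_a + ξ_b) / 2`), `xi_eq`, `pair1` three
times and `β_a - β_b = (dd be be1 a b / ell a b) (h_a - h_b)` (`dd_mul`). -/
theorem three_var (a b c : ℝ) :
    tgt a b + tgt b c + tgt c a ≤ wgt a b c + wgt b c a + wgt c a b := by
  have ha := lam_pos a
  have hb := lam_pos b
  have hc := lam_pos c
  refine le_of_mul_le_mul_right ?_ (show 0 < lam a * lam b * lam c by positivity)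
  have w1 := SFPair2_wgt a b c
  have w2 := SFPair2_wgt b c a
  have w3 := SFPair2_wgt c a b
  have t1 := mul_le_mul_of_nonneg_right (SFPair2_tgt a b) hc.le
  have t2 := mul_le_mul_of_nonneg_right (SFPair2_tgt b c) ha.le
  have t3 := mul_le_mul_of_nonneg_right (SFPair2_tgt c a) hb.le
  rw [xi_eq, xi_eq] at t1 t2 t3
  have p1 := pair1 a b
  have p2 := pair1 b c
  have p3 := pair1 c a
  have b1 := SFPair2_be a b
  have b2 := SFPair2_be b c
  have b3 := SFPair2_be c a
  generalize dd be be1 a b / ell a b = s1 at *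
  generalize dd be be1 b c / ell b c = s2 at *
  generalize dd be be1 c a / ell c a = s3 at *
  have c1 : s1 * (lam a - lam b) ^ 2 = (be a - be b) * (lam a - lam b) := by rw [← b1]; ring
  have c2 : s2 * (lam b - lam c) ^ 2 = (be b - be c) * (lam b - lam c) := by rw [← b2]; ring
  have c3 : s3 * (lam c - lam a) ^ 2 = (be c - be a) * (lam c - lam a) := by rw [← b3]; ring
  nlinarith

end Crest.Agent.R253
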