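import Crest.Agent.R253.SFFacts
import Crest.Agent.R253.MF2

/-!
# Row 253: symbols of the left and right multiplication errors

If `|f''| ≤ L μ` then `|f' x - f' a| ≤ L |u x - u a|`, so by `dd_eq_integral`
`|f[a,b] - f' a| ≤ L A`, `|f[a,b] - f' b| ≤ L A'`, where `A, A' ≥ 0` are the averages over the segment of
`|u - u a|`, `|u - u b|` and `A + A' = |u a - u b|` as `u` is monotone.
-/

set_option autoImplicit false
open Filter Topology Set
open scoped BigOperators

noncomputable section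
namespace Crest.Agent.R253
open Crest.Agent.R238 Crest.Agent.R215

/-- A symbol bounded by the `u`-distance. -/
def Sy (L : ℝ) (s : ℝ → ℝ → ℝ) : Prop := ∀ a b, s a b ^ 2 + s b a ^ 2 ≤ L ^ 2 * (uu a - uu b) ^ 2

/-- The symbol of the left multiplication error. -/
def sL (f f' : ℝ → ℝ) (a b : ℝ) : ℝ := dd f f' a b - f' a
/-- The symbol of the right multiplication error. -/
def sR (f f' : ℝ → ℝ) (a b : ℝ) : ℝ := dd f f' a b - f' b
/-- The average of `(p - p a)²` over `[a, b]`. -/
def spp (a b : ℝ) : ℝ := dd Pi (fun x => pp x ^ 2) a b - 2 * pp a * dd kap pp a b + pp a ^ 2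

theorem sfsym_lip {g g₂ : ℝ → ℝ} {L : ℝ} (hg : ∀ x, HasDerivAt g (g₂ x * mu x) x)
    (hL : ∀ x, |g₂ x| ≤ L) (x y : ℝ) : |g x - g y| ≤ L * |uu x - uu y| := by
  have h1 : Monotone fun x => L * uu x - g x :=
    monotone_of_hasDerivAt_nonneg (fun x => ((hasDerivAt_uu x).const_mul L).sub (hg x)) fun x => by
      have := mul_nonneg (sub_nonneg.2 (abs_le.1 (hL x)).2) (mu_pos x).le
      simp only [Pi.zero_apply]
      linarith
  have h2 : Monotone fun x => L * uu x + g x :=
    monotone_of_hasDerivAt_nonneg (fun x => ((hasDerivAt_uu x).const_mul L).add (hg x)) fun x => by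
      have := mul_nonneg (sub_nonneg.2 (abs_le.1 (hL x)).1) (mu_pos x).le
      simp only [Pi.zero_apply]
      linarith
  wlog h : x ≤ y generalizing x y
  · rw [abs_sub_comm, abs_sub_comm (uu x)]
    exact this y x (le_of_not_ge h)
  have h3 : L * uu x - g x ≤ L * uu y - g y := h1 h
  have h4 : L * uu x + g x ≤ L * uu y + g y := h2 h
  rw [abs_of_nonpos (sub_nonpos.2 (strictMono_uu.monotone h)), abs_le]
  constructor <;> linarith

theorem sfsym_seg (a b : ℝ) {t : ℝ} (ht : t ∈ Icc (0 : ℝ) 1) :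
    |uu ((1 - t) * a + t * b) - uu a| + |uu ((1 - t) * a + t * b) - uu b| = |uu a - uu b| := by
  have hm := strictMono_uu.monotone
  rcases le_total a b with h | h
  · have h1 : a ≤ (1 - t) * a + t * b := by nlinarith [ht.1, ht.2]
    have h2 : (1 - t) * a + t * b ≤ b := by nlinarith [ht.1, ht.2]
    rw [abs_of_nonneg (sub_nonneg.2 (hm h1)), abs_of_nonpos (sub_nonpos.2 (hm h2)),
      abs_of_nonpos (sub_nonpos.2 (hm h))]
    ring
  · have h1 : (1 - t) * a + t * b ≤ a := by nlinarith [ht.1, ht.2]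
    have h2 : b ≤ (1 - t) * a + t * b := by nlinarith [ht.1, ht.2]
    rw [abs_of_nonpos (sub_nonpos.2 (hm h1)), abs_of_nonneg (sub_nonneg.2 (hm h2)),
      abs_of_nonneg (sub_nonneg.2 (hm h))]
    ring

/-- The average of `|u - u c|` over the segment `[a, b]`. -/
def sfsymA (a b c : ℝ) : ℝ := ∫ t in (0 : ℝ)..1, |uu ((1 - t) * a + t * b) - uu c|

theorem sfsym_cont (a b c : ℝ) : Continuous fun t : ℝ => |uu ((1 - t) * a + t * b) - uu c| := by
  fun_prop

theorem sfsymA_nonneg (a b c : ℝ) : 0 ≤ sfsymA a b c :=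
  intervalIntegral.integral_nonneg zero_le_one fun _ _ => abs_nonneg _

theorem sfsymA_add (a b : ℝ) : sfsymA a b a + sfsymA a b b = |uu a - uu b| := by
  rw [sfsymA, sfsymA, ← intervalIntegral.integral_add ((sfsym_cont a b a).intervalIntegrable _ _)
    ((sfsym_cont a b b).intervalIntegrable _ _),
    intervalIntegral.integral_congr (g := fun _ => |uu a - uu b|) fun t ht =>
      sfsym_seg a b (by rwa [uIcc_of_le zero_le_one] at ht)]
  simp

theorem sfsym_sq {a b s s' M : ℝ} (h : |s| ≤ M * sfsymA a b a) (h' : |s'| ≤ M * sfsymA a b b) :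
    s ^ 2 + s' ^ 2 ≤ M ^ 2 * (uu a - uu b) ^ 2 := by
  have h1 := pow_le_pow_left₀ (abs_nonneg _) h 2
  have h2 := pow_le_pow_left₀ (abs_nonneg _) h' 2
  rw [sq_abs] at h1 h2
  rw [← sq_abs (uu a - uu b), ← sfsymA_add]
  nlinarith [mul_nonneg (sq_nonneg M) (mul_nonneg (sfsymA_nonneg a b a) (sfsymA_nonneg a b b))]

theorem sfsym_core {f f' f₂ : ℝ → ℝ} {L : ℝ} (hf : ∀ x, HasDerivAt f (f' x) x)
    (hf' : ∀ x, HasDerivAt f' (f₂ x * mu x) x) (hL : ∀ x, |f₂ x| ≤ L) (a b : ℝ) :
    (dd f f' a b - f' a) ^ 2 + (dd f f' a b - f' b) ^ 2 ≤ L ^ 2 * (uu a - uu b) ^ 2 := by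
  have cf : Continuous f' := continuous_iff_continuousAt.2 fun x => (hf' x).continuousAt
  have cz : Continuous fun t : ℝ => f' ((1 - t) * a + t * b) := by fun_prop
  have key : ∀ c, |dd f f' a b - f' c| ≤ L * sfsymA a b c := fun c => by
    have e : dd f f' a b - f' c = ∫ t in (0 : ℝ)..1, (f' ((1 - t) * a + t * b) - f' c) := by
      rw [dd_eq_integral convex_univ (fun x _ => hf x) cf.continuousOn (mem_univ a) (mem_univ b),
        intervalIntegral.integral_sub (cz.intervalIntegrable _ _)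
        (continuous_const.intervalIntegrable _ _)]
      simp
    rw [e, sfsymA, ← intervalIntegral.integral_const_mul]
    refine (intervalIntegral.abs_integral_le_integral_abs zero_le_one).trans ?_
    exact intervalIntegral.integral_mono_on zero_le_one
      ((cz.sub continuous_const).abs.intervalIntegrable _ _)
      (((sfsym_cont a b c).const_mul _).intervalIntegrable _ _) fun t _ => sfsym_lip hf' hL _ _
  exact sfsym_sq (key a) (key b)

theorem sy_left {f f' f₂ : ℝ → ℝ} {L : ℝ} (hf : ∀ x, HasDerivAt f (f' x) x)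
    (hf' : ∀ x, HasDerivAt f' (f₂ x * mu x) x) (hL : ∀ x, |f₂ x| ≤ L) : Sy L (sL f f') := by
  intro a b
  simp only [sL]
  rw [dd_symm f f' b a]
  exact sfsym_core hf hf' hL a b

theorem sy_right {f f' f₂ : ℝ → ℝ} {L : ℝ} (hf : ∀ x, HasDerivAt f (f' x) x)
    (hf' : ∀ x, HasDerivAt f' (f₂ x * mu x) x) (hL : ∀ x, |f₂ x| ≤ L) : Sy L (sR f f') := by
  intro a b
  simp only [sR]
  rw [dd_symm f f' b a, add_comm]
  exact sfsym_core hf hf' hL a b

/-- `0 ≤ spp a b ≤ L² |u a - u b| A` with `L = 1/10`. -/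
theorem sy_pp (a b : ℝ) : spp a b ^ 2 + spp b a ^ 2 ≤ (1 / 10) ^ 4 * ((uu a - uu b) ^ 2) ^ 2 := by
  have hq : ∀ x, |qq x| ≤ 1 / 10 := fun x => by
    rw [abs_of_nonneg (qq_nonneg x)]; exact (sfp x).f1
  have cz : Continuous fun t : ℝ => (1 - t) * a + t * b := by fun_prop
  have cp : Continuous fun t : ℝ => pp ((1 - t) * a + t * b) := continuous_pp.comp cz
  have key : ∀ c, (∀ t ∈ Icc (0 : ℝ) 1, |uu ((1 - t) * a + t * b) - uu c| ≤ |uu a - uu b|) →
      |dd Pi (fun x => pp x ^ 2) a b - 2 * pp c * dd kap pp a b + pp c ^ 2| ≤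
        (1 / 10) ^ 2 * |uu a - uu b| * sfsymA a b c := fun c hc => by
    have e : dd Pi (fun x => pp x ^ 2) a b - 2 * pp c * dd kap pp a b + pp c ^ 2 =
        ∫ t in (0 : ℝ)..1, (pp ((1 - t) * a + t * b) - pp c) ^ 2 := by
      rw [dd_eq_integral convex_univ (fun x _ => hasDerivAt_Pi x)
        (continuous_pp.pow 2).continuousOn (mem_univ a) (mem_univ b),
        dd_eq_integral convex_univ (fun x _ => hasDerivAt_kap x) continuous_pp.continuousOn
        (mem_univ a) (mem_univ b)]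
      have e2 : ∀ t : ℝ, (pp ((1 - t) * a + t * b) - pp c) ^ 2 =
          pp ((1 - t) * a + t * b) ^ 2 - 2 * pp c * pp ((1 - t) * a + t * b) + pp c ^ 2 :=
        fun t => by ring
      simp only [e2]
      rw [intervalIntegral.integral_add (Continuous.intervalIntegrable (by fun_prop) _ _)
        (continuous_const.intervalIntegrable _ _),
        intervalIntegral.integral_sub (Continuous.intervalIntegrable (by fun_prop) _ _)
        (Continuous.intervalIntegrable (by fun_prop) _ _), intervalIntegral.integral_const_mul]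
      simp
    rw [e, abs_of_nonneg (intervalIntegral.integral_nonneg zero_le_one fun t _ => sq_nonneg _),
      sfsymA, ← intervalIntegral.integral_const_mul]
    refine intervalIntegral.integral_mono_on zero_le_one
      (((cp.sub continuous_const).pow 2).intervalIntegrable _ _)
      (((sfsym_cont a b c).const_mul _).intervalIntegrable _ _) fun t ht => ?_
    have h1 := sfsym_lip hasDerivAt_pp hq ((1 - t) * a + t * b) c
    have h2 := hc t ht
    have h3 := abs_nonneg (uu ((1 - t) * a + t * b) - uu c)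
    rw [← sq_abs]
    refine (pow_le_pow_left₀ (abs_nonneg _) h1 2).trans ?_
    nlinarith [mul_le_mul_of_nonneg_right h2 h3]
  have h1 := key a fun t ht => by
    linarith [sfsym_seg a b ht, abs_nonneg (uu ((1 - t) * a + t * b) - uu b)]
  have h2 := key b fun t ht => by
    linarith [sfsym_seg a b ht, abs_nonneg (uu ((1 - t) * a + t * b) - uu a)]
  have h3 := sfsym_sq h1 h2
  simp only [spp]
  rw [dd_symm Pi _ b a, dd_symm kap _ b a]
  refine h3.trans_eq ?_
  rw [mul_pow, sq_abs]
  ring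

/-- The far test function `Ω - κ`, with derivative `φ = κ κ''`. -/
def F2 (x : ℝ) : ℝ := Om x - kap x
/-- `Ω - Π`. -/
def A1 (x : ℝ) : ℝ := Om x - Pi x + 0 * ee x
/-- `A1'`. -/
def A1' (x : ℝ) : ℝ := om x - pp x ^ 2 + 0 * ee1 x
/-- `Ω - κ - Π + ee / 4`. -/
def A2 (x : ℝ) : ℝ := F2 x - Pi x + 1 / 4 * ee x
/-- `A2'`. -/
def A2' (x : ℝ) : ℝ := ph x - pp x ^ 2 + 1 / 4 * ee1 x

theorem hasDerivAt_F2 (x : ℝ) : HasDerivAt F2 (ph x) x := by
  have h := (hasDerivAt_Om x).sub (hasDerivAt_kap x)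
  rw [show om x - pp x = ph x by rw [om]; ring] at h
  exact h

theorem sy_kap : Sy (1 / 10) (sL kap pp) := by
  exact sy_left hasDerivAt_kap hasDerivAt_pp fun x => by
    rw [abs_of_nonneg (qq_nonneg x)]; exact (sfp x).f1
theorem sy_pp' : Sy (9 / 200) (sL pp k2) := by
  exact sy_left hasDerivAt_pp hasDerivAt_k2 fun x => (sfp x).f2
theorem sy_Pi : Sy (3 / 40) (sL Pi fun x => pp x ^ 2) := by
  exact sy_left hasDerivAt_Pi hasDerivAt_pp_sq fun x => by
    rw [abs_of_nonneg (mul_nonneg (mul_nonneg zero_le_two (pp_pos x).le) (qq_nonneg x))]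
    exact (sfp x).f5
theorem sy_Om : Sy (1 / 10) (sR Om om) := by
  exact sy_right hasDerivAt_Om hasDerivAt_om fun x => (sfp x).f3
theorem sy_F2 : Sy (9 / 250) (sR F2 ph) := by
  exact sy_right hasDerivAt_F2 hasDerivAt_ph fun x => (sfp x).f6
theorem sy_A1 : Sy (3 / 50) (sL A1 A1') := by
  refine sy_left (f₂ := fun x => omu x - 2 * pp x * qq x) (fun x => ?_) (fun x => ?_)
    fun x => (sfp x).f4
  · exact ((hasDerivAt_Om x).sub (hasDerivAt_Pi x)).add ((hasDerivAt_ee x).const_mul 0)
  · have h := ((hasDerivAt_om x).sub (hasDerivAt_pp_sq x)).add ((hasDerivAt_ee1 x).const_mul 0)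
    rw [show omu x * mu x - 2 * pp x * qq x * mu x + 0 * ee2 x =
      (omu x - 2 * pp x * qq x) * mu x by ring] at h
    exact h
theorem sy_A2 : Sy (17 / 250) (sL A2 A2') := by
  refine sy_left (f₂ := fun x => phu x - 2 * pp x * qq x + ee2 x * mm x / 4) (fun x => ?_)
    (fun x => ?_) fun x => (sfp x).f7
  · exact ((hasDerivAt_F2 x).sub (hasDerivAt_Pi x)).add ((hasDerivAt_ee x).const_mul (1 / 4))
  · have h := ((hasDerivAt_ph x).sub (hasDerivAt_pp_sq x)).add
      ((hasDerivAt_ee1 x).const_mul (1 / 4))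
    rw [show phu x * mu x - 2 * pp x * qq x * mu x + 1 / 4 * ee2 x =
      (phu x - 2 * pp x * qq x + ee2 x * mm x / 4) * mu x by
        linear_combination (-(ee2 x) / 4) * mu_mul_mm x] at h
    exact h

end Crest.Agent.R253
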