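import Crest.Agent.R253.CM
import Crest.Agent.R253.SFPair2
import Crest.Agent.R253.SFSym

/-!
# Row 253: the Bochner inequality tested with `κ(M)² / 2`
-/

set_option autoImplicit false
open MeasureTheory Matrix Filter Topology
open scoped ContDiff BigOperators

noncomputable section
namespace Crest.Agent.R253
open Crest.Agent.R238 Crest.Agent.R215

variable {n : ℕ}

theorem CoreB_sym (F t : Fin n → Fin n → Fin n → ℝ) (h1 : ∀ a b c, t a b c = t b a c)
    (h2 : ∀ a b c, t a b c = t a c b)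
    (hF : ∀ a b c, 0 ≤ F a b c + F b a c + F b c a + F c b a + F c a b + F a c b) :
    0 ≤ ∑ a, ∑ b, ∑ c, F a b c * t a b c ^ 2 := by
  set S : (Fin n → Fin n → Fin n → ℝ) → ℝ := fun F => ∑ a, ∑ b, ∑ c, F a b c * t a b c ^ 2 with hS
  have s1 : ∀ F, S (fun a b c => F b a c) = S F := fun F => by
    simp only [hS]
    rw [Finset.sum_comm]
    exact Finset.sum_congr rfl fun a _ => Finset.sum_congr rfl fun b _ =>
      Finset.sum_congr rfl fun c _ => by rw [h1 b a c]
  have s2 : ∀ F, S (fun a b c => F a c b) = S F := fun F => by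
    simp only [hS]
    refine Finset.sum_congr rfl fun a _ => ?_
    rw [Finset.sum_comm]
    exact Finset.sum_congr rfl fun b _ => Finset.sum_congr rfl fun c _ => by rw [h2 a c b]
  have e1 := s1 F
  have e2 := s2 F
  have e3 : S (fun a b c => F b c a) = S F := (s1 fun a b c => F a c b).trans e2
  have e4 : S (fun a b c => F c a b) = S F := (s2 fun a b c => F b a c).trans e1
  have e5 : S (fun a b c => F c b a) = S F := (s1 fun a b c => F c a b).trans e4
  have h0 : 0 ≤ S (fun a b c => F a b c + F b a c + F b c a + F c b a + F c a b + F a c b) :=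
    Finset.sum_nonneg fun a _ => Finset.sum_nonneg fun b _ => Finset.sum_nonneg fun c _ =>
      mul_nonneg (hF a b c) (sq_nonneg _)
  have h6 : S (fun a b c => F a b c + F b a c + F b c a + F c b a + F c a b + F a c b) =
      S F + S (fun a b c => F b a c) + S (fun a b c => F b c a) + S (fun a b c => F c b a) +
        S (fun a b c => F c a b) + S (fun a b c => F a c b) := by
    simp only [hS, add_mul, Finset.sum_add_distrib]
  change 0 ≤ S F
  linarith

/-- The rotated third order tensor. -/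
def CoreB_t (U : RM n) (T : Fin n → RM n) (a b c : Fin n) : ℝ :=
  (Uᵀ *ᵥ fun k => (Uᵀ * T k * U) a b) c

theorem CoreB_t_eq (U : RM n) (T : Fin n → RM n) (a b c : Fin n) :
    CoreB_t U T a b c = ∑ k, ∑ q, ∑ p, U k c * U p a * U q b * T k p q := by
  simp only [CoreB_t, mulVec, dotProduct, mul_apply, transpose_apply, Finset.mul_sum,
    Finset.sum_mul]
  exact Finset.sum_congr rfl fun k _ => Finset.sum_congr rfl fun q _ =>
    Finset.sum_congr rfl fun p _ => by ring

theorem CoreB_pair {M U W : RM n} {x w : Fin n → ℝ} (hM : Fr M U x) (hW : Fr W U w)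
    (ψ : ℝ → ℝ → ℝ) (T : Fin n → RM n) :
    ∑ i, ∑ j, W i j * ((T i)ᵀ * sch ψ M M (T j)).trace =
      ∑ a, ∑ b, ∑ c, ψ (x a) (x b) * w c * CoreB_t U T a b c ^ 2 := by
  have e : ∀ a b, ∑ c, ψ (x a) (x b) * w c * CoreB_t U T a b c ^ 2 =
      ∑ i, ∑ j, W i j * (ψ (x a) (x b) * ((Uᵀ * T i * U) a b * (Uᵀ * T j * U) a b)) := by
    intro a b
    have h := hW.quad (fun k => (Uᵀ * T k * U) a b) (fun k => (Uᵀ * T k * U) a b)
    simp only [mul_assoc (ψ _ _), ← Finset.mul_sum, CoreB_t, sq]
    rw [← h]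
    simp only [mulVec, dotProduct, Finset.mul_sum]
    exact Finset.sum_congr rfl fun i _ => Finset.sum_congr rfl fun j _ => by ring
  simp only [e, trace_sch_pair hM hM, Finset.mul_sum]
  calc _ = ∑ i, ∑ a, ∑ j, ∑ b,
        W i j * (ψ (x a) (x b) * ((Uᵀ * T i * U) a b * (Uᵀ * T j * U) a b)) :=
        Finset.sum_congr rfl fun i _ => Finset.sum_comm
    _ = ∑ a, ∑ i, ∑ j, ∑ b,
        W i j * (ψ (x a) (x b) * ((Uᵀ * T i * U) a b * (Uᵀ * T j * U) a b)) := Finset.sum_comm
    _ = ∑ a, ∑ i, ∑ b, ∑ j,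
        W i j * (ψ (x a) (x b) * ((Uᵀ * T i * U) a b * (Uᵀ * T j * U) a b)) :=
        Finset.sum_congr rfl fun a _ => Finset.sum_congr rfl fun i _ => Finset.sum_comm
    _ = _ := Finset.sum_congr rfl fun a _ => Finset.sum_comm

theorem CoreB_hs {M U : RM n} {x : Fin n → ℝ} (hM : Fr M U x) (ψ : ℝ → ℝ → ℝ) (T : Fin n → RM n) :
    ∑ k, hs (sch ψ M M (T k)) = ∑ a, ∑ b, ∑ c, ψ (x a) (x b) ^ 2 * CoreB_t U T a b c ^ 2 := by
  simp only [hs_sch_eq hM hM]
  rw [Finset.sum_comm]
  refine Finset.sum_congr rfl fun a _ => ?_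
  rw [Finset.sum_comm]
  refine Finset.sum_congr rfl fun b _ => ?_
  rw [← Finset.mul_sum, ← Finset.mul_sum]
  congr 1
  have h := hM.norm_sq (fun k => (Uᵀ * T k * U) a b)
  simp only [CoreB_t]
  rw [← h]
  simp only [dotProduct, sq]

theorem CoreB_wgt (a b c : ℝ) : wgt a b c = wgt b a c := by
  rw [wgt, wgt, dd_symm be be1 a b, ell_symm a b, mul_comm (lam a) (lam b)]

theorem CoreB_tgt (a b : ℝ) : tgt a b = tgt b a := by
  rw [tgt, tgt, dd_symm kap pp a b, ell_symm a b]
  ring

/-- The pointwise inequality. -/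
theorem boch_pt {M G : RM n} (hM : Mᵀ = M) (hG : G * mf lam M = 1)
    {S T : Fin n → RM n} (hT1 : ∀ k, (T k)ᵀ = T k) (hT2 : ∀ a b c, T c a b = T b a c)
    (hS : ∀ k, S k = sch (fun x y => (ldd x y)⁻¹) M M (T k)) :
    ∑ k, hs (S k) + 1 / 16 * ∑ k, hs (sch (fun a b => uu a - uu b) M M (S k)) +
        1 / 480 * ∑ k, hs (sch (fun a b => (uu a - uu b) ^ 2) M M (S k)) ≤
      ∑ k, hs (sch (dd kap pp) M M (S k)) +
      2 * ∑ i, ∑ j, G i j * ((T j)ᵀ * sch (dd be be1) M M (S i)).trace +
      2 * ∑ k, ∑ l, mf be M k l * (G * T k * G * T l).trace := by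
  obtain ⟨U, x, hU⟩ := exists_fr hM
  have eG : G = mf (fun x => (lam x)⁻¹) M := by
    have h1 : mf lam M * mf (fun x => (lam x)⁻¹) M = 1 := by
      rw [← mf_mul hM]
      simp only [mul_inv_cancel₀ (lam_pos _).ne']
      rw [mf_const hM, one_smul]
    calc G = G * (mf lam M * mf (fun x => (lam x)⁻¹) M) := by rw [h1, Matrix.mul_one]
      _ = _ := by rw [← Matrix.mul_assoc, hG, Matrix.one_mul]
  have hGs : ∀ i j, G i j = G j i := fun i j => by
    rw [eG, ← transpose_apply (mf _ M) i j, mf_symm]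
  have e1 : ∑ i, ∑ j, G i j * ((T j)ᵀ * sch (dd be be1) M M (S i)).trace =
      ∑ a, ∑ b, ∑ c, (dd be be1 (x a) (x b) * (ldd (x a) (x b))⁻¹) * (lam (x c))⁻¹ *
        CoreB_t U T a b c ^ 2 := by
    rw [← CoreB_pair hU (hU.mf_fr fun x => (lam x)⁻¹)
      (fun x y => dd be be1 x y * (ldd x y)⁻¹) T, Finset.sum_comm, ← eG]
    simp only [hS, sch_sch hM hM]
    exact Finset.sum_congr rfl fun i _ => Finset.sum_congr rfl fun j _ => by rw [hGs]
  have e2 : ∑ k, ∑ l, mf be M k l * (G * T k * G * T l).trace =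
      ∑ a, ∑ b, ∑ c, ((lam (x a))⁻¹ * (lam (x b))⁻¹) * be (x c) * CoreB_t U T a b c ^ 2 := by
    rw [← CoreB_pair hU (hU.mf_fr be) (fun x y => (lam x)⁻¹ * (lam y)⁻¹) T]
    refine Finset.sum_congr rfl fun k _ => Finset.sum_congr rfl fun l _ => ?_
    rw [sch_prod hM hM, ← eG, hT1, Matrix.mul_assoc (G * T k), Matrix.mul_assoc G,
      trace_mul_comm G, Matrix.mul_assoc (T k), Matrix.mul_assoc G]
  rw [e1, e2]
  simp only [hS, sch_sch hM hM, CoreB_hs hU]
  have t1 : ∀ a b c, CoreB_t U T a b c = CoreB_t U T b a c := fun a b c => by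
    simp only [CoreB_t_eq]
    refine Finset.sum_congr rfl fun k _ => ?_
    rw [Finset.sum_comm]
    refine Finset.sum_congr rfl fun q _ => Finset.sum_congr rfl fun p _ => ?_
    rw [← transpose_apply (T k) p q, hT1]
    ring
  have t2 : ∀ a b c, CoreB_t U T a b c = CoreB_t U T a c b := fun a b c => by
    simp only [CoreB_t_eq]
    rw [Finset.sum_comm]
    refine Finset.sum_congr rfl fun k _ => Finset.sum_congr rfl fun q _ =>
      Finset.sum_congr rfl fun p _ => ?_
    rw [hT2 p k q]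
    ring
  have key := CoreB_sym (fun a b c => 2 * (wgt (x a) (x b) (x c) - tgt (x a) (x b)))
    (CoreB_t U T) t1 t2 fun a b c => by
      have := three_var (x a) (x b) (x c)
      rw [CoreB_wgt (x b) (x a), CoreB_wgt (x c) (x b), CoreB_wgt (x a) (x c),
        CoreB_tgt (x b) (x a), CoreB_tgt (x c) (x b), CoreB_tgt (x a) (x c)]
      linarith
  rw [← sub_nonneg]
  refine key.trans_eq ?_
  simp only [Finset.mul_sum, ← Finset.sum_add_distrib, ← Finset.sum_sub_distrib]
  refine Finset.sum_congr rfl fun a _ => Finset.sum_congr rfl fun b _ =>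
    Finset.sum_congr rfl fun c _ => ?_
  simp only [wgt, tgt, ldd, ell, div_eq_mul_inv, mul_inv, ← inv_pow]
  ring

namespace GD
variable (D : GD n)

theorem G_mul (z : E n) : evM z D.G * mf lam (D.M z) = 1 := by
  rw [D.mf_lam_M, H]
  have := congrArg (evM z) D.inv
  simpa [evM, Matrix.map_mul] using this

/-- Error symbols bounded by the `u`-distance. -/
theorem gS_le_of_Sy {L : ℝ} {s : ℝ → ℝ → ℝ} (h : Sy L s) :
    2 * D.gS s ≤ L ^ 2 * D.gS (fun a b => uu a - uu b) :=
  D.gS_le_sym (by fun_prop) h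

/-- **Bochner inequality** with its slack. -/
theorem coreB : D.gM + 1 / 16 * D.gS (fun a b => uu a - uu b) +
      1 / 480 * D.gS (fun a b => (uu a - uu b) ^ 2) ≤
    GE (fun z => hs (mf kap (D.M z))) + D.gS (dd kap pp) := by
  have cβ : C1M fun z => mf be (D.M z) := D.mf_c1 hasDerivAt_be continuous_be1
  have tG : TmM D.G := D.tmG
  have tH := D.tmM_jac
  set w : Fin n → Fin n → Fin n → Sm n := fun k l i => ∑ j, D.G i j * pd j (jac D.T k l) with hw
  have tw : ∀ k l i, Tm (w k l i) := fun k l i =>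
    Tm.sum _ fun j _ => (tG i j).mul ((tH k l).pd j)
  have tq : ∀ k l, Tm (D.G * pdM k (jac D.T) * D.G * pdM l (jac D.T)).trace := fun k l =>
    (((tG.mul (tH.pdM k)).mul tG).mul (tH.pdM l)).trace
  -- the three pieces
  set A : E n → ℝ := fun z => ∑ k, ∑ l, ∑ i,
    mf be (D.M z) k l * (z i * ev z (w k l i) - ev z (pd i (w k l i))) with hA
  set A' : E n → ℝ := fun z => ∑ k, ∑ l, ∑ i,
    dk i (fun y => mf be (D.M y) k l) z * ev z (w k l i) with hA'
  set B : E n → ℝ := fun z => ∑ k, ∑ l, mf be (D.M z) k l *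
    (evM z D.G * D.dH k z * evM z D.G * D.dH l z).trace with hB
  have eq : ∀ z k l, ev z (D.G * pdM k (jac D.T) * D.G * pdM l (jac D.T)).trace =
      (evM z D.G * D.dH k z * evM z D.G * D.dH l z).trace := fun z k l => by
    simp only [trace, diag, mul_apply, map_sum, map_mul, dH, evM_apply]
  have pA : ∀ k l i, PG fun z =>
      mf be (D.M z) k l * (z i * ev z (w k l i) - ev z (pd i (w k l i))) := fun k l i =>
    (cβ k l).pg.mul (((PG.coord i).mul (Tm_pg (tw k l i))).sub (Tm_pg ((tw k l i).pd i)))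
  have pA' : ∀ k l i, PG fun z => dk i (fun y => mf be (D.M y) k l) z * ev z (w k l i) :=
    fun k l i => ((cβ k l).pgd i).mul (Tm_pg (tw k l i))
  have qA : PG A := PG.sum _ fun k _ => PG.sum _ fun l _ => PG.sum _ fun i _ => pA k l i
  have qA' : PG A' := PG.sum _ fun k _ => PG.sum _ fun l _ => PG.sum _ fun i _ => pA' k l i
  have qB : PG B := PG.sum _ fun k _ => PG.sum _ fun l _ => by
    simp only [← eq]
    exact (cβ k l).pg.mul (Tm_pg (tq k l))
  have qβ : PG fun z => (mf be (D.M z)).trace := cβ.pgm.trace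
  have eA : GE A' = GE A := by
    rw [hA, hA', GE_sum _ fun k _ => PG.sum _ fun l _ => PG.sum _ fun i _ => pA k l i,
      GE_sum _ fun k _ => PG.sum _ fun l _ => PG.sum _ fun i _ => pA' k l i]
    refine Finset.sum_congr rfl fun k _ => ?_
    rw [GE_sum _ fun l _ => PG.sum _ fun i _ => pA k l i,
      GE_sum _ fun l _ => PG.sum _ fun i _ => pA' k l i]
    refine Finset.sum_congr rfl fun l _ => ?_
    rw [GE_sum _ fun i _ => pA k l i, GE_sum _ fun i _ => pA' k l i]
    exact Finset.sum_congr rfl fun i _ => GE_ibp2 (cβ k l) (Tm_c1 (tw k l i)) i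
  -- pointwise positivity
  have h1 : ∀ z, A z + B z ≤ (mf be (D.M z)).trace := fun z => by
    have h0 := trace_mul_nonneg (D.boch z)
      (mf_posSemidef (D.M_symm z) (f := be) fun x _ => be_nonneg x)
    have hs' : ∀ k l, mf be (D.M z) l k = mf be (D.M z) k l := fun k l => by
      rw [← transpose_apply (mf be (D.M z)) k l, mf_symm]
    have e : (evM z (Theta (jac D.T) D.G) * mf be (D.M z)).trace =
        (mf be (D.M z)).trace - A z - B z := by
      have eT : ∀ k l, evM z (Theta (jac D.T) D.G) k l =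
          (1 : RM n) k l - ∑ i, (z i * ev z (w k l i) - ev z (pd i (w k l i))) -
            (evM z D.G * D.dH k z * evM z D.G * D.dH l z).trace := fun k l => by
        have e1 : ev z ((1 : Mat n) k l) = (1 : RM n) k l := by simp [one_apply, apply_ite]
        rw [← eq, evM_apply, Theta, of_apply, map_add, map_sub, e1, divG, map_sum]
        simp only [map_sub, map_mul, ev_X, hw, Finset.sum_sub_distrib]
        ring
      have e2 : (mf be (D.M z)).trace = ∑ k, ∑ l, (1 : RM n) k l * mf be (D.M z) k l := by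
        simp [trace, one_apply]
      rw [e2]
      simp only [hA, hB, ← Finset.sum_sub_distrib, ← Finset.mul_sum]
      refine Finset.sum_congr rfl fun k _ => ?_
      rw [diag, mul_apply]
      refine Finset.sum_congr rfl fun l _ => ?_
      rw [eT, hs']
      ring
    linarith
  have h2 : ∀ z, ∑ k, hs (D.dM k z) +
      1 / 16 * ∑ k, hs (sch (fun a b => uu a - uu b) (D.M z) (D.M z) (D.dM k z)) +
      1 / 480 * ∑ k, hs (sch (fun a b => (uu a - uu b) ^ 2) (D.M z) (D.M z) (D.dM k z)) ≤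
      ∑ k, hs (sch (dd kap pp) (D.M z) (D.M z) (D.dM k z)) + 2 * A' z + 2 * B z := fun z => by
    have := boch_pt (D.M_symm z) (D.G_mul z) (fun k => D.dH_symm k z) (D.dH_symm3 z)
      (fun k => D.dM_eq k z)
    refine this.trans_eq ?_
    congr 3
    simp only [hA', ← D.dkM_mf hasDerivAt_be, hw, map_sum, map_mul, trace, diag, mul_apply,
      transpose_apply, dkM_apply, dH, evM_apply, pdM_apply, Finset.mul_sum]
    calc _ = ∑ i, ∑ l, ∑ j, ∑ k, ev z (D.G i j) * (ev z (pd j (jac D.T k l)) *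
            dk i (fun y => mf be (D.M y) k l) z) :=
          Finset.sum_congr rfl fun i _ => Finset.sum_comm
      _ = ∑ i, ∑ l, ∑ k, ∑ j, ev z (D.G i j) * (ev z (pd j (jac D.T k l)) *
            dk i (fun y => mf be (D.M y) k l) z) :=
          Finset.sum_congr rfl fun i _ => Finset.sum_congr rfl fun l _ => Finset.sum_comm
      _ = ∑ l, ∑ i, ∑ k, ∑ j, ev z (D.G i j) * (ev z (pd j (jac D.T k l)) *
            dk i (fun y => mf be (D.M y) k l) z) := Finset.sum_comm
      _ = ∑ l, ∑ k, ∑ i, ∑ j, ev z (D.G i j) * (ev z (pd j (jac D.T k l)) *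
            dk i (fun y => mf be (D.M y) k l) z) :=
          Finset.sum_congr rfl fun l _ => Finset.sum_comm
      _ = ∑ k, ∑ l, ∑ i, ∑ j, ev z (D.G i j) * (ev z (pd j (jac D.T k l)) *
            dk i (fun y => mf be (D.M y) k l) z) := Finset.sum_comm
      _ = _ := Finset.sum_congr rfl fun k _ => Finset.sum_congr rfl fun l _ =>
          Finset.sum_congr rfl fun i _ => Finset.sum_congr rfl fun j _ => by ring
  have p1 : PG fun z => ∑ k, hs (D.dM k z) := PG.sum _ fun k _ => (D.dM_pgm k).hs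
  have p2 := D.gS_pg (φ := fun a b => uu a - uu b) (by fun_prop)
  have p2' := D.gS_pg (φ := fun a b => (uu a - uu b) ^ 2) (by fun_prop)
  have p3 := D.gS_pg (continuous_dd hasDerivAt_kap continuous_pp)
  have i1 := GE_mono (qA.add qB) qβ h1
  have i2 := GE_mono ((p1.add (p2.const_mul (1 / 16))).add (p2'.const_mul (1 / 480)))
    ((p3.add (qA'.const_mul 2)).add (qB.const_mul 2)) h2
  rw [GE_add qA qB] at i1
  rw [GE_add (p1.add (p2.const_mul (1 / 16))) (p2'.const_mul (1 / 480)),
    GE_add p1 (p2.const_mul (1 / 16)), GE_add (p3.add (qA'.const_mul 2)) (qB.const_mul 2),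
    GE_add p3 (qA'.const_mul 2), GE_const_mul, GE_const_mul, GE_const_mul, GE_const_mul, eA] at i2
  have e3 : GE (fun z => hs (mf kap (D.M z))) = 2 * GE fun z => (mf be (D.M z)).trace := by
    rw [← GE_const_mul]
    congr 1
    funext z
    rw [hs_eq_trace, mf_symm, ← mf_sq (D.M_symm z), ← smul_eq_mul, ← trace_smul,
      ← mf_smul (D.M_symm z)]
    congr 2
    funext x
    simp only [be]
    ring
  rw [e3, gM, gS, gS, gS]
  linarith

end GD

end Crest.Agent.R253
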