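import Crest.Agent.R253.CoreW
import Crest.Agent.R253.CoreB

/-!
# Row 253: the column quantities

Notation: `X_k = D.dM k = ∂_k M`, `J_k = E X_k`, `Z_k = X_k - J_k`, `L = ∑ z_k J_k`, `R = M - L`.
For a vector `v` we consider the fields `f(M) v`, `M v`, `L v`, `R v`.

Plan.  `dkV_cf` is `C1M.dkV_mulVec` and `dkM_mf`; the left/right splittings are `sch_sub_sym`,
`sch_left`, `sch_right`.  `GE_dM` is `GE_ibp1`.  `L v = ∑ z_k J_k v`, so `ip0_cL` is `ip0_coord` with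
constant fields.  `ch2_cR`: `chaosGe_two`, `GE_coord`, `GE_coord_mul`.  The norms follow from
`M v = L v + R v` and orthogonality.
-/

set_option autoImplicit false
open MeasureTheory Matrix Filter Topology
open scoped ContDiff BigOperators

noncomputable section
namespace Crest.Agent.R253
open Crest.Agent.R238 Crest.Agent.R215

variable {n : ℕ}

/-- `f` is continuously differentiable with derivative `f'`. -/
structure CD (f f' : ℝ → ℝ) : Prop where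
  der : ∀ x, HasDerivAt f (f' x) x
  cont : Continuous f'

/-- Jointly continuous symbols. -/
def CS (s : ℝ → ℝ → ℝ) : Prop := Continuous fun p : ℝ × ℝ => s p.1 p.2

theorem CD.continuous {f f' : ℝ → ℝ} (h : CD f f') : Continuous f :=
  continuous_iff_continuousAt.2 fun x => (h.der x).continuousAt
theorem CD.cs_dd {f f' : ℝ → ℝ} (h : CD f f') : CS (dd f f') :=
  continuous_dd h.der h.cont
theorem CD.cs_sL {f f' : ℝ → ℝ} (h : CD f f') : CS (sL f f') :=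
  Continuous.sub h.cs_dd (h.cont.comp continuous_fst)
theorem CD.cs_sR {f f' : ℝ → ℝ} (h : CD f f') : CS (sR f f') :=
  Continuous.sub h.cs_dd (h.cont.comp continuous_snd)
theorem cd_id : CD (fun x => x) (fun _ => 1) :=
  ⟨fun x => hasDerivAt_id' x, continuous_const⟩
theorem cd_kap : CD kap pp :=
  ⟨hasDerivAt_kap, continuous_pp⟩
theorem cd_pp : CD pp k2 :=
  ⟨hasDerivAt_pp, continuous_k2⟩
theorem cd_Pi : CD Pi (fun x => pp x ^ 2) :=
  ⟨hasDerivAt_Pi, continuous_pp.pow 2⟩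
theorem cd_Om : CD Om om :=
  ⟨hasDerivAt_Om, continuous_om⟩
theorem cd_F2 : CD F2 ph :=
  ⟨hasDerivAt_F2, continuous_ph⟩
theorem cd_ee : CD ee ee1 :=
  ⟨hasDerivAt_ee, continuous_ee1⟩
theorem cs_spp : CS spp :=
  Continuous.add (Continuous.sub cd_Pi.cs_dd
    (((continuous_pp.comp continuous_fst).const_mul 2).mul cd_kap.cs_dd))
    ((continuous_pp.comp continuous_fst).pow 2)

namespace GD
variable (D : GD n)

/-- `Z_k = ∂_k M - J_k`. -/
def Zk (k : Fin n) (z : E n) : RM n := D.dM k z - D.Jm k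
/-- `f(M) v`. -/
def cf (f : ℝ → ℝ) (v z : E n) : E n := mf f (D.M z) *ᵥ v
/-- `M v`. -/
def cM (v z : E n) : E n := D.M z *ᵥ v
/-- `L v`. -/
def cL (v z : E n) : E n := D.Lm z *ᵥ v
/-- `R v`. -/
def cR (v z : E n) : E n := (D.M z - D.Lm z) *ᵥ v
/-- The family `X_k v`. -/
def xv (v : E n) (k : Fin n) (z : E n) : E n := D.dM k z *ᵥ v
/-- The family `J_k v`. -/
def jv (v : E n) (k : Fin n) (_z : E n) : E n := D.Jm k *ᵥ v
/-- The family `Z_k v`. -/
def zv (v : E n) (k : Fin n) (z : E n) : E n := D.Zk k z *ᵥ v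
/-- The Schur multiplier `s` applied to `X_k`. -/
def sX (s : ℝ → ℝ → ℝ) (k : Fin n) (z : E n) : RM n := sch s (D.M z) (D.M z) (D.dM k z)
/-- The family `(s ∘ X_k) v`. -/
def sv (s : ℝ → ℝ → ℝ) (v : E n) (k : Fin n) (z : E n) : E n := D.sX s k z *ᵥ v
/-- `E ∑_k |(s ∘ X_k) v|²`. -/
def ce (s : ℝ → ℝ → ℝ) (v : E n) : ℝ := ipS (D.sv s v) (D.sv s v)
/-- `∑_k A_k J_k v`. -/
def cJ (A : Fin n → E n → RM n) (v z : E n) : E n := ∑ k, A k z *ᵥ (D.Jm k *ᵥ v)
/-- `E |∑_k A_k J_k v|²`. -/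
def cj (A : Fin n → E n → RM n) (v : E n) : ℝ := ip0 (D.cJ A v) (D.cJ A v)
/-- `E ⟨v, f(M) v⟩`. -/
def av (f : ℝ → ℝ) (v : E n) : ℝ := GE fun z => v ⬝ᵥ (mf f (D.M z) *ᵥ v)
/-- `ν = ⟨v, N v⟩`. -/
def nv (v : E n) : ℝ := v ⬝ᵥ (D.Nm *ᵥ v)
/-- `E |R v|²`. -/
def r2 (v : E n) : ℝ := ip0 (D.cR v) (D.cR v)
/-- `E |∇ R v|²`. -/
def y2 (v : E n) : ℝ := ip1 (D.cR v) (D.cR v)
/-- The main term of the variance bound. -/
def Dv (v : E n) : ℝ := D.av (fun x => 2 * tt x - kap x ^ 2) v - ip1 (D.cf kap v) (D.cf kap v)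
/-- The parity field `(e(M) - e(L)) v`. -/
def pv (v z : E n) : E n := (mf ee (D.M z) - mf ee (D.Lm z)) *ᵥ v
/-- `E |(e(M) - e(L)) v|²`. -/
def par (v : E n) : ℝ := ip0 (D.pv v) (D.pv v)

theorem CoreA_Lm_c1 : C1M D.Lm := fun a b => by
  simp only [Lm, Matrix.sum_apply, Matrix.smul_apply, smul_eq_mul]
  exact C1.sum _ fun k _ => (C1.coord k).mul_const _

theorem CoreA_R_c1 : C1M fun z => D.M z - D.Lm z := fun a b =>
  (D.M_c1 a b).sub (D.CoreA_Lm_c1 a b)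

theorem CoreA_dkM_Lm (k : Fin n) (z : E n) : dkM k D.Lm z = D.Jm k := by
  ext a b
  simp only [dkM_apply, Lm, Matrix.sum_apply, Matrix.smul_apply, smul_eq_mul]
  rw [dk_sum k _ fun j _ => (C1.coord j).mul_const _]
  simp only [dk_mul_const, dk_coord, ite_mul, one_mul, zero_mul, Finset.sum_ite_eq,
    Finset.mem_univ, if_true]

theorem Zk_symm (k : Fin n) (z : E n) : (D.Zk k z)ᵀ = D.Zk k z := by
  rw [Zk, transpose_sub, D.dM_symm, D.Jm_symm]
theorem Zk_pgm (k : Fin n) : PGM (D.Zk k) :=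
  (D.dM_pgm k).sub (PGM.const _)
theorem sX_pgm {s : ℝ → ℝ → ℝ} (hs : CS s) (k : Fin n) : PGM (D.sX s k) :=
  D.sch_pgm hs (D.dM_pgm k)
theorem cf_pgv {f : ℝ → ℝ} (hf : Continuous f) (v : E n) : PGV (D.cf f v) :=
  (D.mf_pgm hf).pgv (PGV.const v)
theorem cf_c1 {f f' : ℝ → ℝ} (h : CD f f') (v : E n) : C1V (D.cf f v) :=
  (D.mf_c1 h.der h.cont).c1V v
theorem cM_c1 (v : E n) : C1V (D.cM v) :=
  D.M_c1.c1V v
theorem cL_c1 (v : E n) : C1V (D.cL v) :=
  D.CoreA_Lm_c1.c1V v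
theorem cR_c1 (v : E n) : C1V (D.cR v) :=
  D.CoreA_R_c1.c1V v
theorem xv_pgv (v : E n) (k : Fin n) : PGV (D.xv v k) :=
  (D.dM_pgm k).pgv (PGV.const v)
theorem jv_pgv (v : E n) (k : Fin n) : PGV (D.jv v k) :=
  PGV.const _
theorem zv_pgv (v : E n) (k : Fin n) : PGV (D.zv v k) :=
  (D.Zk_pgm k).pgv (PGV.const v)
theorem sv_pgv {s : ℝ → ℝ → ℝ} (hs : CS s) (v : E n) (k : Fin n) : PGV (D.sv s v k) :=
  (D.sX_pgm hs k).pgv (PGV.const v)
theorem cJ_pgv {A : Fin n → E n → RM n} (hA : ∀ k, PGM (A k)) (v : E n) : PGV (D.cJ A v) :=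
  PGV.sum _ fun k _ => (hA k).pgv (PGV.const _)
/-- Use `PGM.mf` with `ee_le`. -/
theorem pv_pgv (v : E n) : PGV (D.pv v) :=
  ((D.mf_pgm continuous_ee).sub (D.Lm_pgm.mf D.Lm_symm continuous_ee ee_le)).pgv (PGV.const v)

theorem cM_eq (v z : E n) : D.cM v z = D.cL v z + D.cR v z := by
  rw [cM, cL, cR, sub_mulVec, add_sub_cancel]
theorem cf_id (v z : E n) : D.cf (fun x => x) v z = D.cM v z := by
  rw [cf, cM, mf_id (D.M_symm z)]
theorem cL_eq (v z : E n) : D.cL v z = ∑ k, z k • (D.Jm k *ᵥ v) := by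
  simp only [cL, Lm, sum_mulVec, smul_mulVec]
theorem xv_eq (v : E n) (k : Fin n) (z : E n) : D.xv v k z = D.jv v k z + D.zv v k z := by
  rw [xv, jv, zv, Zk, sub_mulVec, add_sub_cancel]
theorem dkV_cM (v : E n) (k : Fin n) : dkV k (D.cM v) = D.xv v k :=
  funext fun z => D.M_c1.dkV_mulVec v k z
theorem dkV_cL (v : E n) (k : Fin n) : dkV k (D.cL v) = D.jv v k :=
  funext fun z => by
    rw [jv, ← D.CoreA_dkM_Lm k z]
    exact D.CoreA_Lm_c1.dkV_mulVec v k z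
theorem dkV_cR (v : E n) (k : Fin n) : dkV k (D.cR v) = D.zv v k :=
  funext fun z => by
    have e : D.cR v = fun z => D.cM v z - D.cL v z := funext fun z => sub_mulVec _ _ _
    rw [e, dkV_sub (D.cM_c1 v) (D.cL_c1 v), dkV_cM, dkV_cL, xv_eq, add_sub_cancel_left]
theorem dkV_cf {f f' : ℝ → ℝ} (h : CD f f') (v : E n) (k : Fin n) :
    dkV k (D.cf f v) = D.sv (dd f f') v k :=
  funext fun z => by
    rw [sv, sX, ← D.dkM_mf h.der k z]
    exact (D.mf_c1 h.der h.cont).dkV_mulVec v k z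
theorem sX_dd_left (f f' : ℝ → ℝ) (k : Fin n) (z : E n) :
    D.sX (dd f f') k z = mf f' (D.M z) * D.dM k z + D.sX (sL f f') k z := by
  simp only [sX]
  rw [show sL f f' = fun x y => dd f f' x y - (fun x _ => f' x) x y from rfl, sch_sub_sym,
    sch_left (D.M_symm z) (D.M_symm z), add_sub_cancel]
theorem sX_dd_right (f f' : ℝ → ℝ) (k : Fin n) (z : E n) :
    D.sX (dd f f') k z = D.dM k z * mf f' (D.M z) + D.sX (sR f f') k z := by
  simp only [sX]
  rw [show sR f f' = fun x y => dd f f' x y - (fun _ y => f' y) x y from rfl, sch_sub_sym,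
    sch_right (D.M_symm z) (D.M_symm z), add_sub_cancel]
theorem sv_dd_left (f f' : ℝ → ℝ) (v : E n) (k : Fin n) (z : E n) :
    D.sv (dd f f') v k z = mf f' (D.M z) *ᵥ D.xv v k z + D.sv (sL f f') v k z := by
  rw [sv, sX_dd_left, add_mulVec, ← mulVec_mulVec]
  rfl
theorem sv_dd_right (f f' : ℝ → ℝ) (v : E n) (k : Fin n) (z : E n) :
    D.sv (dd f f') v k z = D.dM k z *ᵥ D.cf f' v z + D.sv (sR f f') v k z := by
  rw [sv, sX_dd_right, add_mulVec, ← mulVec_mulVec]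
  rfl

end GD
end Crest.Agent.R253
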