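import Crest.Agent.R253.CoreA

/-!
# Row 253: orthogonality relations and averages for the column quantities

`GE_dM` is `GE_ibp1`.  `L v = ∑ z_k J_k v`, so `ip0_cL` is `ip0_coord` with constant fields.
`ch2_cR`: `chaosGe_two`, `GE_coord`, `GE_coord_mul`.  The norms follow from `M v = L v + R v`,
`X_k v = J_k v + Z_k v` and orthogonality (`ip0_const_left`).  The `av` API is pointwise
functional calculus (`mf_add`, `mf_quad_le`, `mf_dot_mf`, ...) and `GE_*`.
-/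

set_option autoImplicit false
open MeasureTheory Matrix Filter Topology
open scoped ContDiff BigOperators

noncomputable section
namespace Crest.Agent.R253
open Crest.Agent.R238 Crest.Agent.R215

variable {n : ℕ}

namespace GD
variable (D : GD n)

theorem GE_dM (k a b : Fin n) : GE (fun z => D.dM k z a b) = D.Jm k a b :=
  (GE_ibp1 (D.M_c1 a b) k).symm
theorem GE_Zk (k a b : Fin n) : GE (fun z => D.Zk k z a b) = 0 := by
  simp only [Zk, Matrix.sub_apply]
  rw [GE_sub (D.dM_pgm k a b) (PG.const _), GE_dM, GE_const, sub_self]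
theorem CoreA2_Zk (w : E n) (k a : Fin n) : GE (fun z => (D.Zk k z *ᵥ w) a) = 0 := by
  simp only [mulVec, dotProduct, mul_comm _ (w _)]
  rw [GE_sum _ fun b _ => (D.Zk_pgm k a b).const_mul _]
  simp only [GE_const_mul, GE_Zk, mul_zero, Finset.sum_const_zero]
theorem GE_zv (v : E n) (k a : Fin n) : GE (fun z => D.zv v k z a) = 0 :=
  D.CoreA2_Zk v k a
theorem GE_cJ_Zk (v : E n) (a : Fin n) : GE (fun z => D.cJ D.Zk v z a) = 0 := by
  simp only [cJ, Finset.sum_apply]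
  rw [GE_sum _ fun k _ => (D.Zk_pgm k).pgv (PGV.const _) a]
  exact Finset.sum_eq_zero fun k _ => D.CoreA2_Zk _ k a
/-- `∑ X_k J_k v = N v + ∑ Z_k J_k v`. -/
theorem cJ_dM (v z : E n) : D.cJ D.dM v z = D.Nm *ᵥ v + D.cJ D.Zk v z := by
  simp only [cJ, Nm, Zk, sum_mulVec, sub_mulVec, ← mulVec_mulVec, ← Finset.sum_add_distrib,
    add_sub_cancel]
theorem ch2_cR (hc : D.Cent) (v : E n) : Ch2 (D.cR v) := by
  intro a
  refine chaosGe_two.2 ⟨?_, fun k => ?_⟩
  · have e : ∀ z, D.cR v z a = ∑ b, v b * D.M z a b - ∑ k, (D.Jm k *ᵥ v) a * z k := fun z => by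
      have := congrFun (D.cM_eq v z) a
      rw [cL_eq] at this
      simp only [Pi.add_apply, Finset.sum_apply, Pi.smul_apply, smul_eq_mul, cM, mulVec,
        dotProduct] at this ⊢
      simp only [mul_comm (v _), mul_comm _ (z _)]
      linarith
    simp only [e]
    rw [GE_sub (PG.sum _ fun b _ => (D.M_pgm a b).const_mul _)
      (PG.sum _ fun k _ => (PG.coord k).const_mul _),
      GE_sum _ fun b _ => (D.M_pgm a b).const_mul _, GE_sum _ fun k _ => (PG.coord k).const_mul _]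
    simp only [GE_const_mul, hc a, GE_coord, mul_zero, Finset.sum_const_zero, sub_zero]
  · rw [GE_ibp1 (D.cR_c1 v a) k, ← D.GE_zv v k a, ← D.dkV_cR]
    rfl

/-- Pairing with the first chaos part. -/
theorem ip0_cL {W : E n → E n} (hW : C1V W) (v : E n) :
    ip0 (D.cL v) W = ipS (D.jv v) (fun k => dkV k W) := by
  have p : ∀ k, PGV fun z : E n => z k • (D.Jm k *ᵥ v) := fun k a => (PG.coord k).mul (PG.const _)
  rw [ipS_eq_sum (D.jv_pgv v) hW.pgvd]
  have e : ip0 (D.cL v) W = ∑ k, ip0 (fun z => z k • (D.Jm k *ᵥ v)) W := by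
    simp only [ip0, cL_eq, sum_dotProduct]
    exact GE_sum _ fun k _ => (p k).dot hW.pgv
  rw [e]
  refine Finset.sum_congr rfl fun k _ => ?_
  rw [ip0_coord (C1V.const _) hW k, funext (dkV_const k _)]
  simp only [ip0, zero_dotProduct, GE_const, zero_add]
  rfl
theorem ip0_cL_eq_ip1 {W : E n → E n} (hW : C1V W) (v : E n) :
    ip0 (D.cL v) W = ip1 (D.cL v) W := by
  rw [D.ip0_cL hW, ip1_eq_ipS]
  simp only [dkV_cL]
theorem ipS_jv_jv (v : E n) : ipS (D.jv v) (D.jv v) = D.nv v := by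
  simp only [ipS, jv, GE_const, nv, Nm, sum_mulVec, dotProduct_sum, ← mulVec_mulVec]
  refine Finset.sum_congr rfl fun k _ => ?_
  rw [dotProduct_mulVec v, ← mulVec_transpose, D.Jm_symm]
theorem ipS_jv_zv (v : E n) : ipS (D.jv v) (D.zv v) = 0 := by
  rw [ipS_eq_sum (D.jv_pgv v) (D.zv_pgv v)]
  exact Finset.sum_eq_zero fun k _ => ip0_const_left (D.zv_pgv v k) (D.GE_zv v k) _
theorem ipS_zv_zv (v : E n) : ipS (D.zv v) (D.zv v) = D.y2 v := by
  rw [y2, ip1_eq_ipS]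
  simp only [dkV_cR]
theorem ipS_xv_xv (v : E n) : ipS (D.xv v) (D.xv v) = D.nv v + D.y2 v := by
  have e : D.xv v = fun k z => D.jv v k z + D.zv v k z := funext fun k => funext (D.xv_eq v k)
  have p := D.xv_pgv v
  conv_lhs => enter [1]; rw [e]
  rw [ipS_add_left (D.jv_pgv v) (D.zv_pgv v) p, ipS_comm (D.jv v), ipS_comm (D.zv v), e,
    ipS_add_left (D.jv_pgv v) (D.zv_pgv v) (D.jv_pgv v),
    ipS_add_left (D.jv_pgv v) (D.zv_pgv v) (D.zv_pgv v), ipS_comm (D.zv v) (D.jv v), ipS_jv_jv,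
    ipS_jv_zv, ipS_zv_zv, add_zero, zero_add]
theorem ip0_cL_cL (v : E n) : ip0 (D.cL v) (D.cL v) = D.nv v := by
  rw [D.ip0_cL (D.cL_c1 v)]
  simp only [dkV_cL, ipS_jv_jv]
theorem ip0_cL_cR (v : E n) : ip0 (D.cL v) (D.cR v) = 0 := by
  rw [D.ip0_cL (D.cR_c1 v)]
  simp only [dkV_cR, ipS_jv_zv]
theorem ip0_cM_cR (v : E n) : ip0 (D.cM v) (D.cR v) = D.r2 v := by
  rw [funext (D.cM_eq v), ip0_add_left (D.cL_c1 v).pgv (D.cR_c1 v).pgv (D.cR_c1 v).pgv, ip0_cL_cR,
    zero_add, r2]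
theorem ip1_cM_cR (v : E n) : ip1 (D.cM v) (D.cR v) = D.y2 v := by
  rw [funext (D.cM_eq v), ip1_add_left (D.cL_c1 v) (D.cR_c1 v) (D.cR_c1 v),
    ← D.ip0_cL_eq_ip1 (D.cR_c1 v), ip0_cL_cR, zero_add, y2]
theorem ip0_cM_cM (v : E n) : ip0 (D.cM v) (D.cM v) = D.nv v + D.r2 v := by
  have e : ip0 (D.cM v) (D.cM v) = ip0 (D.cM v) (D.cL v) + ip0 (D.cM v) (D.cR v) := by
    rw [← ip0_add_right (D.cL_c1 v).pgv (D.cR_c1 v).pgv (D.cM_c1 v).pgv, ← funext (D.cM_eq v)]
  rw [e, ip0_cM_cR, funext (D.cM_eq v),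
    ip0_add_left (D.cL_c1 v).pgv (D.cR_c1 v).pgv (D.cL_c1 v).pgv, ip0_cL_cL, ip0_comm (D.cR v),
    ip0_cL_cR, add_zero]
theorem nv_nonneg (v : E n) : 0 ≤ D.nv v :=
  D.ipS_jv_jv v ▸ ipS_self_nonneg _
theorem r2_nonneg (v : E n) : 0 ≤ D.r2 v :=
  ip0_self_nonneg _
theorem two_r2_le (hc : D.Cent) (v : E n) : 2 * D.r2 v ≤ D.y2 v :=
  ch2_poincare (D.cR_c1 v) (D.ch2_cR hc v)
theorem ce_nonneg (s : ℝ → ℝ → ℝ) (v : E n) : 0 ≤ D.ce s v :=
  ipS_self_nonneg _
theorem cj_nonneg (A : Fin n → E n → RM n) (v : E n) : 0 ≤ D.cj A v :=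
  ip0_self_nonneg _
theorem par_nonneg (v : E n) : 0 ≤ D.par v :=
  ip0_self_nonneg _

theorem av_pg {f : ℝ → ℝ} (hf : Continuous f) (v : E n) :
    PG fun z => v ⬝ᵥ (mf f (D.M z) *ᵥ v) :=
  (PGV.const v).dot (D.cf_pgv hf v)
theorem av_add {f g : ℝ → ℝ} (hf : Continuous f) (hg : Continuous g) (v : E n) :
    D.av (fun x => f x + g x) v = D.av f v + D.av g v := by
  simp only [av, mf_add (D.M_symm _), add_mulVec, dotProduct_add]
  exact GE_add (D.av_pg hf v) (D.av_pg hg v)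
theorem av_sub {f g : ℝ → ℝ} (hf : Continuous f) (hg : Continuous g) (v : E n) :
    D.av (fun x => f x - g x) v = D.av f v - D.av g v := by
  simp only [av, mf_sub (D.M_symm _), sub_mulVec, dotProduct_sub]
  exact GE_sub (D.av_pg hf v) (D.av_pg hg v)
theorem av_const_mul (c : ℝ) (f : ℝ → ℝ) (v : E n) :
    D.av (fun x => c * f x) v = c * D.av f v := by
  simp only [av, mf_smul (D.M_symm _), smul_mulVec, dotProduct_smul, smul_eq_mul, GE_const_mul]
theorem av_const (c : ℝ) (v : E n) : D.av (fun _ => c) v = c * (v ⬝ᵥ v) := by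
  simp only [av, mf_const (D.M_symm _), smul_mulVec, one_mulVec, dotProduct_smul, smul_eq_mul,
    GE_const]
theorem av_mono {f g : ℝ → ℝ} (hf : Continuous f) (hg : Continuous g) (h : ∀ x, f x ≤ g x)
    (v : E n) : D.av f v ≤ D.av g v :=
  GE_mono (D.av_pg hf v) (D.av_pg hg v) fun z => mf_quad_le (D.M_symm z) (fun x _ => h x) v
theorem av_mul (f g : ℝ → ℝ) (v : E n) :
    D.av (fun x => f x * g x) v = ip0 (D.cf f v) (D.cf g v) := by
  simp only [av, ip0, cf, mf_dot_mf (D.M_symm _)]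
theorem av_id_mul (f : ℝ → ℝ) (v : E n) :
    D.av (fun x => x * f x) v = ip0 (D.cf f v) (D.cM v) := by
  rw [D.av_mul (fun x => x) f, funext (D.cf_id v), ip0_comm]
theorem av_eq_ip0 (f : ℝ → ℝ) (v : E n) : D.av f v = ip0 (fun _ => v) (D.cf f v) :=
  rfl
theorem av_quad (hc : D.Cent) (A B C : ℝ) {v : E n} (hv : v ⬝ᵥ v = 1) :
    D.av (fun x => A + B * x + C * x ^ 2) v = A + C * (D.nv v + D.r2 v) := by
  have h1 : D.av (fun x => x) v = 0 := by
    rw [av_eq_ip0, funext (D.cf_id v)]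
    refine ip0_const_left (D.cM_c1 v).pgv (fun a => ?_) v
    simp only [cM, mulVec, dotProduct, mul_comm _ (v _)]
    rw [GE_sum _ fun b _ => (D.M_pgm a b).const_mul _]
    simp only [GE_const_mul, hc a, mul_zero, Finset.sum_const_zero]
  have h2 : D.av (fun x => x ^ 2) v = D.nv v + D.r2 v := by
    simp only [sq]
    rw [D.av_id_mul (fun x => x), funext (D.cf_id v), ip0_cM_cM]
  rw [D.av_add (by fun_prop) (by fun_prop), D.av_add (by fun_prop) (by fun_prop), av_const,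
    D.av_const_mul B (fun x => x), D.av_const_mul C (fun x => x ^ 2), h1, h2, hv]
  ring

end GD
end Crest.Agent.R253
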