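import Crest.Agent.R253.CoreA2

/-!
# Row 253: sums of the column quantities over an orthonormal frame

All sums are pointwise `hs_eq_sum_cols` / `trace_eq_sum_cols` followed by `GE_sum`.

`bessel_pt`: the vectors `u_j = (J_k v_j)_k` of `ℝ^{n × n}` are orthogonal with `|u_j|² = ν_j`
(because `∑_k ⟨J_k v_i, J_k v_j⟩ = ⟨v_i, N v_j⟩`).  For each row `a` of `(A_k)_k` put
`c_j = ⟨a, u_j⟩ / ν_j` (`0` if `ν_j = 0`, in which case `u_j = 0`).  Then
`0 ≤ |a - ∑ c_j u_j|² = |a|² - ∑ c_j² ν_j` and `w_j ⟨a, u_j⟩² = (w_j ν_j) (c_j² ν_j) ≤ τ c_j² ν_j`.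

`two_delta_ge`: `two_delta_eq`, `coreB`, `sum_Dv`, `sum_S`, `log_det_le_sum_cols` with
`Q_posDef`, and `log q ≤ p q - 1 - log p` (`Real.log_le_sub_one_of_pos`).
-/

set_option autoImplicit false
open MeasureTheory Matrix Filter Topology
open scoped ContDiff BigOperators

noncomputable section
namespace Crest.Agent.R253
open Crest.Agent.R238 Crest.Agent.R215

variable {n : ℕ}

/-- The `j`-th column. -/
def col (U : RM n) (j : Fin n) : E n := fun i => U i j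

theorem col_dot {U : RM n} (hU : Uᵀ * U = 1) (j : Fin n) : col U j ⬝ᵥ col U j = 1 := by
  have := congrFun (congrFun hU j) j
  simpa [Matrix.mul_apply, col, dotProduct] using this

theorem Fr.mulVec_col {A U : RM n} {a : Fin n → ℝ} (h : Fr A U a) (j : Fin n) :
    A *ᵥ col U j = a j • col U j := by
  funext i
  have := congrFun (congrFun h.mul_U i) j
  rw [mul_diagonal] at this
  simpa [Matrix.mul_apply, col, Matrix.mulVec, dotProduct, mul_comm] using this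

theorem Fr.hs_sub_one {A U : RM n} {a : Fin n → ℝ} (h : Fr A U a) :
    hs (A - 1) = ∑ j, (a j - 1) ^ 2 := by
  have h1 : Fr (A - 1) U (fun j => a j - 1) := by
    refine ⟨h.orth, ?_⟩
    have : (diagonal fun j => a j - 1 : RM n) = diagonal a - 1 := by
      rw [← diagonal_one, diagonal_sub]
    rw [this, Matrix.mul_sub, Matrix.sub_mul, ← h.eq, Matrix.mul_one, h.orth']
  exact h1.hs_eq

theorem min_sum_le {ι : Type*} (s : Finset ι) {x : ι → ℝ} (h : ∀ i, 0 ≤ x i) :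
    min 1 (∑ i ∈ s, x i) ≤ ∑ i ∈ s, min 1 (x i) := by
  by_cases hs : ∃ i ∈ s, 1 ≤ x i
  · obtain ⟨i, hi, h1⟩ := hs
    refine (min_le_left _ _).trans ?_
    have := Finset.single_le_sum (f := fun i => min 1 (x i))
      (fun i _ => le_min zero_le_one (h i)) hi
    simpa only [min_eq_left h1] using this
  · push Not at hs
    exact (min_le_right _ _).trans_eq
      (Finset.sum_congr rfl fun i hi => (min_eq_right (hs i hi).le).symm)

theorem CoreD_bessel {ι κ : Type*} [Fintype ι] [Fintype κ] [DecidableEq κ] {u : κ → ι → ℝ}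
    {ν : κ → ℝ} (hu : ∀ i j, ∑ p, u i p * u j p = if i = j then ν j else 0) (a : ι → ℝ)
    {w : κ → ℝ} {τ : ℝ} (hτ : 0 ≤ τ) (hw : ∀ j, w j * ν j ≤ τ) :
    ∑ j, w j * (∑ p, a p * u j p) ^ 2 ≤ τ * ∑ p, a p ^ 2 := by
  have hν : ∀ j, ∑ p, u j p * u j p = ν j := fun j => by simpa using hu j j
  have h0 : ∀ j, 0 ≤ ν j := fun j => hν j ▸ Finset.sum_nonneg fun p _ => mul_self_nonneg _
  obtain ⟨c, hc⟩ : ∃ c : κ → ℝ, ∀ j, ∑ p, a p * u j p = c j * ν j := by
    refine ⟨fun j => (∑ p, a p * u j p) / ν j, fun j => ?_⟩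
    rcases eq_or_ne (ν j) 0 with h | h
    · have := (Finset.sum_eq_zero_iff_of_nonneg fun p _ => mul_self_nonneg (u j p)).1 ((hν j).trans h)
      rw [h, mul_zero]
      exact Finset.sum_eq_zero fun p hp => by rw [mul_self_eq_zero.1 (this p hp), mul_zero]
    · rw [div_mul_cancel₀ _ h]
  have e1 : ∑ p, a p * ∑ j, c j * u j p = ∑ j, c j ^ 2 * ν j := by
    simp only [Finset.mul_sum]
    rw [Finset.sum_comm]
    refine Finset.sum_congr rfl fun j _ => ?_
    rw [sq, mul_assoc, ← hc, Finset.mul_sum]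
    exact Finset.sum_congr rfl fun p _ => by ring
  have e2 : ∑ p, (∑ j, c j * u j p) ^ 2 = ∑ j, c j ^ 2 * ν j := by
    simp only [sq, Finset.sum_mul_sum]
    rw [Finset.sum_comm]
    refine Finset.sum_congr rfl fun i _ => ?_
    rw [Finset.sum_comm]
    have : ∀ j, ∑ p, c i * u i p * (c j * u j p) = c i * c j * if i = j then ν j else 0 := fun j => by
      rw [← hu, Finset.mul_sum]
      exact Finset.sum_congr rfl fun p _ => by ring
    simp [this]
  have e3 : 0 ≤ ∑ p, (a p - ∑ j, c j * u j p) ^ 2 := Finset.sum_nonneg fun p _ => sq_nonneg _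
  simp only [sub_sq, Finset.sum_add_distrib, Finset.sum_sub_distrib, mul_assoc,
    ← Finset.mul_sum] at e3
  rw [e1, e2] at e3
  calc ∑ j, w j * (∑ p, a p * u j p) ^ 2 ≤ ∑ j, τ * (c j ^ 2 * ν j) :=
        Finset.sum_le_sum fun j _ => by
          rw [hc]
          nlinarith [mul_le_mul_of_nonneg_right (hw j) (mul_nonneg (sq_nonneg (c j)) (h0 j))]
    _ ≤ τ * ∑ p, a p ^ 2 := by
        rw [← Finset.mul_sum]
        exact mul_le_mul_of_nonneg_left (by linarith) hτ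

theorem CoreD_ip0 {U : RM n} (hU : Uᵀ * U = 1) {A : E n → RM n} (hA : PGM A) :
    ∑ j, ip0 (fun z => A z *ᵥ col U j) (fun z => A z *ᵥ col U j) = GE fun z => hs (A z) := by
  simp only [ip0]
  rw [← GE_sum _ fun j _ => (hA.pgv (PGV.const _)).dot (hA.pgv (PGV.const _))]
  simp only [hs_eq_sum_cols hU]
  rfl

theorem CoreD_ipS {U : RM n} (hU : Uᵀ * U = 1) {A : Fin n → E n → RM n} (hA : ∀ k, PGM (A k)) :
    ∑ j, ipS (fun k z => A k z *ᵥ col U j) (fun k z => A k z *ᵥ col U j) =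
      GE fun z => ∑ k, hs (A k z) := by
  simp only [ipS]
  rw [← GE_sum _ fun j _ => PGV.dotS (fun k => (hA k).pgv (PGV.const _))
    fun k => (hA k).pgv (PGV.const _)]
  simp only [hs_eq_sum_cols hU]
  congr 1
  funext z
  exact Finset.sum_comm

theorem bessel_pt {J : Fin n → RM n} (hJ : ∀ k, (J k)ᵀ = J k) {U : RM n} {ν : Fin n → ℝ}
    (h : Fr (∑ k, J k * J k) U ν) (A : Fin n → RM n) {w : Fin n → ℝ} {τ : ℝ} (hτ : 0 ≤ τ)
    (hw : ∀ j, w j * ν j ≤ τ) :
    ∑ j, w j * ((∑ k, A k *ᵥ (J k *ᵥ col U j)) ⬝ᵥ (∑ k, A k *ᵥ (J k *ᵥ col U j))) ≤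
      τ * ∑ k, hs (A k) := by
  obtain ⟨u, hu0⟩ : ∃ u : Fin n → Fin n × Fin n → ℝ, ∀ j k b, u j (k, b) = (J k *ᵥ col U j) b :=
    ⟨fun j p => (J p.1 *ᵥ col U j) p.2, fun _ _ _ => rfl⟩
  have hu : ∀ i j, ∑ p, u i p * u j p = if i = j then ν j else 0 := fun i j => by
    have e1 : ∑ p, u i p * u j p = col U i ⬝ᵥ ((∑ k, J k * J k) *ᵥ col U j) := by
      rw [Fintype.sum_prod_type, Matrix.sum_mulVec, dotProduct_sum]
      refine Finset.sum_congr rfl fun k _ => ?_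
      rw [← mulVec_mulVec, dotProduct_mulVec, ← mulVec_transpose, hJ]
      simp only [hu0, dotProduct]
    rw [e1, h.mulVec_col, dotProduct_smul]
    have := congrFun (congrFun h.orth i) j
    rw [Matrix.mul_apply, Matrix.one_apply] at this
    have e2 : col U i ⬝ᵥ col U j = if i = j then 1 else 0 := this
    rw [e2]
    split_ifs <;> simp
  have e0 : ∀ j a, (∑ k, A k *ᵥ (J k *ᵥ col U j)) a =
      ∑ p : Fin n × Fin n, A p.1 a p.2 * u j p := fun j a => by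
    rw [Fintype.sum_prod_type, Finset.sum_apply]
    refine Finset.sum_congr rfl fun k _ => ?_
    simp only [hu0]
    generalize J k *ᵥ col U j = y
    rfl
  have e : ∀ j, (∑ k, A k *ᵥ (J k *ᵥ col U j)) ⬝ᵥ (∑ k, A k *ᵥ (J k *ᵥ col U j)) =
      ∑ a, (∑ p : Fin n × Fin n, A p.1 a p.2 * u j p) ^ 2 := fun j => by
    simp only [← e0, sq, dotProduct]
  have e' : ∑ k, hs (A k) = ∑ a, ∑ p : Fin n × Fin n, A p.1 a p.2 ^ 2 := by
    simp only [hs, Fintype.sum_prod_type]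
    exact Finset.sum_comm
  rw [e', Finset.mul_sum, Finset.sum_congr rfl fun j _ => by rw [e, Finset.mul_sum],
    Finset.sum_comm]
  exact Finset.sum_le_sum fun a _ => CoreD_bessel hu (fun p => A p.1 a p.2) hτ hw

namespace GD
variable (D : GD n) {U : RM n}

theorem sum_ce (hU : Uᵀ * U = 1) {s : ℝ → ℝ → ℝ} (hs : CS s) :
    ∑ j, D.ce s (col U j) = D.gS s := by
  exact CoreD_ipS hU (D.sX_pgm hs)

theorem sum_av (hU : Uᵀ * U = 1) {f : ℝ → ℝ} (hf : Continuous f) :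
    ∑ j, D.av f (col U j) = GE fun z => (mf f (D.M z)).trace := by
  simp only [av]
  rw [← GE_sum _ fun j _ => D.av_pg hf _]
  simp only [trace_eq_sum_cols hU]
  rfl

theorem sum_r2 (hU : Uᵀ * U = 1) :
    ∑ j, D.r2 (col U j) = GE fun z => hs (D.M z - D.Lm z) := by
  exact CoreD_ip0 hU (D.M_pgm.sub D.Lm_pgm)

theorem sum_y2 (hU : Uᵀ * U = 1) :
    ∑ j, D.y2 (col U j) = GE fun z => ∑ k, hs (D.Zk k z) := by
  simp only [← D.ipS_zv_zv]
  exact CoreD_ipS hU D.Zk_pgm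

/-- From `ipS_xv_xv` and `ip0_cM_cM`. -/
theorem sum_S (hU : Uᵀ * U = 1) :
    ∑ j, (D.y2 (col U j) - D.r2 (col U j)) = D.gM - GE fun z => hs (D.M z) := by
  have e : ∀ v, D.y2 v - D.r2 v = ipS (D.xv v) (D.xv v) - ip0 (D.cM v) (D.cM v) := fun v => by
    rw [D.ipS_xv_xv, D.ip0_cM_cM]; ring
  simp only [e, Finset.sum_sub_distrib]
  rw [gM, ← CoreD_ipS hU D.dM_pgm, ← CoreD_ip0 hU D.M_pgm]
  rfl

/-- From `hs_mf_sub_le` and `ee_lip`. -/
theorem sum_par_le (hU : Uᵀ * U = 1) : ∑ j, D.par (col U j) ≤ ∑ j, D.r2 (col U j) := by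
  have h1 : PGM fun z => mf ee (D.M z) - mf ee (D.Lm z) :=
    (D.mf_pgm continuous_ee).sub (D.Lm_pgm.mf D.Lm_symm continuous_ee ee_le)
  rw [D.sum_r2 hU]
  refine (CoreD_ip0 hU h1).trans_le (GE_mono h1.hs (D.M_pgm.sub D.Lm_pgm).hs fun z => ?_)
  simpa using hs_mf_sub_le (D.M_symm z) (D.Lm_symm z) (L := 1) fun x _ y _ => ee_lip x y

theorem bessel {ν : Fin n → ℝ} (h : Fr D.Nm U ν) {A : Fin n → E n → RM n} (hA : ∀ k, PGM (A k))
    {w : Fin n → ℝ} {τ : ℝ} (hτ : 0 ≤ τ) (hw : ∀ j, w j * ν j ≤ τ) :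
    ∑ j, w j * D.cj A (col U j) ≤ τ * GE fun z => ∑ k, hs (A k z) := by
  simp only [cj, ip0, ← GE_const_mul]
  have h1 : ∀ j, PG fun z => w j * (D.cJ A (col U j) z ⬝ᵥ D.cJ A (col U j) z) := fun j =>
    ((D.cJ_pgv hA _).dot (D.cJ_pgv hA _)).const_mul _
  rw [← GE_sum _ fun j _ => h1 j]
  exact GE_mono (PG.sum _ fun j _ => h1 j) ((PG.sum _ fun k _ => (hA k).hs).const_mul _) fun z =>
    bessel_pt D.Jm_symm h (fun k => A k z) hτ hw

theorem sum_Dv (hU : Uᵀ * U = 1) :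
    ∑ j, D.Dv (col U j) = 2 * GE (fun z => (mf tt (D.M z)).trace) -
      GE (fun z => hs (mf kap (D.M z))) - D.gS (dd kap pp) := by
  have e : ∀ v, ip1 (D.cf kap v) (D.cf kap v) = D.ce (dd kap pp) v := fun v => by
    rw [ip1_eq_ipS]
    simp only [D.dkV_cf cd_kap]
    rfl
  simp only [Dv, e, Finset.sum_sub_distrib]
  rw [D.sum_ce hU cd_kap.cs_dd, D.sum_av hU (by fun_prop), ← GE_const_mul,
    ← GE_sub ((D.mf_pgm continuous_tt).trace.const_mul _) (D.mf_pgm continuous_kap).hs]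
  congr 2
  funext z
  obtain ⟨V, x, hV⟩ := exists_fr (D.M_symm z)
  rw [(hV.mf_fr _).trace_eq, (hV.mf_fr _).trace_eq, (hV.mf_fr _).hs_eq, Finset.sum_sub_distrib,
    Finset.mul_sum]

/-- From `gS_le_sym` and `sy_pp`. -/
theorem gS_spp_le : 2 * D.gS spp ≤ (1 / 10) ^ 4 * D.gS (fun a b => (uu a - uu b) ^ 2) := by
  exact D.gS_le_sym (by fun_prop) sy_pp

theorem two_delta_ge (hU : Uᵀ * U = 1) {p : Fin n → ℝ} (hp : ∀ j, 0 < p j) :
    ∑ j, (D.Dv (col U j) + (D.y2 (col U j) - D.r2 (col U j)) -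
        p j * (col U j ⬝ᵥ (D.Q *ᵥ col U j)) + Real.log (p j)) +
      1 / 16 * D.gS (fun a b => uu a - uu b) + 1 / 480 * D.gS (fun a b => (uu a - uu b) ^ 2) ≤
    2 * D.delta := by
  have h1 := D.coreB
  have h2 := log_det_le_sum_cols D.Q_posDef hU
  have h3 : ∀ j, Real.log (col U j ⬝ᵥ (D.Q *ᵥ col U j)) ≤
      p j * (col U j ⬝ᵥ (D.Q *ᵥ col U j)) - 1 - Real.log (p j) := fun j => by
    have hq : 0 < col U j ⬝ᵥ (D.Q *ᵥ col U j) := by
      have := D.Q_posDef.dotProduct_mulVec_pos (x := col U j) fun h => by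
        have := col_dot hU j
        rw [h] at this
        simp at this
      simpa using this
    have := Real.log_le_sub_one_of_pos (mul_pos (hp j) hq)
    rw [Real.log_mul (hp j).ne' hq.ne'] at this
    linarith
  have h4 := Finset.sum_le_sum fun j (_ : j ∈ Finset.univ) => h3 j
  have h5 := D.sum_Dv hU
  have h6 := D.sum_S hU
  rw [D.two_delta_eq]
  simp only [Finset.sum_add_distrib, Finset.sum_sub_distrib, Finset.sum_const, Finset.card_univ,
    Fintype.card_fin, nsmul_eq_mul, mul_one] at h4 h6 ⊢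
  change Real.log D.Q.det ≤ ∑ j, Real.log (col U j ⬝ᵥ (D.Q *ᵥ col U j)) at h2
  linarith

end GD
end Crest.Agent.R253
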