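import Crest.Agent.R253.CoreA2

/-!
# Row 253: the upper bound for the variance of a column

We bound the functional of `Q_le`,
`Λ(y) = ⟨(H - κ(M)) v, y⟩ - ⟨∇ κ(M) v, ∇ y⟩`.
By `lam_sub_kap` and `mf_lam_M`, `(H - κ(M)) v = p(M) M v - κ''(M) v`, and
`∂_k κ(M) v = p(M) X_k v + e_k` (`dkV_cf`, `sv_dd_left`).  Write `p = 1/4 + π`,
`M v = L v + R v`, `X_k v = J_k v + Z_k v`.  The `1/4` part gives
`(⟨R v, y⟩ - ⟨∇ R v, ∇ y⟩) / 4` (`ip0_cL_eq_ip1`).  For the term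
`⟨π(M) L v, y⟩ - ∑ ⟨π(M) J_k v, ∂_k y⟩` we integrate a fraction `d` by parts (`ibp_pi`).
-/

set_option autoImplicit false
open MeasureTheory Matrix Filter Topology
open scoped ContDiff BigOperators

noncomputable section
namespace Crest.Agent.R253
open Crest.Agent.R238 Crest.Agent.R215

variable {n : ℕ}

/-- `π = p - 1/4`. -/
def pq (x : ℝ) : ℝ := pp x - 1 / 4

theorem cd_pq : CD pq k2 := ⟨fun x => (hasDerivAt_pp x).sub_const _, continuous_k2⟩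

theorem dd_pq : dd pq k2 = dd pp k2 := by
  funext a b
  by_cases h : a = b
  · rw [h, dd_self, dd_self]
  · rw [dd_of_ne _ _ h, dd_of_ne _ _ h, pq, pq, sub_sub_sub_cancel_right]

theorem mf_pp_mulVec {M : RM n} (hM : Mᵀ = M) (w : E n) :
    mf pp M *ᵥ w = (1 / 4 : ℝ) • w + mf pq M *ᵥ w := by
  have e : pp = fun x => 1 / 4 + pq x := funext fun x => by rw [pq]; ring
  conv_lhs => rw [e]
  rw [mf_add hM, mf_const hM, add_mulVec, smul_mulVec, one_mulVec]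

theorem CoreE_ip0_sum {u : Fin n → E n → E n} {w : E n → E n} (hu : ∀ k, PGV (u k)) (hw : PGV w) :
    ip0 (fun z => ∑ k, u k z) w = ∑ k, ip0 (u k) w := by
  simp only [ip0, sum_dotProduct]
  exact GE_sum _ fun k _ => (hu k).dot hw

theorem CoreE_ell {p k a b : ℝ} (h : 16 * p ^ 2 + k ^ 2 / (9 / 1000) ≤ 1) :
    p * p * (a * a) + p * k * (a * b) + (k * p * (b * a) + k * k * (b * b)) ≤
      a ^ 2 / 16 + 9 / 1000 * b ^ 2 := by
  have h1 : 0 ≤ (1 - (16 * p ^ 2 + k ^ 2 / (9 / 1000))) * (a ^ 2 / 16 + 9 / 1000 * b ^ 2) :=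
    mul_nonneg (sub_nonneg.2 h) (by positivity)
  nlinarith [sq_nonneg (16 * (9 / 1000) * p * b - k * a)]

/-- The ellipse inequality `f8` in an eigenframe (Cauchy-Schwarz in each coordinate). -/
theorem ellipse_pt {M : RM n} (hM : Mᵀ = M) (a b : E n) :
    (mf pq M *ᵥ a + mf k2 M *ᵥ b) ⬝ᵥ (mf pq M *ᵥ a + mf k2 M *ᵥ b) ≤
      a ⬝ᵥ a / 16 + 9 / 1000 * (b ⬝ᵥ b) := by
  obtain ⟨U, x, F⟩ := exists_fr hM
  rw [add_dotProduct, dotProduct_add, dotProduct_add, mf_dot_mf hM, mf_dot_mf hM, mf_dot_mf hM,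
    mf_dot_mf hM, (F.mf_fr _).quad, (F.mf_fr _).quad, (F.mf_fr _).quad, (F.mf_fr _).quad,
    F.norm_sq a, F.norm_sq b, Finset.sum_div, Finset.mul_sum]
  simp only [← Finset.sum_add_distrib]
  exact Finset.sum_le_sum fun i _ => CoreE_ell (sfp (x i)).f8

namespace GD
variable (D : GD n)

/-- The zero order part of the second term. -/
def a2 (ν d : ℝ) (v z : E n) : E n :=
  mf pq (D.M z) *ᵥ (D.cR v z + (1 - d) • D.cL v z) +
    mf k2 (D.M z) *ᵥ ((d * ν - 1) • v + d • D.cJ D.Zk v z)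
/-- The first order part of the second term. -/
def b2 (d : ℝ) (v : E n) (k : Fin n) (z : E n) : E n :=
  mf pq (D.M z) *ᵥ (D.zv v k z + (1 - d) • D.jv v k z)
/-- The zero order part of the third term. -/
def a3 (d : ℝ) (v z : E n) : E n := d • D.cJ (D.sX (sL pp k2)) v z

theorem a2_pgv (ν d : ℝ) (v : E n) : PGV (D.a2 ν d v) :=
  ((D.mf_pgm cd_pq.continuous).pgv ((D.cR_c1 v).pgv.add ((D.cL_c1 v).pgv.smul _))).add
    ((D.mf_pgm continuous_k2).pgv (((PGV.const v).smul _).add ((D.cJ_pgv D.Zk_pgm v).smul _)))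
theorem b2_pgv (d : ℝ) (v : E n) (k : Fin n) : PGV (D.b2 d v k) :=
  (D.mf_pgm cd_pq.continuous).pgv ((D.zv_pgv v k).add ((D.jv_pgv v k).smul _))
theorem a3_pgv (d : ℝ) (v : E n) : PGV (D.a3 d v) :=
  (D.cJ_pgv (D.sX_pgm cd_pp.cs_sL) v).smul d

/-- Integration by parts: `π(M) L v = ∑ z_k π(M) J_k v = ∑ z_k • cf π (J_k v)`; apply `ip0_coord`,
`dkV_cf` (`dd pq k2 = dd pp k2`), `sX_dd_left` and `cJ_dM`. -/
theorem ibp_pi {v : E n} {ν : ℝ} (hv : D.Nm *ᵥ v = ν • v) {y : E n → E n} (hy : C1V y) :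
    ip0 (fun z => mf pq (D.M z) *ᵥ D.cL v z) y -
        ipS (fun k z => mf pq (D.M z) *ᵥ D.jv v k z) (fun k => dkV k y) =
      ip0 (fun z => mf k2 (D.M z) *ᵥ (ν • v + D.cJ D.Zk v z)) y +
        ip0 (D.cJ (D.sX (sL pp k2)) v) y := by
  have c : ∀ k, C1V (D.cf pq (D.Jm k *ᵥ v)) := fun k => D.cf_c1 cd_pq _
  have e1 : (fun z => mf pq (D.M z) *ᵥ D.cL v z) =
      fun z => ∑ k, z k • D.cf pq (D.Jm k *ᵥ v) z := by
    funext z
    rw [D.cL_eq, mulVec_sum]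
    simp only [mulVec_smul, cf]
  have p1 : ∀ k, PGV fun z : E n => z k • D.cf pq (D.Jm k *ᵥ v) z := fun k a =>
    (PG.coord k).mul ((c k).pgv a)
  have e2 : ipS (fun k z => mf pq (D.M z) *ᵥ D.jv v k z) (fun k => dkV k y) =
      ∑ k, ip0 (D.cf pq (D.Jm k *ᵥ v)) (dkV k y) :=
    ipS_eq_sum (fun k => (c k).pgv) hy.pgvd
  have e3 : (fun z => ∑ k, dkV k (D.cf pq (D.Jm k *ᵥ v)) z) = fun z =>
      mf k2 (D.M z) *ᵥ (ν • v + D.cJ D.Zk v z) + D.cJ (D.sX (sL pp k2)) v z := by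
    funext z
    rw [← hv, ← D.cJ_dM]
    simp only [D.dkV_cf cd_pq, dd_pq, D.sv_dd_left, Finset.sum_add_distrib, cJ, mulVec_sum]
    rfl
  rw [e1, e2, CoreE_ip0_sum p1 hy.pgv]
  simp only [ip0_coord (c _) hy, Finset.sum_add_distrib, add_sub_cancel_right]
  rw [← CoreE_ip0_sum (fun k => (c k).pgvd k) hy.pgv, e3]
  exact ip0_add_left ((D.mf_pgm continuous_k2).pgv ((PGV.const _).add (D.cJ_pgv D.Zk_pgm v)))
    (D.cJ_pgv (D.sX_pgm cd_pp.cs_sL) v) hy.pgv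

theorem rho_eq {v : E n} {ν : ℝ} (hv : D.Nm *ᵥ v = ν • v) (d : ℝ) {y : E n → E n} (hy : C1V y) :
    ip0 (fun z => (D.H z - mf kap (D.M z)) *ᵥ v) y - ip1 (fun z => mf kap (D.M z) *ᵥ v) y =
      1 / 4 * (ip0 (D.cR v) y - ip1 (D.cR v) y) +
      (ip0 (D.a2 ν d v) y - ipS (D.b2 d v) (fun k => dkV k y)) +
      (ip0 (D.a3 d v) y - ipS (D.sv (sL kap pp) v) (fun k => dkV k y)) := by
  have pπ := D.mf_pgm cd_pq.continuous
  have pL := (D.cL_c1 v).pgv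
  have pR := (D.cR_c1 v).pgv
  have pπL : PGV fun z => mf pq (D.M z) *ᵥ D.cL v z := pπ.pgv pL
  have pk : PGV fun z => mf k2 (D.M z) *ᵥ (ν • v + D.cJ D.Zk v z) :=
    (D.mf_pgm continuous_k2).pgv ((PGV.const _).add (D.cJ_pgv D.Zk_pgm v))
  have pπJ : ∀ k, PGV fun z => mf pq (D.M z) *ᵥ D.jv v k z := fun k => pπ.pgv (D.jv_pgv v k)
  have pe := D.sv_pgv cd_kap.cs_sL v
  have e1 : (fun z => (D.H z - mf kap (D.M z)) *ᵥ v) = fun z =>
      ((1 / 4 : ℝ) • D.cL v z + (1 / 4 : ℝ) • D.cR v z) + D.a2 ν d v z +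
        (d • (mf pq (D.M z) *ᵥ D.cL v z) - d • (mf k2 (D.M z) *ᵥ (ν • v + D.cJ D.Zk v z))) := by
    funext z
    have hM := D.M_symm z
    have e : (fun x => lam x - kap x) = fun x => pp x * x - k2 x :=
      funext fun x => by rw [lam_sub_kap, mul_comm]
    rw [← D.mf_lam_M z, ← mf_sub hM, e, mf_sub hM, mf_mul hM, mf_id hM, sub_mulVec, ← mulVec_mulVec,
      mf_pp_mulVec hM]
    change _ • D.cM v z + mf pq (D.M z) *ᵥ D.cM v z - _ = _
    rw [D.cM_eq]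
    simp only [a2, mulVec_add, mulVec_smul]
    module
  have e2 : (fun k => dkV k fun z => mf kap (D.M z) *ᵥ v) = fun k z =>
      ((1 / 4 : ℝ) • D.jv v k z + (1 / 4 : ℝ) • D.zv v k z) + D.b2 d v k z +
        (d • (mf pq (D.M z) *ᵥ D.jv v k z) + D.sv (sL kap pp) v k z) := by
    funext k z
    change dkV k (D.cf kap v) z = _
    rw [D.dkV_cf cd_kap, D.sv_dd_left, mf_pp_mulVec (D.M_symm z), D.xv_eq]
    simp only [b2, mulVec_add, mulVec_smul]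
    module
  have e3 : ip1 (D.cR v) y = ipS (D.zv v) fun k => dkV k y := by
    simp only [ip1_eq_ipS, D.dkV_cR]
  have e4 : ip0 (D.a3 d v) y = d * ip0 (D.cJ (D.sX (sL pp k2)) v) y := ip0_smul_left _ _ _
  have h1 := D.ibp_pi hv hy
  have h2 := D.ip0_cL hy v
  rw [ip1_eq_ipS, e1, e2, e3, e4,
    ip0_add_left (((pL.smul _).add (pR.smul _)).add (D.a2_pgv ν d v))
      ((pπL.smul _).sub (pk.smul _)) hy.pgv,
    ip0_add_left ((pL.smul _).add (pR.smul _)) (D.a2_pgv ν d v) hy.pgv,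
    ip0_add_left (pL.smul _) (pR.smul _) hy.pgv, ip0_sub_left (pπL.smul _) (pk.smul _) hy.pgv,
    ipS_add_left (fun k => (((D.jv_pgv v k).smul _).add ((D.zv_pgv v k).smul _)).add (D.b2_pgv d v k))
      (fun k => ((pπJ k).smul _).add (pe k)) hy.pgvd,
    ipS_add_left (fun k => ((D.jv_pgv v k).smul _).add ((D.zv_pgv v k).smul _)) (D.b2_pgv d v)
      hy.pgvd,
    ipS_add_left (fun k => (D.jv_pgv v k).smul _) (fun k => (D.zv_pgv v k).smul _) hy.pgvd,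
    ipS_add_left (fun k => (pπJ k).smul _) pe hy.pgvd]
  simp only [ip0_smul_left, ipS_smul_left]
  linear_combination d * h1 + 1 / 4 * h2

/-- `ellipse_pt` (with `b = 0` for `b2`), then the orthogonality relations of `CoreA2`. -/
theorem norm2_le {v : E n} {ν : ℝ} (hv : D.Nm *ᵥ v = ν • v) (h1 : v ⬝ᵥ v = 1) (d : ℝ) :
    ip0 (D.a2 ν d v) (D.a2 ν d v) + ipS (D.b2 d v) (D.b2 d v) ≤
      (D.y2 v + D.r2 v + 2 * (1 - d) ^ 2 * ν) / 16 +
        9 / 1000 * ((d * ν - 1) ^ 2 + d ^ 2 * D.cj D.Zk v) := by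
  have hν : D.nv v = ν := by rw [nv, hv, dotProduct_smul, h1, smul_eq_mul, mul_one]
  have pL := (D.cL_c1 v).pgv
  have pR := (D.cR_c1 v).pgv
  have pZ := D.cJ_pgv D.Zk_pgm v
  have pa : PGV fun z => D.cR v z + (1 - d) • D.cL v z := pR.add (pL.smul _)
  have pb : PGV fun z => (d * ν - 1) • v + d • D.cJ D.Zk v z := ((PGV.const v).smul _).add (pZ.smul _)
  have pc : ∀ k, PGV fun z => D.zv v k z + (1 - d) • D.jv v k z := fun k =>
    (D.zv_pgv v k).add ((D.jv_pgv v k).smul _)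
  have ea : ip0 (fun z => D.cR v z + (1 - d) • D.cL v z) (fun z => D.cR v z + (1 - d) • D.cL v z) =
      D.r2 v + (1 - d) ^ 2 * ν := by
    rw [ip0_add_left pR (pL.smul _) pa, ip0_add_right pR (pL.smul _) pR, ip0_smul_left,
      ip0_add_right pR (pL.smul _) pL, ip0_smul_right, ip0_smul_right, ip0_comm (D.cR v) (D.cL v),
      D.ip0_cL_cR, D.ip0_cL_cL, hν, r2]
    ring
  have eb : ip0 (fun z => (d * ν - 1) • v + d • D.cJ D.Zk v z)
      (fun z => (d * ν - 1) • v + d • D.cJ D.Zk v z) = (d * ν - 1) ^ 2 + d ^ 2 * D.cj D.Zk v := by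
    have z0 : ip0 (fun _ => v) (D.cJ D.Zk v) = 0 := ip0_const_left pZ (D.GE_cJ_Zk v) v
    rw [ip0_add_left ((PGV.const v).smul _) (pZ.smul _) pb, ip0_smul_left, ip0_smul_left,
      ip0_add_right ((PGV.const v).smul _) (pZ.smul _) (PGV.const v),
      ip0_add_right ((PGV.const v).smul _) (pZ.smul _) pZ, ip0_smul_right, ip0_smul_right,
      ip0_smul_right, ip0_smul_right, ip0_comm (D.cJ D.Zk v) (fun _ => v), z0, ip0_const, h1, cj]
    ring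
  have ec : ipS (fun k z => D.zv v k z + (1 - d) • D.jv v k z)
      (fun k z => D.zv v k z + (1 - d) • D.jv v k z) = D.y2 v + (1 - d) ^ 2 * ν := by
    rw [ipS_add_left (D.zv_pgv v) (fun k => (D.jv_pgv v k).smul _) pc, ipS_smul_left,
      ipS_comm (D.zv v), ipS_comm (D.jv v),
      ipS_add_left (D.zv_pgv v) (fun k => (D.jv_pgv v k).smul _) (D.zv_pgv v),
      ipS_add_left (D.zv_pgv v) (fun k => (D.jv_pgv v k).smul _) (D.jv_pgv v), ipS_smul_left,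
      ipS_smul_left, ipS_comm (D.zv v) (D.jv v), D.ipS_jv_zv, D.ipS_zv_zv, D.ipS_jv_jv, hν]
    ring
  have b1 : ip0 (D.a2 ν d v) (D.a2 ν d v) ≤ 1 / 16 * (D.r2 v + (1 - d) ^ 2 * ν) +
      9 / 1000 * ((d * ν - 1) ^ 2 + d ^ 2 * D.cj D.Zk v) := by
    rw [← ea, ← eb, ip0, ip0, ip0, ← GE_const_mul, ← GE_const_mul,
      ← GE_add ((pa.dot pa).const_mul _) ((pb.dot pb).const_mul _)]
    refine GE_mono ((D.a2_pgv ν d v).dot (D.a2_pgv ν d v))
      (((pa.dot pa).const_mul _).add ((pb.dot pb).const_mul _)) fun z => ?_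
    exact (ellipse_pt (D.M_symm z) _ _).trans_eq (by ring)
  have b2' : ipS (D.b2 d v) (D.b2 d v) ≤ 1 / 16 * (D.y2 v + (1 - d) ^ 2 * ν) := by
    rw [← ec, ipS, ipS, ← GE_const_mul]
    refine GE_mono (PGV.dotS (D.b2_pgv d v) (D.b2_pgv d v)) ((PGV.dotS pc pc).const_mul _)
      fun z => ?_
    rw [Finset.mul_sum]
    refine Finset.sum_le_sum fun k _ => ?_
    have := ellipse_pt (D.M_symm z) (D.zv v k z + (1 - d) • D.jv v k z) 0
    rw [mulVec_zero, add_zero, dotProduct_zero, mul_zero, add_zero] at this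
    exact this.trans_eq (by ring)
  linarith

/-- `Q_le` with `ρ = ρ₁ + ρ₂ + ρ₃` (`rho_eq`, `ch2_dual`, `dual_le`), and `sq_add3_le`. -/
theorem q_le (hc : D.Cent) {v : E n} {ν : ℝ} (hv : D.Nm *ᵥ v = ν • v) (h1 : v ⬝ᵥ v = 1)
    {d θ₁ θ₂ θ₃ : ℝ} (p1 : 0 < θ₁) (p2 : 0 < θ₂) (p3 : 0 < θ₃) (hθ : θ₁ + θ₂ + θ₃ ≤ 1) :
    v ⬝ᵥ (D.Q *ᵥ v) ≤ D.Dv v + (D.y2 v - 5 / 3 * D.r2 v) / (16 * θ₁) +
      ((D.y2 v + D.r2 v + 2 * (1 - d) ^ 2 * ν) / 16 +
        9 / 1000 * ((d * ν - 1) ^ 2 + d ^ 2 * D.cj D.Zk v)) / θ₂ +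
      (D.ce (sL kap pp) v + d ^ 2 * D.cj (D.sX (sL pp k2)) v) / θ₃ := by
  have hr := D.r2_nonneg v
  have hy2 := D.two_r2_le hc v
  have pe := D.sv_pgv cd_kap.cs_sL v
  have n2 := add_nonneg (ip0_self_nonneg (D.a2 ν d v)) (ipS_self_nonneg (D.b2 d v))
  have n3 := add_nonneg (ip0_self_nonneg (D.a3 d v)) (ipS_self_nonneg (D.sv (sL kap pp) v))
  have key := D.Q_le v (ρ := 1 / 4 * Real.sqrt (D.y2 v - 5 / 3 * D.r2 v) +
      Real.sqrt (ip0 (D.a2 ν d v) (D.a2 ν d v) + ipS (D.b2 d v) (D.b2 d v)) +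
      Real.sqrt (ip0 (D.a3 d v) (D.a3 d v) + ipS (D.sv (sL kap pp) v) (D.sv (sL kap pp) v)))
    fun y hy => by
      have k1 := ch2_dual (D.cR_c1 v) (D.ch2_cR hc v) hy
      have k2 := dual_le (D.a2_pgv ν d v) (D.b2_pgv d v) hy
      have k3 := dual_le (D.a3_pgv d v) pe hy
      rw [D.rho_eq hv d hy]
      change _ ≤ Real.sqrt (D.y2 v - 5 / 3 * D.r2 v) * _ at k1
      linarith
  have k4 := sq_add3_le (a := 1 / 4 * Real.sqrt (D.y2 v - 5 / 3 * D.r2 v))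
    (b := Real.sqrt (ip0 (D.a2 ν d v) (D.a2 ν d v) + ipS (D.b2 d v) (D.b2 d v)))
    (c := Real.sqrt (ip0 (D.a3 d v) (D.a3 d v) + ipS (D.sv (sL kap pp) v) (D.sv (sL kap pp) v)))
    p1 p2 p3 hθ
  rw [mul_pow, Real.sq_sqrt (by linarith), Real.sq_sqrt n2, Real.sq_sqrt n3] at k4
  have e3 : ip0 (D.a3 d v) (D.a3 d v) = d ^ 2 * D.cj (D.sX (sL pp k2)) v := by
    rw [cj, sq, mul_assoc, ← ip0_smul_right, ← ip0_smul_left]
    rfl
  have k5 := div_le_div_of_nonneg_right (D.norm2_le hv h1 d) p2.le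
  have e1 : (1 / 4) ^ 2 * (D.y2 v - 5 / 3 * D.r2 v) / θ₁ = (D.y2 v - 5 / 3 * D.r2 v) / (16 * θ₁) := by
    field_simp
    ring
  have e2 : (ip0 (D.a3 d v) (D.a3 d v) + ipS (D.sv (sL kap pp) v) (D.sv (sL kap pp) v)) / θ₃ =
      (D.ce (sL kap pp) v + d ^ 2 * D.cj (D.sX (sL pp k2)) v) / θ₃ := by
    rw [e3, add_comm, ce]
  change _ ≤ D.Dv v + _ at key
  linarith

end GD
end Crest.Agent.R253
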