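import Crest.Agent.R253.CoreA2

/-!
# Row 253: the lower bound for the main term of a column
-/

set_option autoImplicit false
open MeasureTheory Matrix Filter Topology
open scoped ContDiff BigOperators

noncomputable section
namespace Crest.Agent.R253
open Crest.Agent.R238 Crest.Agent.R215

variable {n : ℕ}

theorem CoreF_dot {A : RM n} (hA : Aᵀ = A) (u w : E n) : (A *ᵥ u) ⬝ᵥ w = u ⬝ᵥ (A *ᵥ w) := by
  rw [dotProduct_mulVec u, ← mulVec_transpose, hA]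

namespace GD
variable (D : GD n)

theorem sX_spp (k : Fin n) (z : E n) : D.sX spp k z = D.sX (dd Pi fun x => pp x ^ 2) k z -
    (2 : ℝ) • (mf pp (D.M z) * D.sX (dd kap pp) k z) + mf pp (D.M z) * (mf pp (D.M z) * D.dM k z) := by
  have hM := D.M_symm z
  have e1 := sch_sch hM hM (fun x _ => 2 * pp x) (dd kap pp) (D.dM k z)
  rw [sch_left hM hM (fun x => 2 * pp x), mf_smul hM, smul_mul_assoc] at e1
  have e2 := sch_left hM hM (fun x => pp x ^ 2) (D.dM k z)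
  rw [mf_sq hM, Matrix.mul_assoc] at e2
  simp only [sX]
  rw [e1, ← e2, ← sch_sub_sym, ← sch_add_sym]
  rfl

theorem ip0_cf_cM {f : ℝ → ℝ} (hf : Continuous f) (v : E n) :
    ip0 (D.cf f v) (D.cM v) = ip0 (D.cf f v) (D.cL v) + ip0 (D.cf f v) (D.cR v) := by
  rw [← ip0_add_right (D.cL_c1 v).pgv (D.cR_c1 v).pgv (D.cf_pgv hf v), funext (D.cM_eq v)]

/-- Pointwise: with `a_k = p(M) X_k v`, `e_k = sv (sL kap pp)`, we have `∂_k κ(M) v = a_k + e_k` and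
`⟨sv spp, X_k v⟩ = ⟨∂_k Π(M) v, X_k v⟩ - 2 ⟨a_k + e_k, a_k⟩ + |a_k|²`, because
`sX spp = sX (dd Π p²) - 2 p(M) sX (dd κ p) + p(M)² X_k` (`sch_sch`, `sch_left`, `sch_add_sym`, ...). -/
theorem ip1_kap (v : E n) : ip1 (D.cf kap v) (D.cf kap v) =
    ip1 (D.cf Pi v) (D.cM v) - ipS (D.sv spp v) (D.xv v) + D.ce (sL kap pp) v := by
  have pP := D.sv_pgv cd_Pi.cs_dd v
  have pS := D.sv_pgv cs_spp v
  have pe := D.sv_pgv cd_kap.cs_sL v
  have pX := D.xv_pgv v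
  simp only [ip1_eq_ipS, D.dkV_cf cd_kap, D.dkV_cf cd_Pi, D.dkV_cM, ce, ipS]
  rw [← GE_sub (PGV.dotS pP pX) (PGV.dotS pS pX),
    ← GE_add ((PGV.dotS pP pX).sub (PGV.dotS pS pX)) (PGV.dotS pe pe)]
  congr 1
  funext z
  rw [← Finset.sum_sub_distrib, ← Finset.sum_add_distrib]
  refine Finset.sum_congr rfl fun k _ => ?_
  have e : D.sv spp v k z = D.sv (dd Pi fun x => pp x ^ 2) v k z -
      (2 : ℝ) • (mf pp (D.M z) *ᵥ D.sv (dd kap pp) v k z) +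
        mf pp (D.M z) *ᵥ (mf pp (D.M z) *ᵥ D.xv v k z) := by
    simp only [sv, xv, D.sX_spp, add_mulVec, sub_mulVec, smul_mulVec, mulVec_mulVec]
  rw [e, add_dotProduct, sub_dotProduct, smul_dotProduct, CoreF_dot (mf_symm _ _),
    CoreF_dot (mf_symm _ _) (mf pp (D.M z) *ᵥ D.xv v k z), D.sv_dd_left kap pp]
  simp only [add_dotProduct, dotProduct_add, smul_eq_mul,
    dotProduct_comm (D.sv (sL kap pp) v k z) (mf pp (D.M z) *ᵥ D.xv v k z)]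
  ring

/-- `stein_id`, `ip1_kap`, `av_id_mul`, `cM_eq`, `ip0_cL_eq_ip1`. -/
theorem D_eq {v : E n} (h1 : v ⬝ᵥ v = 1) : D.Dv v = 1 + D.av (fun x => x * Om x - om x) v +
    (ipS (D.sv spp v) (D.xv v) - D.ce (sL kap pp) v) +
    (ip0 (D.cf Pi v) (D.cR v) - ip1 (D.cf Pi v) (D.cR v)) := by
  have cO := cd_Om.continuous
  have cP := cd_Pi.continuous
  have e : (fun x => 2 * tt x - kap x ^ 2) = fun x => (1 + (x * Om x - om x)) + x * Pi x :=
    funext fun x => by rw [stein_id]; ring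
  have e2 : ip1 (D.cf Pi v) (D.cM v) = ip1 (D.cL v) (D.cf Pi v) + ip1 (D.cf Pi v) (D.cR v) := by
    rw [ip1_comm _ (D.cR v), ← ip1_add_left (D.cL_c1 v) (D.cR_c1 v) (D.cf_c1 cd_Pi v), ip1_comm,
      funext (D.cM_eq v)]
  rw [Dv, e, D.av_add (by fun_prop) (by fun_prop), D.av_add (by fun_prop) (by fun_prop), D.av_const,
    h1, D.av_id_mul, D.ip0_cf_cM cP, D.ip1_kap, e2, ip0_comm _ (D.cL v),
    D.ip0_cL_eq_ip1 (D.cf_c1 cd_Pi v)]
  ring

/-- The commutator identity: `av_id_mul`, `cM_eq`, `ip0_cL`, `dkV_cf`, `sv_dd_right`, symmetry of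
`X_k`, `cJ_dM`, `av_eq_ip0`, `GE_cJ_Zk`. -/
theorem comm_eq {F φ : ℝ → ℝ} (h : CD F φ) {v : E n} {ν : ℝ} (hv : D.Nm *ᵥ v = ν • v) (c : ℝ) :
    D.av (fun x => x * F x) v = ν * D.av φ v +
      ip0 (D.cJ D.Zk v) (D.cf (fun x => φ x - c) v) + ipS (D.sv (sR F φ) v) (D.jv v) +
      ip0 (D.cf F v) (D.cR v) := by
  have pZ := D.cJ_pgv D.Zk_pgm v
  have pφ := D.cf_pgv h.cont v
  have e1 : (fun k => dkV k (D.cf F v)) =
      fun k z => D.dM k z *ᵥ D.cf φ v z + D.sv (sR F φ) v k z := by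
    funext k z
    rw [D.dkV_cf h, D.sv_dd_right]
  have e2 : ipS (fun k z => D.dM k z *ᵥ D.cf φ v z) (D.jv v) =
      ip0 (fun z => ν • v + D.cJ D.Zk v z) (D.cf φ v) := by
    simp only [ipS, ip0]
    congr 1
    funext z
    rw [← hv, ← D.cJ_dM, cJ, sum_dotProduct]
    refine Finset.sum_congr rfl fun k _ => ?_
    rw [CoreF_dot (D.dM_symm k z), dotProduct_comm]
    rfl
  have e3 : D.cf (fun x => φ x - c) v = fun z => D.cf φ v z - c • v := by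
    funext z
    rw [cf, cf, mf_sub (D.M_symm z), mf_const (D.M_symm z), sub_mulVec, smul_mulVec, one_mulVec]
  have z0 : ip0 (fun _ => v) (D.cJ D.Zk v) = 0 := ip0_const_left pZ (D.GE_cJ_Zk v) v
  rw [D.av_id_mul, D.ip0_cf_cM h.continuous, ip0_comm _ (D.cL v), D.ip0_cL (D.cf_c1 h v), e1,
    ipS_comm, ipS_add_left (fun k => (D.dM_pgm k).pgv pφ) (D.sv_pgv h.cs_sR v) (D.jv_pgv v), e2,
    ip0_add_left ((PGV.const v).smul ν) pZ pφ, ip0_smul_left, e3,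
    ip0_sub_right pφ ((PGV.const v).smul c) pZ, ip0_smul_right, ip0_comm (D.cJ D.Zk v) (fun _ => v),
    z0, D.av_eq_ip0]
  ring

/-- The parity identity: `E ⟨L v, e(L) v⟩ = 0` by `GE_neg_arg`, `mf_neg_arg`, `ee_neg`. -/
theorem par_eq (v : E n) :
    D.av (fun x => x * ee x) v = ip0 (D.pv v) (D.cL v) + ip0 (D.cf ee v) (D.cR v) := by
  have pe := D.cf_pgv continuous_ee v
  have e1 : (fun z => mf ee (D.Lm z) *ᵥ v) = fun z => D.cf ee v z - D.pv v z := by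
    funext z
    rw [cf, pv, sub_mulVec, sub_sub_cancel]
  have z0 : ip0 (fun z => mf ee (D.Lm z) *ᵥ v) (D.cL v) = 0 := by
    have hL : ∀ z, D.Lm (-z) = -D.Lm z := fun z => by
      simp only [Lm, Pi.neg_apply, neg_smul, Finset.sum_neg_distrib]
    have h1 := GE_neg_arg fun z => (mf ee (D.Lm z) *ᵥ v) ⬝ᵥ D.cL v z
    simp only [cL, hL, mf_neg_arg (D.Lm_symm _), ee_neg, neg_mulVec, dotProduct_neg, GE_neg] at h1
    simp only [ip0, cL]
    linarith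
  rw [e1, ip0_sub_left pe (D.pv_pgv v) (D.cL_c1 v).pgv] at z0
  rw [D.av_id_mul, D.ip0_cf_cM continuous_ee]
  linarith

/-- `∂_k (A(M) v - c M v) = (A' - c)(M) X_k v + sv (sL A A')`; use `ipS_add_le`, then pointwise
`mf_mulVec_sq`, `mf_quad_le_const`, and `ipS_xv_xv`. -/
theorem grad_le {A A' B B' : ℝ → ℝ} (hA : CD A A') (hB : CD B B') {c₁ c₂ K δ : ℝ} (hδ : 0 < δ)
    (hK : ∀ x, (A' x - c₁) ^ 2 / 2 + (B' x - c₂) ^ 2 ≤ K) (v : E n) :
    ip1 (fun z => D.cf A v z - c₁ • D.cM v z) (fun z => D.cf A v z - c₁ • D.cM v z) / 2 +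
        ip1 (fun z => D.cf B v z - c₂ • D.cM v z) (fun z => D.cf B v z - c₂ • D.cM v z) ≤
      (1 + δ) * K * (D.nv v + D.y2 v) +
        (1 + 1 / δ) * (D.ce (sL A A') v / 2 + D.ce (sL B B') v) := by
  have pX := D.xv_pgv v
  have key : ∀ {A A' : ℝ → ℝ}, CD A A' → ∀ c : ℝ,
      ip1 (fun z => D.cf A v z - c • D.cM v z) (fun z => D.cf A v z - c • D.cM v z) ≤
        (1 + δ) * GE (fun z => ∑ k, D.xv v k z ⬝ᵥ (mf (fun x => (A' x - c) ^ 2) (D.M z) *ᵥ D.xv v k z)) +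
          (1 + 1 / δ) * D.ce (sL A A') v := by
    intro A A' hA c
    have e : (fun k => dkV k fun z => D.cf A v z - c • D.cM v z) = fun k z =>
        mf (fun x => A' x - c) (D.M z) *ᵥ D.xv v k z + D.sv (sL A A') v k z := by
      funext k z
      rw [dkV_sub (D.cf_c1 hA v) ((D.cM_c1 v).smul c), dkV_smul, D.dkV_cf hA, D.dkV_cM, D.sv_dd_left,
        mf_sub (D.M_symm z), mf_const (D.M_symm z), sub_mulVec, smul_mulVec, one_mulVec]
      abel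
    have := ipS_add_le (u := fun k z => mf (fun x => A' x - c) (D.M z) *ᵥ D.xv v k z)
      (fun k => (D.mf_pgm (hA.cont.sub continuous_const)).pgv (pX k)) (D.sv_pgv hA.cs_sL v) hδ
    rw [ip1_eq_ipS, e]
    refine this.trans_eq ?_
    simp only [ipS, ce, mf_mulVec_sq (D.M_symm _)]
  have q : ∀ {f : ℝ → ℝ}, Continuous f →
      PG fun z => ∑ k, D.xv v k z ⬝ᵥ (mf f (D.M z) *ᵥ D.xv v k z) := fun hf =>
    PGV.dotS pX fun k => (D.mf_pgm hf).pgv (pX k)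
  have qA := q (f := fun x => (A' x - c₁) ^ 2) ((hA.cont.sub continuous_const).pow 2)
  have qB := q (f := fun x => (B' x - c₂) ^ 2) ((hB.cont.sub continuous_const).pow 2)
  have k3 : 1 / 2 * GE (fun z => ∑ k, D.xv v k z ⬝ᵥ (mf (fun x => (A' x - c₁) ^ 2) (D.M z) *ᵥ D.xv v k z)) +
      GE (fun z => ∑ k, D.xv v k z ⬝ᵥ (mf (fun x => (B' x - c₂) ^ 2) (D.M z) *ᵥ D.xv v k z)) ≤
      K * (D.nv v + D.y2 v) := by
    rw [← D.ipS_xv_xv, ipS, ← GE_const_mul, ← GE_const_mul, ← GE_add (qA.const_mul _) qB]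
    refine GE_mono ((qA.const_mul _).add qB) ((PGV.dotS pX pX).const_mul _) fun z => ?_
    rw [Finset.mul_sum, Finset.mul_sum, ← Finset.sum_add_distrib]
    refine Finset.sum_le_sum fun k _ => ?_
    have := mf_quad_le_const (D.M_symm z)
      (f := fun x => 1 / 2 * (A' x - c₁) ^ 2 + (B' x - c₂) ^ 2) (C := K)
      (fun x _ => by linarith [hK x]) (D.xv v k z)
    rwa [mf_add (D.M_symm z), mf_smul (D.M_symm z), add_mulVec, smul_mulVec, dotProduct_add,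
      dotProduct_smul, smul_eq_mul] at this
  have k1 := key hA c₁
  have k2 := key hB c₂
  have k4 := mul_le_mul_of_nonneg_left k3 (by linarith : 0 ≤ 1 + δ)
  linarith

/-- `ch2_pair` for the shifted fields, `grad_le`, `ip0_cM_cR`, `ip1_cM_cR`. -/
theorem pair_ge (hc : D.Cent) {A A' B B' : ℝ → ℝ} (hA : CD A A') (hB : CD B B')
    {c₁ c₂ K δ σ : ℝ} (hδ : 0 < δ) (hσ : 0 < σ)
    (hK : ∀ x, (A' x - c₁) ^ 2 / 2 + (B' x - c₂) ^ 2 ≤ K) (ε : ℝ) (v : E n) :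
    ε * ((c₁ + c₂) * D.r2 v - c₂ * (D.y2 v - D.r2 v)) - σ * (D.y2 v - D.r2 v) -
        ε ^ 2 * ((1 + δ) * K * (D.nv v + D.y2 v) +
          (1 + 1 / δ) * (D.ce (sL A A') v / 2 + D.ce (sL B B') v)) / (4 * σ) ≤
      ε * (ip0 (D.cf A v) (D.cR v) - (ip1 (D.cf B v) (D.cR v) - 2 * ip0 (D.cf B v) (D.cR v))) := by
  have cA := (D.cf_c1 hA v).sub ((D.cM_c1 v).smul c₁)
  have cB := (D.cf_c1 hB v).sub ((D.cM_c1 v).smul c₂)
  have cR' := D.cR_c1 v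
  have k1 := ch2_pair cA cB cR' (D.ch2_cR hc v) hσ ε
  rw [ip0_sub_left (D.cf_c1 hA v).pgv ((D.cM_c1 v).pgv.smul c₁) cR'.pgv,
    ip0_sub_left (D.cf_c1 hB v).pgv ((D.cM_c1 v).pgv.smul c₂) cR'.pgv,
    ip1_sub_left (D.cf_c1 hB v) ((D.cM_c1 v).smul c₂) cR', ip0_smul_left, ip0_smul_left,
    ip1_smul_left, D.ip0_cM_cR, D.ip1_cM_cR] at k1
  have k2 := div_le_div_of_nonneg_right
    (mul_le_mul_of_nonneg_left (D.grad_le hA hB hδ hK v) (sq_nonneg ε)) (by positivity : 0 ≤ 4 * σ)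
  change -(σ * (D.y2 v - D.r2 v)) - _ ≤ _ at k1
  linarith

/-- Combine `D_eq`, `comm_eq`, `par_eq`:
`Dv = 1 + av (x (Ω - F) + ν φ - ω - θ x e) + ⟨cJ Z, (φ - c)(M) v⟩ + ⟨sv (sR F φ), jv⟩
  + θ ⟨pv, cL⟩ + ⟨sv spp, xv⟩ - ce (sL κ p) + (⟨A, R⟩ - (⟨∇Π, ∇R⟩ - 2 ⟨Π, R⟩))`. -/
theorem D_eq2 {F φ A : ℝ → ℝ} (h : CD F φ) {θ : ℝ} (hA : ∀ x, A x = F x - Pi x + θ * ee x)
    {v : E n} {ν : ℝ} (hv : D.Nm *ᵥ v = ν • v) (h1 : v ⬝ᵥ v = 1) (c : ℝ) :
    D.Dv v = 1 + D.av (fun x => x * (Om x - F x) + ν * φ x - om x - θ * (x * ee x)) v +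
      ip0 (D.cJ D.Zk v) (D.cf (fun x => φ x - c) v) + ipS (D.sv (sR F φ) v) (D.jv v) +
      θ * ip0 (D.pv v) (D.cL v) + ipS (D.sv spp v) (D.xv v) - D.ce (sL kap pp) v +
      (ip0 (D.cf A v) (D.cR v) - (ip1 (D.cf Pi v) (D.cR v) - 2 * ip0 (D.cf Pi v) (D.cR v))) := by
  have cO := cd_Om.continuous
  have cP := cd_Pi.continuous
  have cF := h.continuous
  have cφ := h.cont
  have pR := (D.cR_c1 v).pgv
  have e1 : (fun x => x * (Om x - F x) + ν * φ x - om x - θ * (x * ee x)) =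
      fun x => ((x * Om x - om x) - x * F x + ν * φ x) - θ * (x * ee x) := funext fun x => by ring
  have e2 : D.cf A v = fun z => D.cf F v z - D.cf Pi v z + θ • D.cf ee v z := by
    funext z
    have hM := D.M_symm z
    rw [funext hA, cf, cf, cf, cf, mf_add hM, mf_sub hM, mf_smul hM, add_mulVec, sub_mulVec,
      smul_mulVec]
  rw [D.D_eq h1, e1, D.av_sub (g := fun x => θ * (x * ee x)) (by fun_prop) (by fun_prop), D.av_add (by fun_prop) (by fun_prop),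
    D.av_sub (f := fun x => x * Om x - om x) (by fun_prop) (by fun_prop), D.av_const_mul,
    D.av_const_mul, D.comm_eq h hv c, D.par_eq, e2,
    ip0_add_left ((D.cf_pgv cF v).sub (D.cf_pgv cP v)) ((D.cf_pgv continuous_ee v).smul θ) pR,
    ip0_sub_left (D.cf_pgv cF v) (D.cf_pgv cP v) pR, ip0_smul_left]
  ring

/-- `D_eq2` times `ε`; `ip0_amgm` with `W = 1/t` (and `av_mul`, `av_mono`, `av_quad` for `hG`),
`ipS_amgm` with `W = WF` and `W = 40`, `ip0_amgm` with `W = 3/20` and `ε θ`, `pair_ge`. -/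
theorem D_ge (hc : D.Cent) {F φ A A' : ℝ → ℝ} (h : CD F φ) {θ : ℝ}
    (hA : ∀ x, A x = F x - Pi x + θ * ee x) (hA' : ∀ x, A' x = φ x - pp x ^ 2 + θ * ee1 x)
    {v : E n} {ν : ℝ} (hv : D.Nm *ᵥ v = ν • v) (h1 : v ⬝ᵥ v = 1)
    {c c₁ c₂ K δ σ t WF ε A₀ B C : ℝ} (hδ : 0 < δ) (hσ : 0 < σ) (ht : 0 < t) (hW : 0 < WF)
    (hK : ∀ x, (A' x - c₁) ^ 2 / 2 + (pp x ^ 2 - c₂) ^ 2 ≤ K)
    (hG : ∀ x, A₀ + B * x + C * x ^ 2 ≤
      ε * (x * (Om x - F x) + ν * φ x - om x - θ * (x * ee x)) - ε ^ 2 * t * (φ x - c) ^ 2 / 4) :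
    ε + A₀ + C * (ν + D.r2 v) - D.cj D.Zk v / t -
        (WF * D.ce (sR F φ) v + ε ^ 2 * ν / (4 * WF)) -
        (40 * D.ce spp v + ε ^ 2 * (ν + D.y2 v) / 160) - ε * D.ce (sL kap pp) v -
        (3 / 20 * D.par v + (ε * θ) ^ 2 * ν / (3 / 5)) +
        (ε * ((c₁ + c₂) * D.r2 v - c₂ * (D.y2 v - D.r2 v)) - σ * (D.y2 v - D.r2 v) -
          ε ^ 2 * ((1 + δ) * K * (ν + D.y2 v) +
            (1 + 1 / δ) * (D.ce (sL A A') v / 2 + D.ce (sL Pi fun x => pp x ^ 2) v)) / (4 * σ)) ≤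
      ε * D.Dv v := by
  have cO := cd_Om.continuous
  have cF := h.continuous
  have cφ := h.cont
  have hν : D.nv v = ν := by rw [nv, hv, dotProduct_smul, h1, smul_eq_mul, mul_one]
  have cA : CD A A' := by
    rw [funext hA, funext hA']
    exact ⟨fun x => ((h.der x).fun_sub (cd_Pi.der x)).fun_add ((cd_ee.der x).const_mul θ),
      by fun_prop⟩
  have pw := D.cf_pgv (f := fun x => φ x - c) (cφ.sub continuous_const) v
  have k1 : A₀ + C * (ν + D.r2 v) ≤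
      ε * D.av (fun x => x * (Om x - F x) + ν * φ x - om x - θ * (x * ee x)) v -
        ε ^ 2 * t / 4 * ip0 (D.cf (fun x => φ x - c) v) (D.cf (fun x => φ x - c) v) := by
    rw [← hν, ← D.av_quad hc A₀ B C h1, hν, ← D.av_mul, ← D.av_const_mul, ← D.av_const_mul,
      ← D.av_sub (by fun_prop) (by fun_prop)]
    exact D.av_mono (by fun_prop) (by fun_prop) (fun x => (hG x).trans_eq (by ring)) v
  have k2 := ip0_amgm (D.cJ_pgv D.Zk_pgm v) pw (one_div_pos.2 ht) ε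
  have k3 := ipS_amgm (D.sv_pgv h.cs_sR v) (D.jv_pgv v) hW ε
  have k4 := ipS_amgm (D.sv_pgv cs_spp v) (D.xv_pgv v) (by norm_num : (0 : ℝ) < 40) ε
  have k5 := ip0_amgm (D.pv_pgv v) (D.cL_c1 v).pgv (by norm_num : (0 : ℝ) < 3 / 20) (ε * θ)
  have k6 := D.pair_ge hc cA cd_Pi hδ hσ hK ε v
  rw [D.ipS_jv_jv, hν] at k3
  rw [D.ipS_xv_xv, hν] at k4
  rw [D.ip0_cL_cL, hν] at k5
  rw [hν] at k6
  have e2 : ∀ a b : ℝ, 1 / t * a + ε ^ 2 * b / (4 * (1 / t)) = a / t + ε ^ 2 * t / 4 * b :=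
    fun a b => by field_simp
  rw [e2] at k2
  rw [D.D_eq2 h hA hv h1 c]
  simp only [cj, ce, par] at k6 ⊢
  linear_combination k1 + k2 + k3 + k4 + k5 + k6

end GD
end Crest.Agent.R253
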