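import Crest.Agent.R253.SFSym

/-!
# Row 253: the scalar bookkeeping for one column
-/

set_option autoImplicit false

noncomputable section
namespace Crest.Agent.R253

/-- The conditions on the parameters of a column with eigenvalue `ν`. -/
structure Cond (ν θ c₁ c₂ WF ε t σ δ d θ₁ θ₂ θ₃ A₀ C : ℝ) : Prop where
  ht : 0 < t
  hσ : 0 < σ
  hδ : 0 < δ
  h1 : 0 < θ₁
  h2 : 0 < θ₂
  h3 : 0 < θ₃
  hθ : θ₁ + θ₂ + θ₃ ≤ 1
  hε : ε < 1
  aS : 0 ≤ 1 - 1 / 10 - ε * c₂ - σ - ε ^ 2 * ((1 + δ) * (7 / 250)) / (4 * σ) - ε ^ 2 / 160 -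
    (1 - ε) / (16 * θ₁) - (1 - ε) / (16 * θ₂)
  aR : 1 / 1000 ≤ 1 - 1 / 10 - ε * c₂ - σ - ε ^ 2 * ((1 + δ) * (7 / 250)) / (4 * σ) - ε ^ 2 / 160 -
    (1 - ε) / (16 * θ₁) - (1 - ε) / (16 * θ₂) +
    (-(1 / 10) - 3 / 20 + ε * (c₁ + c₂) - ε ^ 2 * ((1 + δ) * (7 / 250)) / (4 * σ) - ε ^ 2 / 160 +
      (1 - ε) / (24 * θ₁) - (1 - ε) / (8 * θ₂) + C)
  wA : ε ^ 2 * (1 + 1 / δ) / (4 * σ) ≤ 11 / 10
  wk : ε + (1 - ε) / θ₃ ≤ 5
  w1 : (1 / t + (1 - ε) * (9 / 1000 * d ^ 2) / θ₂) * ν ≤ 1 / 10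
  w2 : (1 - ε) * d ^ 2 / θ₃ * ν ≤ 13
  c0 : 1 / 1000 * min 1 ((ν - 1) ^ 2) ≤ ε + Real.log (1 - ε) + A₀ + C * ν -
    ε ^ 2 * ν / (4 * WF) - ε ^ 2 * ν / 160 - (ε * θ) ^ 2 * ν / (3 / 5) -
    ε ^ 2 * ((1 + δ) * (7 / 250)) / (4 * σ) * ν -
    (1 - ε) / θ₂ * ((1 - d) ^ 2 * ν / 8 + 9 / 1000 * (d * ν - 1) ^ 2)

theorem col_scalar {ν θ c₁ c₂ WF ε t σ δ d θ₁ θ₂ θ₃ A₀ C : ℝ}
    (h : Cond ν θ c₁ c₂ WF ε t σ δ d θ₁ θ₂ θ₃ A₀ C) {Dv q r y ζ η ek eF ep par eA eP : ℝ}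
    (hr : 0 ≤ r) (hy : 2 * r ≤ y) (hk : 0 ≤ ek) (hA : 0 ≤ eA) (hP : 0 ≤ eP)
    (hq : q ≤ Dv + (y - 5 / 3 * r) / (16 * θ₁) +
      ((y + r + 2 * (1 - d) ^ 2 * ν) / 16 + 9 / 1000 * ((d * ν - 1) ^ 2 + d ^ 2 * ζ)) / θ₂ +
      (ek + d ^ 2 * η) / θ₃)
    (hD : ε + A₀ + C * (ν + r) - ζ / t - (WF * eF + ε ^ 2 * ν / (4 * WF)) -
        (40 * ep + ε ^ 2 * (ν + y) / 160) - ε * ek - (3 / 20 * par + (ε * θ) ^ 2 * ν / (3 / 5)) +
        (ε * ((c₁ + c₂) * r - c₂ * (y - r)) - σ * (y - r) -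
          ε ^ 2 * ((1 + δ) * (7 / 250) * (ν + y) + (1 + 1 / δ) * (eA / 2 + eP)) / (4 * σ)) ≤
      ε * Dv) :
    1 / 1000 * (r + min 1 ((ν - 1) ^ 2)) + 1 / 10 * y + 3 / 20 * r ≤
      Dv + (y - r) - (1 - ε) * q + Real.log (1 - ε) +
        (1 / t + (1 - ε) * (9 / 1000 * d ^ 2) / θ₂) * ζ + (1 - ε) * d ^ 2 / θ₃ * η +
        5 * ek + WF * eF + 40 * ep + 3 / 20 * par + 11 / 10 * (eA / 2 + eP) := by
  have hp : 0 < 1 - ε := sub_pos.2 h.hε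
  have e1 := mul_le_mul_of_nonneg_left hq hp.le
  have e2 := mul_nonneg h.aS (show 0 ≤ y - r - r by linarith)
  have e3 := mul_le_mul_of_nonneg_right h.aR hr
  have e4 := mul_le_mul_of_nonneg_right h.wA (show 0 ≤ eA / 2 + eP by linarith)
  have e5 := mul_le_mul_of_nonneg_right h.wk hk
  have e6 := h.c0
  have a1 := h.h1.ne'
  have a2 := h.h2.ne'
  have a3 := h.h3.ne'
  have a4 := h.hσ.ne'
  have a5 := h.ht.ne'
  set i1 := θ₁⁻¹ with hi1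
  set i2 := θ₂⁻¹ with hi2
  set i3 := θ₃⁻¹ with hi3
  set iσ := σ⁻¹ with hiσ
  set it := t⁻¹ with hit
  set iW := WF⁻¹ with hiW
  set iδ := δ⁻¹ with hiδ
  simp only [div_eq_mul_inv, mul_inv, ← hi1, ← hi2, ← hi3, ← hiσ, ← hit, ← hiW, ← hiδ, one_mul]
    at e1 e2 e3 e4 e5 e6 hD ⊢
  nlinarith [e1, e2, e3, e4, e5, e6, hD]

/-- `log (1 - ε) ≥ -ε - (3/5) ε²` on `[-0.115, 0.173]`: with `f ε = log (1 - ε) + ε + 3/5 ε²`; e.g. use
`Real.abs_log_sub_add_sum_range_le` with enough terms, or `log (1 - ε) = -log (1 / (1 - ε))` and a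
monotonicity argument (`f' ε = ε (1/5 - 6/5 ε) / (1 - ε)`, `f 0 = 0`, `f (0.173) > 0`). -/
theorem log_near {ε : ℝ} (h1 : -(115 / 1000) ≤ ε) (h2 : ε ≤ 173 / 1000) :
    -ε - 3 / 5 * ε ^ 2 ≤ Real.log (1 - ε) := by
  have hx : |ε| < 1 := by rw [abs_lt]; constructor <;> linarith
  have h := Real.abs_log_sub_add_sum_range_le hx 4
  have ha : |ε| ≤ 173 / 1000 := by rw [abs_le]; constructor <;> linarith
  have h3 : |ε| ^ (4 + 1) / (1 - |ε|) ≤ ε ^ 2 * (1 / 100) := by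
    rw [div_le_iff₀ (by linarith)]
    have e : |ε| ^ (4 + 1) = ε ^ 2 * |ε| ^ 3 := by rw [← sq_abs ε]; ring
    rw [e, mul_assoc]
    refine mul_le_mul_of_nonneg_left ?_ (sq_nonneg _)
    have : |ε| ^ 3 ≤ (173 / 1000) ^ 3 := pow_le_pow_left₀ (abs_nonneg _) ha 3
    nlinarith
  have h4 := (abs_le.1 (h.trans h3)).1
  simp only [Finset.sum_range_succ, Finset.sum_range_zero] at h4
  norm_num at h4
  have h5 : ε ^ 3 / 3 + ε ^ 4 / 4 ≤ ε ^ 2 * (9 / 100) := by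
    have : ε / 3 + ε ^ 2 / 4 ≤ 9 / 100 := by nlinarith
    nlinarith [mul_le_mul_of_nonneg_left this (sq_nonneg ε)]
  nlinarith

theorem log_mid : -(249 / 1000) ≤ Real.log (1 - 22 / 100 : ℝ) := by
  rw [Real.le_log_iff_exp_le (by norm_num), Real.exp_neg, inv_le_comm₀ (Real.exp_pos _) (by norm_num)]
  refine le_trans ?_ (Real.sum_le_exp_of_nonneg (by norm_num) 6)
  simp only [Finset.sum_range_succ, Finset.sum_range_zero, Nat.factorial]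
  norm_num

theorem log_far : -(735 / 1000) ≤ Real.log (1 - 52 / 100 : ℝ) := by
  rw [Real.le_log_iff_exp_le (by norm_num), Real.exp_neg, inv_le_comm₀ (Real.exp_pos _) (by norm_num)]
  refine le_trans ?_ (Real.sum_le_exp_of_nonneg (by norm_num) 8)
  simp only [Finset.sum_range_succ, Finset.sum_range_zero, Nat.factorial]
  norm_num

/-- Parameters for `0 ≤ ν ≤ 5/2`: `ε = 0.115 (ν - 1)`, `d = 1`, `t = max ν 1 / 0.07`, `σ = 0.11`,
`δ = 0.07`, `θ = (0.125, 0.652, 0.223)`.  Split `ν ≤ 1` / `1 ≤ ν`; in `c0` use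
`min 1 ((ν-1)²) ≤ (ν-1)²` for `ν ≤ 2` (every term has the factor `(ν-1)²`; margin `0.01`) and also
`≤ (ν-1)²` for `ν ≥ 2` is enough. -/
theorem cond_near1 {ν : ℝ} (h0 : 0 ≤ ν) (h1 : ν ≤ 5 / 2) :
    Cond ν 0 (3 / 20) (11 / 100) (8 / 5) (115 / 1000 * (ν - 1)) (max ν 1 / (7 / 100)) (11 / 100)
      (7 / 100) 1 (125 / 1000) (652 / 1000) (223 / 1000)
      (115 / 1000 * (ν - 1) * (ν - 1) * (89 / 250) -
        (115 / 1000 * (ν - 1)) ^ 2 * (max ν 1 / (7 / 100)) * (7 / 4000))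
      (-(115 / 1000 * (ν - 1) * (ν - 1) * (13 / 1000) +
        (115 / 1000 * (ν - 1)) ^ 2 * (max ν 1 / (7 / 100)) * (11 / 8000))) := by
  have hl := log_near (ε := 115 / 1000 * (ν - 1)) (by linarith) (by linarith)
  have hm := min_le_right 1 ((ν - 1) ^ 2)
  have hs : (ν - 1) ^ 2 ≤ 9 / 4 := by nlinarith
  have hs0 := sq_nonneg (ν - 1)
  rcases le_total ν 1 with h | h
  · rw [max_eq_right h]
    have hs1 : (ν - 1) ^ 2 ≤ 1 := by nlinarith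
    have e1 := mul_le_mul_of_nonneg_left h hs0
    have e2 := mul_nonneg hs0 h0
    refine ⟨by norm_num, by norm_num, by norm_num, by norm_num, by norm_num, by norm_num,
      by norm_num, by linarith, ?_, ?_, ?_, ?_, ?_, ?_, ?_⟩ <;>
    generalize Real.log (1 - 115 / 1000 * (ν - 1)) = l at * <;>
    generalize min 1 ((ν - 1) ^ 2) = m at * <;>
    ring_nf at * <;> nlinarith
  · rw [max_eq_left h]
    have hν : 0 < ν := by linarith
    have e1 := mul_le_mul_of_nonneg_left h hs0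
    have e2 := mul_le_mul_of_nonneg_left h1 hs0
    have e3 := mul_le_mul_of_nonneg_left h1 (mul_nonneg hs0 h0)
    have e : 1 / (ν / (7 / 100)) * ν = 7 / 100 := by field_simp
    refine ⟨by positivity, by norm_num, by norm_num, by norm_num, by norm_num, by norm_num,
      by norm_num, by linarith, ?_, ?_, ?_, ?_, by rw [add_mul, e]; ring_nf; nlinarith, ?_, ?_⟩ <;>
    clear e <;>
    generalize Real.log (1 - 115 / 1000 * (ν - 1)) = l at * <;>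
    generalize min 1 ((ν - 1) ^ 2) = m at * <;>
    ring_nf at * <;> nlinarith

/-- Parameters for `5/2 ≤ ν ≤ 5`. -/
theorem cond_near2 {ν : ℝ} (h0 : 5 / 2 ≤ ν) (h1 : ν ≤ 5) :
    Cond ν 0 (3 / 20) (11 / 100) (8 / 5) (22 / 100) (ν / (62 / 1000)) (25 / 100)
      (5 / 100) (83 / 100) (9 / 100) (695 / 1000) (215 / 1000)
      (22 / 100 * (ν - 1) * (89 / 250) - (22 / 100) ^ 2 * (ν / (62 / 1000)) * (7 / 4000))
      (-(22 / 100 * (ν - 1) * (13 / 1000) + (22 / 100) ^ 2 * (ν / (62 / 1000)) * (11 / 8000))) := by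
  have hl := log_mid
  have hm := min_le_left 1 ((ν - 1) ^ 2)
  have hν : 0 < ν := by linarith
  have e1 := mul_nonneg (sub_nonneg.2 h0) (sub_nonneg.2 h1)
  have e : 1 / (ν / (62 / 1000)) * ν = 62 / 1000 := by field_simp
  refine ⟨by positivity, by norm_num, by norm_num, by norm_num, by norm_num, by norm_num,
    by norm_num, by norm_num, by norm_num, ?_, by norm_num, by norm_num,
    by rw [add_mul, e]; ring_nf; nlinarith, ?_, ?_⟩ <;>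
  clear e <;>
  generalize Real.log (1 - 22 / 100 : ℝ) = l at * <;>
  generalize min 1 ((ν - 1) ^ 2) = m at * <;>
  ring_nf at * <;> nlinarith

/-- Parameters for `5 ≤ ν`. -/
theorem cond_far {ν : ℝ} (h0 : 5 ≤ ν) :
    Cond ν (1 / 4) (-(1 / 8)) (1 / 8) 9 (52 / 100) (ν / (8 / 100)) (39 / 100)
      (2 / 10) (38 / 10 / ν) (82 / 1000) (806 / 1000) (112 / 1000)
      (52 / 100 * (-21 / 200)) (52 / 100 * (6 / 25)) := by
  have hl := log_far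
  have hm := min_le_left 1 ((ν - 1) ^ 2)
  have hν : 0 < ν := by linarith
  have e : 1 / (ν / (8 / 100)) * ν = 8 / 100 := by field_simp
  have hdν : 38 / 10 / ν * ν = 38 / 10 := by field_simp
  have hd0 : 0 < 38 / 10 / ν := by positivity
  have hd1 : 38 / 10 / ν ≤ 76 / 100 := by rw [div_le_iff₀ hν]; linarith
  have ht : 0 < ν / (8 / 100) := by positivity
  generalize 38 / 10 / ν = d at *
  have hdd : d ^ 2 * ν = 38 / 10 * d := by rw [← hdν]; ring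
  refine ⟨ht, by norm_num, by norm_num, by norm_num, by norm_num, by norm_num,
    by norm_num, by norm_num, by norm_num, by norm_num, by norm_num, by norm_num,
    by rw [add_mul, e]; ring_nf at hdd ⊢; linarith, by ring_nf at hdd ⊢; linarith, ?_⟩
  have e' : (1 - d) ^ 2 * ν = ν - 76 / 10 + 38 / 10 * d := by nlinarith
  rw [e', hdν]
  generalize Real.log (1 - 52 / 100 : ℝ) = l at *
  generalize min 1 ((ν - 1) ^ 2) = m at *
  ring_nf
  linarith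

/-- From `f11`, `f12`. -/
theorem hG_near {ν ε t : ℝ} (h : 0 ≤ ε * (ν - 1)) (ht : 0 ≤ t) (x : ℝ) :
    (ε * (ν - 1) * (89 / 250) - ε ^ 2 * t * (7 / 4000)) +
        (ε * (ν - 1) * (9 / 125) + ε ^ 2 * t / 2000) * x +
        (-(ε * (ν - 1) * (13 / 1000) + ε ^ 2 * t * (11 / 8000))) * x ^ 2 ≤
      ε * (x * (Om x - Om x) + ν * om x - om x - 0 * (x * ee x)) -
        ε ^ 2 * t * (om x - 17 / 50) ^ 2 / 4 := by
  have e1 := mul_le_mul_of_nonneg_left (sfp x).f11 h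
  have e2 := mul_le_mul_of_nonneg_left (sfp x).f12 (mul_nonneg (sq_nonneg ε) ht)
  nlinarith [e1, e2]

/-- From `f13` and `0 ≤ φ ≤ 1/10`. -/
theorem hG_far {ν : ℝ} (h : 5 ≤ ν) (x : ℝ) :
    52 / 100 * (-21 / 200) + 52 / 100 * (6 / 125) * x + 52 / 100 * (6 / 25) * x ^ 2 ≤
      52 / 100 * (x * (Om x - F2 x) + ν * ph x - om x - 1 / 4 * (x * ee x)) -
        (52 / 100) ^ 2 * (ν / (8 / 100)) * (ph x - 0) ^ 2 / 4 := by
  have e1 := (sfp x).f13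
  have e2 := ph_nonneg x
  have e3 : ph x ≤ 1 / 10 := by
    have := (sfp x).f1
    have h1 := pp_pos x
    have h2 := qq_nonneg x
    unfold ph
    nlinarith
  have e4 : 0 ≤ (ν - 5) * (ph x * (1 - 13 / 8 * ph x)) :=
    mul_nonneg (by linarith) (mul_nonneg e2 (by linarith))
  unfold F2
  nlinarith [e1, e4]

/-- The parameters in the near region. -/
theorem exists_near {ν : ℝ} (h0 : 0 ≤ ν) (h1 : ν ≤ 5) :
    ∃ ε t σ δ d θ₁ θ₂ θ₃ A₀ B C : ℝ, Cond ν 0 (3 / 20) (11 / 100) (8 / 5) ε t σ δ d θ₁ θ₂ θ₃ A₀ C ∧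
      ∀ x, A₀ + B * x + C * x ^ 2 ≤ ε * (x * (Om x - Om x) + ν * om x - om x - 0 * (x * ee x)) -
        ε ^ 2 * t * (om x - 17 / 50) ^ 2 / 4 := by
  rcases le_total ν (5 / 2) with h | h
  · refine ⟨_, _, _, _, _, _, _, _, _, _, _, cond_near1 h0 h, fun x => hG_near ?_ ?_ x⟩
    · nlinarith [sq_nonneg (ν - 1)]
    · have : 0 < max ν 1 := lt_max_of_lt_right one_pos
      positivity
  · refine ⟨_, _, _, _, _, _, _, _, _, _, _, cond_near2 h h1, fun x => hG_near ?_ ?_ x⟩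
    · nlinarith
    · positivity

end Crest.Agent.R253
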