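import Crest.Agent.R253.CoreD
import Crest.Agent.R253.CoreE
import Crest.Agent.R253.CoreF
import Crest.Agent.R253.CoreG

/-!
# Row 253: the core inequality on Gaussian space
-/

set_option autoImplicit false
open MeasureTheory Matrix Filter Topology
open scoped ContDiff BigOperators

noncomputable section
namespace Crest.Agent.R253
open Crest.Agent.R238 Crest.Agent.R215

variable {n : ℕ}

theorem cd_A1 : CD A1 A1' := by
  refine ⟨fun x => ?_, ?_⟩
  · exact ((hasDerivAt_Om x).fun_sub (hasDerivAt_Pi x)).fun_add ((hasDerivAt_ee x).const_mul 0)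
  · unfold A1'; fun_prop

theorem cd_A2 : CD A2 A2' := by
  refine ⟨fun x => ?_, ?_⟩
  · exact ((hasDerivAt_F2 x).fun_sub (hasDerivAt_Pi x)).fun_add
      ((hasDerivAt_ee x).const_mul (1 / 4))
  · unfold A2'; fun_prop

namespace GD
variable (D : GD n)

/-- The error terms of a column which are paid for by the Bochner slack. -/
def err (v : E n) : ℝ := 5 * D.ce (sL kap pp) v + 8 / 5 * D.ce (sR Om om) v +
  9 * D.ce (sR F2 ph) v + 40 * D.ce spp v + 3 / 20 * D.par v +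
  11 / 10 * (D.ce (sL A1 A1') v / 2 + D.ce (sL A2 A2') v / 2 + D.ce (sL Pi fun x => pp x ^ 2) v)

/-- The inequality for one column. -/
theorem column (hc : D.Cent) {v : E n} {ν : ℝ} (hv : D.Nm *ᵥ v = ν • v) (h1 : v ⬝ᵥ v = 1) :
    ∃ p w₁ w₂ : ℝ, 0 < p ∧ w₁ * ν ≤ 1 / 10 ∧ w₂ * ν ≤ 13 ∧
      1 / 1000 * (D.r2 v + min 1 ((ν - 1) ^ 2)) + 1 / 10 * D.y2 v + 3 / 20 * D.r2 v ≤
        D.Dv v + (D.y2 v - D.r2 v) - p * (v ⬝ᵥ (D.Q *ᵥ v)) + Real.log p +
          w₁ * D.cj D.Zk v + w₂ * D.cj (D.sX (sL pp k2)) v + D.err v := by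
  have hν : D.nv v = ν := by simp [nv, hv, h1]
  have h0 : 0 ≤ ν := hν ▸ D.nv_nonneg v
  have n1 := D.ce_nonneg (sR Om om) v
  have n2 := D.ce_nonneg (sR F2 ph) v
  have n3 := D.ce_nonneg (sL A1 A1') v
  have n4 := D.ce_nonneg (sL A2 A2') v
  rcases le_total ν 5 with h | h
  · obtain ⟨ε, t, σ, δ, d, θ₁, θ₂, θ₃, A₀, B, C, hC, hG⟩ := exists_near h0 h
    have hq := D.q_le hc hv h1 (d := d) hC.h1 hC.h2 hC.h3 hC.hθ
    have hD := D.D_ge hc cd_Om (A := A1) (A' := A1') (θ := 0) (fun _ => rfl) (fun _ => rfl) hv h1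
      (c₁ := 3 / 20) (c₂ := 11 / 100) (K := 7 / 250) hC.hδ hC.hσ hC.ht
      (show (0 : ℝ) < 8 / 5 by norm_num)
      (fun x => by have := (sfp x).f9; simp only [A1']; nlinarith) hG
    have := col_scalar hC (D.r2_nonneg v) (D.two_r2_le hc v) (D.ce_nonneg _ v) n3
      (D.ce_nonneg _ v) hq hD
    refine ⟨1 - ε, _, _, sub_pos.2 hC.hε, hC.w1, hC.w2, ?_⟩
    unfold err
    linarith
  · have hC := cond_far h
    have hq := D.q_le hc hv h1 (d := 38 / 10 / ν) hC.h1 hC.h2 hC.h3 hC.hθ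
    have hD := D.D_ge hc cd_F2 (A := A2) (A' := A2') (θ := 1 / 4) (fun _ => rfl) (fun _ => rfl) hv
      h1 (c₁ := -(1 / 8)) (c₂ := 1 / 8) (K := 7 / 250) hC.hδ hC.hσ hC.ht
      (show (0 : ℝ) < 9 by norm_num)
      (fun x => by have := (sfp x).f10; simp only [A2']; nlinarith) (hG_far h)
    have := col_scalar hC (D.r2_nonneg v) (D.two_r2_le hc v) (D.ce_nonneg _ v) n4
      (D.ce_nonneg _ v) hq hD
    refine ⟨1 - 52 / 100, _, _, sub_pos.2 hC.hε, hC.w1, hC.w2, ?_⟩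
    unfold err
    linarith

theorem sum_err_le {U : RM n} (hU : Uᵀ * U = 1) :
    ∑ j, D.err (col U j) + 13 * D.gS (sL pp k2) ≤ 3 / 20 * ∑ j, D.r2 (col U j) +
      1 / 16 * D.gS (fun a b => uu a - uu b) + 1 / 480 * D.gS (fun a b => (uu a - uu b) ^ 2) := by
  have e : ∑ j, D.err (col U j) = 5 * D.gS (sL kap pp) + 8 / 5 * D.gS (sR Om om) +
      9 * D.gS (sR F2 ph) + 40 * D.gS spp + 3 / 20 * ∑ j, D.par (col U j) +
      11 / 10 * (D.gS (sL A1 A1') / 2 + D.gS (sL A2 A2') / 2 + D.gS (sL Pi fun x => pp x ^ 2)) := by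
    rw [← D.sum_ce hU cd_kap.cs_sL, ← D.sum_ce hU cd_Om.cs_sR, ← D.sum_ce hU cd_F2.cs_sR,
      ← D.sum_ce hU cs_spp, ← D.sum_ce hU cd_A1.cs_sL, ← D.sum_ce hU cd_A2.cs_sL,
      ← D.sum_ce hU cd_Pi.cs_sL]
    simp only [err, Finset.sum_add_distrib, ← Finset.mul_sum, ← Finset.sum_div]
  have g1 := D.gS_le_of_Sy sy_kap
  have g2 := D.gS_le_of_Sy sy_pp'
  have g3 := D.gS_le_of_Sy sy_Pi
  have g4 := D.gS_le_of_Sy sy_Om
  have g5 := D.gS_le_of_Sy sy_F2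
  have g6 := D.gS_le_of_Sy sy_A1
  have g7 := D.gS_le_of_Sy sy_A2
  have g8 := D.gS_spp_le
  have g9 := D.sum_par_le hU
  have p1 := D.gS_nonneg (fun a b => uu a - uu b)
  have p2 := D.gS_nonneg (fun a b => (uu a - uu b) ^ 2)
  rw [e]
  nlinarith

end GD

theorem core (n : ℕ) : CoreStmt n := by
  refine ⟨1 / 2000, by norm_num, fun D hc => ?_⟩
  obtain ⟨U, ν, hF⟩ := exists_fr D.Nm_symm
  have hU := hF.orth
  choose p w₁ w₂ hp h1 h2 h3 using fun j => D.column hc (hF.mulVec_col j) (col_dot hU j)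
  have s := Finset.sum_le_sum fun j (_ : j ∈ Finset.univ) => h3 j
  have b1 := D.bessel hF D.Zk_pgm (show (0 : ℝ) ≤ 1 / 10 by norm_num) h1
  have b2 := D.bessel hF (D.sX_pgm cd_pp.cs_sL) (show (0 : ℝ) ≤ 13 by norm_num) h2
  have b3 := D.sum_err_le hU
  have b4 := D.two_delta_ge hU hp
  have b5 := min_sum_le Finset.univ (x := fun j => (ν j - 1) ^ 2) fun _ => sq_nonneg _
  rw [← D.sum_y2 hU] at b1
  have b6 : (GE fun z => ∑ k, hs (D.sX (sL pp k2) k z)) = D.gS (sL pp k2) := rfl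
  rw [b6] at b2
  rw [GD.gain, hF.hs_sub_one, ← D.sum_r2 hU]
  simp only [Finset.sum_add_distrib, ← Finset.mul_sum] at s b4
  linarith

end Crest.Agent.R253
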