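import Crest.Agent.R253.Her3

/-!
# Row 253: chaos calculus (Poincaré inequalities, pairing bounds, dual variance formula)

`hasSum_EG`: `parseval` for `dk k F`, `dk k G`, `co_dk`, reindex along the injection `α ↦ α + ek k`
(`Function.Injective.hasSum_iff`; off its range `α k = 0`), sum over `k`.
The inequalities are coefficientwise comparisons (`hasSum_le`, Cauchy–Schwarz via the discriminant).
`var_le_dual`: for a finite set `s` of multi-indices take
`w a = ∑_{α + e_a ∈ s} co α (dk a u) / (1 + deg α) • He α`; then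
`∑ a (2 E(dk a u · w a) - E (w a)² - EG (w a) (w a)) = ∑_{β ∈ s, β ≠ 0} (co β u)²`; write `w = k + y`.
-/

set_option autoImplicit false
open MeasureTheory Matrix Filter Topology
open scoped ContDiff BigOperators

noncomputable section
namespace Crest.Agent.R253
open Crest.Agent.R238 Crest.Agent.R215

variable {n : ℕ}

section co
variable {F G : E n → ℝ}

theorem co_add (hF : PG F) (hG : PG G) (α : MI n) :
    co α (fun z => F z + G z) = co α F + co α G := by
  simp only [co, add_mul]
  exact GE_add (hF.mul (He_c1 α).pg) (hG.mul (He_c1 α).pg)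

theorem co_sub (hF : PG F) (hG : PG G) (α : MI n) :
    co α (fun z => F z - G z) = co α F - co α G := by
  simp only [co, sub_mul]
  exact GE_sub (hF.mul (He_c1 α).pg) (hG.mul (He_c1 α).pg)

theorem co_const_mul (c : ℝ) (F : E n → ℝ) (α : MI n) : co α (fun z => c * F z) = c * co α F := by
  simp only [co, mul_assoc]
  exact GE_const_mul c _

theorem co_sum {ι : Type*} (s : Finset ι) {F : ι → E n → ℝ} (h : ∀ i ∈ s, PG (F i)) (α : MI n) :
    co α (fun z => ∑ i ∈ s, F i z) = ∑ i ∈ s, co α (F i) := by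
  simp only [co, Finset.sum_mul]
  exact GE_sum s (f := fun i z => F i z * He α z) fun i hi => (h i hi).mul (He_c1 α).pg

theorem co_zero (F : E n → ℝ) : co 0 F = GE F := by
  simp only [co, He_zero, mul_one]

theorem co_ek (k : Fin n) (F : E n → ℝ) : co (ek k) F = GE (fun z => z k * F z) := by
  simp only [co, He_ek, mul_comm]

theorem co_He (α β : MI n) : co α (He β) = if β = α then 1 else 0 := GE_He_mul β α

theorem co_const (c : ℝ) (α : MI n) : co α (fun _ => c) = if α = 0 then c else 0 := by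
  have h := GE_He_mul α 0
  simp only [He_zero, mul_one] at h
  rw [co, GE_const_mul c (fun z => He α z), h]
  split_ifs <;> simp

theorem co_coord (k : Fin n) (α : MI n) : co α (fun z => z k) = if α = ek k then 1 else 0 := by
  have h := co_He α (ek k)
  have e : He (ek k) = fun z : E n => z k := funext (He_ek k)
  rw [e] at h
  rw [h]
  simp only [eq_comm]

theorem co_dk (hF : C1 F) (k : Fin n) (α : MI n) :
    co α (dk k F) = Real.sqrt (α k + 1) * co (α + ek k) F := by
  rw [co, GE_ibp2 hF (He_c1 α) k, co, ← GE_const_mul]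
  congr 1
  funext z
  rw [coord_mul_He, dk_He]
  ring

theorem co_coord_mul (hF : PG F) (k : Fin n) (α : MI n) :
    co α (fun z => z k * F z) =
      Real.sqrt (α k + 1) * co (α + ek k) F + Real.sqrt (α k) * co (α - ek k) F := by
  rw [co, co, co, ← GE_const_mul, ← GE_const_mul,
    ← GE_add ((hF.mul (He_c1 _).pg).const_mul _) ((hF.mul (He_c1 _).pg).const_mul _)]
  congr 1
  funext z
  have := coord_mul_He k α z
  linear_combination F z * this

theorem co_neg_arg (F : E n → ℝ) (α : MI n) : co α (fun z => F (-z)) = (-1) ^ deg α * co α F := by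
  have h := GE_neg_arg (fun z : E n => F z * He α (-z))
  simp only [neg_neg] at h
  rw [co, h, co, ← GE_const_mul]
  congr 1
  funext z
  rw [He_neg]
  ring

theorem her4_congr {ι : Type*} {f g : ι → ℝ} {a : ℝ} (h : HasSum f a) (e : ∀ i, g i = f i) :
    HasSum g a := (funext e : g = f) ▸ h

theorem her4_shift (k : Fin n) (f : MI n → ℝ) {S : ℝ} :
    HasSum (fun α : MI n => ((α k : ℝ) + 1) * f (α + ek k)) S ↔
      HasSum (fun α : MI n => (α k : ℝ) * f α) S := by
  rw [← (add_left_injective (ek k)).hasSum_iff (f := fun α : MI n => (α k : ℝ) * f α)]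
  · have e : ((fun α : MI n => (α k : ℝ) * f α) ∘ fun α => α + ek k) =
        fun α : MI n => ((α k : ℝ) + 1) * f (α + ek k) := by
      funext α
      simp [ek]
    rw [e]
  · intro α hα
    have h0 : α k = 0 := by
      by_contra h0
      refine hα ⟨α - ek k, funext fun i => ?_⟩
      by_cases hi : i = k
      · subst hi
        simp only [ek, Pi.add_apply, Pi.sub_apply, Pi.single_eq_same]
        omega
      · simp [ek, hi]
    simp [h0]

theorem her4_parseval (hF : PG F) :
    HasSum (fun α => co α F * co α F) (GE fun z => F z ^ 2) := by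
  simpa only [sq] using parseval hF hF

theorem her4_cs {ι : Type*} {u v w : ι → ℝ} {A P R : ℝ} (hu : HasSum u A) (hv : HasSum v P)
    (hw : HasSum w R) (v0 : ∀ i, 0 ≤ v i) (w0 : ∀ i, 0 ≤ w i) (h : ∀ i, u i ^ 2 ≤ v i * w i) :
    A ^ 2 ≤ P * R := by
  have h1 : ∀ t : ℝ, 0 ≤ P * (t * t) + 2 * A * t + R := by
    intro t
    refine (((hv.mul_right (t * t)).add ((hu.mul_left 2).mul_right t)).add hw).nonneg fun i => ?_
    rcases (v0 i).eq_or_lt with h0 | h0
    · have h2 := h i
      rw [← h0, zero_mul] at h2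
      have h3 : u i = 0 := pow_eq_zero_iff (two_ne_zero) |>.1 (le_antisymm h2 (sq_nonneg _))
      rw [← h0, h3]
      simpa using w0 i
    · refine le_of_mul_le_mul_left ?_ h0
      nlinarith [sq_nonneg (v i * t + u i), h i]
  have h2 := discrim_le_zero h1
  rw [discrim] at h2
  linarith

theorem hasSum_EG (hF : C1 F) (hG : C1 G) :
    HasSum (fun α => (deg α : ℝ) * (co α F * co α G)) (EG F G) := by
  have h : ∀ k ∈ (Finset.univ : Finset (Fin n)),
      HasSum (fun α : MI n => (α k : ℝ) * (co α F * co α G))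
        (GE fun z => dk k F z * dk k G z) := by
    intro k _
    refine (her4_shift k (fun α => co α F * co α G)).1 ?_
    have h1 := parseval (hF.pgd k) (hG.pgd k)
    refine her4_congr h1 fun α => ?_
    rw [co_dk hF, co_dk hG]
    have h2 : Real.sqrt ((α k : ℝ) + 1) * Real.sqrt ((α k : ℝ) + 1) = (α k : ℝ) + 1 :=
      Real.mul_self_sqrt (by positivity)
    linear_combination (-(co (α + ek k) F * co (α + ek k) G)) * h2
  have h2 := hasSum_sum h
  refine her4_congr h2 fun α => ?_
  rw [deg, Nat.cast_sum, Finset.sum_mul]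

/-- The level-one part. -/
theorem hasSum_lev1 (F G : E n → ℝ) :
    HasSum (fun α => if deg α = 1 then co α F * co α G else 0)
      (∑ k, GE (fun z => z k * F z) * GE (fun z => z k * G z)) := by
  refine (ek_injective.hasSum_iff (f := fun α => if deg α = 1 then co α F * co α G else 0)
    fun α hα => ?_).1 ?_
  · rw [if_neg]
    intro h
    obtain ⟨k, hk⟩ := deg_eq_one.1 h
    exact hα ⟨k, hk.symm⟩
  · have h := hasSum_fintype
      (fun k : Fin n => GE (fun z => z k * F z) * GE (fun z => z k * G z))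
    refine her4_congr h fun k => ?_
    simp only [Function.comp_apply, deg_ek, if_true, co_ek]

theorem hasSum_lev0 (F G : E n → ℝ) :
    HasSum (fun α => if deg α = 0 then co α F * co α G else 0) (GE F * GE G) := by
  have h := hasSum_single (f := fun α : MI n => if deg α = 0 then co α F * co α G else 0) 0
    fun α hα => if_neg fun h => hα (deg_eq_zero.1 h)
  simpa only [deg_eq_zero.2 rfl, if_true, co_zero] using h

theorem her4_w2 (hG : C1 G) (r s : ℝ) :
    HasSum (fun α : MI n => if deg α < 2 then 0 else (r * deg α + s) * (co α G * co α G))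
      (r * EG G G + s * GE (fun z => G z ^ 2) - s * GE G ^ 2 -
        (r + s) * ∑ k, GE (fun z => z k * G z) ^ 2) := by
  have h0 := hasSum_lev0 G G
  have h1 := hasSum_lev1 G G
  have h2 := ((((hasSum_EG hG hG).mul_left r).add ((her4_parseval hG.pg).mul_left s)).sub
    (h0.mul_left s)).sub (h1.mul_left (r + s))
  simp only [sq]
  simp only [sq] at h2
  refine her4_congr h2 fun α => ?_
  rcases Nat.lt_or_ge (deg α) 2 with h | h
  · rw [if_pos h]
    rcases Nat.lt_succ_iff_lt_or_eq.1 h with h | h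
    · rw [Nat.lt_one_iff.1 h]; simp
    · rw [h]; simp; ring
  · rw [if_neg (not_lt.2 h), if_neg (by omega), if_neg (by omega)]
    ring

theorem her4_weight_aux (hG : C1 G) {r s t : ℝ} (hr : ∀ m : ℕ, 2 ≤ m → 0 ≤ r * m + s) (ht : t ≤ 0) :
    t ≤ r * EG G G + s * GE (fun z => G z ^ 2) - s * GE G ^ 2 -
      (r + s) * ∑ k, GE (fun z => z k * G z) ^ 2 := by
  refine ht.trans ((her4_w2 hG r s).nonneg fun α => ?_)
  split_ifs with h0
  · exact le_rfl
  · exact mul_nonneg (hr _ (not_lt.1 h0)) (mul_self_nonneg (co α G))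

/-- `F` lies in the chaos of order `≥ m`. -/
def ChaosGe (m : ℕ) (F : E n → ℝ) : Prop := ∀ α : MI n, deg α < m → co α F = 0

theorem chaosGe_one {F : E n → ℝ} : ChaosGe 1 F ↔ GE F = 0 := by
  constructor
  · intro h
    rw [← co_zero]
    exact h 0 (by rw [deg_eq_zero.2 rfl]; norm_num)
  · intro h α hα
    rw [deg_eq_zero.1 (Nat.lt_one_iff.1 hα), co_zero, h]

theorem chaosGe_two {F : E n → ℝ} : ChaosGe 2 F ↔ GE F = 0 ∧ ∀ k, GE (fun z => z k * F z) = 0 := by
  constructor
  · intro h
    refine ⟨?_, fun k => ?_⟩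
    · rw [← co_zero]
      exact h 0 (by rw [deg_eq_zero.2 rfl]; norm_num)
    · rw [← co_ek]
      exact h _ (by rw [deg_ek]; norm_num)
  · rintro ⟨h0, h1⟩ α hα
    rcases Nat.lt_succ_iff_lt_or_eq.1 hα with h | h
    · rw [deg_eq_zero.1 (Nat.lt_one_iff.1 h), co_zero, h0]
    · obtain ⟨k, rfl⟩ := deg_eq_one.1 h
      rw [co_ek, h1]

/-- An odd function in the chaos `≥ 2` is in the chaos `≥ 3`. -/
theorem ChaosGe.three_of_odd (h : ChaosGe 2 F) (ho : ∀ z, F (-z) = -F z) : ChaosGe 3 F := by
  intro α hα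
  rcases Nat.lt_succ_iff_lt_or_eq.1 hα with h1 | h1
  · exact h α h1
  · have h2 := co_neg_arg F α
    have h3 := co_const_mul (-1) F α
    have e : (fun z => F (-z)) = fun z => -1 * F z := funext fun z => by rw [ho z]; ring
    rw [e, h3, h1] at h2
    linarith

theorem ChaosGe.poincare {m : ℕ} (h : ChaosGe m F) (hF : C1 F) :
    m * GE (fun z => F z ^ 2) ≤ EG F F := by
  refine hasSum_le (fun α => ?_) ((her4_parseval hF.pg).mul_left (m : ℝ)) (hasSum_EG hF hF)
  by_cases h1 : deg α < m
  · rw [h α h1]; simp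
  · exact mul_le_mul_of_nonneg_right (Nat.cast_le.2 (not_lt.1 h1)) (mul_self_nonneg _)

theorem poincare1 (hF : C1 F) : GE (fun z => F z ^ 2) - GE F ^ 2 ≤ EG F F := by
  have := her4_weight_aux hF (r := 1) (s := -1) (t := 0)
    (fun m hm => by have : (2 : ℝ) ≤ m := by exact_mod_cast hm
                    linarith) le_rfl
  linarith

theorem poincare2 (hF : C1 F) :
    2 * GE (fun z => F z ^ 2) - 2 * GE F ^ 2 - ∑ k, GE (fun z => z k * F z) ^ 2 ≤ EG F F := by
  have := her4_weight_aux hF (r := 1) (s := -2) (t := 0)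
    (fun m hm => by have : (2 : ℝ) ≤ m := by exact_mod_cast hm
                    linarith) le_rfl
  linarith

theorem bessel01 (hF : PG F) :
    GE F ^ 2 + ∑ k, GE (fun z => z k * F z) ^ 2 ≤ GE (fun z => F z ^ 2) := by
  have h0 := hasSum_lev0 F F
  have h1 := hasSum_lev1 F F
  simp only [← sq] at h0 h1
  refine hasSum_le (fun α => ?_) (h0.add h1) (her4_parseval hF)
  have := sq_nonneg (co α F)
  split_ifs with a b
  · omega
  all_goals nlinarith

/-- General pairing bound. -/
theorem pair_le (hF : C1 F) (hG : C1 G) {a b p q r s : ℝ}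
    (h : ∀ α, co α F ≠ 0 → (a * deg α + b) ^ 2 ≤ (p * deg α + q) * (r * deg α + s))
    (hp : ∀ α, co α F ≠ 0 → 0 ≤ p * deg α + q) (hr : ∀ m : ℕ, 0 ≤ r * m + s) :
    (a * EG F G + b * GE fun z => F z * G z) ^ 2 ≤
      (p * EG F F + q * GE fun z => F z ^ 2) * (r * EG G G + s * GE fun z => G z ^ 2) := by
  refine her4_cs (((hasSum_EG hF hG).mul_left a).add ((parseval hF.pg hG.pg).mul_left b))
    (((hasSum_EG hF hF).mul_left p).add ((her4_parseval hF.pg).mul_left q))
    (((hasSum_EG hG hG).mul_left r).add ((her4_parseval hG.pg).mul_left s))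
    (fun α => ?_) (fun α => ?_) (fun α => ?_)
  · by_cases h0 : co α F = 0
    · rw [h0]; simp
    · have := mul_nonneg (hp α h0) (mul_self_nonneg (co α F))
      linarith
  · have := mul_nonneg (hr (deg α)) (mul_self_nonneg (co α G))
    linarith
  · by_cases h0 : co α F = 0
    · rw [h0]; simp
    · have := mul_le_mul_of_nonneg_right (h α h0) (sq_nonneg (co α F * co α G))
      linarith

/-- Pairing bound for `F` in the chaos `≥ 2`: only the part of `G` of order `≥ 2` matters. -/
theorem pair_le2 (hF : C1 F) (hG : C1 G) (h2 : ChaosGe 2 F) {a b p q r s : ℝ}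
    (h : ∀ m : ℕ, 2 ≤ m → (a * m + b) ^ 2 ≤ (p * m + q) * (r * m + s))
    (hp : ∀ m : ℕ, 2 ≤ m → 0 ≤ p * m + q) (hr : ∀ m : ℕ, 2 ≤ m → 0 ≤ r * m + s) :
    (a * EG F G + b * GE fun z => F z * G z) ^ 2 ≤
      (p * EG F F + q * GE fun z => F z ^ 2) *
        (r * EG G G + s * GE (fun z => G z ^ 2) - s * GE G ^ 2 -
          (r + s) * ∑ k, GE (fun z => z k * G z) ^ 2) := by
  refine her4_cs (((hasSum_EG hF hG).mul_left a).add ((parseval hF.pg hG.pg).mul_left b))
    (((hasSum_EG hF hF).mul_left p).add ((her4_parseval hF.pg).mul_left q))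
    (her4_w2 hG r s) (fun α => ?_) (fun α => ?_) (fun α => ?_)
  · by_cases h0 : deg α < 2
    · rw [h2 α h0]; simp
    · have := mul_nonneg (hp _ (not_lt.1 h0)) (mul_self_nonneg (co α F))
      linarith
  · split_ifs with h0
    · exact le_rfl
    · exact mul_nonneg (hr _ (not_lt.1 h0)) (mul_self_nonneg (co α G))
  · split_ifs with h0
    · rw [h2 α h0]; simp
    · have := mul_le_mul_of_nonneg_right (h _ (not_lt.1 h0)) (sq_nonneg (co α F * co α G))
      linarith

/-- The form `c(G, G) = EG G G - 2 E G²` corrected by the levels `0` and `1` is nonnegative; more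
generally for any affine weight nonnegative on `m ≥ 2`. -/
theorem weight_nonneg2 (hG : C1 G) {r s : ℝ} (hr : ∀ m : ℕ, 2 ≤ m → 0 ≤ r * m + s) :
    0 ≤ r * EG G G + s * GE (fun z => G z ^ 2) - s * GE G ^ 2 -
      (r + s) * ∑ k, GE (fun z => z k * G z) ^ 2 := by
  refine (her4_w2 hG r s).nonneg fun α => ?_
  split_ifs with h0
  · exact le_rfl
  · exact mul_nonneg (hr _ (not_lt.1 h0)) (mul_self_nonneg (co α G))

theorem her4_var {u : E n → ℝ} (hu : C1 u) :
    HasSum (fun α : MI n => ∑ a, co α (dk a u) ^ 2 / (1 + deg α))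
      (GE (fun z => u z ^ 2) - GE u ^ 2) := by
  have hs : ∀ a : Fin n,
      Summable fun β : MI n => (β a : ℝ) * (co β u * co β u / deg β) := by
    intro a
    refine Summable.of_nonneg_of_le (fun β => mul_nonneg (Nat.cast_nonneg _)
      (div_nonneg (mul_self_nonneg _) (Nat.cast_nonneg _))) (fun β => ?_)
      (her4_parseval hu.pg).summable
    have h1 : β a ≤ deg β :=
      Finset.single_le_sum (f := fun i => β i) (fun i _ => Nat.zero_le _) (Finset.mem_univ a)
    have h2 : (β a : ℝ) / deg β ≤ 1 :=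
      div_le_one_of_le₀ (Nat.cast_le.2 h1) (Nat.cast_nonneg _)
    have h3 := mul_le_mul_of_nonneg_right h2 (mul_self_nonneg (co β u))
    calc (β a : ℝ) * (co β u * co β u / deg β) = (β a : ℝ) / deg β * (co β u * co β u) := by ring
      _ ≤ _ := by rwa [one_mul] at h3
  have h1 := hasSum_sum (s := Finset.univ) fun a _ => (hs a).hasSum
  have h2 : HasSum (fun β : MI n => ∑ a, (β a : ℝ) * (co β u * co β u / deg β))
      (GE (fun z => u z ^ 2) - GE u ^ 2) := by
    have h3 := (her4_parseval hu.pg).sub (hasSum_lev0 u u)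
    rw [← sq (GE u)] at h3
    refine her4_congr h3 fun β => ?_
    rw [← Finset.sum_mul, ← Nat.cast_sum, ← deg]
    split_ifs with h
    · rw [h]; simp
    · have : (deg β : ℝ) ≠ 0 := Nat.cast_ne_zero.2 h
      field_simp
      ring
  rw [← h1.unique h2]
  have h4 := hasSum_sum (s := Finset.univ) fun a _ =>
    (her4_shift a fun β => co β u * co β u / deg β).2 (hs a).hasSum
  refine her4_congr h4 fun α => Finset.sum_congr rfl fun a _ => ?_
  rw [co_dk hu, mul_pow, Real.sq_sqrt (by positivity), deg_add, deg_ek]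
  push_cast
  ring

theorem her4_test (hF : PG F) (t : Finset (MI n)) :
    2 * GE (fun z => F z * ∑ α ∈ t, co α F / (1 + deg α) * He α z) -
      GE (fun z => (∑ α ∈ t, co α F / (1 + deg α) * He α z) ^ 2) -
      EG (fun z => ∑ α ∈ t, co α F / (1 + deg α) * He α z)
        (fun z => ∑ α ∈ t, co α F / (1 + deg α) * He α z) =
      ∑ α ∈ t, co α F ^ 2 / (1 + deg α) := by
  classical
  have hw : C1 (fun z => ∑ α ∈ t, co α F / (1 + deg α) * He α z) :=
    C1.sum t fun α _ => (He_c1 α).const_mul _
  have hc : ∀ β, co β (fun z => ∑ α ∈ t, co α F / (1 + deg α) * He α z) =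
      if β ∈ t then co β F / (1 + deg β) else 0 := by
    intro β
    rw [co_sum t (F := fun α z => co α F / (1 + deg α) * He α z)
      fun α _ => (He_c1 α).pg.const_mul _]
    simp only [co_const_mul _ (He _), co_He, mul_ite, mul_one, mul_zero]
    exact Finset.sum_ite_eq' t β _
  have h1 := (((parseval hF hw.pg).mul_left 2).sub (her4_parseval hw.pg)).sub (hasSum_EG hw hw)
  refine h1.unique ?_
  have h2 := hasSum_sum_of_ne_finset_zero (s := t) (L := SummationFilter.unconditional _)
    (f := fun β : MI n => if β ∈ t then co β F ^ 2 / (1 + deg β) else 0) fun β hβ => if_neg hβ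
  rw [Finset.sum_congr rfl fun β hβ => if_pos hβ] at h2
  refine her4_congr h2 fun β => ?_
  rw [hc]
  split_ifs with h
  · have : (1 + deg β : ℝ) ≠ 0 := by positivity
    field_simp
    ring
  · simp

/-- **Dual variance formula.**  `Var u = ‖∇u‖²_{H⁻¹}`, tested around an arbitrary field `κ`. -/
theorem var_le_dual {u : E n → ℝ} (hu : C1 u) {κ : Fin n → E n → ℝ} (hκ : ∀ a, C1 (κ a)) {ρ : ℝ}
    (h : ∀ y : Fin n → E n → ℝ, (∀ a, C1 (y a)) →
      ∑ a, (GE (fun z => dk a u z * y a z) - GE (fun z => κ a z * y a z) - EG (κ a) (y a)) ≤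
        ρ * Real.sqrt (∑ a, (GE (fun z => y a z ^ 2) + EG (y a) (y a)))) :
    GE (fun z => u z ^ 2) - GE u ^ 2 ≤
      ∑ a, (2 * GE (fun z => dk a u z * κ a z) - GE (fun z => κ a z ^ 2) - EG (κ a) (κ a)) +
        ρ ^ 2 := by
  have key : ∀ w : Fin n → E n → ℝ, (∀ a, C1 (w a)) →
      ∑ a, (2 * GE (fun z => dk a u z * w a z) - GE (fun z => w a z ^ 2) - EG (w a) (w a)) ≤
      ∑ a, (2 * GE (fun z => dk a u z * κ a z) - GE (fun z => κ a z ^ 2) - EG (κ a) (κ a)) +
        ρ ^ 2 := by
    intro w hw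
    have hy : ∀ a, C1 (fun z => w a z - κ a z) := fun a => (hw a).sub (hκ a)
    have h1 := h (fun a z => w a z - κ a z) hy
    have hN : 0 ≤ ∑ a, (GE (fun z => (w a z - κ a z) ^ 2) +
        EG (fun z => w a z - κ a z) (fun z => w a z - κ a z)) :=
      Finset.sum_nonneg fun a _ => add_nonneg (GE_nonneg fun z => sq_nonneg _) (EG_self_nonneg _)
    have h2 : ∑ a, (2 * GE (fun z => dk a u z * w a z) - GE (fun z => w a z ^ 2) - EG (w a) (w a)) =
        ∑ a, (2 * GE (fun z => dk a u z * κ a z) - GE (fun z => κ a z ^ 2) - EG (κ a) (κ a)) +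
        2 * ∑ a, (GE (fun z => dk a u z * (w a z - κ a z)) -
          GE (fun z => κ a z * (w a z - κ a z)) - EG (κ a) (fun z => w a z - κ a z)) -
        ∑ a, (GE (fun z => (w a z - κ a z) ^ 2) +
          EG (fun z => w a z - κ a z) (fun z => w a z - κ a z)) := by
      rw [Finset.mul_sum, ← Finset.sum_add_distrib, ← Finset.sum_sub_distrib]
      refine Finset.sum_congr rfl fun a _ => ?_
      have e1 : GE (fun z => dk a u z * (w a z - κ a z)) =
          GE (fun z => dk a u z * w a z) - GE (fun z => dk a u z * κ a z) := by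
        simp only [mul_sub]
        exact GE_sub ((hu.pgd a).mul (hw a).pg) ((hu.pgd a).mul (hκ a).pg)
      have e2 : GE (fun z => κ a z * (w a z - κ a z)) =
          GE (fun z => κ a z * w a z) - GE (fun z => κ a z ^ 2) := by
        simp only [mul_sub, sq]
        exact GE_sub ((hκ a).pg.mul (hw a).pg) ((hκ a).pg.mul (hκ a).pg)
      have e3 : GE (fun z => (w a z - κ a z) ^ 2) = GE (fun z => w a z ^ 2) -
          2 * GE (fun z => κ a z * w a z) + GE (fun z => κ a z ^ 2) := by
        rw [← GE_const_mul, ← GE_sub ((hw a).pg.pow 2) (((hκ a).pg.mul (hw a).pg).const_mul 2),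
          ← GE_add (((hw a).pg.pow 2).sub (((hκ a).pg.mul (hw a).pg).const_mul 2))
            ((hκ a).pg.pow 2)]
        congr 1
        funext z
        ring
      rw [e1, e2, e3, EG_sub_left (hw a) (hκ a) (hy a), EG_sub_right (hw a) (hw a) (hκ a),
        EG_sub_right (hκ a) (hw a) (hκ a), EG_comm (w a) (κ a)]
      ring
    have h3 := Real.sq_sqrt hN
    rw [h2]
    nlinarith [sq_nonneg (ρ - Real.sqrt (∑ a, (GE (fun z => (w a z - κ a z) ^ 2) +
        EG (fun z => w a z - κ a z) (fun z => w a z - κ a z))))]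
  refine hasSum_le_of_sum_le (her4_var hu) fun t => ?_
  refine le_trans (le_of_eq ?_) (key (fun a z => ∑ α ∈ t,
    co α (dk a u) / (1 + deg α) * He α z) fun a =>
      C1.sum t fun α _ => (He_c1 α).const_mul _)
  rw [Finset.sum_comm]
  exact Finset.sum_congr rfl fun a _ => (her4_test (hu.pgd a) t).symm

end co

end Crest.Agent.R253
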