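import Crest.Agent.R253.CM
import Crest.Agent.R253.Her4

/-!
# Row 253: the deficit in terms of `M`, and the dual bound for the covariance
-/

set_option autoImplicit false
open MeasureTheory Matrix Filter Topology
open scoped ContDiff BigOperators

noncomputable section
namespace Crest.Agent.R253
open Crest.Agent.R238 Crest.Agent.R215

variable {n : ℕ}

/-- Vector fields with `C1` coordinates. -/
def C1V (y : E n → E n) : Prop := ∀ a, C1 (fun z => y z a)

/-- The partial derivative of a vector field. -/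
def dkV (k : Fin n) (y : E n → E n) (z : E n) : E n := fun a => dk k (fun w => y w a) z

/-- The `L²` pairing of vector fields. -/
def ip0 (u y : E n → E n) : ℝ := GE fun z => u z ⬝ᵥ y z

/-- The pairing of gradients of vector fields. -/
def ip1 (u y : E n → E n) : ℝ := GE fun z => ∑ k, dkV k u z ⬝ᵥ dkV k y z

theorem C1V.pg {y : E n → E n} (h : C1V y) (a : Fin n) : PG fun z => y z a := (h a).pg

theorem C1V.pgd {y : E n → E n} (h : C1V y) (k a : Fin n) : PG fun z => dkV k y z a := (h a).pgd k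

theorem C1M.c1V {A : E n → RM n} (h : C1M A) (v : E n) : C1V fun z => A z *ᵥ v := h.mulVec v

theorem C1M.dkV_mulVec {A : E n → RM n} (h : C1M A) (v : E n) (k : Fin n) (z : E n) :
    dkV k (fun y => A y *ᵥ v) z = dkM k A z *ᵥ v := funext fun a => h.dk_mulVec v k a z

theorem ip0_eq_sum {u y : E n → E n} (hu : ∀ a, PG fun z => u z a) (hy : ∀ a, PG fun z => y z a) :
    ip0 u y = ∑ a, GE fun z => u z a * y z a :=
  GE_sum _ fun a _ => (hu a).mul (hy a)

theorem ip1_eq_sum {u y : E n → E n} (hu : C1V u) (hy : C1V y) :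
    ip1 u y = ∑ a, EG (fun z => u z a) (fun z => y z a) := by
  simp only [ip1, EG, dotProduct]
  rw [GE_sum _ fun k _ => PG.sum _ fun a _ => (hu.pgd k a).mul (hy.pgd k a), Finset.sum_comm]
  exact Finset.sum_congr rfl fun k _ => GE_sum _ fun a _ => (hu.pgd k a).mul (hy.pgd k a)

namespace GD
variable (D : GD n)

theorem two_delta_eq : 2 * D.delta = 2 * GE (fun z => (mf tt (D.M z)).trace) -
    GE (fun z => hs (D.M z)) - n - Real.log D.Q.det := by
  have e : ∀ z, Real.log (D.H z).det =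
      (mf tt (D.M z)).trace - 1 / 2 * hs (D.M z) - n * (Real.log (2 * Real.pi) / 2) := fun z => by
    obtain ⟨U, x, hU⟩ := exists_fr (D.M_symm z)
    rw [← D.mf_lam_M z, log_det_mf (D.M_symm z) fun x _ => lam_pos x, (hU.mf_fr _).trace_eq,
      (hU.mf_fr _).trace_eq, hU.hs_eq]
    simp only [log_lam, Finset.sum_sub_distrib, Finset.sum_const, Finset.card_univ,
      Fintype.card_fin, nsmul_eq_mul, Finset.mul_sum]
    congr 2
    exact Finset.sum_congr rfl fun i _ => by ring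
  have p1 := (D.mf_pgm continuous_tt).trace
  have p2 := D.M_pgm.hs.const_mul (1 / 2)
  simp only [delta, ent, e]
  rw [GE_sub (p1.sub p2) (PG.const _), GE_sub p1 p2, GE_const, GE_const_mul,
    Real.log_mul (by positivity) (Real.exp_pos 1).ne', Real.log_exp]
  ring

theorem u_c1 (v : E n) : C1 fun z => v ⬝ᵥ vec D.T z :=
  C1.sum Finset.univ fun b _ => (Tm_c1 (D.tmT b)).const_mul (v b)

theorem dk_u (v : E n) (a : Fin n) (z : E n) :
    dk a (fun z => v ⬝ᵥ vec D.T z) z = (D.H z *ᵥ v) a := by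
  simp only [dotProduct, vec]
  rw [dk_sum a _ fun b _ => (Tm_c1 (D.tmT b)).const_mul (v b)]
  simp only [dk_const_mul, dk_ev, mulVec, dotProduct]
  refine Finset.sum_congr rfl fun b _ => ?_
  rw [← D.H_symm z, transpose_apply, mul_comm]
  rfl

theorem Q_quad (v : E n) : v ⬝ᵥ (D.Q *ᵥ v) =
    GE (fun z => (v ⬝ᵥ vec D.T z) ^ 2) - GE (fun z => v ⬝ᵥ vec D.T z) ^ 2 := by
  have p := (D.u_c1 v).pg
  have em : GE (fun z => v ⬝ᵥ vec D.T z) = v ⬝ᵥ D.mean := by
    simp only [dotProduct, vec, mean]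
    rw [GE_sum _ fun b _ => (D.T_pg b).const_mul (v b)]
    simp only [GE_const_mul]
  have q : ∀ a b, PG fun z => v a * v b *
      ((ev z (D.T a) - D.mean a) * (ev z (D.T b) - D.mean b)) := fun a b =>
    (((D.T_pg a).sub (PG.const _)).mul ((D.T_pg b).sub (PG.const _))).const_mul _
  have e1 : v ⬝ᵥ (D.Q *ᵥ v) = GE fun z => (v ⬝ᵥ vec D.T z - v ⬝ᵥ D.mean) ^ 2 := by
    have e : ∀ z, (v ⬝ᵥ vec D.T z - v ⬝ᵥ D.mean) ^ 2 = ∑ a, ∑ b, v a * v b *
        ((ev z (D.T a) - D.mean a) * (ev z (D.T b) - D.mean b)) := fun z => by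
      simp only [dotProduct, vec, ← Finset.sum_sub_distrib, sq, Finset.sum_mul_sum]
      exact Finset.sum_congr rfl fun a _ => Finset.sum_congr rfl fun b _ => by ring
    simp only [e]
    rw [GE_sum _ fun a _ => PG.sum _ fun b _ => q a b]
    simp only [dotProduct, mulVec, Q, of_apply, Finset.mul_sum]
    refine Finset.sum_congr rfl fun a _ => ?_
    rw [GE_sum _ fun b _ => q a b]
    refine Finset.sum_congr rfl fun b _ => ?_
    rw [GE_const_mul]
    ring
  rw [e1, ← em]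
  set m := GE fun z => v ⬝ᵥ vec D.T z with hm
  have e2 : ∀ z, (v ⬝ᵥ vec D.T z - m) ^ 2 =
      (v ⬝ᵥ vec D.T z) ^ 2 - 2 * m * (v ⬝ᵥ vec D.T z) + m ^ 2 := fun z => by ring
  simp only [e2]
  rw [GE_add ((p.pow 2).sub (p.const_mul _)) (PG.const _), GE_sub (p.pow 2) (p.const_mul _),
    GE_const, GE_const_mul, ← hm]
  ring

theorem Q_posDef : D.Q.PosDef := by
  refine PosDef.of_dotProduct_mulVec_pos (alg_herm D.Q_symm) fun v hv => ?_
  change 0 < v ⬝ᵥ (D.Q *ᵥ v)
  have h1 := bessel01 (D.u_c1 v).pg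
  simp only [GE_ibp1 (D.u_c1 v)] at h1
  have pv : ∀ a, PG fun z => (D.H z *ᵥ v) a := fun a => (D.H_c1.mulVec v a).pg
  have e : ∀ k, dk k (fun z => v ⬝ᵥ vec D.T z) = fun z => (D.H z *ᵥ v) k := fun k =>
    funext (D.dk_u v k)
  simp only [e] at h1
  set m : E n := fun k => GE fun z => (D.H z *ᵥ v) k with hm
  have h2 : D.c * (v ⬝ᵥ v) ≤ v ⬝ᵥ m := by
    have e2 : v ⬝ᵥ m = GE fun z => v ⬝ᵥ (D.H z *ᵥ v) := by
      change ∑ a, v a * m a = GE fun z => ∑ a, v a * (D.H z *ᵥ v) a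
      rw [GE_sum _ fun a _ => (pv a).const_mul (v a)]
      simp only [GE_const_mul, hm]
    rw [e2, ← GE_const (n := n) (D.c * (v ⬝ᵥ v))]
    exact GE_mono (PG.const _) (PG.dot (fun a => PG.const _) pv) fun z => D.ell.low z v
  have h3 : 0 < v ⬝ᵥ v :=
    lt_of_le_of_ne (dot_self_nonneg v) fun h0 => hv (dotProduct_self_eq_zero.1 h0.symm)
  have h4 : 0 < m ⬝ᵥ m := by
    refine lt_of_le_of_ne (dot_self_nonneg m) fun h0 => ?_
    rw [dotProduct_self_eq_zero.1 h0.symm, dotProduct_zero] at h2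
    exact absurd h2 (not_le.2 (mul_pos D.c_pos h3))
  rw [D.Q_quad]
  change 0 < ∑ a, m a * m a at h4
  simp only [← sq] at h4
  linarith

/-- The dual bound for the covariance: `Q_vv ≤ D_v + ρ²`. -/
theorem Q_le (v : E n) {ρ : ℝ}
    (h : ∀ y : E n → E n, C1V y →
      ip0 (fun z => (D.H z - mf kap (D.M z)) *ᵥ v) y - ip1 (fun z => mf kap (D.M z) *ᵥ v) y ≤
        ρ * Real.sqrt (ip0 y y + ip1 y y)) :
    v ⬝ᵥ (D.Q *ᵥ v) ≤ GE (fun z => v ⬝ᵥ (mf (fun x => 2 * tt x - kap x ^ 2) (D.M z) *ᵥ v)) -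
      ip1 (fun z => mf kap (D.M z) *ᵥ v) (fun z => mf kap (D.M z) *ᵥ v) + ρ ^ 2 := by
  have cK : C1V fun z => mf kap (D.M z) *ᵥ v := (D.mf_c1 hasDerivAt_kap continuous_pp).c1V v
  have cH : C1V fun z => D.H z *ᵥ v := D.H_c1.c1V v
  have key := var_le_dual (D.u_c1 v) (κ := fun a z => (mf kap (D.M z) *ᵥ v) a) cK (ρ := ρ)
    fun y hy => by
      have cy : C1V fun z a => y a z := hy
      have := h _ cy
      rw [ip0_eq_sum (fun a => by simpa only [sub_mulVec, Pi.sub_apply] using (cH.pg a).sub (cK.pg a))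
        cy.pg, ip1_eq_sum cK cy, ip0_eq_sum cy.pg cy.pg, ip1_eq_sum cy cy,
        ← Finset.sum_sub_distrib, ← Finset.sum_add_distrib] at this
      simp only [D.dk_u, sq]
      refine le_of_eq_of_le (Finset.sum_congr rfl fun a _ => ?_) this
      rw [← GE_sub ((cH.pg a).mul (cy.pg a)) ((cK.pg a).mul (cy.pg a))]
      simp only [sub_mulVec, Pi.sub_apply, sub_mul]
  rw [D.Q_quad, ip1_eq_sum cK cK]
  refine key.trans_eq ?_
  simp only [D.dk_u, Finset.sum_sub_distrib, ← Finset.mul_sum, sq ((mf kap _ *ᵥ v) _)]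
  rw [← ip0_eq_sum cH.pg cK.pg, ← ip0_eq_sum cK.pg cK.pg, ip0, ip0, ← GE_const_mul,
    ← GE_sub ((PG.dot cH.pg cK.pg).const_mul 2) (PG.dot cK.pg cK.pg)]
  congr 3
  funext z
  rw [← D.mf_lam_M z, mf_dot_mf (D.M_symm z), mf_mulVec_sq (D.M_symm z), mf_sub (D.M_symm z),
    mf_smul (D.M_symm z), sub_mulVec, smul_mulVec, dotProduct_sub, dotProduct_smul, smul_eq_mul]
  simp only [lam_mul_kap]

end GD

end Crest.Agent.R253
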