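import Crest.Agent.R253.CoreQ

/-!
# Row 253: a toolkit for vector fields on Gaussian space

`PGV u`: coordinates of polynomial growth.  `ipS u w = E ∑_k ⟨u_k, w_k⟩` for families of fields, so
`ip1 u y = ipS (fun k => dkV k u) (fun k => dkV k y)` by `rfl`.  `Ch2 R`: all coordinates lie in the
chaoses of order `≥ 2`.

Plan.  Linearity: `GE_add`, `GE_sub`, `GE_const_mul`, `PG.dot`, `dk_add`, ...  The AM-GM bounds are
pointwise (`0 ≤ |2 W u + ε w|²`) followed by `GE_mono`.  `dual_le` is Cauchy-Schwarz: for every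
`s > 0` the left side is `≤ (s (ip0 a a + ipS b b) + (ip0 y y + ip1 y y) / s) / 2` (pointwise AM-GM),
or apply `GE_mul_sq_le` coordinatewise and `Finset.sum_mul_sq_le_sq_mul_sq`.
The chaos bounds `ch2_*` use `ip0_eq_sum`, `ip1_eq_sum` and, coordinatewise, `ChaosGe.poincare`,
`pair_le`, or directly `parseval` / `hasSum_EG` with a termwise inequality (`hasSum_le`).
-/

set_option autoImplicit false
open MeasureTheory Matrix Filter Topology
open scoped ContDiff BigOperators

noncomputable section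
namespace Crest.Agent.R253
open Crest.Agent.R238 Crest.Agent.R215

variable {n : ℕ}

/-- Vector fields of polynomial growth. -/
def PGV (u : E n → E n) : Prop := ∀ a, PG fun z => u z a

/-- The pairing of two families of vector fields. -/
def ipS (u w : Fin n → E n → E n) : ℝ := GE fun z => ∑ k, u k z ⬝ᵥ w k z

/-- Vector fields in the chaoses of order at least two. -/
def Ch2 (R : E n → E n) : Prop := ∀ a, ChaosGe 2 fun z => R z a

theorem ip1_eq_ipS (u y : E n → E n) : ip1 u y = ipS (fun k => dkV k u) (fun k => dkV k y) := rfl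

section closure
variable {u w : E n → E n}

theorem PGV.const (v : E n) : PGV fun _ : E n => v :=
  fun a => PG.const (v a)
theorem PGV.add (hu : PGV u) (hw : PGV w) : PGV fun z => u z + w z :=
  fun a => (hu a).add (hw a)
theorem PGV.sub (hu : PGV u) (hw : PGV w) : PGV fun z => u z - w z :=
  fun a => (hu a).sub (hw a)
theorem PGV.smul (hu : PGV u) (c : ℝ) : PGV fun z => c • u z :=
  fun a => (hu a).const_mul c
theorem PGV.sum {ι : Type*} (s : Finset ι) {u : ι → E n → E n} (h : ∀ i ∈ s, PGV (u i)) :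
    PGV fun z => ∑ i ∈ s, u i z :=
  fun a => by
  simp only [Finset.sum_apply]
  exact PG.sum s fun i hi => h i hi a
theorem PGM.pgv {A : E n → RM n} (hA : PGM A) (hw : PGV w) : PGV fun z => A z *ᵥ w z :=
  fun a => hA.mulVec hw a
theorem PGV.dot (hu : PGV u) (hw : PGV w) : PG fun z => u z ⬝ᵥ w z :=
  PG.dot hu hw
theorem PGV.dotS {u w : Fin n → E n → E n} (hu : ∀ k, PGV (u k)) (hw : ∀ k, PGV (w k)) :
    PG fun z => ∑ k, u k z ⬝ᵥ w k z :=
  PG.sum _ fun k _ => PG.dot (hu k) (hw k)
theorem C1V.pgv (h : C1V u) : PGV u :=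
  fun a => h.pg a
theorem C1V.pgvd (h : C1V u) (k : Fin n) : PGV (dkV k u) :=
  fun a => h.pgd k a
theorem C1V.const (v : E n) : C1V fun _ : E n => v :=
  fun a => C1.const (v a)
theorem C1V.add (hu : C1V u) (hw : C1V w) : C1V fun z => u z + w z :=
  fun a => (hu a).add (hw a)
theorem C1V.sub (hu : C1V u) (hw : C1V w) : C1V fun z => u z - w z :=
  fun a => (hu a).sub (hw a)
theorem C1V.smul (hu : C1V u) (c : ℝ) : C1V fun z => c • u z :=
  fun a => (hu a).const_mul c
theorem dkV_const (k : Fin n) (v z : E n) : dkV k (fun _ => v) z = 0 :=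
  funext fun a => dk_const k (v a) z
theorem dkV_add (hu : C1V u) (hw : C1V w) (k : Fin n) (z : E n) :
    dkV k (fun y => u y + w y) z = dkV k u z + dkV k w z :=
  funext fun a => dk_add k (hu a) (hw a) z
theorem dkV_sub (hu : C1V u) (hw : C1V w) (k : Fin n) (z : E n) :
    dkV k (fun y => u y - w y) z = dkV k u z - dkV k w z :=
  funext fun a => dk_sub k (hu a) (hw a) z
theorem dkV_smul (c : ℝ) (u : E n → E n) (k : Fin n) (z : E n) :
    dkV k (fun y => c • u y) z = c • dkV k u z :=
  funext fun a => dk_const_mul k c (fun y => u y a) z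

end closure

section lin
variable {u u' w : E n → E n}

theorem ip0_comm (u w : E n → E n) : ip0 u w = ip0 w u := by
  simp only [ip0, dotProduct_comm]
theorem ip0_self_nonneg (u : E n → E n) : 0 ≤ ip0 u u :=
  GE_nonneg fun _ => dot_self_nonneg _
theorem ip0_add_left (hu : PGV u) (hu' : PGV u') (hw : PGV w) :
    ip0 (fun z => u z + u' z) w = ip0 u w + ip0 u' w := by
  simp only [ip0, add_dotProduct]
  exact GE_add (hu.dot hw) (hu'.dot hw)
theorem ip0_sub_left (hu : PGV u) (hu' : PGV u') (hw : PGV w) :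
    ip0 (fun z => u z - u' z) w = ip0 u w - ip0 u' w := by
  simp only [ip0, sub_dotProduct]
  exact GE_sub (hu.dot hw) (hu'.dot hw)
theorem ip0_smul_left (c : ℝ) (u w : E n → E n) : ip0 (fun z => c • u z) w = c * ip0 u w := by
  simp only [ip0, smul_dotProduct, smul_eq_mul, GE_const_mul]
theorem ip0_add_right (hu : PGV u) (hu' : PGV u') (hw : PGV w) :
    ip0 w (fun z => u z + u' z) = ip0 w u + ip0 w u' := by
  rw [ip0_comm, ip0_add_left hu hu' hw, ip0_comm u, ip0_comm u']
theorem ip0_sub_right (hu : PGV u) (hu' : PGV u') (hw : PGV w) :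
    ip0 w (fun z => u z - u' z) = ip0 w u - ip0 w u' := by
  rw [ip0_comm, ip0_sub_left hu hu' hw, ip0_comm u, ip0_comm u']
theorem ip0_smul_right (c : ℝ) (u w : E n → E n) : ip0 w (fun z => c • u z) = c * ip0 w u := by
  rw [ip0_comm, ip0_smul_left, ip0_comm]
theorem ip0_const (v w : E n) : ip0 (fun _ : E n => v) (fun _ => w) = v ⬝ᵥ w :=
  GE_const _
/-- A centred field is orthogonal to constants. -/
theorem ip0_const_left (hw : PGV w) (h : ∀ a, GE (fun z => w z a) = 0) (v : E n) :
    ip0 (fun _ => v) w = 0 := by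
  rw [ip0_eq_sum (PGV.const v) hw]
  simp only [GE_const_mul, h, mul_zero, Finset.sum_const_zero]

theorem ip1_comm (u w : E n → E n) : ip1 u w = ip1 w u := by
  simp only [ip1, dotProduct_comm]
theorem ip1_self_nonneg (u : E n → E n) : 0 ≤ ip1 u u :=
  GE_nonneg fun _ => Finset.sum_nonneg fun _ _ => dot_self_nonneg _
theorem ip1_add_left (hu : C1V u) (hu' : C1V u') (hw : C1V w) :
    ip1 (fun z => u z + u' z) w = ip1 u w + ip1 u' w := by
  simp only [ip1, dkV_add hu hu', add_dotProduct, Finset.sum_add_distrib]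
  exact GE_add (PGV.dotS hu.pgvd hw.pgvd) (PGV.dotS hu'.pgvd hw.pgvd)
theorem ip1_sub_left (hu : C1V u) (hu' : C1V u') (hw : C1V w) :
    ip1 (fun z => u z - u' z) w = ip1 u w - ip1 u' w := by
  simp only [ip1, dkV_sub hu hu', sub_dotProduct, Finset.sum_sub_distrib]
  exact GE_sub (PGV.dotS hu.pgvd hw.pgvd) (PGV.dotS hu'.pgvd hw.pgvd)
theorem ip1_smul_left (c : ℝ) (u w : E n → E n) : ip1 (fun z => c • u z) w = c * ip1 u w := by
  simp only [ip1, dkV_smul, smul_dotProduct, smul_eq_mul, ← Finset.mul_sum, GE_const_mul]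

end lin

section linS
variable {u u' w : Fin n → E n → E n}

theorem ipS_comm (u w : Fin n → E n → E n) : ipS u w = ipS w u := by
  simp only [ipS, dotProduct_comm]
theorem ipS_self_nonneg (u : Fin n → E n → E n) : 0 ≤ ipS u u :=
  GE_nonneg fun _ => Finset.sum_nonneg fun _ _ => dot_self_nonneg _
theorem ipS_eq_sum (hu : ∀ k, PGV (u k)) (hw : ∀ k, PGV (w k)) :
    ipS u w = ∑ k, ip0 (u k) (w k) :=
  GE_sum _ fun k _ => (hu k).dot (hw k)
theorem ipS_add_left (hu : ∀ k, PGV (u k)) (hu' : ∀ k, PGV (u' k)) (hw : ∀ k, PGV (w k)) :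
    ipS (fun k z => u k z + u' k z) w = ipS u w + ipS u' w := by
  simp only [ipS, add_dotProduct, Finset.sum_add_distrib]
  exact GE_add (PGV.dotS hu hw) (PGV.dotS hu' hw)
theorem ipS_sub_left (hu : ∀ k, PGV (u k)) (hu' : ∀ k, PGV (u' k)) (hw : ∀ k, PGV (w k)) :
    ipS (fun k z => u k z - u' k z) w = ipS u w - ipS u' w := by
  simp only [ipS, sub_dotProduct, Finset.sum_sub_distrib]
  exact GE_sub (PGV.dotS hu hw) (PGV.dotS hu' hw)
theorem ipS_smul_left (c : ℝ) (u w : Fin n → E n → E n) :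
    ipS (fun k z => c • u k z) w = c * ipS u w := by
  simp only [ipS, smul_dotProduct, smul_eq_mul, ← Finset.mul_sum, GE_const_mul]

end linS

end Crest.Agent.R253
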