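import Crest.Agent.R253.CoreV

/-!
# Row 253: inequalities for vector fields on Gaussian space

The AM-GM bounds are pointwise (`0 ≤ |2 W u + ε w|²`) followed by `GE_mono`.  `dual_le` is
Cauchy-Schwarz: for every `s > 0` the left side is
`≤ (s (ip0 a a + ipS b b) + (ip0 y y + ip1 y y) / s) / 2` (by the AM-GM bounds), or apply
`GE_mul_sq_le` coordinatewise and `Finset.sum_mul_sq_le_sq_mul_sq`.
The chaos bounds `ch2_*` use `ip0_eq_sum`, `ip1_eq_sum` and, coordinatewise, `ChaosGe.poincare`,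
`pair_le`, or directly `parseval` / `hasSum_EG` with a termwise inequality (`hasSum_le`).
-/

set_option autoImplicit false
open MeasureTheory Matrix Filter Topology
open scoped ContDiff BigOperators

noncomputable section
namespace Crest.Agent.R253
open Crest.Agent.R238 Crest.Agent.R215

variable {n : ℕ}

theorem CoreW_pt (u w : E n) {W : ℝ} (hW : 0 < W) (ε : ℝ) :
    -(W * (u ⬝ᵥ u) + ε ^ 2 / (4 * W) * (w ⬝ᵥ w)) ≤ ε * (u ⬝ᵥ w) := by
  have h := dot_self_nonneg ((2 * W) • u + ε • w)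
  simp only [add_dotProduct, dotProduct_add, smul_dotProduct, dotProduct_smul, smul_eq_mul,
    dotProduct_comm w u] at h
  have e : ε * (u ⬝ᵥ w) + (W * (u ⬝ᵥ u) + ε ^ 2 / (4 * W) * (w ⬝ᵥ w)) =
      (2 * W * (2 * W * (u ⬝ᵥ u) + ε * (u ⬝ᵥ w)) + ε * (2 * W * (u ⬝ᵥ w) + ε * (w ⬝ᵥ w))) /
        (4 * W) := by
    field_simp
    ring
  have : 0 ≤ ε * (u ⬝ᵥ w) + (W * (u ⬝ᵥ u) + ε ^ 2 / (4 * W) * (w ⬝ᵥ w)) := by
    rw [e]
    exact div_nonneg (by linarith) (by positivity)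
  linarith

theorem CoreW_sqrt {x P Q : ℝ} (hP : 0 ≤ P) (hQ : 0 ≤ Q)
    (h : ∀ W : ℝ, 0 < W → x ≤ W * P + Q / (4 * W)) : x ≤ Real.sqrt P * Real.sqrt Q := by
  rw [← Real.sqrt_mul hP]
  refine le_of_forall_pos_le_add fun ε hε => ?_
  rcases le_or_gt x 0 with hx | hx
  · exact hx.trans (by positivity)
  have key : x ^ 2 ≤ P * Q := by
    rcases hP.eq_or_lt with h0 | h0
    · exfalso
      have := h ((Q + 1) / x) (by positivity)
      rw [← h0, mul_zero, zero_add, le_div_iff₀ (by positivity)] at this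
      have e : x * (4 * ((Q + 1) / x)) = 4 * (Q + 1) := by field_simp
      rw [e] at this
      linarith
    · have := h (x / (2 * P)) (by positivity)
      have e : x / (2 * P) * P + Q / (4 * (x / (2 * P))) = x / 2 + P * Q / (2 * x) := by
        field_simp
        ring
      rw [e] at this
      have h2 : x / 2 ≤ P * Q / (2 * x) := by linarith
      rw [div_le_div_iff₀ (by norm_num) (by positivity)] at h2
      nlinarith
  exact (Real.le_sqrt_of_sq_le key).trans (by linarith)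

/-- AM-GM for `ip0`. -/
theorem ip0_amgm {u w : E n → E n} (hu : PGV u) (hw : PGV w) {W : ℝ} (hW : 0 < W) (ε : ℝ) :
    -(W * ip0 u u + ε ^ 2 * ip0 w w / (4 * W)) ≤ ε * ip0 u w := by
  have h := GE_mono (((hu.dot hu).const_mul W).add ((hw.dot hw).const_mul (ε ^ 2 / (4 * W)))).neg
    ((hu.dot hw).const_mul ε) fun z => CoreW_pt (u z) (w z) hW ε
  rw [GE_neg, GE_add ((hu.dot hu).const_mul W) ((hw.dot hw).const_mul _), GE_const_mul,
    GE_const_mul, GE_const_mul] at h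
  refine le_of_eq_of_le ?_ h
  simp only [ip0]
  ring

/-- AM-GM for `ipS`. -/
theorem ipS_amgm {u w : Fin n → E n → E n} (hu : ∀ k, PGV (u k)) (hw : ∀ k, PGV (w k)) {W : ℝ}
    (hW : 0 < W) (ε : ℝ) : -(W * ipS u u + ε ^ 2 * ipS w w / (4 * W)) ≤ ε * ipS u w := by
  rw [ipS_eq_sum hu hu, ipS_eq_sum hw hw, ipS_eq_sum hu hw, Finset.mul_sum, Finset.mul_sum,
    Finset.mul_sum, Finset.sum_div, ← Finset.sum_add_distrib, ← Finset.sum_neg_distrib]
  exact Finset.sum_le_sum fun k _ => ip0_amgm (hu k) (hw k) hW ε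

/-- `|a + b|² ≤ (1 + δ) |a|² + (1 + 1/δ) |b|²`. -/
theorem ipS_add_le {u w : Fin n → E n → E n} (hu : ∀ k, PGV (u k)) (hw : ∀ k, PGV (w k)) {δ : ℝ}
    (hδ : 0 < δ) : ipS (fun k z => u k z + w k z) (fun k z => u k z + w k z) ≤
      (1 + δ) * ipS u u + (1 + 1 / δ) * ipS w w := by
  have hs : ∀ k, PGV fun z => u k z + w k z := fun k => (hu k).add (hw k)
  rw [ipS_add_left hu hw hs, ipS_comm u, ipS_comm w, ipS_add_left hu hw hu, ipS_add_left hu hw hw,
    ipS_comm w u]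
  have h := ipS_amgm hu hw hδ (-2)
  have e : (-2 : ℝ) ^ 2 * ipS w w / (4 * δ) = 1 / δ * ipS w w := by
    field_simp
    ring
  rw [e] at h
  linarith

/-- Cauchy-Schwarz in `H¹`. -/
theorem dual_le {a y : E n → E n} {b : Fin n → E n → E n} (ha : PGV a) (hb : ∀ k, PGV (b k))
    (hy : C1V y) : ip0 a y - ipS b (fun k => dkV k y) ≤
      Real.sqrt (ip0 a a + ipS b b) * Real.sqrt (ip0 y y + ip1 y y) := by
  refine CoreW_sqrt (add_nonneg (ip0_self_nonneg a) (ipS_self_nonneg b))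
    (add_nonneg (ip0_self_nonneg y) (ip1_self_nonneg y)) fun W hW => ?_
  have h1 := ip0_amgm ha hy.pgv hW (-1)
  have h2 := ipS_amgm hb hy.pgvd hW 1
  rw [← ip1_eq_ipS] at h2
  rw [add_div]
  simp only [neg_one_sq, one_pow, one_mul] at h1 h2
  linarith

/-- Integration by parts for vector fields. -/
theorem ip0_coord {u y : E n → E n} (hu : C1V u) (hy : C1V y) (k : Fin n) :
    ip0 (fun z => z k • u z) y = ip0 (dkV k u) y + ip0 u (dkV k y) := by
  have p1 : PGV fun z => z k • u z := fun a => (PG.coord k).mul (hu.pg a)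
  rw [ip0_eq_sum p1 hy.pgv, ip0_eq_sum (hu.pgvd k) hy.pgv, ip0_eq_sum hu.pgv (hy.pgvd k),
    ← Finset.sum_add_distrib]
  refine Finset.sum_congr rfl fun a _ => ?_
  have h := GE_ibp1 ((hu a).mul (hy a)) k
  rw [funext (dk_mul k (hu a) (hy a)), GE_add (((hu a).pgd k).mul (hy a).pg)
    ((hu a).pg.mul ((hy a).pgd k))] at h
  simp only [Pi.smul_apply, smul_eq_mul, mul_assoc]
  exact h

theorem CoreW_hs0 {u w : E n → E n} (hu : PGV u) (hw : PGV w) :
    HasSum (fun α : MI n => ∑ a, co α (fun z => u z a) * co α (fun z => w z a)) (ip0 u w) := by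
  rw [ip0_eq_sum hu hw]
  exact hasSum_sum fun a _ => parseval (hu a) (hw a)

theorem CoreW_hs1 {u w : E n → E n} (hu : C1V u) (hw : C1V w) :
    HasSum (fun α : MI n => (deg α : ℝ) * ∑ a, co α (fun z => u z a) * co α (fun z => w z a))
      (ip1 u w) := by
  rw [ip1_eq_sum hu hw]
  simp only [Finset.mul_sum]
  exact hasSum_sum fun a _ => hasSum_EG (hu a) (hw a)

/-- Second order Poincaré inequality. -/
theorem ch2_poincare {R : E n → E n} (hR : C1V R) (h2 : Ch2 R) : 2 * ip0 R R ≤ ip1 R R := by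
  rw [ip0_eq_sum hR.pgv hR.pgv, ip1_eq_sum hR hR, Finset.mul_sum]
  refine Finset.sum_le_sum fun a _ => ?_
  have := (h2 a).poincare (hR a)
  simpa only [sq, Nat.cast_ofNat] using this

/-- `(m - 1)² ≤ (m - 5/3) (m + 1)` for `m ≥ 2`. -/
theorem ch2_dual {R y : E n → E n} (hR : C1V R) (h2 : Ch2 R) (hy : C1V y) :
    ip0 R y - ip1 R y ≤
      Real.sqrt (ip1 R R - 5 / 3 * ip0 R R) * Real.sqrt (ip0 y y + ip1 y y) := by
  have hp := ch2_poincare hR h2
  have h0 := ip0_self_nonneg R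
  refine CoreW_sqrt (by linarith) (add_nonneg (ip0_self_nonneg y) (ip1_self_nonneg y))
    fun W hW => ?_
  refine hasSum_le (fun α => ?_) ((CoreW_hs0 hR.pgv hy.pgv).sub (CoreW_hs1 hR hy))
    ((((CoreW_hs1 hR hR).sub ((CoreW_hs0 hR.pgv hR.pgv).mul_left (5 / 3))).mul_left W).add
      (((CoreW_hs0 hy.pgv hy.pgv).add (CoreW_hs1 hy hy)).div_const (4 * W)))
  simp only [Finset.mul_sum, ← Finset.sum_sub_distrib, ← Finset.sum_add_distrib, Finset.sum_div]
  refine Finset.sum_le_sum fun a _ => ?_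
  set r := co α fun z => R z a
  set t := co α fun z => y z a
  have hm : (0 : ℝ) ≤ deg α := Nat.cast_nonneg _
  by_cases hd : deg α < 2
  · have : r = 0 := h2 a α hd
    rw [this]
    simp only [zero_mul, mul_zero, sub_zero, zero_add]
    exact div_nonneg (by nlinarith [mul_self_nonneg t]) (by positivity)
  · have hd2 : (2 : ℝ) ≤ deg α := by exact_mod_cast not_lt.1 hd
    set m : ℝ := (deg α : ℝ)
    rw [← sub_nonneg]
    have e : W * (m * (r * r) - 5 / 3 * (r * r)) + (t * t + m * (t * t)) / (4 * W) -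
        (r * t - m * (r * t)) = (((m + 1) * t + 2 * W * (m - 1) * r) ^ 2 +
          4 * W ^ 2 * r ^ 2 * ((m - 5 / 3) * (m + 1) - (m - 1) ^ 2)) / (4 * W * (m + 1)) := by
      field_simp
      ring
    rw [e]
    refine div_nonneg (add_nonneg (sq_nonneg _) (mul_nonneg (by positivity) ?_)) (by positivity)
    nlinarith

/-- Termwise in chaos `m ≥ 2`, with coefficients `a, b, r`:
`ε (a - (m - 2) b) r ≥ -σ (m - 1) r² - ε² (a - (m - 2) b)² / (4 σ (m - 1))` and
`(a - (m - 2) b)² ≤ (m a² / 2 + m b²) (2 + (m - 2)²) / m ≤ (m - 1) (m a² / 2 + m b²)`.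
For `m < 2` the coefficient `r` vanishes. -/
theorem ch2_pair {A B R : E n → E n} (hA : C1V A) (hB : C1V B) (hR : C1V R) (h2 : Ch2 R) {σ : ℝ}
    (hσ : 0 < σ) (ε : ℝ) :
    -(σ * (ip1 R R - ip0 R R)) - ε ^ 2 * (ip1 A A / 2 + ip1 B B) / (4 * σ) ≤
      ε * (ip0 A R - (ip1 B R - 2 * ip0 B R)) := by
  refine hasSum_le (fun α => ?_)
    ((((CoreW_hs1 hR hR).sub (CoreW_hs0 hR.pgv hR.pgv)).mul_left σ).neg.sub
      (((((CoreW_hs1 hA hA).div_const 2).add (CoreW_hs1 hB hB)).mul_left (ε ^ 2)).div_const (4 * σ)))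
    (((CoreW_hs0 hA.pgv hR.pgv).sub ((CoreW_hs1 hB hR).sub
      ((CoreW_hs0 hB.pgv hR.pgv).mul_left 2))).mul_left ε)
  simp only [Finset.mul_sum, ← Finset.sum_sub_distrib, ← Finset.sum_add_distrib, Finset.sum_div,
    ← Finset.sum_neg_distrib]
  refine Finset.sum_le_sum fun i _ => ?_
  set r := co α fun z => R z i
  set a := co α fun z => A z i
  set b := co α fun z => B z i
  have hm : (0 : ℝ) ≤ deg α := Nat.cast_nonneg _
  by_cases hd : deg α < 2
  · have : r = 0 := h2 i α hd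
    rw [this]
    simp only [mul_zero, sub_zero, neg_zero, zero_sub, neg_nonpos]
    exact div_nonneg (mul_nonneg (sq_nonneg _)
      (by nlinarith [mul_self_nonneg a, mul_self_nonneg b])) (by positivity)
  · have hd2 : 2 ≤ deg α := not_lt.1 hd
    have hc : (deg α : ℝ) = 2 ∨ (3 : ℝ) ≤ deg α := by
      rcases hd2.eq_or_lt with h | h
      · left
        exact_mod_cast h.symm
      · right
        exact_mod_cast h
    set m : ℝ := (deg α : ℝ)
    have hm2 : 2 ≤ m := by rcases hc with h | h <;> linarith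
    have k1 : (a - (m - 2) * b) ^ 2 ≤ (m - 1) * (m * (a * a) / 2 + m * (b * b)) := by
      have k2 : m * (a - (m - 2) * b) ^ 2 ≤
          (m * (a * a) / 2 + m * (b * b)) * (2 + (m - 2) ^ 2) := by
        nlinarith [mul_nonneg hm (sq_nonneg ((m - 2) * a + 2 * b))]
      have k3 : 2 + (m - 2) ^ 2 ≤ (m - 1) * m := by rcases hc with h | h <;> nlinarith
      have k4 : 0 ≤ m * (a * a) / 2 + m * (b * b) := by
        nlinarith [mul_self_nonneg a, mul_self_nonneg b]
      have k5 := mul_le_mul_of_nonneg_left k3 k4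
      have : m * (a - (m - 2) * b) ^ 2 ≤ m * ((m - 1) * (m * (a * a) / 2 + m * (b * b))) := by
        nlinarith
      exact le_of_mul_le_mul_left this (by linarith)
    have hm1 : 0 < m - 1 := by linarith
    rw [← sub_nonneg]
    have e : ε * (a * r - (m * (b * r) - 2 * (b * r))) -
        (-(σ * (m * (r * r) - r * r)) - ε ^ 2 * (m * (a * a) / 2 + m * (b * b)) / (4 * σ)) =
        ((2 * σ * (m - 1) * r + ε * (a - (m - 2) * b)) ^ 2 + ε ^ 2 *
          ((m - 1) * (m * (a * a) / 2 + m * (b * b)) - (a - (m - 2) * b) ^ 2)) /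
            (4 * σ * (m - 1)) := by
      field_simp
      ring
    rw [e]
    exact div_nonneg (add_nonneg (sq_nonneg _) (mul_nonneg (sq_nonneg _) (by linarith)))
      (by positivity)

/-- `(ρ₁ + ρ₂ + ρ₃)² ≤ ∑ ρ_i² / θ_i`. -/
theorem sq_add3_le {a b c θ₁ θ₂ θ₃ : ℝ} (h1 : 0 < θ₁) (h2 : 0 < θ₂) (h3 : 0 < θ₃)
    (h : θ₁ + θ₂ + θ₃ ≤ 1) : (a + b + c) ^ 2 ≤ a ^ 2 / θ₁ + b ^ 2 / θ₂ + c ^ 2 / θ₃ := by
  have key : (a + b + c) ^ 2 ≤ (a ^ 2 / θ₁ + b ^ 2 / θ₂ + c ^ 2 / θ₃) * (θ₁ + θ₂ + θ₃) := by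
    rw [← sub_nonneg]
    have e : (a ^ 2 / θ₁ + b ^ 2 / θ₂ + c ^ 2 / θ₃) * (θ₁ + θ₂ + θ₃) - (a + b + c) ^ 2 =
        (θ₃ * (a * θ₂ - b * θ₁) ^ 2 + θ₂ * (a * θ₃ - c * θ₁) ^ 2 + θ₁ * (b * θ₃ - c * θ₂) ^ 2) /
          (θ₁ * θ₂ * θ₃) := by
      field_simp
      ring
    rw [e]
    positivity
  exact key.trans (mul_le_of_le_one_right (by positivity) h)

end Crest.Agent.R253
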