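import Crest.Agent.R238.MehlerA
import Crest.Agent.R238.Alg
import Crest.Agent.R215.Basic
import Crest.Prelude.Def_Isotropic

/-!
# Row 253 (sharp entropy bound for log-concave densities): interfaces

`GD n` is a "Gaussian Brenier datum": a smooth gradient map `T` on Gaussian space with `H = DT`
uniformly elliptic, satisfying the pointwise Bochner inequality coming from log-concavity of the law of
`T(Z)`.
-/

set_option autoImplicit false
open MeasureTheory Matrix Filter Topology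
open scoped ContDiff BigOperators

noncomputable section
namespace Crest.Agent.R253
open Crest.Agent.R238 Crest.Agent.R215

variable {n : ℕ}

/-- The Gaussian tail `1 - Φ`. -/
def Pb (x : ℝ) : ℝ := 1 - Phi x
/-- The hazard rate `λ = φ / (1 - Φ)`. -/
def lam (x : ℝ) : ℝ := phi x / Pb x
/-- `t = -log (1 - Φ)`, the monotone transport from `N(0,1)` to `Exp(1)`; `t' = λ`. -/
def tt (x : ℝ) : ℝ := -Real.log (Pb x)
/-- `κ = t / λ`. -/
def kap (x : ℝ) : ℝ := tt x / lam x
/-- The inverse of `λ : ℝ → (0, ∞)`. -/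
def lamI (h : ℝ) : ℝ := Function.invFun lam h

/-- Standard Gaussian expectation on `E n`. -/
def GE (f : E n → ℝ) : ℝ := ∫ z, f z * gw z

/-- Functional calculus for real symmetric matrices. -/
def mf (f : ℝ → ℝ) (A : RM n) : RM n := cfc f A

/-- Squared Hilbert–Schmidt norm. -/
def hs (A : RM n) : ℝ := ∑ a, ∑ b, A a b ^ 2

/-- The Jacobian matrix of a smooth map. -/
def jac (T : Fin n → Sm n) : Mat n := Matrix.of fun a b => pd b (T a)

/-- The map `z ↦ T z`. -/
def vec (T : Fin n → Sm n) (z : E n) : E n := fun a => ev z (T a)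

/-- Gaussian divergence `∑ (∂_i - z_i) w_i`. -/
def divG (w : Fin n → Sm n) : Sm n := ∑ i, (pd i (w i) - X i * w i)

/-- `Θ_kl = div_γ (G ∇ H_kl) - tr (G H_k G H_l) + δ_kl`; for a Brenier map it equals `H (D²W ∘ T) H`. -/
def Theta (H G : Mat n) : Mat n := Matrix.of fun k l =>
  divG (fun i => ∑ j, G i j * pd j (H k l)) - (G * pdM k H * G * pdM l H).trace + (1 : Mat n) k l

/-- A Gaussian Brenier datum. -/
structure GD (n : ℕ) where
  T : Fin n → Sm n
  G : Mat n
  c : ℝ
  K : ℝ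
  c_pos : 0 < c
  tmT : ∀ a, Tm (T a)
  tmG : ∀ a b, Tm (G a b)
  ell : Ell c K (jac T)
  bd1 : ∀ z k a b, |ev z (pd k (jac T a b))| ≤ K
  inv : G * jac T = 1
  bij : Function.Bijective (vec T)
  boch : ∀ z, (evM z (Theta (jac T) G)).PosSemidef

namespace GD
variable (D : GD n)

/-- `H(z) = DT(z)`. -/
def H (z : E n) : RM n := evM z (jac D.T)
/-- `M = λ⁻¹(H)`. -/
def M (z : E n) : RM n := mf lamI (D.H z)
/-- The position condition `E M = 0`. -/
def Cent : Prop := ∀ a b, GE (fun z => D.M z a b) = 0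
/-- First chaos coefficients `J_k = E z_k M`. -/
def Jm (k : Fin n) : RM n := Matrix.of fun a b => GE (fun z => z k * D.M z a b)
/-- `L = ∑ z_k J_k`. -/
def Lm (z : E n) : RM n := ∑ k, z k • D.Jm k
/-- `N = ∑ J_k²`. -/
def Nm : RM n := ∑ k, D.Jm k * D.Jm k
/-- The mean of `T(Z)`. -/
def mean : E n := fun a => GE (fun z => ev z (D.T a))
/-- The covariance of `T(Z)`. -/
def Q : RM n := Matrix.of fun a b =>
  GE (fun z => (ev z (D.T a) - D.mean a) * (ev z (D.T b) - D.mean b))
/-- The entropy of `T(Z)`. -/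
def ent : ℝ := n / 2 * Real.log (2 * Real.pi * Real.exp 1) + GE (fun z => Real.log (D.H z).det)
/-- The deficit. -/
def delta : ℝ := D.ent - n - Real.log D.Q.det / 2
/-- The gain: distance of `M` from the first chaos and of `N` from the identity. -/
def gain : ℝ := GE (fun z => hs (D.M z - D.Lm z)) + min 1 (hs (D.Nm - 1))

end GD

/-- The core inequality on Gaussian space. -/
def CoreStmt (n : ℕ) : Prop := ∃ c₀ : ℝ, 0 < c₀ ∧ ∀ D : GD n, D.Cent → c₀ * D.gain ≤ D.delta

/-- Log-concave probability densities (the hypotheses of S0391). -/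
structure LC (f : E n → ℝ) : Prop where
  meas : Measurable f
  nonneg : ∀ x, 0 ≤ f x
  int : ∫ x, f x = 1
  conv : Convex ℝ {x | 0 < f x}
  conc : ConcaveOn ℝ {x | 0 < f x} (fun x => Real.log (f x))

/-- `g` is the density of `B T(Z)`. -/
def IsDens (D : GD n) (B : RM n) (g : E n → ℝ) : Prop :=
  ∀ z, g (B *ᵥ vec D.T z) * (B.det * (D.H z).det) = gw z

/-- Approximation of `f` by laws of positioned Brenier data. -/
def SeqStmt (f : E n → ℝ) : Prop :=
  ∃ (D : ℕ → GD n) (B : ℕ → RM n) (g : ℕ → E n → ℝ) (C β : ℝ), 0 < β ∧ (∀ j, (D j).Cent) ∧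
    (∀ j, (B j).PosDef) ∧ (∀ j, IsDens (D j) (B j) (g j)) ∧ (∀ j, Continuous (g j)) ∧
    (∀ j y, g j y ≤ C * Real.exp (-β * ‖y‖)) ∧
    ∀ᵐ y, Tendsto (fun j => g j y) atTop (𝓝 (f y))

/-- The statement of S0391. -/
def EntStmt : Prop := ∀ (m : ℕ) (_ : 1 ≤ m)
    (f : (Fin m → ℝ) → ℝ) (_ : Measurable f) (_ : ∀ x, 0 ≤ f x) (_ : ∫ x, f x = 1)
    (_ : Convex ℝ {x | 0 < f x}) (_ : ConcaveOn ℝ {x | 0 < f x} (fun x => Real.log (f x))),
    (m : ℝ) + Real.log (Crest.GeometryTopology.Isotropic.densCov f).det / 2 ≤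
        Crest.GeometryTopology.Isotropic.diffEntropy f ∧
      (Crest.GeometryTopology.Isotropic.diffEntropy f =
          (m : ℝ) + Real.log (Crest.GeometryTopology.Isotropic.densCov f).det / 2 ↔
        ∃ (M : Matrix (Fin m) (Fin m) ℝ) (b : Fin m → ℝ), M.det ≠ 0 ∧
          f =ᵐ[volume] fun x => |M.det|⁻¹ *
            Set.indicator {y : Fin m → ℝ | ∀ i, 0 ≤ (M⁻¹.mulVec (y - b)) i}
              (fun y => Real.exp (- ∑ i, (M⁻¹.mulVec (y - b)) i)) x)

end Crest.Agent.R253
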