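import Crest.Agent.R253.MF1

/-!
# Row 253, final assembly: the algebraic rigidity lemma

Put `τ a b c = J c a b`; it is totally symmetric by `hs` and `h1`.  In `h2` the term `(J l * J c) a b` is
symmetric in `(b, c)`, so `h2` says `(J c * J b) a l = (J b * J c) a l`: the `J k` commute.  Take a joint
orthonormal eigenbasis `u i` (Mathlib: `LinearMap.IsSymmetric.directSum_isInternal_of_pairwise_commute`
in `Analysis/InnerProductSpace/JointEigenspace.lean` and
`DirectSum.IsInternal.subordinateOrthonormalBasis`, applied to `Matrix.toEuclideanLin (J k)`).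
Then `τ (u i, u j, ·) = 0` for `i ≠ j`, so by total symmetry `τ = ∑ s i • u i ⊗ u i ⊗ u i`,
`J k = ∑ s i (u i k) u i (u i)ᵀ`, `∑ J k ^ 2 = ∑ s i ^ 2 u i (u i)ᵀ = 1`, so `s i = ± 1`; the columns of `O`
are `s i • u i`.
-/

set_option autoImplicit false
open MeasureTheory Matrix Filter Topology Crest.GeometryTopology.Isotropic
open scoped ContDiff BigOperators

noncomputable section
namespace Crest.Agent.R253
open Crest.Agent.R238 Crest.Agent.R215

variable {n : ℕ}

/-- Simultaneous orthogonal diagonalisation of commuting real symmetric matrices. -/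
theorem joint_diag {ι : Type*} [Fintype ι] (J : ι → RM n) (hs : ∀ k, (J k)ᵀ = J k)
    (hc : ∀ k l, J k * J l = J l * J k) :
    ∃ (U : RM n) (μ : ι → Fin n → ℝ), Uᵀ * U = 1 ∧ ∀ k, Fr (J k) U (μ k) := by
  classical
  let T : ι → Module.End ℝ (EuclideanSpace ℝ (Fin n)) := fun k => Matrix.toEuclideanLin (J k)
  have hT : ∀ k, (T k).IsSymmetric := fun k =>
    Matrix.isSymmetric_toEuclideanLin_iff.2 (alg_herm (hs k))
  have hC : Pairwise (Function.onFun Commute T) := fun k l _ => by
    show T k * T l = T l * T k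
    ext v : 1
    simp only [T, Module.End.mul_apply, Matrix.toEuclideanLin, Matrix.toLpLin_apply,
      mulVec_mulVec, hc k l]
  let V : (ι → ℝ) → Submodule ℝ (EuclideanSpace ℝ (Fin n)) :=
    fun χ => ⨅ j, Module.End.eigenspace (T j) (χ j)
  have hO : OrthogonalFamily ℝ (fun χ => V χ) fun χ => (V χ).subtypeₗᵢ :=
    LinearMap.IsSymmetric.orthogonalFamily_iInf_eigenspaces hT
  let : Fintype {χ // V χ ≠ ⊥} := hO.independent.fintypeNeBotOfFiniteDimensional
  have hO' : OrthogonalFamily ℝ (fun χ : {χ // V χ ≠ ⊥} => V χ) fun χ => (V χ).subtypeₗᵢ :=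
    hO.comp Subtype.val_injective
  have hI : DirectSum.IsInternal fun χ : {χ // V χ ≠ ⊥} => V χ := by
    rw [hO'.isInternal_iff, iSup_ne_bot_subtype,
      LinearMap.IsSymmetric.iSup_iInf_eq_top_of_commute hT hC, Submodule.top_orthogonal_eq_bot]
  have hn : Module.finrank ℝ (EuclideanSpace ℝ (Fin n)) = n := finrank_euclideanSpace_fin
  let b := hI.subordinateOrthonormalBasis hn hO'
  let χ : Fin n → ι → ℝ := fun a => (hI.subordinateOrthonormalBasisIndex hn a hO').1
  have hb : ∀ a k, T k (b a) = χ a k • b a := fun a k =>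
    Module.End.mem_eigenspace_iff.1
      ((Submodule.mem_iInf _).1 (hI.subordinateOrthonormalBasis_subordinate hn a hO') k)
  let U : RM n := Matrix.of fun i a => b a i
  have hU : Uᵀ * U = 1 := by
    ext a a'
    have := orthonormal_iff_ite.1 b.orthonormal a a'
    rw [Matrix.one_apply, ← this]
    simp [U, Matrix.mul_apply, PiLp.inner_apply, mul_comm]
  refine ⟨U, fun k a => χ a k, hU, fun k => ⟨hU, ?_⟩⟩
  have h1 : J k * U = U * diagonal fun a => χ a k := by
    ext i a
    have := congrArg (fun v : EuclideanSpace ℝ (Fin n) => v i) (hb a k)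
    rw [mul_diagonal, mul_comm]
    exact this
  rw [← h1, Matrix.mul_assoc, mul_eq_one_comm.1 hU, Matrix.mul_one]

theorem fin_alg (J : Fin n → RM n) (hs : ∀ k, (J k)ᵀ = J k) (h1 : ∀ a b c, J c a b = J b a c)
    (h2 : ∀ a b c l, (J c * J l + J l * J c) a b = (J b * J l + J l * J b) a c)
    (hN : ∑ k, J k * J k = 1) :
    ∃ O : RM n, Oᵀ * O = 1 ∧ ∀ z : E n, ∑ k, z k • J k = O * diagonal (Oᵀ *ᵥ z) * Oᵀ := by
  have hs' : ∀ k a b, J k a b = J k b a := fun k a b => (congrFun (congrFun (hs k) b) a)
  have hsym : ∀ l c a b, (J l * J c) a b = (J l * J b) a c := fun l c a b => by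
    simp only [Matrix.mul_apply]
    exact Finset.sum_congr rfl fun m _ => by rw [h1 m b c]
  have hc : ∀ k l, J k * J l = J l * J k := fun c b => by
    ext a l
    have := h2 a b c l
    simp only [Matrix.add_apply] at this
    rw [hsym c b a l, hsym b c a l]
    linarith [hsym l c a b]
  obtain ⟨U, μ, hU, hF⟩ := joint_diag J hs hc
  have hU' : U * Uᵀ = 1 := mul_eq_one_comm.1 hU
  -- the tensor in the eigenframe
  have hJ : ∀ k a b, J k a b = ∑ i, U a i * μ k i * U b i := fun k a b => by
    rw [(hF k).eq, Matrix.mul_apply]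
    simp only [mul_diagonal, transpose_apply]
  have hcol : ∀ i j, ∑ a, U a i * U a j = if i = j then 1 else 0 := fun i j => by
    have := congrFun (congrFun hU i) j
    simpa [Matrix.mul_apply, Matrix.one_apply] using this
  have hJU : ∀ k a i, ∑ b, J k a b * U b i = U a i * μ k i := fun k a i => by
    have := congrFun (congrFun (hF k).mul_U a) i
    rwa [mul_diagonal, Matrix.mul_apply] at this
  have hμ : ∀ k i a, U a i * μ k i = U k i * μ a i := fun k i a => by
    rw [← hJU, ← hJU]
    exact Finset.sum_congr rfl fun b _ => by rw [hs' k a b, h1 b a k, hs' a b k]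
  set s : Fin n → ℝ := fun i => ∑ a, U a i * μ a i with hsd
  have hμs : ∀ k i, μ k i = s i * U k i := fun k i => by
    calc μ k i = ∑ a, U a i * (U a i * μ k i) := by
          simp only [← mul_assoc, ← Finset.sum_mul, hcol, if_true, one_mul]
      _ = _ := by
          simp only [hμ k i, hsd, Finset.sum_mul]
          exact Finset.sum_congr rfl fun a _ => by ring
  have hs1 : ∀ i, s i * s i = 1 := fun i => by
    have h3 : Uᵀ * (∑ k, J k * J k) * U = 1 := by rw [hN, Matrix.mul_one, hU]
    rw [Finset.mul_sum, Finset.sum_mul] at h3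
    simp only [((hF _).mul (hF _)).conj] at h3
    have h4 := congrFun (congrFun h3 i) i
    rw [Matrix.sum_apply, Matrix.one_apply_eq] at h4
    simp only [diagonal_apply_eq, hμs] at h4
    calc s i * s i = s i * s i * ∑ a, U a i * U a i := by rw [hcol, if_pos rfl, mul_one]
      _ = 1 := by
          rw [← h4, Finset.mul_sum]
          exact Finset.sum_congr rfl fun a _ => by ring
  refine ⟨U * diagonal s, ?_, fun z => ?_⟩
  · rw [transpose_mul, diagonal_transpose, Matrix.mul_assoc, ← Matrix.mul_assoc Uᵀ, hU,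
      Matrix.one_mul, diagonal_mul_diagonal]
    simp only [hs1, diagonal_one]
  · ext a b
    rw [Matrix.sum_apply, Matrix.mul_apply]
    simp only [Matrix.smul_apply, smul_eq_mul, hJ, mul_diagonal, transpose_apply, hμs, mulVec,
      dotProduct, Finset.mul_sum, Finset.sum_mul]
    rw [Finset.sum_comm]
    refine Finset.sum_congr rfl fun i _ => Finset.sum_congr rfl fun k _ => ?_
    linear_combination (-(z k * U a i * s i * U k i * U b i)) * hs1 i

end Crest.Agent.R253
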