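import Crest.Agent.R253.B1

/-!
# Row 253, final assembly: curl-freeness in the limit

`curl_one`: for tempered `T`, `E[∂_b T_a · z_c] = E[∂_c ∂_b T_a]` and
`E[∂_b T_a (z_c z_l - δ_cl)] = E[z_l ∂_c ∂_b T_a]` (`GE_ibp`) are symmetric in `(b, c)`.
`curl_lim`: pass to the limit (`tendsto_GE_mul`, `GE_entry_sq_le`); for the scaled version apply it to
`ε⁻¹ • MehlerAff 0 ε (T i a)` (`MehlerA_tm_aff`, `MehlerA_pd_aff`), whose Jacobian is `H (ε z)`, and use
`GE_smul_le`.
`curl_taylor`: `mf lam (ε L) = l0 + l1 ε L + l2 ε² L² + R` with `hs R ≤ C² ε⁶ (hs L)³` (`lam_taylor`,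
`hs_mf_taylor`); Gaussian moments (`GE_coord*`) give `l1 ε (J c a b - J b a c) = O(ε³)` and
`l2 ε² (…) = O(ε³)`; let `ε → 0`.
-/

set_option autoImplicit false
open MeasureTheory Matrix Filter Topology Crest.GeometryTopology.Isotropic
open scoped ContDiff BigOperators

noncomputable section
namespace Crest.Agent.R253
open Crest.Agent.R238 Crest.Agent.R215

variable {n : ℕ}

/-- The two families of moment identities satisfied by Jacobian matrices. -/
def Curl (Λ : E n → RM n) : Prop :=
  (∀ a b c, GE (fun z => Λ z a b * z c) = GE (fun z => Λ z a c * z b)) ∧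
  ∀ a b c l, GE (fun z => Λ z a b * (z c * z l - if c = l then 1 else 0)) =
    GE (fun z => Λ z a c * (z b * z l - if b = l then 1 else 0))

theorem curl_one {T : Fin n → Sm n} (hT : ∀ a, Tm (T a)) : Curl (fun z => evM z (jac T)) := by
  have h1 : ∀ a b c, GE (fun z => evM z (jac T) a b * z c) =
      GE (fun z => ev z (pd c (pd b (T a)))) := fun a b c => by
    rw [← GE_ibp ((hT a).pd b) c]
    simp only [evM_apply, jac, of_apply, mul_comm]
  have h2 : ∀ a b c l, GE (fun z => evM z (jac T) a b * (z c * z l - if c = l then 1 else 0)) =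
      GE (fun z => z l * ev z (pd c (pd b (T a)))) := fun a b c l => by
    have e := GE_ibp ((tm_X l).mul ((hT a).pd b)) c
    have p1 : PG fun z : E n => z c * (z l * ev z (pd b (T a))) :=
      (PG.coord c).mul ((PG.coord l).mul (Tm_pg ((hT a).pd b)))
    have p2 : PG fun z : E n => (if c = l then 1 else 0) * ev z (pd b (T a)) :=
      (Tm_pg ((hT a).pd b)).const_mul _
    have p3 : PG fun z : E n => z l * ev z (pd c (pd b (T a))) :=
      (PG.coord l).mul (Tm_pg (((hT a).pd b).pd c))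
    have e2 : ∀ z, ev z (pd c (X l * pd b (T a))) =
        z l * ev z (pd c (pd b (T a))) + (if c = l then 1 else 0) * ev z (pd b (T a)) := fun z => by
      rw [Derivation.leibniz, pd_X]
      by_cases h : c = l <;> simp [h, mul_comm]
    simp only [map_mul, ev_X, e2] at e
    rw [GE_add p3 p2] at e
    have e3 : (fun z => evM z (jac T) a b * (z c * z l - if c = l then 1 else 0)) =
        fun z : E n => z c * (z l * ev z (pd b (T a))) -
          (if c = l then 1 else 0) * ev z (pd b (T a)) := by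
      funext z
      simp only [evM_apply, jac, of_apply]
      ring
    rw [e3, GE_sub p1 p2, e]
    ring
  exact ⟨fun a b c => by rw [h1, h1, pd_comm], fun a b c l => by rw [h2, h2, pd_comm]⟩

theorem curl_lim {ι : Type*} {l : Filter ι} [l.NeBot] {T : ι → Fin n → Sm n}
    (hT : ∀ i a, Tm (T i a)) {Λ : E n → RM n} (hΛ : PGM Λ)
    (h : Tendsto (fun i => GE fun z => hs (evM z (jac (T i)) - Λ z)) l (𝓝 0))
    {ε : ℝ} (h0 : 0 < ε) (h1 : ε ≤ 1) : Curl (fun z => Λ (ε • z)) := by
  set S : ι → Fin n → Sm n := fun i a => ε⁻¹ • MehlerAff 0 ε (T i a) with hS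
  have tS : ∀ i a, Tm (S i a) := fun i a => (MehlerA_tm_aff 0 ε (hT i a)).smul _
  have eS : ∀ i z, evM z (jac (S i)) = evM (ε • z) (jac (T i)) := fun i z => by
    ext a b
    simp only [evM_apply, jac, of_apply, hS, Derivation.map_smul, MehlerA_pd_aff, ev_smul,
      MehlerA_ev_aff, zero_add]
    field_simp
  have pΛ : PGM fun z => Λ (ε • z) := fun a b => (hΛ a b).comp_smul ε
  have pS : ∀ i, PGM fun z => evM z (jac (S i)) := fun i => TmM_pgm fun a b => (tS i a).pd b
  have pT : ∀ i, PGM fun z => evM z (jac (T i)) := fun i => TmM_pgm fun a b => (hT i a).pd b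
  have t1 : ∀ a b, Tendsto (fun i => GE fun z => (evM z (jac (S i)) a b - Λ (ε • z) a b) ^ 2) l
      (𝓝 0) := fun a b => by
    have t := h.const_mul (ε ^ n)⁻¹
    rw [mul_zero] at t
    refine squeeze_zero (fun i => GE_nonneg fun z => sq_nonneg _) (fun i => ?_) t
    refine (GE_entry_sq_le ((pS i).sub pΛ) a b).trans ?_
    simp only [eS]
    exact GE_smul_le ((pT i).sub hΛ).hs (fun z => hs_nonneg _) h0 h1
  have t2 : ∀ a b {p : E n → ℝ}, PG p → Tendsto (fun i => GE fun z => evM z (jac (S i)) a b * p z) l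
      (𝓝 (GE fun z => Λ (ε • z) a b * p z)) := fun a b p hp =>
    tendsto_GE_mul (fun i => pS i a b) (pΛ a b) hp (t1 a b)
  have pp : ∀ c l : Fin n, PG fun z : E n => z c * z l - if c = l then 1 else 0 := fun c l =>
    ((PG.coord c).mul (PG.coord l)).sub (PG.const _)
  refine ⟨fun a b c => ?_, fun a b c k => ?_⟩
  · exact tendsto_nhds_unique (t2 a b (PG.coord c))
      ((t2 a c (PG.coord b)).congr fun i => ((curl_one (tS i)).1 a b c).symm)
  · exact tendsto_nhds_unique (t2 a b (pp c k))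
      ((t2 a c (pp b k)).congr fun i => ((curl_one (tS i)).2 a b c k).symm)

theorem FinCurl_lin_pgm (J : Fin n → RM n) : PGM (fun z : E n => ∑ k, z k • J k) :=
  PGM.sum _ fun k _ => (PGM.const _).smul (PG.coord k)

theorem FinCurl_lin_symm {J : Fin n → RM n} (hs : ∀ k, (J k)ᵀ = J k) (z : E n) :
    (∑ k, z k • J k)ᵀ = ∑ k, z k • J k := by
  simp only [transpose_sum, transpose_smul, hs]

theorem FinCurl_small {l x K : ℝ} (hl : l ≠ 0) {k : ℕ} (hk : k < 3)
    (h : ∀ ε : ℝ, 0 < ε → ε ≤ 1 → |l * ε ^ k * x| ≤ K * ε ^ 3) : x = 0 := by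
  have h1 : ∀ ε : ℝ, 0 < ε → ε ≤ 1 → |l * x| ≤ |K| * ε := fun ε h0 h1 => by
    have e := h ε h0 h1
    rw [mul_right_comm, abs_mul _ (ε ^ k), abs_of_pos (pow_pos h0 k)] at e
    have e2 : ε ^ 3 ≤ ε * ε ^ k := by
      rw [← pow_succ']
      exact pow_le_pow_of_le_one h0.le h1 hk
    refine le_of_mul_le_mul_right (e.trans ?_) (pow_pos h0 k)
    calc K * ε ^ 3 ≤ |K| * ε ^ 3 := mul_le_mul_of_nonneg_right (le_abs_self K) (by positivity)
      _ ≤ |K| * (ε * ε ^ k) := mul_le_mul_of_nonneg_left e2 (abs_nonneg K)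
      _ = _ := by ring
  have t : Tendsto (fun ε : ℝ => |K| * ε) (𝓝[>] 0) (𝓝 (|K| * 0)) :=
    (tendsto_id.mono_left nhdsWithin_le_nhds).const_mul _
  rw [mul_zero] at t
  have h2 : |l * x| ≤ 0 := ge_of_tendsto t (by
    filter_upwards [Ioc_mem_nhdsGT (show (0 : ℝ) < 1 by norm_num)] with ε hε
    exact h1 ε hε.1 hε.2)
  exact (mul_eq_zero.1 (abs_nonpos_iff.1 h2)).resolve_left hl

theorem mf_lam_lin_pgm {J : Fin n → RM n} (hs : ∀ k, (J k)ᵀ = J k) :
    PGM (fun z : E n => mf lam (∑ k, z k • J k)) := by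
  refine (FinCurl_lin_pgm J).mf (FinCurl_lin_symm hs) continuous_lam (C := 1) (k := 1) fun x => ?_
  rw [abs_of_pos (lam_pos x), one_mul, pow_one]
  exact lam_le x

theorem curl_taylor {J : Fin n → RM n} (hs : ∀ k, (J k)ᵀ = J k)
    (h : ∀ ε : ℝ, 0 < ε → ε ≤ 1 → Curl (fun z : E n => mf lam (∑ k, (ε • z) k • J k))) :
    (∀ a b c, J c a b = J b a c) ∧
      ∀ a b c l, (J c * J l + J l * J c) a b = (J b * J l + J l * J b) a c := by
  obtain ⟨l0, l1, l2, C, h1, h2, hC⟩ := lam_taylor
  set L : E n → RM n := fun z => ∑ k, z k • J k with hL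
  have pL : PGM L := FinCurl_lin_pgm J
  have eL : ∀ (ε : ℝ) (z : E n), ∑ k, (ε • z) k • J k = ε • L z := fun ε z => by
    simp only [hL, Pi.smul_apply, smul_eq_mul, Finset.smul_sum, smul_smul]
  -- expansion of pairings
  have key : ∀ (a b : Fin n) {p : E n → ℝ}, PG p → ∃ K : ℝ, ∀ ε : ℝ, 0 < ε →
      |GE (fun z => mf lam (∑ k, (ε • z) k • J k) a b * p z) -
        (l0 * (1 : RM n) a b * GE p + l1 * ε * GE (fun z => L z a b * p z) +
          l2 * ε ^ 2 * GE (fun z => (L z * L z) a b * p z))| ≤ K * ε ^ 3 := by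
    intro a b p hp
    have pK : PG fun z => |C| * (1 + R253.hs (L z)) ^ 2 * |p z| :=
      ((((PG.const 1).add pL.hs).pow 2).const_mul _).mul hp.abs
    refine ⟨GE fun z => |C| * (1 + R253.hs (L z)) ^ 2 * |p z|, fun ε hε => ?_⟩
    have q0 : PG fun z => mf lam (∑ k, (ε • z) k • J k) a b * p z :=
      ((mf_lam_lin_pgm hs a b).comp_smul ε).mul hp
    have q1 : PG fun z => l0 * (1 : RM n) a b * p z := hp.const_mul _
    have q2 : PG fun z => l1 * ε * (L z a b * p z) := ((pL a b).mul hp).const_mul _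
    have q3 : PG fun z => l2 * ε ^ 2 * ((L z * L z) a b * p z) :=
      ((pL.mul pL a b).mul hp).const_mul _
    rw [← GE_const_mul, ← GE_const_mul, ← GE_const_mul, ← GE_add q1 q2, ← GE_add (q1.add q2) q3,
      ← GE_sub q0 ((q1.add q2).add q3), ← GE_mul_const]
    refine (abs_GE_le _).trans (GE_mono' (fun z => abs_nonneg _) (pK.mul (PG.const _)) fun z => ?_)
    have hsy : (ε • L z)ᵀ = ε • L z := by rw [transpose_smul, FinCurl_lin_symm hs z]
    have e1 := (sq_le_hs _ a b).trans (hs_mf_taylor hsy fun x _ => hC x)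
    rw [hs_smul] at e1
    set R := (mf lam (ε • L z) - l0 • (1 : RM n) - l1 • ε • L z - l2 • (ε • L z * ε • L z)) a b
      with hR
    have e2 : mf lam (∑ k, (ε • z) k • J k) a b * p z - (l0 * (1 : RM n) a b * p z +
        l1 * ε * (L z a b * p z) + l2 * ε ^ 2 * ((L z * L z) a b * p z)) = R * p z := by
      rw [eL, hR]
      simp only [Matrix.sub_apply, Matrix.smul_apply, smul_eq_mul, Matrix.smul_mul, Matrix.mul_smul]
      ring
    have e3 : |R| ≤ |C| * (1 + R253.hs (L z)) ^ 2 * ε ^ 3 := by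
      have h0 := hs_nonneg (L z)
      set t := R253.hs (L z)
      refine abs_le_of_sq_le_sq' (e1.trans ?_) (by positivity) |> abs_le.2
      rw [mul_pow, mul_pow, mul_pow, sq_abs, mul_assoc]
      refine mul_le_mul_of_nonneg_left ?_ (sq_nonneg C)
      have : t ^ 3 ≤ ((1 + t) ^ 2) ^ 2 := by nlinarith [pow_nonneg h0 2, pow_nonneg h0 3, pow_nonneg h0 4]
      nlinarith [pow_pos hε 6]
    rw [e2, abs_mul]
    nlinarith [mul_le_mul_of_nonneg_right e3 (abs_nonneg (p z))]
  have lin : ∀ (a b : Fin n) {p : E n → ℝ}, PG p →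
      GE (fun z => L z a b * p z) = ∑ k, J k a b * GE fun z => z k * p z := by
    intro a b p hp
    simp only [← GE_const_mul]
    rw [← GE_sum _ fun k _ => ((PG.coord k).mul hp).const_mul (J k a b)]
    congr 1
    funext z
    simp only [hL, Matrix.sum_apply, Matrix.smul_apply, smul_eq_mul, Finset.sum_mul]
    exact Finset.sum_congr rfl fun k _ => by ring
  have quad : ∀ (a b : Fin n) {p : E n → ℝ}, PG p →
      GE (fun z => (L z * L z) a b * p z) =
        ∑ k, ∑ m, (J k * J m) a b * GE fun z => z k * z m * p z := by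
    intro a b p hp
    simp only [← GE_const_mul]
    have q : ∀ k m, PG fun z : E n => (J k * J m) a b * (z k * z m * p z) := fun k m =>
      (((PG.coord k).mul (PG.coord m)).mul hp).const_mul _
    simp only [← fun k => GE_sum Finset.univ fun m _ => q k m]
    rw [← GE_sum _ fun k _ => PG.sum _ fun m _ => q k m]
    congr 1
    funext z
    rw [hL, Finset.sum_mul_sum]
    simp only [Matrix.smul_mul, Matrix.mul_smul,
      Matrix.sum_apply, Matrix.smul_apply, smul_eq_mul, Finset.sum_mul]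
    exact Finset.sum_congr rfl fun k _ => Finset.sum_congr rfl fun m _ => by ring
  have pp : ∀ c l : Fin n, PG fun z : E n => z c * z l - if c = l then 1 else 0 := fun c l =>
    ((PG.coord c).mul (PG.coord l)).sub (PG.const _)
  have m0 : ∀ c l : Fin n, GE (fun z : E n => z c * z l - if c = l then 1 else 0) = 0 :=
    fun c l => by
      rw [GE_sub ((PG.coord c).mul (PG.coord l)) (PG.const _), GE_const, GE_coord_mul, sub_self]
  have m1 : ∀ k c l : Fin n,
      GE (fun z : E n => z k * (z c * z l - if c = l then 1 else 0)) = 0 := fun k c l => by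
    simp only [mul_sub, ← mul_assoc]
    rw [GE_sub (((PG.coord k).mul (PG.coord c)).mul (PG.coord l)) ((PG.coord k).mul (PG.const _)),
      GE_coord_mul3, GE_mul_const, GE_coord, zero_mul, sub_self]
  have m2 : ∀ k m c l : Fin n,
      GE (fun z : E n => z k * z m * (z c * z l - if c = l then 1 else 0)) =
        (if k = c then 1 else 0) * (if m = l then 1 else 0) +
          (if k = l then 1 else 0) * (if m = c then 1 else 0) := fun k m c l => by
    simp only [mul_sub, ← mul_assoc]
    rw [GE_sub ((((PG.coord k).mul (PG.coord m)).mul (PG.coord c)).mul (PG.coord l))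
      (((PG.coord k).mul (PG.coord m)).mul (PG.const _)),
      GE_coord_mul4, GE_mul_const, GE_coord_mul]
    ring
  refine ⟨fun a b c => ?_, fun a b c l => ?_⟩
  · obtain ⟨K1, hK1⟩ := key a b (PG.coord c)
    obtain ⟨K2, hK2⟩ := key a c (PG.coord b)
    refine sub_eq_zero.1 (FinCurl_small h1 (k := 1) (by norm_num) (K := K1 + K2) fun ε h0 hε1 => ?_)
    have e1 := hK1 ε h0
    have e2 := hK2 ε h0
    rw [(h ε h0 hε1).1 a b c] at e1
    simp only [lin _ _ (PG.coord _), quad _ _ (PG.coord _), GE_coord, GE_coord_mul, GE_coord_mul3,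
      mul_zero, Finset.sum_const_zero, add_zero, zero_add, mul_ite, mul_one, Finset.sum_ite_eq',
      Finset.mem_univ, if_true] at e1 e2
    rw [abs_le] at e1 e2 ⊢
    constructor <;> nlinarith [e1.1, e1.2, e2.1, e2.2]
  · obtain ⟨K1, hK1⟩ := key a b (pp c l)
    obtain ⟨K2, hK2⟩ := key a c (pp b l)
    refine sub_eq_zero.1 (FinCurl_small h2 (k := 2) (by norm_num) (K := K1 + K2) fun ε h0 hε1 => ?_)
    have e1 := hK1 ε h0
    have e2 := hK2 ε h0
    rw [(h ε h0 hε1).2 a b c l] at e1
    simp only [lin _ _ (pp _ _), quad _ _ (pp _ _), m0, m1, m2,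
      mul_zero, Finset.sum_const_zero, add_zero, zero_add, mul_add, Finset.sum_add_distrib,
      mul_ite, ite_mul, mul_one, zero_mul, Finset.sum_ite_eq', Finset.mem_univ, if_true] at e1 e2
    rw [abs_le] at e1 e2 ⊢
    simp only [Matrix.add_apply]
    constructor <;> nlinarith [e1.1, e1.2, e2.1, e2.2]

end Crest.Agent.R253
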