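import Crest.Agent.R253.B1

/-!
# Row 253, final assembly: dominated convergence for moments and entropy

Entropy: for `0 ≤ s`, `|s log s| ≤ 2 √s + s²`, and `s ↦ s log s` is continuous
(`Real.continuous_mul_log`).  `(1 + ‖y‖)^k exp (-β ‖y‖)` is integrable (compare with
`integrable_one_add_norm`).  Positive definiteness: hyperplanes are null
(`Measure.addHaar_affineSubspace` / `Measure.addHaar_submodule`).
-/

set_option autoImplicit false
open MeasureTheory Matrix Filter Topology Crest.GeometryTopology.Isotropic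
open scoped ContDiff BigOperators

noncomputable section
namespace Crest.Agent.R253
open Crest.Agent.R238 Crest.Agent.R215

variable {n : ℕ}

/-- A dominated, almost everywhere convergent sequence of densities. -/
structure Dom (g : ℕ → E n → ℝ) (f : E n → ℝ) (C β : ℝ) : Prop where
  pos : 0 < β
  cont : ∀ j, Continuous (g j)
  nonneg : ∀ j y, 0 ≤ g j y
  le : ∀ j y, g j y ≤ C * Real.exp (-β * ‖y‖)
  lim : ∀ᵐ y, Tendsto (fun j => g j y) atTop (𝓝 (f y))

theorem integrable_pg_exp {φ : E n → ℝ} (hφ : PG φ) {β : ℝ} (hβ : 0 < β) :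
    Integrable (fun y => φ y * Real.exp (-β * ‖y‖)) := by
  obtain ⟨hc, C, k, hC⟩ := hφ
  have hC0 : 0 ≤ C := by
    have := (abs_nonneg _).trans (hC 0)
    simpa using this
  have hI : Integrable (fun y : E n => (1 + ‖y‖) ^ (-((n + 1 : ℕ) : ℝ))) :=
    integrable_one_add_norm (by simp)
  refine (hI.const_mul (C * (Real.exp β * (k + (n + 1)).factorial / β ^ (k + (n + 1))))).mono'
    (by fun_prop) (Eventually.of_forall fun y => ?_)
  have hy : 0 < 1 + ‖y‖ := by positivity
  have h1 := Real.pow_div_factorial_le_exp (β * (1 + ‖y‖)) (by positivity) (k + (n + 1))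
  rw [Real.rpow_neg hy.le, Real.rpow_natCast, Real.norm_eq_abs, abs_mul,
    abs_of_pos (Real.exp_pos _)]
  have hf : (0 : ℝ) < (k + (n + 1)).factorial := by exact_mod_cast Nat.factorial_pos _
  have h2 : (1 + ‖y‖) ^ k * Real.exp (-β * ‖y‖) ≤
      Real.exp β * (k + (n + 1)).factorial / β ^ (k + (n + 1)) * ((1 + ‖y‖) ^ (n + 1))⁻¹ := by
    have e : Real.exp (β * (1 + ‖y‖)) * Real.exp (-β * ‖y‖) = Real.exp β := by
      rw [← Real.exp_add]; congr 1; ring
    rw [← div_eq_mul_inv, le_div_iff₀ (by positivity), le_div_iff₀ (by positivity), ← e]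
    rw [div_le_iff₀ hf, mul_pow, pow_add (1 + ‖y‖)] at h1
    have h3 := mul_le_mul_of_nonneg_right h1 (Real.exp_pos (-β * ‖y‖)).le
    calc _ = β ^ (k + (n + 1)) * ((1 + ‖y‖) ^ k * (1 + ‖y‖) ^ (n + 1)) *
          Real.exp (-β * ‖y‖) := by ring
      _ ≤ _ := h3
      _ = _ := by ring
  calc |φ y| * Real.exp (-β * ‖y‖) ≤ C * (1 + ‖y‖) ^ k * Real.exp (-β * ‖y‖) :=
        mul_le_mul_of_nonneg_right (hC y) (Real.exp_pos _).le
    _ = C * ((1 + ‖y‖) ^ k * Real.exp (-β * ‖y‖)) := by ring
    _ ≤ _ := by rw [mul_assoc]; exact mul_le_mul_of_nonneg_left h2 hC0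

theorem finDC_mul_log {s : ℝ} (hs : 0 ≤ s) : |s * Real.log s| ≤ 2 * √s + s ^ 2 := by
  rcases hs.eq_or_lt with rfl | hs0
  · simp
  have hq : 0 < √s := Real.sqrt_pos.2 hs0
  rcases le_total s 1 with h | h
  · have h1 := Real.abs_log_mul_self_lt √s hq (Real.sqrt_le_one.2 h)
    have e : s * Real.log s = 2 * √s * (Real.log √s * √s) := by
      rw [Real.log_sqrt hs]
      have := Real.mul_self_sqrt hs
      calc s * Real.log s = (√s * √s) * Real.log s := by rw [this]
        _ = _ := by ring
    rw [e, abs_mul, abs_of_pos (by positivity : 0 < 2 * √s)]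
    nlinarith
  · have h1 : 0 ≤ Real.log s := Real.log_nonneg h
    have h2 : Real.log s ≤ s := (Real.log_le_sub_one_of_pos hs0).trans (by linarith)
    rw [abs_of_nonneg (by positivity)]
    nlinarith

theorem finDC_cov {f : E n → ℝ} (hi : ∀ φ : E n → ℝ, PG φ → Integrable (fun y => φ y * f y))
    (a b : Fin n) : densCov f a b = (∫ y, y a * y b * f y) - densMean f b * densMean f a -
      densMean f a * densMean f b + densMean f a * densMean f b * ∫ y, (1 : ℝ) * f y := by
  have h1 := hi _ ((PG.coord a).mul (PG.coord b))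
  have h2 := (hi _ (PG.coord a)).const_mul (densMean f b)
  have h3 := (hi _ (PG.coord b)).const_mul (densMean f a)
  have h4 := (hi _ (PG.const 1)).const_mul (densMean f a * densMean f b)
  have e : densCov f a b = ∫ y, (y a * y b * f y - densMean f b * (y a * f y) -
      densMean f a * (y b * f y) + densMean f a * densMean f b * (1 * f y)) := by
    simp only [densCov, Matrix.of_apply]
    congr 1; funext y; ring
  have h12 : Integrable (fun y : E n => y a * y b * f y - densMean f b * (y a * f y)) := h1.sub h2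
  have h123 : Integrable (fun y : E n => y a * y b * f y - densMean f b * (y a * f y) -
      densMean f a * (y b * f y)) := h12.sub h3
  rw [e, integral_add h123 h4, integral_sub h12 h3, integral_sub h1 h2,
    integral_const_mul, integral_const_mul, integral_const_mul]
  rfl

namespace Dom
variable {g : ℕ → E n → ℝ} {f : E n → ℝ} {C β : ℝ}

theorem finDC_bound_int (h : Dom g f C β) {φ : E n → ℝ} (hφ : PG φ) :
    Integrable (fun y => C * (|φ y| * Real.exp (-β * ‖y‖))) :=
  (integrable_pg_exp hφ.abs h.pos).const_mul C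

theorem finDC_bound (h : Dom g f C β) (φ : E n → ℝ) (j : ℕ) (y : E n) :
    ‖φ y * g j y‖ ≤ C * (|φ y| * Real.exp (-β * ‖y‖)) := by
  rw [Real.norm_eq_abs, abs_mul, abs_of_nonneg (h.nonneg j y), mul_left_comm]
  exact mul_le_mul_of_nonneg_left (h.le j y) (abs_nonneg _)

theorem integrable_seq (h : Dom g f C β) {φ : E n → ℝ} (hφ : PG φ) (j : ℕ) :
    Integrable (fun y => φ y * g j y) :=
  h.finDC_bound_int hφ |>.mono' (hφ.cont.mul (h.cont j)).aestronglyMeasurable
    (Eventually.of_forall (h.finDC_bound φ j))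

theorem integrable (h : Dom g f C β) {φ : E n → ℝ} (hφ : PG φ) :
    Integrable (fun y => φ y * f y) := by
  have hl : ∀ᵐ y, Tendsto (fun j => φ y * g j y) atTop (𝓝 (φ y * f y)) :=
    h.lim.mono fun y hy => hy.const_mul _
  refine (h.finDC_bound_int hφ).mono' (aestronglyMeasurable_of_tendsto_ae atTop
    (fun j => (hφ.cont.mul (h.cont j)).aestronglyMeasurable) hl) (hl.mono fun y hy => ?_)
  exact le_of_tendsto' hy.norm fun j => h.finDC_bound φ j y

theorem tendsto_integral (h : Dom g f C β) {φ : E n → ℝ} (hφ : PG φ) :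
    Tendsto (fun j => ∫ y, φ y * g j y) atTop (𝓝 (∫ y, φ y * f y)) :=
  tendsto_integral_of_dominated_convergence _
    (fun j => (hφ.cont.mul (h.cont j)).aestronglyMeasurable) (h.finDC_bound_int hφ)
    (fun j => Eventually.of_forall (h.finDC_bound φ j)) (h.lim.mono fun _ hy => hy.const_mul _)

theorem tendsto_mean (h : Dom g f C β) :
    Tendsto (fun j => densMean (g j)) atTop (𝓝 (densMean f)) :=
  tendsto_pi_nhds.2 fun a => h.tendsto_integral (PG.coord a)

theorem tendsto_cov (h : Dom g f C β) :
    Tendsto (fun j => densCov (g j)) atTop (𝓝 (densCov f)) := by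
  refine tendsto_pi_nhds.2 fun a => tendsto_pi_nhds.2 fun b => ?_
  have ha := tendsto_pi_nhds.1 h.tendsto_mean a
  have hb := tendsto_pi_nhds.1 h.tendsto_mean b
  rw [finDC_cov (fun φ hφ => h.integrable hφ)]
  simp only [fun j => finDC_cov (fun φ hφ => h.integrable_seq hφ j) a b]
  exact (((h.tendsto_integral ((PG.coord a).mul (PG.coord b))).sub (hb.mul ha)).sub
    (ha.mul hb)).add ((ha.mul hb).mul (h.tendsto_integral (PG.const 1)))

theorem tendsto_ent (h : Dom g f C β) :
    Tendsto (fun j => diffEntropy (g j)) atTop (𝓝 (diffEntropy f)) := by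
  have hC : 0 ≤ C := by
    have := (h.nonneg 0 0).trans (h.le 0 0)
    simpa using this
  have hβ := h.pos
  have hI : Integrable (fun y : E n => 2 * √C * Real.exp (-(β / 2) * ‖y‖) +
      C ^ 2 * Real.exp (-β * ‖y‖)) :=
    (integrable_pg_exp (PG.const _) (half_pos hβ)).add (integrable_pg_exp (PG.const _) hβ)
  refine Tendsto.neg (tendsto_integral_of_dominated_convergence _
    (fun j => (Real.continuous_mul_log.comp (h.cont j)).aestronglyMeasurable) hI
    (fun j => Eventually.of_forall fun y => ?_)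
    (h.lim.mono fun y hy => (Real.continuous_mul_log.tendsto _).comp hy))
  have h1 := finDC_mul_log (h.nonneg j y)
  have h2 : √(g j y) ≤ √C * Real.exp (-(β / 2) * ‖y‖) := by
    refine (Real.sqrt_le_sqrt (h.le j y)).trans (le_of_eq ?_)
    rw [Real.sqrt_mul hC, ← Real.exp_half]
    congr 2; ring
  have h3 : g j y ^ 2 ≤ C ^ 2 * Real.exp (-β * ‖y‖) := by
    have h4 : Real.exp (-β * ‖y‖) ≤ 1 :=
      Real.exp_le_one_iff.2 (by nlinarith [norm_nonneg y])
    have h5 := Real.exp_pos (-β * ‖y‖)
    calc g j y ^ 2 ≤ (C * Real.exp (-β * ‖y‖)) ^ 2 := pow_le_pow_left₀ (h.nonneg j y) (h.le j y) 2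
      _ = C ^ 2 * Real.exp (-β * ‖y‖) * Real.exp (-β * ‖y‖) := by ring
      _ ≤ _ := mul_le_of_le_one_right (by positivity) h4
  rw [Real.norm_eq_abs]
  exact h1.trans (by linarith)

end Dom

theorem densCov_posDef {f : E n → ℝ} (h0 : ∀ y, 0 ≤ f y) (h1 : ∫ y, f y = 1)
    (hi : ∀ φ : E n → ℝ, PG φ → Integrable (fun y => φ y * f y)) : (densCov f).PosDef := by
  refine Matrix.posDef_iff_dotProduct_mulVec.2 ⟨?_, fun v hv => ?_⟩
  · ext a b
    simp only [densCov, Matrix.conjTranspose_apply, Matrix.of_apply, star_trivial]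
    congr 1; funext y; ring
  have hp : ∀ a : Fin n, PG (fun y : E n => y a - densMean f a) := fun a =>
    (PG.coord a).sub (PG.const _)
  have hL : PG (fun y : E n => ∑ a, v a * (y a - densMean f a)) :=
    PG.sum _ fun a _ => (hp a).const_mul _
  have hI := hi _ (hL.pow 2)
  have e : star v ⬝ᵥ (densCov f *ᵥ v) = ∫ y, (∑ a, v a * (y a - densMean f a)) ^ 2 * f y := by
    have hab : ∀ a b : Fin n, Integrable (fun y : E n =>
        v a * v b * ((y a - densMean f a) * (y b - densMean f b) * f y)) := fun a b =>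
      (hi _ ((hp a).mul (hp b))).const_mul _
    have e1 : ∀ y : E n, (∑ a, v a * (y a - densMean f a)) ^ 2 * f y =
        ∑ a, ∑ b, v a * v b * ((y a - densMean f a) * (y b - densMean f b) * f y) := by
      intro y
      rw [sq, Finset.sum_mul_sum, Finset.sum_mul]
      refine Finset.sum_congr rfl fun a _ => ?_
      rw [Finset.sum_mul]
      exact Finset.sum_congr rfl fun b _ => by ring
    simp only [e1]
    rw [integral_finset_sum _ fun a _ => integrable_finset_sum _ fun b _ => hab a b]
    simp only [dotProduct, mulVec, star_trivial, Finset.mul_sum]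
    refine Finset.sum_congr rfl fun a _ => ?_
    rw [integral_finset_sum _ fun b _ => hab a b]
    refine Finset.sum_congr rfl fun b _ => ?_
    rw [integral_const_mul]
    simp only [densCov, Matrix.of_apply]
    ring
  rw [e]
  have hnn : 0 ≤ fun y : E n => (∑ a, v a * (y a - densMean f a)) ^ 2 * f y := fun y =>
    mul_nonneg (sq_nonneg _) (h0 y)
  refine lt_of_le_of_ne (integral_nonneg hnn) fun h => ?_
  have hz := (integral_eq_zero_iff_of_nonneg hnn hI).1 h.symm
  let ℓ : E n →ₗ[ℝ] ℝ := ∑ a, v a • LinearMap.proj a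
  have hℓ : ∀ y, ℓ y = ∑ a, v a * y a := fun y => by simp [ℓ]
  have hker : LinearMap.ker ℓ ≠ ⊤ := by
    intro hk
    have : ℓ v = 0 := LinearMap.mem_ker.1 (hk ▸ Submodule.mem_top)
    rw [hℓ] at this
    exact hv (dotProduct_self_eq_zero.1 this)
  have hnull : volume (AffineSubspace.mk' (densMean f) (LinearMap.ker ℓ) : Set (E n)) = 0 :=
    Measure.addHaar_affineSubspace _ _ (by
      intro ht
      have := congrArg AffineSubspace.direction ht
      rw [AffineSubspace.direction_mk', AffineSubspace.direction_top] at this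
      exact hker this)
  have hf : f =ᵐ[volume] 0 := by
    filter_upwards [hz, measure_eq_zero_iff_ae_notMem.1 hnull] with y hy hy'
    rcases mul_eq_zero.1 hy with h2 | h2
    · refine absurd ?_ hy'
      rw [SetLike.mem_coe, AffineSubspace.mem_mk', LinearMap.mem_ker, hℓ]
      simpa using h2
    · exact h2
  rw [integral_congr_ae hf] at h1
  simp at h1

end Crest.Agent.R253
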