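import Crest.Agent.R253.B1
import Crest.Agent.R253.ConeDefs

/-!
# Row 253, final assembly: products of exponentials

`expDens_law`: the map `z ↦ M (tt z_i)_i + b` is injective with derivative `M diag (lam z_i)`, its image
is the open cone `{∀ i, 0 < (M⁻¹ (y - b)) i}` (`range_tt`), which agrees a.e. with the closed cone
(hyperplanes are null); `exp (-tt x) * lam x = phi x` and `gw_eq_prod`.  (It is easier in two steps: an
affine change of variables, and the coordinatewise map `tt`.)  One-dimensional moments follow from the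
case of one variable (`integral_comp_mul_deriv`-type or the `n = 1` law) and `Real.Gamma` integrals;
several variables by `GE_prod`.
-/

set_option autoImplicit false
open MeasureTheory Matrix Filter Topology Crest.GeometryTopology.Isotropic
open scoped ContDiff BigOperators

noncomputable section
namespace Crest.Agent.R253
open Crest.Agent.R238 Crest.Agent.R215

variable {n : ℕ}

/-- The coordinatewise transport. -/
def ttv (z : E n) : E n := fun i => tt (z i)

theorem ttv_pg (i : Fin n) : PG (fun z : E n => ttv z i) := by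
  refine (PG.coord i).comp continuous_tt (C := 1) (k := 2) fun x => ?_
  rw [abs_of_pos (tt_pos x)]
  have := tt_le x
  rw [← sq_abs] at this
  nlinarith [abs_nonneg x]

theorem FinExp_apply {M : RM n} (hM : M.det ≠ 0) (b u : E n) :
    expDens M b (M *ᵥ u + b) = |M.det|⁻¹ *
      Set.indicator {u : E n | ∀ i, 0 ≤ u i} (fun u => Real.exp (-∑ i, u i)) u := by
  have e : M⁻¹ *ᵥ (M *ᵥ u + b - b) = u := by
    rw [add_sub_cancel_right, Matrix.mulVec_mulVec,
      Matrix.nonsing_inv_mul _ (isUnit_iff_ne_zero.2 hM), Matrix.one_mulVec]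
  unfold expDens
  congr 1
  by_cases h : ∀ i, 0 ≤ u i
  · rw [Set.indicator_of_mem (by simpa only [Set.mem_ofPred_eq, e] using h),
      Set.indicator_of_mem (by simpa only [Set.mem_ofPred_eq] using h), e]
  · rw [Set.indicator_of_notMem (by simpa only [Set.mem_ofPred_eq, e] using h),
      Set.indicator_of_notMem (by simpa only [Set.mem_ofPred_eq] using h)]

theorem FinExp_affine {M : RM n} (hM : M.det ≠ 0) (b : E n) (g : E n → ℝ) :
    ∫ y, g y = ∫ u, |M.det| * g (M *ᵥ u + b) := by
  have hu : IsUnit M.det := isUnit_iff_ne_zero.2 hM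
  have h := integral_image_eq_integral_abs_det_fderiv_smul (volume : Measure (E n))
    (f := fun u => M *ᵥ u + b)
    (f' := fun _ => LinearMap.toContinuousLinearMap (Matrix.toLin' M)) MeasurableSet.univ
    (fun u _ => ((LinearMap.toContinuousLinearMap (Matrix.toLin' M)).hasFDerivAt.add_const
      b).hasFDerivWithinAt)
    (fun u _ v _ huv => Matrix.mulVec_injective_iff_isUnit.2 ((Matrix.isUnit_iff_isUnit_det M).2 hu)
      (add_right_cancel huv)) g
  have hr : (fun u => M *ᵥ u + b) '' Set.univ = Set.univ := by
    refine Set.eq_univ_of_forall fun y => ⟨M⁻¹ *ᵥ (y - b), Set.mem_univ _, ?_⟩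
    simp only
    rw [Matrix.mulVec_mulVec, Matrix.mul_nonsing_inv _ hu, Matrix.one_mulVec, sub_add_cancel]
  rw [hr, Measure.restrict_univ] at h
  simpa only [LinearMap.det_toContinuousLinearMap, LinearMap.det_toLin', smul_eq_mul] using h

theorem FinExp_fderiv (z : E n) : HasFDerivAt (ttv : E n → E n)
    (LinearMap.toContinuousLinearMap (Matrix.toLin' (Matrix.diagonal fun i => lam (z i)))) z := by
  refine hasFDerivAt_pi'.2 fun i => ?_
  refine ((hasDerivAt_tt (z i)).comp_hasFDerivAt z (hasFDerivAt_apply i z)).congr_fderiv ?_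
  ext v
  simp [Matrix.mulVec_diagonal]

theorem FinExp_tt (ψ : E n → ℝ) :
    ∫ u, ψ u * Set.indicator {u : E n | ∀ i, 0 ≤ u i} (fun u => Real.exp (-∑ i, u i)) u =
      GE (fun z => ψ (ttv z)) := by
  have h := integral_image_eq_integral_abs_det_fderiv_smul (volume : Measure (E n))
    (f := ttv) MeasurableSet.univ (fun z _ => (FinExp_fderiv z).hasFDerivWithinAt)
    (fun u _ v _ huv => funext fun i => strictMono_tt.injective (congrFun huv i))
    (fun u => ψ u * Real.exp (-∑ i, u i))
  have hr : (ttv : E n → E n) '' Set.univ = Set.univ.pi fun _ => Set.Ioi 0 := by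
    refine Set.Subset.antisymm ?_ fun y hy => ?_
    · rintro _ ⟨z, -, rfl⟩ i -
      exact tt_pos _
    · have : ∀ i, ∃ x, tt x = y i := fun i => by
        have := hy i (Set.mem_univ i)
        rwa [← range_tt] at this
      choose x hx using this
      exact ⟨x, Set.mem_univ _, funext hx⟩
  rw [hr, Measure.restrict_univ,
    ← integral_indicator (MeasurableSet.univ_pi fun _ => measurableSet_Ioi)] at h
  have hae : ∀ᵐ u : E n, ∀ i, u i ≠ 0 :=
    ae_all_iff.2 fun i => Measure.ae_eval_ne (fun _ : Fin n => (volume : Measure ℝ)) i 0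
  refine (integral_congr_ae ?_).trans (h.trans (integral_congr_ae (Eventually.of_forall fun z => ?_)))
  · filter_upwards [hae] with u hu
    by_cases h0 : ∀ i, 0 ≤ u i
    · rw [Set.indicator_of_mem (by simpa only [Set.mem_ofPred_eq] using h0),
        Set.indicator_of_mem (s := Set.univ.pi fun _ => Set.Ioi (0 : ℝ))
          (Set.mem_univ_pi.2 fun i => lt_of_le_of_ne (h0 i) (hu i).symm)]
    · rw [Set.indicator_of_notMem (by simpa only [Set.mem_ofPred_eq] using h0),
        Set.indicator_of_notMem (s := Set.univ.pi fun _ => Set.Ioi (0 : ℝ))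
          fun h1 => h0 fun i => le_of_lt (h1 i (Set.mem_univ i)), mul_zero]
  · simp only [LinearMap.det_toContinuousLinearMap, LinearMap.det_toLin', smul_eq_mul,
      Matrix.det_diagonal]
    rw [abs_of_pos (Finset.prod_pos fun i _ => lam_pos _), gw_eq_prod, ← Finset.sum_neg_distrib,
      Real.exp_sum, mul_left_comm, ← Finset.prod_mul_distrib]
    congr 1
    exact Finset.prod_congr rfl fun i _ => by rw [ttv, exp_neg_tt, lam_mul_Pb]

theorem expDens_law {M : RM n} (hM : M.det ≠ 0) (b : E n) (φ : E n → ℝ) :
    ∫ y, φ y * expDens M b y = GE (fun z => φ (M *ᵥ ttv z + b)) := by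
  rw [FinExp_affine hM b, ← FinExp_tt fun u => φ (M *ᵥ u + b)]
  refine integral_congr_ae (Eventually.of_forall fun u => ?_)
  simp only
  rw [FinExp_apply hM, mul_left_comm, mul_inv_cancel_left₀ (abs_ne_zero.2 hM)]

theorem expDens_integrable {M : RM n} (hM : M.det ≠ 0) (b : E n) : Integrable (expDens M b) := by
  have h := expDens_law hM b fun _ => 1
  rw [GE_const] at h
  exact integrable_of_integral_eq_one (by simpa only [one_mul] using h)

theorem FinExp_one (F : ℝ → ℝ) (i : Fin n) :
    GE (fun z : E n => F (z i)) = ∫ x, F x * phi x := by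
  have h := GE_prod (n := n) fun k x => if k = i then F x else 1
  simp only [Finset.prod_ite_eq', Finset.mem_univ, if_true] at h
  rw [h, Finset.prod_eq_single i (fun k _ hk => by simp only [if_neg hk, one_mul, integral_phi])
    (fun hi => absurd (Finset.mem_univ i) hi)]
  simp only [if_true]

theorem FinExp_mom (k : ℕ) : ∫ x, tt x ^ k * phi x = k.factorial := by
  have h := integral_image_eq_integral_abs_deriv_smul (f := tt) (f' := lam) MeasurableSet.univ
    (fun x _ => (hasDerivAt_tt x).hasDerivWithinAt) strictMono_tt.injective.injOn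
    (fun t => Real.exp (-t) * t ^ k)
  rw [Set.image_univ, range_tt, Measure.restrict_univ] at h
  rw [← Real.Gamma_nat_eq_factorial, Real.Gamma_eq_integral (by positivity), add_sub_cancel_right]
  simp only [Real.rpow_natCast]
  rw [h]
  refine integral_congr_ae (Eventually.of_forall fun x => ?_)
  simp only [smul_eq_mul]
  rw [abs_of_pos (lam_pos x), exp_neg_tt, ← mul_assoc, lam_mul_Pb, mul_comm]

theorem GE_ttv (i : Fin n) : GE (fun z : E n => ttv z i) = 1 := by
  have h := FinExp_mom 1
  simp only [pow_one, Nat.factorial_one, Nat.cast_one] at h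
  exact (FinExp_one tt i).trans h

theorem GE_ttv_cov (i j : Fin n) :
    GE (fun z : E n => (ttv z i - 1) * (ttv z j - 1)) = if i = j then 1 else 0 := by
  split_ifs with hij
  · subst hij
    have h2 : GE (fun z : E n => ttv z i ^ 2) = 2 :=
      (FinExp_one (fun x => tt x ^ 2) i).trans ((FinExp_mom 2).trans (by norm_num))
    have e : (fun z : E n => (ttv z i - 1) * (ttv z i - 1)) =
        fun z => (ttv z i ^ 2 - 2 * ttv z i) + 1 := funext fun z => by ring
    rw [e, GE_add (((ttv_pg i).pow 2).sub ((ttv_pg i).const_mul 2)) (PG.const 1),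
      GE_sub ((ttv_pg i).pow 2) ((ttv_pg i).const_mul 2), GE_const_mul, GE_const, h2, GE_ttv]
    norm_num
  · have h0 : ∫ x, (tt x - 1) * phi x = 0 := by
      rw [← FinExp_one (fun x => tt x - 1) i]
      exact (GE_sub (ttv_pg i) (PG.const 1)).trans (by rw [GE_ttv, GE_const, sub_self])
    have h := GE_prod (n := n) fun k x =>
      (if k = i then tt x - 1 else 1) * (if k = j then tt x - 1 else 1)
    simp only [Finset.prod_mul_distrib, Finset.prod_ite_eq', Finset.mem_univ, if_true] at h
    refine h.trans (Finset.prod_eq_zero (Finset.mem_univ i) ?_)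
    simpa only [if_true, if_neg hij, mul_one] using h0

theorem expDens_cov {M : RM n} (hM : M.det ≠ 0) (b : E n) : densCov (expDens M b) = M * Mᵀ := by
  have hm : ∀ i, densMean (expDens M b) i = ∑ k, M i k + b i := fun i => by
    rw [densMean, expDens_law hM b fun y => y i]
    have e : (fun z : E n => (M *ᵥ ttv z + b) i) = fun z => ∑ k, M i k * ttv z k + b i := rfl
    rw [e, GE_add (PG.sum _ fun k _ => (ttv_pg k).const_mul _) (PG.const _),
      GE_sum _ fun k _ => (ttv_pg k).const_mul _, GE_const]
    simp only [GE_const_mul, GE_ttv, mul_one]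
  ext i j
  rw [densCov, Matrix.of_apply, expDens_law hM b fun y =>
    (y i - densMean (expDens M b) i) * (y j - densMean (expDens M b) j)]
  have e1 : ∀ (z : E n) i, (M *ᵥ ttv z + b) i - densMean (expDens M b) i =
      ∑ k, M i k * (ttv z k - 1) := fun z i => by
    rw [hm]
    simp only [mul_sub, mul_one, Finset.sum_sub_distrib]
    show ∑ k, M i k * ttv z k + b i - _ = _
    ring
  have e2 : (fun z : E n => ((M *ᵥ ttv z + b) i - densMean (expDens M b) i) *
      ((M *ᵥ ttv z + b) j - densMean (expDens M b) j)) =
      fun z => ∑ k, ∑ l, M i k * M j l * ((ttv z k - 1) * (ttv z l - 1)) := funext fun z => by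
    rw [e1, e1, Finset.sum_mul_sum]
    exact Finset.sum_congr rfl fun k _ => Finset.sum_congr rfl fun l _ => by ring
  have hp : ∀ k l, PG fun z : E n => M i k * M j l * ((ttv z k - 1) * (ttv z l - 1)) := fun k l =>
    (((ttv_pg k).sub (PG.const 1)).mul ((ttv_pg l).sub (PG.const 1))).const_mul _
  rw [e2, GE_sum _ fun k _ => PG.sum _ fun l _ => hp k l, Matrix.mul_apply]
  refine Finset.sum_congr rfl fun k _ => ?_
  rw [GE_sum _ fun l _ => hp k l]
  simp only [GE_const_mul, GE_ttv_cov, mul_ite, mul_one, mul_zero, Finset.sum_ite_eq,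
    Finset.mem_univ, if_true, Matrix.transpose_apply]

theorem expDens_ent {M : RM n} (hM : M.det ≠ 0) (b : E n) :
    diffEntropy (expDens M b) = n + Real.log |M.det| := by
  have h := expDens_law hM b fun y => Real.log (expDens M b y)
  have e : (fun z : E n => Real.log (expDens M b (M *ᵥ ttv z + b))) =
      fun z => -Real.log |M.det| - ∑ i, ttv z i := funext fun z => by
    rw [FinExp_apply hM, Set.indicator_of_mem (show ttv z ∈ {u : E n | ∀ i, 0 ≤ u i} from
      fun i => (tt_pos _).le), Real.log_mul (inv_ne_zero (abs_ne_zero.2 hM)) (Real.exp_pos _).ne',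
      Real.log_inv, Real.log_exp, sub_eq_add_neg]
  rw [e, GE_sub (PG.const _) (PG.sum _ fun i _ => ttv_pg i), GE_const,
    GE_sum _ fun i _ => ttv_pg i] at h
  simp only [GE_ttv, Finset.sum_const, Finset.card_univ, Fintype.card_fin, nsmul_eq_mul,
    mul_one] at h
  rw [diffEntropy]
  simp only [mul_comm (expDens M b _)]
  rw [h]
  ring

/-- The converse half of the equality case. -/
theorem ent_eq_of_expDens {f : E n → ℝ} {M : RM n} (hM : M.det ≠ 0) {b : E n}
    (h : f =ᵐ[volume] expDens M b) : diffEntropy f = n + Real.log (densCov f).det / 2 := by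
  have h1 : diffEntropy f = diffEntropy (expDens M b) := by
    unfold diffEntropy
    congr 1
    refine integral_congr_ae ?_
    filter_upwards [h] with x hx
    rw [hx]
  have h2 : densMean f = densMean (expDens M b) := by
    funext i
    refine integral_congr_ae ?_
    filter_upwards [h] with x hx
    rw [hx]
  have h3 : densCov f = densCov (expDens M b) := by
    ext i j
    rw [densCov, densCov, Matrix.of_apply, Matrix.of_apply, h2]
    refine integral_congr_ae ?_
    filter_upwards [h] with x hx
    rw [hx]
  rw [h1, h3, expDens_ent hM, expDens_cov hM, Matrix.det_mul, Matrix.det_transpose,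
    Real.log_mul hM hM, Real.log_abs]
  ring

end Crest.Agent.R253
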