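import Crest.Agent.R253.B2
import Crest.Agent.R253.FinExp
import Crest.Agent.R253.FinAlg
import Crest.Agent.R253.FinCurl
import Crest.Agent.R238.Pot

/-!
# Row 253, final assembly: the limit of data with vanishing gain

`lim_J`: `gain → 0` gives `E hs (M - L) → 0` and `hs (N - 1) → 0` (both terms of `gain` are
nonnegative); `∑ hs (J k) = tr N` is eventually bounded, so `Jm k` converges along the ultrafilter
(`IsCompact.ultrafilter_le_nhds`), the limit is symmetric with `∑ J² = 1`;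
`H = mf lam M`, `hs_mf_sub_le` with `lam_lip`, `hs_add_le`, `GE_hs_lin`.
`exists_TO`: `S a = ∑ i, O a i • cmp tt contDiff_tt (lin (column i of O))` (see `R238/Pot.lean`:
`lin`, `pot_pd_cmp`, `pot_d_le`; use `iteratedDeriv_tt_le`).
`lim_T`: `lim_J`, `curl_lim`, `curl_taylor`, `fin_alg`, `mf_conj`, `mf_diagonal`, `exists_TO`,
`GE_poincare` applied to `(D i).T a - S a`, `GE_TO`.
-/

set_option autoImplicit false
open MeasureTheory Matrix Filter Topology Crest.GeometryTopology.Isotropic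
open scoped ContDiff BigOperators

noncomputable section
namespace Crest.Agent.R253
open Crest.Agent.R238 Crest.Agent.R215

variable {n : ℕ}

/-- The extremal transport map in the frame `O`. -/
def TO (O : RM n) (z : E n) : E n := O *ᵥ ttv (Oᵀ *ᵥ z)

theorem TO_pg (O : RM n) (a : Fin n) : PG (fun z => TO O z a) := by
  exact PG.sum Finset.univ fun b _ => ((ttv_pg b).comp_mulVec Oᵀ).const_mul (O a b)

theorem GE_TO {O : RM n} (hO : Oᵀ * O = 1) (a : Fin n) :
    GE (fun z => TO O z a) = (O *ᵥ fun _ => 1) a := by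
  have hO' : Oᵀᵀ * Oᵀ = 1 := by rw [transpose_transpose]; exact mul_eq_one_comm.1 hO
  refine (GE_orth hO' fun z => (O *ᵥ ttv z) a).trans ?_
  simp only [mulVec, dotProduct]
  rw [GE_sum _ fun b _ => (ttv_pg b).const_mul (O a b)]
  simp only [GE_const_mul, GE_ttv]

theorem GE_TO_cov {O : RM n} (hO : Oᵀ * O = 1) (a b : Fin n) :
    GE (fun z => (TO O z a - (O *ᵥ fun _ => 1) a) * (TO O z b - (O *ᵥ fun _ => 1) b)) =
      (1 : RM n) a b := by
  have hO1 : O * Oᵀ = 1 := mul_eq_one_comm.1 hO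
  have hO' : Oᵀᵀ * Oᵀ = 1 := by rw [transpose_transpose]; exact hO1
  refine (GE_orth hO' fun z => ((O *ᵥ ttv z) a - (O *ᵥ fun _ => 1) a) *
    ((O *ᵥ ttv z) b - (O *ᵥ fun _ => 1) b)).trans ?_
  have e : ∀ z : E n, ((O *ᵥ ttv z) a - (O *ᵥ fun _ => 1) a) *
      ((O *ᵥ ttv z) b - (O *ᵥ fun _ => 1) b) =
      ∑ i, ∑ j, (O a i * O b j) * ((ttv z i - 1) * (ttv z j - 1)) := by
    intro z
    simp only [mulVec, dotProduct, ← Finset.sum_sub_distrib, Finset.sum_mul_sum]
    refine Finset.sum_congr rfl fun i _ => Finset.sum_congr rfl fun j _ => by ring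
  have p : ∀ i j, PG fun z : E n => (O a i * O b j) * ((ttv z i - 1) * (ttv z j - 1)) :=
    fun i j => (((ttv_pg i).sub (PG.const 1)).mul ((ttv_pg j).sub (PG.const 1))).const_mul _
  simp only [e]
  rw [GE_sum _ fun i _ => PG.sum _ fun j _ => p i j, ← hO1, mul_apply]
  refine Finset.sum_congr rfl fun i _ => ?_
  rw [GE_sum _ fun j _ => p i j]
  simp [GE_const_mul, GE_ttv_cov]

theorem FinLim_tm (u : E n) (ψ : ℝ → ℝ) (hψ : ContDiff ℝ ∞ ψ)
    (h : ∀ j, ∃ (C : ℝ) (k : ℕ), ∀ t, |iteratedDeriv j ψ t| ≤ C * (1 + |t|) ^ k) :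
    Tm (cmp ψ hψ (lin u)) := by
  intro k
  induction k generalizing ψ with
  | zero =>
    obtain ⟨C, k, hC⟩ := h 0
    obtain ⟨A, hA, h'⟩ := (sym_lin u).abs_le
    have hC0 : 0 ≤ C := by simpa using (abs_nonneg _).trans (hC 0)
    refine ⟨C * (1 + A) ^ k, k, fun x => (hC _).trans ?_⟩
    rw [Real.rpow_natCast, mul_assoc, ← mul_pow]
    refine mul_le_mul_of_nonneg_left (pow_le_pow_left₀ (by positivity) ?_ k) hC0
    have h1 := h' x
    rw [Real.rpow_one] at h1
    linarith [one_le_r x]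
  | succ k ih =>
    obtain ⟨C, s, hC⟩ := ih (deriv ψ) (contDiff_deriv hψ) fun j => by
      simpa only [iteratedDeriv_succ'] using h (j + 1)
    refine ⟨(∑ a, |u a|) * C, s, fun x => ?_⟩
    simp only [d_succ, pot_pd_cmp, d_smul]
    rw [← Finset.sum_mul, mul_assoc]
    exact mul_le_mul_of_nonneg_left (hC x) (Finset.sum_nonneg fun _ _ => abs_nonneg _)

theorem exists_TO (O : RM n) : ∃ S : Fin n → Sm n, (∀ a, Tm (S a)) ∧ (∀ z, vec S z = TO O z) ∧
    ∀ z, evM z (jac S) = O * diagonal (fun i => lam ((Oᵀ *ᵥ z) i)) * Oᵀ := by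
  refine ⟨fun a => ∑ i, O a i • cmp tt contDiff_tt (lin fun b => O b i), fun a => ?_, fun z => ?_,
    fun z => ?_⟩
  · exact Tm.sum _ fun i _ => (FinLim_tm _ _ _ iteratedDeriv_tt_le).smul _
  · funext a
    simp [vec, TO, ttv, mulVec, dotProduct]
  · ext a b
    have hd : deriv tt = lam := funext fun x => (hasDerivAt_tt x).deriv
    simp only [evM_apply, jac, of_apply, map_sum, Derivation.map_smul, pot_pd_cmp, ev_smul, ev_cmp,
      ev_lin, hd, mul_apply, mul_diagonal, transpose_apply]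
    refine Finset.sum_congr rfl fun i _ => ?_
    simp only [mulVec, dotProduct, transpose_apply, diagonal_apply, mul_ite, mul_zero,
      Finset.sum_ite_eq', Finset.mem_univ, if_true]
    ring

theorem lim_J {ι : Type*} (u : Ultrafilter ι) (D : ι → GD n)
    (h : Tendsto (fun i => (D i).gain) u (𝓝 0)) :
    ∃ J : Fin n → RM n, (∀ k, (J k)ᵀ = J k) ∧ ∑ k, J k * J k = 1 ∧
      Tendsto (fun i => GE fun z => hs ((D i).H z - mf lam (∑ k, z k • J k))) u (𝓝 0) := by
  have g1 : ∀ i, 0 ≤ GE (fun z => hs ((D i).M z - (D i).Lm z)) := fun i =>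
    GE_nonneg fun z => hs_nonneg _
  have g2 : ∀ i, 0 ≤ min 1 (hs ((D i).Nm - 1)) := fun i => le_min zero_le_one (hs_nonneg _)
  have t1 : Tendsto (fun i => GE fun z => hs ((D i).M z - (D i).Lm z)) u (𝓝 0) :=
    squeeze_zero g1 (fun i => le_add_of_nonneg_right (g2 i)) h
  have t2 : Tendsto (fun i => min 1 (hs ((D i).Nm - 1))) u (𝓝 0) :=
    squeeze_zero g2 (fun i => le_add_of_nonneg_left (g1 i)) h
  have t3 : Tendsto (fun i => hs ((D i).Nm - 1)) u (𝓝 0) := by
    refine t2.congr' ((t2.eventually (gt_mem_nhds one_pos)).mono fun i hi => ?_)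
    exact min_eq_right (by
      rcases min_lt_iff.1 hi with h1 | h1
      exacts [absurd h1 (lt_irrefl _), h1.le])
  have tN : Tendsto (fun i => (D i).Nm) u (𝓝 1) := tendsto_iff_hs.2 t3
  have hb : ∀ᶠ i in (u : Filter ι), (D i).Nm.trace < (1 : RM n).trace + 1 :=
    (((continuous_id.matrix_trace).tendsto _).comp tN).eventually (gt_mem_nhds (lt_add_one _))
  have h4 : ∀ k c d, ∃ x, Tendsto (fun i => (D i).Jm k c d) u (𝓝 x) := fun k c d =>
    MF3_lim u (C := (1 : RM n).trace + 2) (hb.mono fun i hi => by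
      have e1 := sq_le_hs ((D i).Jm k) c d
      have e2 : hs ((D i).Jm k) ≤ ∑ k, hs ((D i).Jm k) :=
        Finset.single_le_sum (f := fun k => hs ((D i).Jm k)) (fun _ _ => hs_nonneg _)
          (Finset.mem_univ k)
      rw [(D i).trace_Nm] at hi
      rw [← sq_abs] at e1
      nlinarith [sq_nonneg (|(D i).Jm k c d| - 1), sq_nonneg |(D i).Jm k c d|])
  choose J hJ using h4
  have tJ : ∀ k, Tendsto (fun i => (D i).Jm k) u (𝓝 (Matrix.of (J k))) := fun k => MF3_of (hJ k)
  have hsym : ∀ k, (Matrix.of (J k))ᵀ = Matrix.of (J k) := fun k =>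
    tendsto_nhds_unique (MF3_transpose (tJ k)) ((tJ k).congr fun i => ((D i).Jm_symm k).symm)
  refine ⟨fun k => Matrix.of (J k), hsym, ?_, ?_⟩
  · exact tendsto_nhds_unique (tendsto_finsetSum _ fun k _ => (tJ k).mul (tJ k)) tN
  · have t4 : Tendsto (fun i => ∑ k, hs ((D i).Jm k - Matrix.of (J k))) u (𝓝 0) := by
      simpa using tendsto_finsetSum Finset.univ fun k _ => tendsto_iff_hs.1 (tJ k)
    have t5 := (t1.const_mul 2).add (t4.const_mul 2)
    rw [mul_zero, add_zero] at t5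
    refine squeeze_zero (fun i => GE_nonneg fun z => hs_nonneg _) (fun i => ?_) t5
    have p1 : PG fun z => hs ((D i).M z - (D i).Lm z) := ((D i).M_pgm.sub (D i).Lm_pgm).hs
    have p2 : PG fun z : E n => hs (∑ k, z k • ((D i).Jm k - Matrix.of (J k))) :=
      (PGM.sum _ fun k _ => (PGM.const _).smul (PG.coord k)).hs
    rw [← GE_hs_lin, ← GE_const_mul, ← GE_const_mul, ← GE_add (p1.const_mul 2) (p2.const_mul 2)]
    refine GE_mono' (fun z => hs_nonneg _) ((p1.const_mul 2).add (p2.const_mul 2)) fun z => ?_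
    have hL : (∑ k, z k • Matrix.of (J k))ᵀ = ∑ k, z k • Matrix.of (J k) := by
      simp only [transpose_sum, transpose_smul, hsym]
    have e1 := hs_mf_sub_le ((D i).M_symm z) hL (f := lam) (L := 1)
      fun x _ y _ => by rw [one_mul]; exact lam_lip x y
    rw [(D i).mf_lam_M, one_pow, one_mul] at e1
    refine e1.trans (le_of_eq_of_le ?_ (hs_add_le _ _))
    congr 1
    simp only [GD.Lm, smul_sub, Finset.sum_sub_distrib]
    abel

theorem lim_T {ι : Type*} (u : Ultrafilter ι) (D : ι → GD n)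
    (h : Tendsto (fun i => (D i).gain) u (𝓝 0)) :
    ∃ O : RM n, Oᵀ * O = 1 ∧ ∀ a, Tendsto (fun i => GE fun z =>
      ((ev z ((D i).T a) - (D i).mean a) - (TO O z a - (O *ᵥ fun _ => 1) a)) ^ 2) u (𝓝 0) := by
  obtain ⟨J, hsym, hN, hJ⟩ := lim_J u D h
  have hc := curl_taylor hsym fun ε h0 h1 =>
    curl_lim (T := fun i => (D i).T) (fun i a => (D i).tmT a) (mf_lam_lin_pgm hsym) hJ h0 h1
  obtain ⟨O, hO, hL⟩ := fin_alg J hsym hc.1 hc.2 hN
  obtain ⟨S, hS, hS1, hS2⟩ := exists_TO O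
  obtain ⟨C, hC, hP⟩ := GE_poincare n
  have e1 : ∀ z : E n, mf lam (∑ k, z k • J k) = evM z (jac S) := fun z => by
    rw [hL, hS2, mf_conj (diagonal_transpose _) hO, mf_diagonal]
  simp only [e1] at hJ
  refine ⟨O, hO, fun a => ?_⟩
  have t1 := hJ.const_mul (C * n)
  rw [mul_zero] at t1
  refine squeeze_zero (fun i => GE_nonneg fun z => sq_nonneg _) (fun i => ?_) t1
  have h1 := hP ((D i).T a - S a) (((D i).tmT a).sub (hS a))
  have e2 : ∀ z, ev z (S a) = TO O z a := fun z => congrFun (hS1 z) a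
  have e3 : (GE fun y => ev y ((D i).T a - S a)) = (D i).mean a - (O *ᵥ fun _ => 1) a := by
    simp only [map_sub]
    rw [GE_sub ((D i).T_pg a) (Tm_pg (hS a)), ← GE_TO hO a]
    simp only [e2]
    rfl
  rw [e3] at h1
  refine le_trans (le_of_eq ?_) (h1.trans ?_)
  · congr 1
    funext z
    rw [map_sub, e2]
    ring
  · rw [mul_assoc]
    refine mul_le_mul_of_nonneg_left ?_ hC
    have p : PGM fun z => (D i).H z - evM z (jac S) :=
      (D i).H_pgm.sub (TmM_pgm fun a b => (hS a).pd b)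
    have := Finset.sum_le_card_nsmul Finset.univ
      (fun b => GE fun z => ev z (pd b ((D i).T a - S a)) ^ 2)
      (GE fun z => hs ((D i).H z - evM z (jac S))) fun b _ => by
        refine le_of_eq_of_le ?_ (GE_entry_sq_le p a b)
        simp [GD.H, jac]
    simpa using this

end Crest.Agent.R253
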