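import Crest.Agent.R253.FinLaw
import Crest.Agent.R253.FinDC
import Crest.Agent.R253.FinLim

/-!
# Row 253, final assembly: the equality case
-/

set_option autoImplicit false
open MeasureTheory Matrix Filter Topology Crest.GeometryTopology.Isotropic
open scoped ContDiff BigOperators

noncomputable section
namespace Crest.Agent.R253
open Crest.Agent.R238 Crest.Agent.R215

variable {n : ℕ}

/-- Compactness of the position matrices. -/
theorem lim_B {ι : Type*} (u : Ultrafilter ι) {B Q : ι → RM n} {S : RM n}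
    (hB : ∀ i, (B i)ᵀ = B i) (hQs : ∀ i, (Q i)ᵀ = Q i) (hQ : Tendsto Q u (𝓝 1))
    (hS : Tendsto (fun i => B i * Q i * B i) u (𝓝 S)) :
    ∃ B₀ : RM n, Tendsto B u (𝓝 B₀) ∧ B₀ * B₀ = S := by
  have h1 : ∀ᶠ i in (u : Filter ι), hs (Q i - 1) < 1 / 4 :=
    (tendsto_iff_hs.1 hQ).eventually (gt_mem_nhds (by norm_num))
  have h2 : ∀ᶠ i in (u : Filter ι), (B i * Q i * B i).trace < S.trace + 1 :=
    (((continuous_id.matrix_trace).tendsto S).comp hS).eventually (gt_mem_nhds (lt_add_one _))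
  have h3 : ∀ᶠ i in (u : Filter ι), hs (B i) ≤ 2 * (S.trace + 1) := by
    filter_upwards [h1, h2] with i h1 h2
    have e1 : (B i * Q i * B i).trace = ((Q i - 1) * (B i * B i)).trace + hs (B i) := by
      rw [hs_eq_trace, hB i, Matrix.sub_mul, Matrix.one_mul, trace_sub, trace_mul_cycle,
        trace_mul_comm (B i * B i) (Q i)]
      ring
    have e2 := trace_mul_sq_le (Q i - 1) (B i * B i)
    have e3 := hs_mul_le (B i) (B i)
    have e4 := hs_nonneg (B i)
    have e5 := hs_nonneg (B i * B i)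
    have e6 : ((Q i - 1) * (B i * B i)).trace ^ 2 ≤ (hs (B i) / 2) ^ 2 := by
      nlinarith [mul_le_mul_of_nonneg_right h1.le e5]
    have e7 := (abs_le_of_sq_le_sq' e6 (by linarith)).1
    linarith
  have h4 : ∀ c d, ∃ x, Tendsto (fun i => B i c d) u (𝓝 x) := fun c d =>
    MF3_lim u (C := 2 * (S.trace + 1) + 1) (h3.mono fun i hi => by
      have := sq_le_hs (B i) c d
      rw [← sq_abs] at this
      nlinarith [sq_nonneg (|B i c d| - 1), hs_nonneg (B i)])
  choose B₀ hB₀ using h4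
  have tB : Tendsto B u (𝓝 (Matrix.of B₀)) := MF3_of hB₀
  refine ⟨Matrix.of B₀, tB, ?_⟩
  have := (tB.mul hQ).mul tB
  rw [Matrix.mul_one] at this
  exact tendsto_nhds_unique this hS

/-- `L²(γ)` convergence of affine images. -/
theorem lim_aff {ι : Type*} {l : Filter ι} {Y : ι → E n → E n} {Y₀ : E n → E n} {B : ι → RM n}
    {B₀ : RM n} {μ : ι → E n} {μ₀ : E n} (hY : ∀ i a, PG (fun z => Y i z a))
    (hY₀ : ∀ a, PG (fun z => Y₀ z a))
    (h : ∀ a, Tendsto (fun i => GE fun z => (Y i z a - Y₀ z a) ^ 2) l (𝓝 0))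
    (hB : Tendsto B l (𝓝 B₀)) (hμ : Tendsto μ l (𝓝 μ₀)) (a : Fin n) :
    Tendsto (fun i => GE fun z => ((B i *ᵥ Y i z + μ i) a - (B₀ *ᵥ Y₀ z + μ₀) a) ^ 2) l (𝓝 0) := by
  -- pointwise decomposition
  set R : ι → E n → ℝ := fun i z => 3 * (n * ∑ b, B i a b ^ 2 * (Y i z b - Y₀ z b) ^ 2) +
    3 * (n * ∑ b, (B i a b - B₀ a b) ^ 2 * Y₀ z b ^ 2) + 3 * (μ i a - μ₀ a) ^ 2 with hR
  have p1 : ∀ i b, PG fun z => B i a b ^ 2 * (Y i z b - Y₀ z b) ^ 2 := fun i b =>
    (((hY i b).sub (hY₀ b)).pow 2).const_mul _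
  have p2 : ∀ i b, PG fun z => (B i a b - B₀ a b) ^ 2 * Y₀ z b ^ 2 := fun i b =>
    ((hY₀ b).pow 2).const_mul _
  have q1 : ∀ i, PG fun z => 3 * (n * ∑ b, B i a b ^ 2 * (Y i z b - Y₀ z b) ^ 2) := fun i =>
    ((PG.sum _ fun b _ => p1 i b).const_mul _).const_mul _
  have q2 : ∀ i, PG fun z => 3 * (n * ∑ b, (B i a b - B₀ a b) ^ 2 * Y₀ z b ^ 2) := fun i =>
    ((PG.sum _ fun b _ => p2 i b).const_mul _).const_mul _
  have hRpg : ∀ i, PG (R i) := fun i => ((q1 i).add (q2 i)).add (PG.const _)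
  have hle : ∀ i z, ((B i *ᵥ Y i z + μ i) a - (B₀ *ᵥ Y₀ z + μ₀) a) ^ 2 ≤ R i z := by
    intro i z
    have e : (B i *ᵥ Y i z + μ i) a - (B₀ *ᵥ Y₀ z + μ₀) a =
        (∑ b, B i a b * (Y i z b - Y₀ z b)) + (∑ b, (B i a b - B₀ a b) * Y₀ z b) +
          (μ i a - μ₀ a) := by
      simp only [Pi.add_apply, mulVec, dotProduct, mul_sub, sub_mul, Finset.sum_sub_distrib]
      ring
    have c1 : (∑ b, B i a b * (Y i z b - Y₀ z b)) ^ 2 ≤
        n * ∑ b, B i a b ^ 2 * (Y i z b - Y₀ z b) ^ 2 := by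
      simpa only [mul_pow, Finset.card_univ, Fintype.card_fin] using
        sq_sum_le_card_mul_sum_sq (s := Finset.univ) (f := fun b => B i a b * (Y i z b - Y₀ z b))
    have c2 : (∑ b, (B i a b - B₀ a b) * Y₀ z b) ^ 2 ≤
        n * ∑ b, (B i a b - B₀ a b) ^ 2 * Y₀ z b ^ 2 := by
      simpa only [mul_pow, Finset.card_univ, Fintype.card_fin] using
        sq_sum_le_card_mul_sum_sq (s := Finset.univ) (f := fun b => (B i a b - B₀ a b) * Y₀ z b)
    rw [e, hR]
    set x := ∑ b, B i a b * (Y i z b - Y₀ z b)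
    set y := ∑ b, (B i a b - B₀ a b) * Y₀ z b
    set w := μ i a - μ₀ a
    simp only
    nlinarith [sq_nonneg (x - y), sq_nonneg (y - w), sq_nonneg (x - w)]
  have hGE : ∀ i, GE (R i) = 3 * (n * ∑ b, B i a b ^ 2 * GE fun z => (Y i z b - Y₀ z b) ^ 2) +
      3 * (n * ∑ b, (B i a b - B₀ a b) ^ 2 * GE fun z => Y₀ z b ^ 2) + 3 * (μ i a - μ₀ a) ^ 2 := by
    intro i
    rw [hR]
    simp only
    rw [GE_add ((q1 i).add (q2 i)) (PG.const _), GE_add (q1 i) (q2 i), GE_const, GE_const_mul,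
      GE_const_mul, GE_const_mul, GE_const_mul, GE_sum _ fun b _ => p1 i b,
      GE_sum _ fun b _ => p2 i b]
    simp only [GE_const_mul]
  have hlim : Tendsto (fun i => GE (R i)) l (𝓝 0) := by
    simp only [hGE]
    have t1 : Tendsto (fun i => ∑ b, B i a b ^ 2 * GE fun z => (Y i z b - Y₀ z b) ^ 2) l
        (𝓝 (∑ b, B₀ a b ^ 2 * 0)) :=
      tendsto_finset_sum _ fun b _ => ((MF3_apply hB a b).pow 2).mul (h b)
    have t2 : Tendsto (fun i => ∑ b, (B i a b - B₀ a b) ^ 2 * GE fun z => Y₀ z b ^ 2) l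
        (𝓝 (∑ b, (B₀ a b - B₀ a b) ^ 2 * GE fun z => Y₀ z b ^ 2)) :=
      tendsto_finset_sum _ fun b _ => (((MF3_apply hB a b).sub_const _).pow 2).mul_const _
    have t3 : Tendsto (fun i => (μ i a - μ₀ a) ^ 2) l (𝓝 ((μ₀ a - μ₀ a) ^ 2)) :=
      ((tendsto_pi_nhds.1 hμ a).sub_const _).pow 2
    have := (((t1.const_mul (n : ℝ)).const_mul 3).add ((t2.const_mul (n : ℝ)).const_mul 3)).add
      (t3.const_mul 3)
    simpa using this
  exact squeeze_zero (fun i => GE_nonneg fun z => sq_nonneg _)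
    (fun i => GE_mono' (fun z => sq_nonneg _) (hRpg i) (hle i)) hlim

/-- `L²(γ)` convergence implies convergence in law (Lipschitz test functions). -/
theorem lim_lip {ι : Type*} {l : Filter ι} {W : ι → E n → E n} {W₀ : E n → E n}
    (hW : ∀ i a, PG (fun z => W i z a)) (hW₀ : ∀ a, PG (fun z => W₀ z a))
    (h : ∀ a, Tendsto (fun i => GE fun z => (W i z a - W₀ z a) ^ 2) l (𝓝 0))
    {φ : E n → ℝ} {K : NNReal} (hφ : LipschitzWith K φ) :
    Tendsto (fun i => GE fun z => φ (W i z)) l (𝓝 (GE fun z => φ (W₀ z))) := by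
  have hn : ∀ v : E n, ‖v‖ ≤ ∑ a, |v a| := fun v =>
    (pi_norm_le_iff_of_nonneg (Finset.sum_nonneg fun a _ => abs_nonneg _)).2 fun a =>
      Finset.single_le_sum (f := fun a => |v a|) (fun a _ => abs_nonneg _) (Finset.mem_univ a)
  have hd : ∀ v w : E n, |φ v - φ w| ≤ K * ∑ a, |v a - w a| := fun v w => by
    have := hφ.dist_le_mul v w
    rw [Real.dist_eq, dist_eq_norm] at this
    exact this.trans (mul_le_mul_of_nonneg_left (hn _) K.2)
  have hpg : ∀ V : E n → E n, (∀ a, PG (fun z => V z a)) → PG fun z => φ (V z) := by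
    intro V hV
    refine PG.of_le (hφ.continuous.comp (continuous_pi fun a => (hV a).cont))
      ((PG.const |φ 0|).add ((PG.sum Finset.univ fun a _ => (hV a).abs).const_mul K)) fun z => ?_
    have h1 := hd (V z) 0
    simp only [Pi.zero_apply, sub_zero] at h1
    refine le_trans ?_ (le_abs_self _)
    have := abs_sub_abs_le_abs_sub (φ (V z)) (φ 0)
    linarith
  have p1 : ∀ i a, PG fun z => |W i z a - W₀ z a| := fun i a => ((hW i a).sub (hW₀ a)).abs
  have t1 : ∀ a, Tendsto (fun i => GE fun z => |W i z a - W₀ z a|) l (𝓝 0) := by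
    intro a
    have := (h a).sqrt
    rw [Real.sqrt_zero] at this
    refine squeeze_zero (fun i => GE_nonneg fun z => abs_nonneg _) (fun i => ?_) this
    refine Real.le_sqrt_of_sq_le ?_
    simpa only [sq_abs] using GE_sq_le (p1 i a)
  have t2 : Tendsto (fun i => (K : ℝ) * ∑ a, GE fun z => |W i z a - W₀ z a|) l (𝓝 0) := by
    have := (tendsto_finset_sum Finset.univ fun a _ => t1 a).const_mul (K : ℝ)
    simpa using this
  rw [tendsto_iff_dist_tendsto_zero]
  refine squeeze_zero (fun i => dist_nonneg) (fun i => ?_) t2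
  rw [Real.dist_eq, ← GE_sub (hpg _ (hW i)) (hpg _ hW₀), ← GE_sum _ fun a _ => p1 i a,
    ← GE_const_mul]
  refine (abs_GE_le _).trans (GE_mono' (fun z => abs_nonneg _)
    ((PG.sum _ fun a _ => p1 i a).const_mul _) fun z => hd _ _)

theorem eq_case {f : E n → ℝ} (hf : LC f) {D : ℕ → GD n} {B : ℕ → RM n} {g : ℕ → E n → ℝ}
    {C β : ℝ} (hB : ∀ j, (B j).PosDef) (hg : ∀ j, IsDens (D j) (B j) (g j)) (hd : Dom g f C β)
    (h : Tendsto (fun j => (D j).gain) atTop (𝓝 0)) :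
    ∃ (M : RM n) (b : E n), M.det ≠ 0 ∧ f =ᵐ[volume] expDens M b := by
  set u : Ultrafilter ℕ := Ultrafilter.of atTop
  have hu : (u : Filter ℕ) ≤ atTop := Ultrafilter.of_le _
  obtain ⟨O, hO, hT⟩ := lim_T u D (h.mono_left hu)
  have hO' : Oᵀᵀ * Oᵀ = 1 := by rw [transpose_transpose]; exact mul_eq_one_comm.1 hO
  have pY : ∀ j a, PG fun z => (vec (D j).T z - (D j).mean) a := fun j a =>
    ((D j).T_pg a).sub (PG.const _)
  have pY₀ : ∀ a, PG fun z => (TO O z - O *ᵥ fun _ => 1) a := fun a =>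
    (TO_pg O a).sub (PG.const _)
  have hQ : Tendsto (fun j => (D j).Q) u (𝓝 1) := MF3_of fun a b => by
    rw [← GE_TO_cov hO a b]
    exact tendsto_GE_mul₂ (pY · a) (pY · b) (pY₀ a) (pY₀ b) (hT a) (hT b)
  have hS : Tendsto (fun j => B j * (D j).Q * B j) u (𝓝 (densCov f)) :=
    (hd.tendsto_cov.mono_left hu).congr fun j => law_cov (hB j) (hg j)
  obtain ⟨B₀, tB, hB₀⟩ := lim_B u (fun j => psd_transpose (hB j).posSemidef)
    (fun j => (D j).Q_symm) hQ hS
  have hpd : (densCov f).PosDef := densCov_posDef hf.nonneg hf.int fun φ hφ => hd.integrable hφ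
  have hdet : (B₀ * O).det ≠ 0 := by
    have h1 := hpd.det_pos
    rw [← hB₀, det_mul] at h1
    have h2 : Oᵀ.det * O.det = 1 := by rw [← det_mul, hO, det_one]
    rw [det_mul]
    exact mul_ne_zero (fun h0 => by simp [h0] at h1) (fun h0 => by simp [h0] at h2)
  have tμ : Tendsto (fun j => densMean (g j)) u (𝓝 (densMean f)) := hd.tendsto_mean.mono_left hu
  have hW := lim_aff (Y := fun j z => vec (D j).T z - (D j).mean)
    (Y₀ := fun z => TO O z - O *ᵥ fun _ => 1) pY pY₀ hT tB tμ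
  have pA : ∀ (A : RM n) (m : E n) (V : E n → E n), (∀ a, PG fun z => V z a) →
      ∀ a, PG fun z => (A *ᵥ V z + m) a := fun A m V hV a =>
    (PG.sum Finset.univ fun b _ => (hV b).const_mul (A a b)).add (PG.const (m a))
  refine ⟨B₀ * O, densMean f - B₀ *ᵥ (O *ᵥ fun _ => 1), hdet, ?_⟩
  have hfi : Integrable f := by simpa using hd.integrable (PG.const 1)
  refine ae_eq_of_integral_contDiff_smul_eq hfi.locallyIntegrable
    (expDens_integrable hdet _).locallyIntegrable fun φ hφ hc => ?_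
  obtain ⟨K, hK⟩ := hφ.lipschitzWith_of_hasCompactSupport hc (by simp)
  obtain ⟨A, hA⟩ := hφ.continuous.bounded_above_of_compact_support hc
  have t1 := (hd.tendsto_integral (PG.of_bdd hφ.continuous (C := A) hA)).mono_left hu
  have t2 := lim_lip (fun j => pA (B j) (densMean (g j)) _ (pY j))
    (pA B₀ (densMean f) _ pY₀) hW hK
  have e1 : ∀ j, ∫ y, φ y * g j y =
      GE fun z => φ (B j *ᵥ (vec (D j).T z - (D j).mean) + densMean (g j)) := fun j => by
    rw [law_integral (hB j) (hg j), law_mean (hB j) (hg j)]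
    simp only [mulVec_sub, sub_add_cancel]
  simp only [e1] at t1
  simp only [smul_eq_mul]
  rw [tendsto_nhds_unique t1 t2, expDens_law hdet, ← GE_orth hO' fun z =>
    φ ((B₀ * O) *ᵥ ttv z + (densMean f - B₀ *ᵥ (O *ᵥ fun _ => 1)))]
  congr 1
  funext z
  congr 1
  rw [TO, mulVec_sub, ← mulVec_mulVec]
  abel

end Crest.Agent.R253
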