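import Crest.Agent.R253.B2

/-!
# Row 253, final assembly: the law of `B T(Z)`

The map `Φ z = B T z` is a bijection of `E n` with derivative `B H(z)` (`vec_hasFDerivAt`) of positive
determinant, so `integral_image_eq_integral_abs_det_fderiv_smul` on `univ` and `IsDens` give
`law_integral`.  Entropy: `log g (Φ z) = log gw z - log det B - log det H z`, `log_gw`, `E |z|² = n`.
-/

set_option autoImplicit false
open MeasureTheory Matrix Filter Topology Crest.GeometryTopology.Isotropic
open scoped ContDiff BigOperators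

noncomputable section
namespace Crest.Agent.R253
open Crest.Agent.R238 Crest.Agent.R215

variable {n : ℕ}

section
variable {D : GD n} {B : RM n} {g : E n → ℝ}

theorem FinLaw_bij (D : GD n) (hB : B.PosDef) :
    Function.Bijective (fun z => B *ᵥ vec D.T z) := by
  have hu : IsUnit B := hB.isUnit
  have h1 : Function.Bijective (fun y : E n => B *ᵥ y) :=
    ⟨Matrix.mulVec_injective_iff_isUnit.2 hu, Matrix.mulVec_surjective_iff_isUnit.2 hu⟩
  exact h1.comp D.bij

theorem FinLaw_fderiv (D : GD n) (B : RM n) (z : E n) :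
    HasFDerivAt (fun z => B *ᵥ vec D.T z)
      (LinearMap.toContinuousLinearMap (Matrix.toLin' (B * D.H z))) z := by
  have h1 := (LinearMap.toContinuousLinearMap (Matrix.toLin' B)).hasFDerivAt.comp z
    (vec_hasFDerivAt D.T z)
  refine h1.congr_fderiv ?_
  refine ContinuousLinearMap.ext fun v => ?_
  simp [GD.H]

theorem FinLaw_lin (D : GD n) (B : RM n) (i : Fin n) (z : E n) :
    (B *ᵥ vec D.T z) i - (B *ᵥ D.mean) i = ∑ a, B i a * (ev z (D.T a) - D.mean a) := by
  simp only [Matrix.mulVec, dotProduct, vec, mul_sub, Finset.sum_sub_distrib]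

theorem law_pos (hB : B.PosDef) (hg : IsDens D B g) (y : E n) : 0 < g y := by
  obtain ⟨z, rfl⟩ := (FinLaw_bij D hB).2 y
  have h1 := hg z
  have h2 : 0 < B.det * (D.H z).det := mul_pos hB.det_pos (D.H_posDef z).det_pos
  have h3 : 0 < gw z := gw_pos z
  rw [← h1] at h3
  exact (mul_pos_iff_of_pos_right h2).1 h3

theorem law_integral (hB : B.PosDef) (hg : IsDens D B g) (φ : E n → ℝ) :
    ∫ y, φ y * g y = GE (fun z => φ (B *ᵥ vec D.T z)) := by
  have h1 := integral_image_eq_integral_abs_det_fderiv_smul (μ := (volume : Measure (E n)))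
    MeasurableSet.univ (fun z _ => (FinLaw_fderiv D B z).hasFDerivWithinAt)
    (FinLaw_bij D hB).1.injOn (fun y => φ y * g y)
  rw [Set.image_univ, (FinLaw_bij D hB).2.range_eq, Measure.restrict_univ] at h1
  rw [h1, GE]
  refine integral_congr_ae (Eventually.of_forall fun z => ?_)
  have h2 : 0 < B.det * (D.H z).det := mul_pos hB.det_pos (D.H_posDef z).det_pos
  have h3 : (LinearMap.toContinuousLinearMap (Matrix.toLin' (B * D.H z))).det =
      B.det * (D.H z).det := by
    rw [ContinuousLinearMap.det, LinearMap.coe_toContinuousLinearMap, LinearMap.det_toLin',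
      Matrix.det_mul]
  simp only [h3, abs_of_pos h2, smul_eq_mul, ← hg z]
  ring

theorem law_mean (hB : B.PosDef) (hg : IsDens D B g) : densMean g = B *ᵥ D.mean := by
  funext i
  rw [densMean, law_integral hB hg (fun y => y i)]
  simp only [Matrix.mulVec, dotProduct, vec, GD.mean]
  rw [GE_sum _ fun a _ => (D.T_pg a).const_mul _]
  exact Finset.sum_congr rfl fun a _ => GE_const_mul _ _

theorem law_cov (hB : B.PosDef) (hg : IsDens D B g) : densCov g = B * D.Q * B := by
  have hs : ∀ a b, B a b = B b a := fun a b => by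
    simpa using hB.isHermitian.apply b a
  have hp : ∀ a, PG (fun z => ev z (D.T a) - D.mean a) := fun a => (D.T_pg a).sub (PG.const _)
  ext i j
  rw [densCov, Matrix.of_apply,
    law_integral hB hg (fun y => (y i - densMean g i) * (y j - densMean g j)), law_mean hB hg]
  simp only [FinLaw_lin]
  have e : ∀ z : E n, (∑ a, B i a * (ev z (D.T a) - D.mean a)) *
      (∑ b, B j b * (ev z (D.T b) - D.mean b)) =
      ∑ b, ∑ a, B i a * B b j * ((ev z (D.T a) - D.mean a) * (ev z (D.T b) - D.mean b)) := by
    intro z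
    rw [Finset.sum_mul_sum, Finset.sum_comm]
    refine Finset.sum_congr rfl fun b _ => Finset.sum_congr rfl fun a _ => ?_
    rw [hs j b]
    ring
  simp only [e]
  rw [GE_sum _ fun b _ => PG.sum _ fun a _ => ((hp a).mul (hp b)).const_mul _, Matrix.mul_apply]
  refine Finset.sum_congr rfl fun b _ => ?_
  rw [GE_sum _ fun a _ => ((hp a).mul (hp b)).const_mul _, Matrix.mul_apply, Finset.sum_mul]
  refine Finset.sum_congr rfl fun a _ => ?_
  rw [GE_const_mul, GD.Q, Matrix.of_apply]
  ring

theorem law_ent (hB : B.PosDef) (hg : IsDens D B g) : diffEntropy g = D.ent + Real.log B.det := by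
  have h0 : ∫ x, g x * Real.log (g x) = GE (fun z => Real.log (g (B *ᵥ vec D.T z))) := by
    rw [← law_integral hB hg (fun y => Real.log (g y))]
    simp only [mul_comm]
  have h1 : ∀ z, Real.log (g (B *ᵥ vec D.T z)) =
      (-(n / 2 * Real.log (2 * Real.pi)) - Real.log B.det) - (1 / 2) * (∑ a, z a * z a) -
        Real.log (D.H z).det := by
    intro z
    have a1 := log_gw z
    rw [← hg z, Real.log_mul (law_pos hB hg _).ne'
      (mul_pos hB.det_pos (D.H_posDef z).det_pos).ne',
      Real.log_mul hB.det_pos.ne' (D.H_posDef z).det_pos.ne'] at a1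
    simp only [sq] at a1
    linarith
  have hp : PG (fun z : E n => ∑ a, z a * z a) :=
    PG.sum _ fun a _ => (PG.coord a).mul (PG.coord a)
  have h2 : GE (fun z : E n => ∑ a, z a * z a) = n := by
    rw [GE_sum _ fun a _ => (PG.coord a).mul (PG.coord a)]
    simp [GE_coord_mul]
  rw [diffEntropy, h0]
  simp only [h1]
  rw [GE_sub ((PG.const _).sub (hp.const_mul _)) D.logdet_pg,
    GE_sub (PG.const _) (hp.const_mul _), GE_const, GE_const_mul, h2, GD.ent,
    Real.log_mul (by positivity) (Real.exp_pos 1).ne', Real.log_exp]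
  ring

theorem law_delta (hB : B.PosDef) (hg : IsDens D B g) (hc : (densCov g).det ≠ 0) :
    D.delta = diffEntropy g - n - Real.log (densCov g).det / 2 := by
  rw [law_cov hB hg, Matrix.det_mul, Matrix.det_mul] at hc ⊢
  have h1 : B.det ≠ 0 := hB.det_pos.ne'
  have h2 : D.Q.det ≠ 0 := fun h => hc (by rw [h, mul_zero, zero_mul])
  rw [law_ent hB hg, Real.log_mul (mul_ne_zero h1 h2) h1, Real.log_mul h1 h2, GD.delta]
  ring

end

end Crest.Agent.R253
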