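import Crest.Agent.R253.FinEq
import Crest.Agent.R253.ConeMain

/-!
# Row 253, final assembly
-/

set_option autoImplicit false
open MeasureTheory Matrix Filter Topology Crest.GeometryTopology.Isotropic
open scoped ContDiff BigOperators

noncomputable section
namespace Crest.Agent.R253
open Crest.Agent.R238 Crest.Agent.R215

variable {n : ℕ}

theorem ent_of (hc : ∀ n, CoreStmt n) (hs : ∀ n (f : E n → ℝ), 1 ≤ n → LC f → SeqStmt f) :
    EntStmt := by
  intro m hm f hf hf0 hf1 hfc hfl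
  have hL : LC f := ⟨hf, hf0, hf1, hfc, hfl⟩
  obtain ⟨D, B, g, C, β, hβ, hcent, hB, hg, hcont, hle, hlim⟩ := hs m f hm hL
  obtain ⟨c₀, hc₀, hcore⟩ := hc m
  have hd : Dom g f C β := ⟨hβ, hcont, fun j y => (law_pos (hB j) (hg j) y).le, hle, hlim⟩
  have hpd : (densCov f).PosDef := densCov_posDef hf0 hf1 fun φ hφ => hd.integrable hφ
  have hdet : Tendsto (fun j => (densCov (g j)).det) atTop (𝓝 (densCov f).det) :=
    ((continuous_id.matrix_det).tendsto _).comp hd.tendsto_cov
  have hne : ∀ᶠ j in atTop, (densCov (g j)).det ≠ 0 := hdet.eventually_ne hpd.det_pos.ne'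
  have hδ : Tendsto (fun j => (D j).delta) atTop
      (𝓝 (diffEntropy f - m - Real.log (densCov f).det / 2)) := by
    refine Tendsto.congr' (hne.mono fun j hj => (law_delta (hB j) (hg j) hj).symm) ?_
    exact (hd.tendsto_ent.sub_const _).sub ((hdet.log hpd.det_pos.ne').div_const 2)
  have hδ0 : ∀ j, 0 ≤ (D j).delta := fun j =>
    (mul_nonneg hc₀.le (D j).gain_nonneg).trans (hcore _ (hcent j))
  refine ⟨?_, ?_, ?_⟩
  · have := ge_of_tendsto' hδ hδ0
    linarith
  · intro he
    rw [he, show (m : ℝ) + Real.log (densCov f).det / 2 - m - Real.log (densCov f).det / 2 = 0 by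
      ring] at hδ
    have hgain : Tendsto (fun j => (D j).gain) atTop (𝓝 0) := by
      have h1 := hδ.const_mul c₀⁻¹
      rw [mul_zero] at h1
      refine squeeze_zero (fun j => (D j).gain_nonneg) (fun j => ?_) h1
      rw [le_inv_mul_iff₀ hc₀]
      exact hcore _ (hcent j)
    exact eq_case hL hB hg hd hgain
  · rintro ⟨M, b, hM, h⟩
    exact ent_eq_of_expDens hM h

theorem s0390_of_ent (h : EntStmt) (n : ℕ)
    (K : Set (Fin n → ℝ)) (hK : IsCompact K) (hKc : Convex ℝ K) (hKi : (interior K).Nonempty) :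
    (covMatrix K).det * ((n : ℝ) + 1) ^ (n + 1) * ((n : ℝ) + 2) ^ n ≤
        (Nat.factorial n : ℝ) ^ 2 * (volume K).toReal ^ 2 ∧
      ((covMatrix K).det * ((n : ℝ) + 1) ^ (n + 1) * ((n : ℝ) + 2) ^ n =
          (Nat.factorial n : ℝ) ^ 2 * (volume K).toReal ^ 2 ↔
        ∃ v : Fin (n + 1) → (Fin n → ℝ), AffineIndependent ℝ v ∧ K = convexHull ℝ (Set.range v)) :=
  s0390_of_stmt391 h n K hK hKc hKi

end Crest.Agent.R253
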