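import Crest.Agent.R253.PCut

/-!
# Row 253, PDE part: continuity of the target potentials in the position
-/

set_option autoImplicit false
open MeasureTheory Matrix Filter Topology
open scoped ContDiff BigOperators

noncomputable section
namespace Crest.Agent.R253
open Crest.Agent.R238

variable {n : ℕ}

/-- All partial derivatives are jointly continuous in the parameter and the point. -/
def JC {P : Type*} [TopologicalSpace P] : ℕ → (P → Sm n) → Prop
  | 0, F => Continuous fun y : P × E n => ev y.2 (F y.1)
  | k + 1, F => (Continuous fun y : P × E n => ev y.2 (F y.1)) ∧ ∀ a, JC k fun p => pd a (F p)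

section JCaux
variable {P : Type*} [TopologicalSpace P]

theorem JC.cont {k : ℕ} {F : P → Sm n} (h : JC k F) :
    Continuous fun y : P × E n => ev y.2 (F y.1) := by
  cases k with
  | zero => exact h
  | succ k => exact h.1

theorem JC.pred {k : ℕ} {F : P → Sm n} (h : JC (k + 1) F) : JC k F := by
  induction k generalizing F with
  | zero => exact h.1
  | succ k ih => exact ⟨h.1, fun a => ih (h.2 a)⟩

theorem jc_const (k : ℕ) (f : Sm n) : JC k fun _ : P => f := by
  induction k generalizing f with
  | zero => exact (ev_continuous f).comp continuous_snd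
  | succ k ih => exact ⟨(ev_continuous f).comp continuous_snd, fun a => ih (pd a f)⟩

theorem JC.add {k : ℕ} {F G : P → Sm n} (hF : JC k F) (hG : JC k G) : JC k fun p => F p + G p := by
  have hc : ∀ {F G : P → Sm n}, (Continuous fun y : P × E n => ev y.2 (F y.1)) →
      (Continuous fun y : P × E n => ev y.2 (G y.1)) →
      Continuous fun y : P × E n => ev y.2 (F y.1 + G y.1) := fun h1 h2 => by
    simp only [map_add]; exact h1.add h2
  induction k generalizing F G with
  | zero => exact hc hF hG
  | succ k ih =>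
    refine ⟨hc hF.1 hG.1, fun a => ?_⟩
    simp only [map_add]
    exact ih (hF.2 a) (hG.2 a)

theorem JC.smul {k : ℕ} {F : P → Sm n} {c : P → ℝ} (hc : Continuous c) (hF : JC k F) :
    JC k fun p => c p • F p := by
  have h0 : ∀ {F : P → Sm n}, (Continuous fun y : P × E n => ev y.2 (F y.1)) →
      Continuous fun y : P × E n => ev y.2 (c y.1 • F y.1) := fun h1 => by
    simp only [ev_smul]; exact (hc.comp continuous_fst).mul h1
  induction k generalizing F with
  | zero => exact h0 hF
  | succ k ih =>
    refine ⟨h0 hF.1, fun a => ?_⟩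
    simp only [Derivation.map_smul]
    exact ih (hF.2 a)

theorem JC.sub {k : ℕ} {F G : P → Sm n} (hF : JC k F) (hG : JC k G) : JC k fun p => F p - G p := by
  have h := hF.add (hG.smul (c := fun _ => (-1 : ℝ)) continuous_const)
  simpa only [neg_one_smul, ← sub_eq_add_neg] using h

theorem JC.sum {ι : Type*} {k : ℕ} (s : Finset ι) {F : ι → P → Sm n} (hF : ∀ i, JC k (F i)) :
    JC k fun p => ∑ i ∈ s, F i p := by
  classical
  induction s using Finset.induction_on with
  | empty => simpa only [Finset.sum_empty] using jc_const k (0 : Sm n)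
  | insert i s hi ih =>
    simp only [Finset.sum_insert hi]
    exact (hF i).add ih

theorem JC.mul {k : ℕ} {F G : P → Sm n} (hF : JC k F) (hG : JC k G) : JC k fun p => F p * G p := by
  have hc : ∀ {F G : P → Sm n}, (Continuous fun y : P × E n => ev y.2 (F y.1)) →
      (Continuous fun y : P × E n => ev y.2 (G y.1)) →
      Continuous fun y : P × E n => ev y.2 (F y.1 * G y.1) := fun h1 h2 => by
    simp only [map_mul]; exact h1.mul h2
  induction k generalizing F G with
  | zero => exact hc hF hG
  | succ k ih =>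
    refine ⟨hc hF.1 hG.1, fun a => ?_⟩
    simp only [pd_mul]
    exact (ih (hF.2 a) hG.pred).add (ih hF.pred (hG.2 a))

theorem JC.cmp {k : ℕ} {F : P → Sm n} (hF : JC k F) (φ : ℝ → ℝ) (hφ : ContDiff ℝ ∞ φ) :
    JC k fun p => cmp φ hφ (F p) := by
  induction k generalizing φ with
  | zero => exact hφ.continuous.comp hF
  | succ k ih =>
    refine ⟨hφ.continuous.comp hF.1, fun a => ?_⟩
    simp only [pd_cmp]
    exact (ih hF.pred _ _).mul (hF.2 a)

theorem jc_comp_linM {B : P → RM n} (hB : Continuous B) (k : ℕ) (U : Sm n) :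
    JC k fun p => comp (linM (B p)) U := by
  have hc : ∀ U : Sm n, Continuous fun y : P × E n => ev y.2 (comp (linM (B y.1)) U) := fun U => by
    simp only [ev_comp, vec_linM]
    exact (ev_continuous U).comp ((hB.comp continuous_fst).matrix_mulVec continuous_snd)
  induction k generalizing U with
  | zero => exact hc U
  | succ k ih =>
    refine ⟨hc U, fun a => ?_⟩
    simp only [pd_comp_linM]
    exact JC.sum _ fun b => (ih (pd b U)).smul (hB.matrix_elem b a)

theorem JC.cont_d {k : ℕ} {F : P → Sm n} (hF : JC k F) :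
    Continuous fun y : P × E n => d k (F y.1) y.2 := by
  induction k generalizing F with
  | zero => exact JC.cont hF |>.abs
  | succ k ih =>
    simp only [d_succ]
    exact continuous_finsetSum _ fun a _ => ih (hF.2 a)

theorem jc_cont_J {F : P → Sm n} (hF : ∀ k, JC k F) (k : ℕ) :
    Continuous fun y : P × E n => J k (F y.1) y.2 := by
  unfold R238.J
  exact continuous_finsetSum _ fun i _ =>
    ((continuous_r.comp continuous_snd).pow i).mul (hF i).cont_d

end JCaux

/-- Closure properties of `JC k` (sums, products, constants, continuous scalars, `cmp φ`, `comp (linM (B p))`),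
each by induction on `k` (for `cmp` generalizing `φ`, for `comp` generalizing `U`; `JC (k+1) → JC k`). -/
theorem jc_V0 {P : Type*} [TopologicalSpace P] {B : P → RM n} (hB : Continuous B) (U : Sm n) (ε C : ℝ)
    (k : ℕ) : JC k fun p => V0 U ε C (B p) := by
  unfold V0 gapS
  exact ((((jc_comp_linM hB k U).add (jc_const k _)).sub (jc_const k _)).cmp th th_sm).sub
    (jc_const k _)

/-- `(p, x) ↦ J k (F p - F p₀) x` is continuous and vanishes for `p = p₀`; tube lemma on the compact set
`{r ≤ R}` (`isCompact_r_le`, `IsCompact.eventually_forall_of_forall_eventually`); outside it vanishes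
(`d_eq_zero_of_isOpen`). Then `Y f ≤ (nrm σ0 1 + 1) sup J (2n+3) f` (`Y_le`, `nrm_mono`, `adm_const`). -/
theorem ycont_of_jc {P : Type*} [TopologicalSpace P] {F : P → Sm n} (hF : ∀ k, JC k F) {R c : ℝ}
    (hR : ∀ p x, R ≤ r x → ev x (F p) = c) : YCont F := by
  intro p₀ η hη
  have hA := nrm_nonneg (σ0 n) (fun _ : E n => (1 : ℝ))
  obtain ⟨δ, hδ⟩ : ∃ δ, δ = η / (nrm (σ0 n) (fun _ : E n => (1 : ℝ)) + 1) := ⟨_, rfl⟩
  have hδ0 : 0 < δ := by rw [hδ]; positivity
  have hδ1 : δ * (nrm (σ0 n) (fun _ : E n => (1 : ℝ)) + 1) = η := by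
    rw [hδ]; field_simp
  have hc := jc_cont_J (F := fun p => F p - F p₀) (fun k => (hF k).sub (jc_const k _)) (2 * n + 3)
  have hev : ∀ᶠ p in 𝓝 p₀, ∀ x ∈ {x : E n | r x ≤ R}, J (2 * n + 3) (F p - F p₀) x ≤ δ := by
    refine (isCompact_r_le R).eventually_forall_of_forall_eventually
      (P := fun p x => J (2 * n + 3) (F p - F p₀) x ≤ δ) fun x _ => ?_
    have h1 := hc.tendsto (p₀, x)
    simp only [sub_self, J_zero] at h1
    exact h1.eventually (eventually_le_nhds hδ0)
  filter_upwards [hev] with p hp
  have hall : ∀ x, J (2 * n + 3) (F p - F p₀) x ≤ δ := fun x => by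
    rcases le_or_gt (r x) R with hx | hx
    · exact hp x hx
    · have h0 : J (2 * n + 3) (F p - F p₀) x = 0 := by
        refine Finset.sum_eq_zero fun i _ => ?_
        rw [d_eq_zero_of_isOpen (isOpen_lt continuous_const continuous_r) i
          (fun y (hy : R < r y) => by rw [map_sub, hR p y hy.le, hR p₀ y hy.le, sub_self]) x hx,
          mul_zero]
      rw [h0]; exact hδ0.le
  have hN : N (2 * n + 3) (σ0 n) (F p - F p₀) ≤ δ * nrm (σ0 n) (fun _ : E n => (1 : ℝ)) := by
    have h1 := nrm_mono (F := J (2 * n + 3) (F p - F p₀))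
      ((adm_const (σ0_lt n) 1).const_mul δ) fun x => by
        rw [ynorm_abs_J, mul_one]; exact hall x
    rwa [nrm_const_mul, abs_of_pos hδ0] at h1
  have := Y_le hN fun x => (J_mono (by omega) _ x).trans (hall x)
  linarith

theorem V0_ycont {P : Type*} [TopologicalSpace P] {B : P → RM n} (hB : Continuous B) {κ : ℝ}
    (hκ : ∀ p a b, |B p a b| ≤ κ) {U : Sm n} {Λ ε : ℝ} (hΛ : ∀ x, d 1 U x ≤ Λ) (hε : ε ≤ 1 / 2)
    (C : ℝ) : YCont fun p => V0 U ε C (B p) := by
  obtain ⟨R, hR⟩ := V0_const hΛ hε C κ
  exact ycont_of_jc (jc_V0 hB U ε C) fun p x hx => hR (B p) (hκ p) x hx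

end Crest.Agent.R253
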