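import Crest.Agent.R253.PInv

/-!
# Row 253, PDE part: from a solution of the equation to a Gaussian Brenier datum
-/

set_option autoImplicit false
open MeasureTheory Matrix Filter Topology
open scoped ContDiff BigOperators

noncomputable section
namespace Crest.Agent.R253
open Crest.Agent.R238

variable {n : ℕ}

/-- With `D_k f = ∑ a, τ a k * ∂_a f` one has `pd k (comp T f) = comp T (D_k f)`, `X k = comp T (p k)`,
`∑_j g i j * D_j f = ∂_i f`. Hence `divG (G ∇ H_kl) = comp T (L τ_kl)` (`L_eq`),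
`tr (G H_k G H_l) = comp T ((τ Γ τ)_kl)` (`Γ_eq`), and `L_τ`. -/
theorem BR.theta_eq (D : BR n) {T : Fin n → Sm n} (hT : ∀ z, vec D.p (vec T z) = z) :
    Theta (jac T) (D.g.map (comp T)) = (D.τ * D.H * D.τ).map (comp T) := by
  have h1 : ∀ a, comp T (D.p a) = X a := fun a => by
    ext z
    exact congrFun (hT z) a
  have h2 : ∀ (f : Sm n) i, ∑ j, D.g.map (comp T) i j * pd j (comp T f) = comp T (pd i f) := by
    intro f i
    simp only [Matrix.map_apply, D.pd_comp_inv hT, ← map_mul, ← map_sum]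
    congr 1
    simp only [Finset.mul_sum]
    rw [Finset.sum_comm]
    have e : ∀ a, ∑ j, D.g i j * (pd a f * D.τ a j) = pd a f * (D.g * D.τ) i a := fun a => by
      rw [Matrix.mul_apply, Finset.mul_sum]
      exact Finset.sum_congr rfl fun j _ => by rw [D.τ_apply_comm a j]; ring
    simp only [e, D.gτ, Matrix.one_apply, mul_ite, mul_one, mul_zero, Finset.sum_ite_eq,
      Finset.mem_univ, if_true]
  have h3 : ∀ f : Sm n, divG (fun i => comp T (pd i f)) = comp T (D.L f) := by
    intro f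
    simp only [divG, D.pd_comp_inv hT, ← h1, ← map_mul, ← map_sub, ← map_sum]
    congr 1
    rw [D.L_eq, Finset.sum_sub_distrib, con, Finset.sum_comm]
    congr 1
    exact Finset.sum_congr rfl fun a _ => Finset.sum_congr rfl fun b _ => by ring
  have h4 : ∀ k, pdM k (D.τ.map (comp T)) = (∑ a, D.τ a k • pdM a D.τ).map (comp T) := by
    intro k
    ext a b : 1
    simp only [pdM_apply, Matrix.map_apply, D.pd_comp_inv hT, Matrix.sum_apply, Matrix.smul_apply,
      smul_eq_mul, mul_comm]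
  have h5 : ∀ k l, (D.g * (∑ a, D.τ a k • pdM a D.τ) * D.g * (∑ a, D.τ a l • pdM a D.τ)).trace =
      (D.τ * D.Γ * D.τ) k l := by
    intro k l
    simp only [Matrix.mul_smul, Matrix.smul_mul, Matrix.trace_sum,
      Matrix.trace_smul, smul_eq_mul, Matrix.mul_apply, Finset.sum_mul, Finset.mul_sum]
    refine Finset.sum_congr rfl fun b _ => Finset.sum_congr rfl fun a _ => ?_
    rw [D.Γ_eq, Matrix.trace_mul_comm _ D.g, ← Matrix.mul_assoc, ← Matrix.mul_assoc,
      D.τ_apply_comm k a]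
    ring
  have h6 : ∀ M : Mat n, (M.map (comp T)).trace = comp T M.trace := fun M => by
    simp only [Matrix.trace, Matrix.diag, Matrix.map_apply, map_sum]
  ext k l : 1
  rw [D.jac_inv hT]
  simp only [Theta, Matrix.of_apply, h4, ← Matrix.map_mul, h6, h5]
  simp only [Matrix.map_apply (f := comp T) (M := D.τ), h2, h3, D.L_τ]
  have h7 : comp T ((1 : Mat n) k l) = (1 : Mat n) k l := by
    rw [Matrix.one_apply]
    split_ifs
    exacts [map_one _, map_zero _]
  simp only [Matrix.add_apply, Matrix.neg_apply, map_add, map_neg, h7, Matrix.map_apply]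
  ring

/-- `T` from `exists_inv_map`, `G = g.map (comp T)`; `tm_comp` (`T a = comp T (X a)`), `exists_ell`,
`pd k (comp T (τ a b)) = comp T (∑ ∂_cτ_ab τ_ck)` is bounded (a symbol of order `≤ 0`, `Sym.bdd`;
take the maximum over finitely many indices), `theta_eq`, `alg_conj`, `Low.psd`. -/
theorem exists_GD (D : BR n) (hH : Low 0 D.H) : ∃ G : GD n,
    (∀ x, vec G.T (vec D.p x) = x) ∧ (∀ z, vec D.p (vec G.T z) = z) ∧
      ∀ z, G.H z = evM (vec G.T z) D.τ := by
  obtain ⟨T, hT', hT⟩ := D.exists_inv_map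
  obtain ⟨c, K, hc, hK, hτ, -⟩ := D.exists_ell
  have hj := D.jac_inv hT
  have h1 : ∀ q : Fin n × Fin n × Fin n, ∃ C, 0 ≤ C ∧
      ∀ x, |ev x (∑ e, pd e (D.τ q.2.1 q.2.2) * D.τ e q.1)| ≤ C := fun q =>
    (Sym.sum _ fun e _ => (((D.sym0τ _ _).pd e).mono (by norm_num)).mul_zero (D.sym0τ _ _)).bdd
  choose C hC0 hC using h1
  have hS : 0 ≤ ∑ q, C q := Finset.sum_nonneg fun q _ => hC0 q
  refine ⟨⟨T, D.g.map (comp T), c, K + ∑ q, C q, hc, fun a => ?_, fun a b => ?_,
    ⟨?_, fun z v => ?_, fun z a b => ?_⟩, fun z k a b => ?_, ?_, ?_, fun z => ?_⟩,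
    hT', hT, fun z => ?_⟩
  · rw [← comp_X T a]
    exact D.tm_comp hT (tm_X a)
  · exact D.tm_comp hT (D.sym0g a b).tm
  · rw [hj, ← Matrix.transpose_map, D.τ_symm]
  · rw [hj, evM_map_comp]
    exact hτ.low _ v
  · rw [hj, Matrix.map_apply, ev_comp]
    exact (hτ.bd _ a b).trans (le_add_of_nonneg_right hS)
  · rw [hj, Matrix.map_apply, D.pd_comp_inv hT, ev_comp]
    exact (hC (k, a, b) _).trans (le_add_of_nonneg_of_le hK
      (Finset.single_le_sum (fun q _ => hC0 q) (Finset.mem_univ _)))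
  · rw [hj, ← Matrix.map_mul, D.gτ, Matrix.map_one _ (map_zero _) (map_one _)]
  · exact Function.bijective_iff_has_inverse.2 ⟨vec D.p, hT, hT'⟩
  · rw [D.theta_eq hT, evM_map_comp, evM_mul, evM_mul]
    exact alg_conj (hH.psd le_rfl D.H_symm _) (by rw [← evM_transpose, D.τ_symm])
  · show evM z (jac T) = evM (vec T z) D.τ
    rw [hj, evM_map_comp]

end Crest.Agent.R253
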