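import Crest.Agent.R253.PLC2

/-!
# Row 253, PDE part: smooth convex approximation of the potential
-/

set_option autoImplicit false
open MeasureTheory Matrix Filter Topology
open scoped ContDiff BigOperators

noncomputable section
namespace Crest.Agent.R253
open Crest.Agent.R238

variable {n : ℕ}

/-- Restrict to lines: `t ↦ U (x + t v)` is convex and smooth, so its derivative is monotone
(`ConvexOn.monotoneOn_deriv`, `Monotone.deriv_nonneg`, `hasDerivAt_line` twice). -/
theorem low_hess_of_convex {U : Sm n} (h : ConvexOn ℝ Set.univ fun x => ev x U) : Low 0 (hess U) := by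
  intro x v
  have hc : ConvexOn ℝ Set.univ fun t : ℝ => ev (x + t • v) U := by
    refine ⟨convex_univ, fun a _ b _ s t hs ht hst => ?_⟩
    have h1 := h.2 (Set.mem_univ (x + a • v)) (Set.mem_univ (x + b • v)) hs ht hst
    have e : s • (x + a • v) + t • (x + b • v) = x + (s • a + t • b) • v := by
      rw [smul_add, smul_add, add_add_add_comm, ← add_smul, hst, one_smul, add_smul, smul_assoc,
        smul_assoc]
    rwa [e] at h1
  have hm := hc.monotoneOn_deriv fun t _ => (hasDerivAt_line U x v t).differentiableAt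
  rw [monotoneOn_univ] at hm
  have e : (deriv fun t : ℝ => ev (x + t • v) U) =
      fun t : ℝ => ∑ a, v a * ev (x + t • v) (pd a U) :=
    funext fun t => (hasDerivAt_line U x v t).deriv
  rw [e] at hm
  have hd := HasDerivAt.fun_sum (u := Finset.univ)
    fun a _ => (hasDerivAt_line (pd a U) x v 0).const_mul (v a)
  have h0 := hd.nonneg_of_monotone hm
  rw [zero_mul]
  refine h0.trans_eq ?_
  simp only [zero_smul, add_zero, dotProduct, mulVec, evM_apply, hess_apply]
  refine Finset.sum_congr rfl fun a _ => congrArg _ (Finset.sum_congr rfl fun b _ => ?_)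
  rw [pd_comm b a, mul_comm]

/-- `norm_fderiv_le_of_lipschitz`, `ev_pd`. -/
theorem d_one_le_of_lip {U : Sm n} {L : NNReal} (h : LipschitzWith L fun x => ev x U) (x : E n) :
    d 1 U x ≤ n * L := by
  have h1 := norm_fderiv_le_of_lipschitz ℝ (x₀ := x) h
  have h2 : ∀ a : Fin n, d 0 (pd a U) x ≤ L := fun a => by
    show |ev x (pd a U)| ≤ L
    rw [ev_pd, ← Real.norm_eq_abs]
    refine (ContinuousLinearMap.le_opNorm _ _).trans ?_
    rw [Pi.norm_single, norm_one, mul_one]
    exact h1
  show ∑ a, d 0 (pd a U) x ≤ n * L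
  simpa using Finset.sum_le_card_nsmul Finset.univ _ _ fun a _ => h2 a

/-- Convolution with `φ.normed volume`, `φ : ContDiffBump (0 : E n)` of outer radius `η / (L + 1)`:
`HasCompactSupport.contDiff_convolution_left`, `ContDiffBump.dist_normed_convolution_le`;
convexity and the Lipschitz bound pass through the integral `∫ φ(t) u(x - t) dt`. -/
theorem exists_smooth_convex {u : E n → ℝ} (hc : ConvexOn ℝ Set.univ u) {L : NNReal}
    (hL : LipschitzWith L u) {η : ℝ} (hη : 0 < η) : ∃ U : Sm n,
      (ConvexOn ℝ Set.univ fun x => ev x U) ∧ (LipschitzWith L fun x => ev x U) ∧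
      ∀ x, |ev x U - u x| ≤ η := by
  have hL0 : (0 : ℝ) ≤ L := L.2
  have hr : 0 < η / (L + 1) := by positivity
  let φ : ContDiffBump (0 : E n) := ⟨η / (L + 1) / 2, η / (L + 1), half_pos hr, half_lt_self hr⟩
  have hu := hL.continuous
  have hli : LocallyIntegrable u volume := hu.locallyIntegrable
  have hint : ∀ x, Integrable (fun t => φ.normed volume t * u (x - t)) := fun x =>
    (φ.hasCompactSupport_normed.convolutionExists_left (ContinuousLinearMap.lsmul ℝ ℝ)
      φ.continuous_normed hli x).integrable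
  refine ⟨Sm.of (convolution (φ.normed volume) u (ContinuousLinearMap.lsmul ℝ ℝ) volume)
    (φ.hasCompactSupport_normed.contDiff_convolution_left _ φ.contDiff_normed hli), ?_, ?_,
    fun x => ?_⟩
  · simp only [ev_of, convolution_lsmul, smul_eq_mul]
    refine integral_convexOn_of_integrand_ae (f := fun t x => φ.normed volume t * u (x - t))
      convex_univ (Eventually.of_forall fun t => ?_) fun x _ => hint x
    have h1 : ConvexOn ℝ Set.univ fun x => u (x - t) := by
      simpa [sub_eq_add_neg, Function.comp_def] using hc.translate_left (-t)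
    exact h1.smul (φ.nonneg_normed t)
  · simp only [ev_of, convolution_lsmul, smul_eq_mul]
    refine LipschitzWith.of_dist_le_mul fun x y => ?_
    rw [Real.dist_eq, ← integral_sub (hint x) (hint y), ← Real.norm_eq_abs]
    refine (norm_integral_le_of_norm_le (φ.integrable_normed.mul_const (L * dist x y))
      (Eventually.of_forall fun t => ?_)).trans_eq ?_
    · rw [← mul_sub, norm_mul, Real.norm_of_nonneg (φ.nonneg_normed t), ← dist_eq_norm]
      refine mul_le_mul_of_nonneg_left ?_ (φ.nonneg_normed t)
      simpa using hL.dist_le_mul (x - t) (y - t)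
    · rw [integral_mul_const, φ.integral_normed, one_mul]
  · rw [ev_of, ← Real.dist_eq]
    refine φ.dist_normed_convolution_le hu.aestronglyMeasurable fun y hy => ?_
    have h1 : dist y x < η / (L + 1) := hy
    refine (hL.dist_le_mul y x).trans ?_
    rw [lt_div_iff₀ (by positivity)] at h1
    nlinarith [dist_nonneg (x := y) (y := x)]

/-- `lc_lip`, `exists_smooth_convex` with `η = 1/(k+1)`. -/
theorem lc_approx {f : E n → ℝ} (hf : LC f) : ∃ (α β : ℝ) (U : ℕ → Sm n), 0 < β ∧
    (∀ k, Low 0 (hess (U k))) ∧ (∀ k, ∃ Λ, ∀ x, d 1 (U k) x ≤ Λ) ∧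
    (∀ k y, β * ‖y‖ - α ≤ ev y (U k)) ∧
    ∀ᵐ y, Tendsto (fun k => Real.exp (-ev y (U k))) atTop (𝓝 (f y)) := by
  obtain ⟨α, β, u, hβ, hc, hL, hlow, hlim⟩ := lc_lip hf
  choose L hL using hL
  choose U h1 h2 h3 using fun k : ℕ =>
    exists_smooth_convex (hc k) (hL k) (η := 1 / ((k : ℝ) + 1)) Nat.one_div_pos_of_nat
  refine ⟨α + 1, β, U, hβ, fun k => low_hess_of_convex (h1 k),
    fun k => ⟨_, d_one_le_of_lip (h2 k)⟩, fun k y => ?_, hlim.mono fun y hy => ?_⟩
  · have a1 := (abs_le.1 (h3 k y)).1
    have a2 : 1 / ((k : ℝ) + 1) ≤ 1 :=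
      (div_le_one (by positivity)).2 (le_add_of_nonneg_left (Nat.cast_nonneg k))
    linarith [hlow k y]
  · have a1 : Tendsto (fun k => ev y (U k) - u k y) atTop (𝓝 0) :=
      squeeze_zero_norm (fun k => h3 k y) tendsto_one_div_add_atTop_nhds_zero_nat
    have a2 := hy.mul ((Real.continuous_exp.tendsto _).comp a1.neg)
    rw [neg_zero, Real.exp_zero, mul_one] at a2
    refine a2.congr fun k => ?_
    simp only [Function.comp]
    rw [← Real.exp_add]
    congr 1
    ring

end Crest.Agent.R253
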