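import Crest.Agent.R253.PBdry
import Crest.Agent.R253.PCutY
import Crest.Agent.R253.PGD
import Crest.Agent.R253.PLC3

/-!
# Row 253, PDE part: positioned Brenier data approximating a log-concave density
-/

set_option autoImplicit false
open MeasureTheory Matrix Filter Topology
open scoped ContDiff BigOperators

noncomputable section
namespace Crest.Agent.R253
open Crest.Agent.R238

variable {n : ℕ}

theorem pseq_sub {B : RM n} (hB : 0 < B.det) {F : E n → ℝ} (hF : Continuous F) :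
    ∫ y, F (B⁻¹ *ᵥ y) = B.det * ∫ x, F x := by
  have h := integral_map (μ := volume) (φ := Matrix.toLin' B⁻¹)
    (LinearMap.continuous_of_finiteDimensional _).aemeasurable hF.aestronglyMeasurable
  have e : B⁻¹.det = B.det⁻¹ := by rw [det_nonsing_inv, Ring.inverse_eq_inv']
  rw [Real.map_matrix_volume_pi_eq_smul_volume_pi (e ▸ inv_ne_zero hB.ne'), integral_smul_measure, e,
    inv_inv, abs_of_pos hB, ENNReal.toReal_ofReal hB.le] at h
  exact h.symm

/-- `bdry` gives `ε, e₀, C₀`. Choose `ε' ≤ min e₀ (1/2)` with `ε' n ρ²/(2ε²) ≤ η/2`, `δ = min e₀ (η/2)`,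
`C ≥ C₀` with `n ρ²/(2ε²) ≤ C - α - 1`. `exists_family` on `Box n` for `V0 U ε' C (Bm ε X)` (`V0_sym`,
`V0_ycont`, `V0_low`), `exists_zero` for `X ↦ FM (D X)` (`FM_cont`, `FM_symm`), `exists_GD`, `cent_of_FM`.
Put `w y = W (B⁻¹ y) - c`, `e^κ = (Iw 0 1)⁻¹ e^{-c} / det B`; `IsDens` is `gw_p` at `x = T z`
(`det τ · det g = 1`); `∫ e^{κ - w} = 1` by the substitution `y = B x` and `Iw_one`. -/
theorem exists_pos {U : Sm n} (hc : Low 0 (hess U)) {Λ α β : ℝ} (hΛ : ∀ x, d 1 U x ≤ Λ) (hβ : 0 < β)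
    (hU : ∀ y, β * ‖y‖ - α ≤ ev y U) {η : ℝ} (hη : 0 < η) (ρ : ℝ) :
    ∃ (G : GD n) (B : RM n) (w : E n → ℝ) (κ : ℝ), G.Cent ∧ B.PosDef ∧ Continuous w ∧
      IsDens G B (fun y => Real.exp (κ - w y)) ∧ ∫ y, Real.exp (κ - w y) = 1 ∧
      (∀ y, ev y U - η ≤ w y) ∧ ∀ y, ‖y‖ ≤ ρ → w y ≤ ev y U + η := by
  obtain ⟨ε, e₀, C₀, hε, hε1, he₀, hb⟩ := bdry hΛ hβ hU
  obtain ⟨A, hA, hA'⟩ : ∃ A : ℝ, 0 ≤ A ∧ ε ^ 2 * (2 * A) = n * ρ ^ 2 :=
    ⟨n * ρ ^ 2 / (2 * ε ^ 2), by positivity, by field_simp⟩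
  obtain ⟨e, he, e1, e2, e3⟩ : ∃ e : ℝ, 0 < e ∧ e ≤ e₀ ∧ e ≤ 1 / 2 ∧ e * (A + 1) ≤ η / 2 :=
    ⟨min (min e₀ (1 / 2)) (η / 2 / (A + 1)), by positivity, (min_le_left _ _).trans (min_le_left _ _),
      (min_le_left _ _).trans (min_le_right _ _),
      (le_div_iff₀ (by positivity)).1 (min_le_right _ _)⟩
  set C := max C₀ (A + α + 1)
  obtain ⟨D, c, K, hc0, hF, hD⟩ := exists_family (P := Box n) (fun X => V0 U e C (Bm ε X.1))
    (fun X => V0_sym hΛ e2 C _) (V0_ycont (continuous_Bm ε) (Bm_abs_le hε hε1) hΛ e2 C) he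
    (fun X => V0_low hc (by linarith) C _) (lt_min he₀ (half_pos hη))
  choose hE hH hV c' hc' using hD
  have : FirstCountableTopology (RM n) :=
    inferInstanceAs (FirstCountableTopology (Fin n → Fin n → ℝ))
  have hb' := fun X => hb e _ C he e1 e2 (min_le_left _ _) (le_max_left _ _) X (D X) _ (hc' X)
  obtain ⟨X, hX⟩ := exists_zero (fun X => FM (D X)) (FM_cont hF hc0 hE hV) (fun X => FM_symm _)
    (fun X v hv => (hb' X v hv).1) fun X v hv => (hb' X v hv).2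
  obtain ⟨G, h1, h2, h3⟩ := exists_GD (D X) (hH X)
  have hB := Bm_posDef hε hε1 X
  have hsq := Bm_sq_le hε hε1 X
  have hY := fun x => abs_le.1 (((abs_le_Y (((D X).symV.sub (V0_sym hΛ e2 C _)).sub (sym_cst _))
    x).trans (hc' X)).trans (min_le_right _ _))
  simp only [map_sub, ev_cst] at hY
  generalize Bm ε X.1 = B at *
  have hd := hB.det_pos
  have hI := Iw_one_pos (sym_zero (n := n) 0)
  have hBB : ∀ y : E n, B *ᵥ (B⁻¹ *ᵥ y) = y := fun y => by
    rw [mulVec_mulVec, mul_nonsing_inv _ hd.ne'.isUnit, one_mulVec]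
  have hex : ∀ t : ℝ, Real.exp (Real.log ((Iw (0 : Sm n) 1)⁻¹ / B.det) - c' X - (t - c' X)) =
      (Iw (0 : Sm n) 1)⁻¹ / B.det * Real.exp (-t) := fun t => by
    rw [sub_sub_sub_cancel_right, sub_eq_add_neg, Real.exp_add, Real.exp_log (by positivity)]
  refine ⟨G, B, fun y => ev (B⁻¹ *ᵥ y) (Wp (D X).V) - c' X,
    Real.log ((Iw (0 : Sm n) 1)⁻¹ / B.det) - c' X, cent_of_FM h1 h3 hX, hB,
    ((ev_continuous _).comp (continuous_const.matrix_mulVec continuous_id)).sub continuous_const,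
    fun z => ?_, ?_, fun y => ?_, fun y hy => ?_⟩
  · have a1 := (D X).gw_p (vec G.T z)
    have a2 := congrArg Matrix.det (evM_inv (D X).τg (vec G.T z))
    rw [h2] at a1
    rw [det_mul, det_one] at a2
    simp only [hex]
    rw [mulVec_mulVec, nonsing_inv_mul _ hd.ne'.isUnit, one_mulVec, h3, div_mul_eq_mul_div,
      ← mul_assoc, div_mul_cancel₀ _ hd.ne', ← a1, mul_assoc, mul_comm (Matrix.det _), a2, mul_one]
  · have a1 := (D X).Iw_one
    simp only [hex]
    rw [integral_const_mul, pseq_sub hd (F := fun x => Real.exp (-ev x (Wp (D X).V)))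
      (ev_continuous _).neg.rexp, ← mul_assoc, div_mul_cancel₀ _ hd.ne', ← a1, Iw]
    rw [← a1, Iw] at hI
    simp only [map_one, one_mul] at hI ⊢
    exact inv_mul_cancel₀ hI.ne'
  · have a1 := V0_ge U he.le C B (B⁻¹ *ᵥ y)
    rw [hBB] at a1
    simp only [ev_Wp] at a1 ⊢
    linarith [(hY (B⁻¹ *ᵥ y)).1]
  · have a1 : y ⬝ᵥ y ≤ n * ρ ^ 2 :=
      (Finset.sum_le_card_nsmul Finset.univ (fun a => y a * y a) (ρ ^ 2) fun a _ => by
        have := abs_le.1 ((norm_le_pi_norm y a).trans hy)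
        nlinarith).trans_eq (by simp)
    have a2 := hsq (B⁻¹ *ᵥ y)
    rw [hBB] at a2
    have a3 := le_of_mul_le_mul_left (a2.trans (a1.trans hA'.ge)) (by positivity)
    have a4 := V0_eq (U := U) (α := α) (C := C) 
      (fun y => by linarith [hU y, mul_nonneg hβ.le (norm_nonneg y)]) he.le B (x := B⁻¹ *ᵥ y) (by linarith [le_max_right C₀ (A + α + 1)])
    rw [hBB] at a4
    simp only [ev_Wp] at a4 ⊢
    linarith [(hY (B⁻¹ *ᵥ y)).2, mul_le_mul_of_nonneg_left a3 he.le]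

/-- `lc_approx`, `exists_pos` with `η = 1/(j+1)`, `ρ = j`. Then `e^{-w_j} → f` a.e., dominated by
`e^{1 + α - β‖y‖}`, so `e^{-κ_j} = ∫ e^{-w_j} → 1`; `e^{κ_j} → 1` is bounded. -/
theorem seq_of_LC {f : E n → ℝ} (hf : LC f) : SeqStmt f := by
  obtain ⟨α, β, U, hβ, hc, hΛ, hU, hlim⟩ := lc_approx hf
  choose G B w κ h1 h2 h3 h4 h5 h6 h7 using fun j : ℕ =>
    exists_pos (hc j) (hΛ j).choose_spec hβ (hU j) (Nat.one_div_pos_of_nat (n := j)) j
  have hw : ∀ᵐ y, Tendsto (fun j => Real.exp (-w j y)) atTop (𝓝 (f y)) := by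
    filter_upwards [hlim] with y hy
    have a1 : Tendsto (fun j => ev y (U j) - w j y) atTop (𝓝 0) :=
      squeeze_zero_norm' ((tendsto_natCast_atTop_atTop.eventually_ge_atTop ‖y‖).mono fun j hj =>
        abs_le.2 ⟨by linarith [h7 j y hj], by linarith [h6 j y]⟩)
        tendsto_one_div_add_atTop_nhds_zero_nat
    simpa [← Real.exp_add, sub_eq_add_neg] using hy.mul a1.rexp
  have hb : ∀ j y, Real.exp (-w j y) ≤ Real.exp (1 + α) * Real.exp (-β * ‖y‖) := fun j y => by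
    have : 1 / ((j : ℝ) + 1) ≤ 1 := div_le_one_of_le₀ (by simp) (by positivity)
    rw [← Real.exp_add, Real.exp_le_exp]
    linarith [h6 j y, hU j y]
  have hi : Integrable fun y : E n => Real.exp (-β * ‖y‖) :=
    (integrable_sq_exp hβ).mono' (by fun_prop) (ae_of_all _ fun y => by
      rw [Real.norm_of_nonneg (Real.exp_pos _).le]
      exact le_mul_of_one_le_left (Real.exp_pos _).le (by simp))
  have a1 := (tendsto_integral_of_dominated_convergence _
    (fun j => (h3 j).neg.rexp.aestronglyMeasurable) (hi.const_mul _)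
    (fun j => ae_of_all _ fun y => (Real.norm_of_nonneg (Real.exp_pos _).le).trans_le (hb j y))
    hw).inv₀ (by simp [hf.int])
  have a2 : Tendsto (fun j => Real.exp (κ j)) atTop (𝓝 1) := by
    rw [hf.int, inv_one] at a1
    refine a1.congr fun j => (eq_inv_of_mul_eq_one_left ?_).symm
    simpa only [sub_eq_add_neg, Real.exp_add, integral_const_mul, Pi.neg_apply] using h5 j
  obtain ⟨M, hM⟩ := a2.bddAbove_range
  refine ⟨G, B, _, M * Real.exp (1 + α), β, hβ, h1, h2, h4,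
    fun j => (continuous_const.sub (h3 j)).rexp, fun j y => ?_, hw.mono fun y hy => ?_⟩
  · rw [sub_eq_add_neg, Real.exp_add, mul_assoc]
    exact mul_le_mul (hM ⟨j, rfl⟩) (hb j y) (Real.exp_pos _).le
      ((Real.exp_pos _).le.trans (hM ⟨j, rfl⟩))
  · simpa only [sub_eq_add_neg, Real.exp_add, one_mul] using a2.mul hy

end Crest.Agent.R253
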