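import Crest.Agent.R253.CoreH
import Crest.Agent.R253.PSeq
import Crest.Agent.R253.FinMain

/-!
# Row 253: the sharp entropy bound
-/

set_option autoImplicit false

namespace Crest.Agent.R253

theorem entStmt : EntStmt := ent_of core fun _ _ _ hf => seq_of_LC hf

end Crest.Agent.R253
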