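import Crest.Agent.R253.Her1

/-!
# Row 253: normalised Hermite polynomials

`Polynomial.hermite_succ : hermite (m+1) = X * hermite m - derivative (hermite m)`; first prove
`derivative (hermite (m+1)) = (m+1) * hermite m` by induction.  Orthogonality in one variable by
integration by parts against `phi` (or use `GE_ibp2` and induction directly in `n` variables:
`z k * He α - dk k (He α) = √(α k + 1) He (α + e_k)`).
-/

set_option autoImplicit false
open MeasureTheory Matrix Filter Topology
open scoped ContDiff BigOperators

noncomputable section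
namespace Crest.Agent.R253
open Crest.Agent.R238 Crest.Agent.R215

variable {n : ℕ}

/-- The normalised Hermite polynomial `He_m / √(m!)`. -/
def hn (m : ℕ) (x : ℝ) : ℝ :=
  Polynomial.aeval x (Polynomial.hermite m) / Real.sqrt (m.factorial : ℝ)

theorem Her2_deriv (m : ℕ) : Polynomial.derivative (Polynomial.hermite (m + 1)) =
    ((m : Polynomial ℤ) + 1) * Polynomial.hermite m := by
  induction m with
  | zero => simp
  | succ m ih =>
    rw [Polynomial.hermite_succ (m + 1), Polynomial.derivative_sub, Polynomial.derivative_mul, ih,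
      Polynomial.derivative_mul, Polynomial.hermite_succ m]
    simp only [Polynomial.derivative_X, Polynomial.derivative_add, Polynomial.derivative_natCast,
      Polynomial.derivative_one]
    push_cast
    ring

theorem Her2_deriv' (m : ℕ) : Polynomial.derivative (Polynomial.hermite m) =
    (m : Polynomial ℤ) * Polynomial.hermite (m - 1) := by
  cases m with
  | zero => simp
  | succ m => rw [Her2_deriv]; simp

theorem Her2_succ (m : ℕ) (x : ℝ) : Polynomial.aeval x (Polynomial.hermite (m + 1)) =
    x * Polynomial.aeval x (Polynomial.hermite m) -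
      m * Polynomial.aeval x (Polynomial.hermite (m - 1)) := by
  rw [Polynomial.hermite_succ, Her2_deriv']
  simp

theorem Her2_sqrt_fact (m : ℕ) :
    Real.sqrt ((m + 1).factorial : ℝ) = Real.sqrt (m + 1) * Real.sqrt (m.factorial : ℝ) := by
  rw [Nat.factorial_succ, Nat.cast_mul, Real.sqrt_mul (by positivity)]
  simp

theorem Her2_sqrt_pos (m : ℕ) : 0 < Real.sqrt (m.factorial : ℝ) :=
  Real.sqrt_pos.2 (by exact_mod_cast m.factorial_pos)

theorem Her2_div (m : ℕ) (y : ℝ) : m * y / Real.sqrt (m.factorial : ℝ) =
    Real.sqrt m * (y / Real.sqrt ((m - 1).factorial : ℝ)) := by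
  cases m with
  | zero => simp
  | succ m =>
    have h1 := Her2_sqrt_pos m
    have h2 : 0 < Real.sqrt ((m : ℝ) + 1) := Real.sqrt_pos.2 (by positivity)
    have h3 : Real.sqrt ((m : ℝ) + 1) * Real.sqrt ((m : ℝ) + 1) = m + 1 :=
      Real.mul_self_sqrt (by positivity)
    rw [Her2_sqrt_fact, Nat.add_sub_cancel]
    push_cast
    rw [div_eq_iff (by positivity)]
    field_simp
    rw [sq, h3]
    ring

theorem hn_zero (x : ℝ) : hn 0 x = 1 := by
  simp [hn]

theorem hn_one (x : ℝ) : hn 1 x = x := by
  simp [hn]

theorem hn_two (x : ℝ) : hn 2 x = (x ^ 2 - 1) / Real.sqrt 2 := by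
  rw [hn, Her2_succ]
  simp [sq]

theorem hasDerivAt_hn (m : ℕ) (x : ℝ) : HasDerivAt (hn m) (Real.sqrt m * hn (m - 1) x) x := by
  have h := (Polynomial.hasDerivAt_aeval (Polynomial.hermite m) x).div_const
    (Real.sqrt (m.factorial : ℝ))
  rw [Her2_deriv', map_mul, map_natCast, Her2_div] at h
  exact h

theorem mul_hn (m : ℕ) (x : ℝ) :
    x * hn m x = Real.sqrt (m + 1) * hn (m + 1) x + Real.sqrt m * hn (m - 1) x := by
  have h1 := Her2_sqrt_pos m
  have h2 : 0 < Real.sqrt ((m : ℝ) + 1) := Real.sqrt_pos.2 (by positivity)
  rw [hn, hn, hn, ← Her2_div, Her2_sqrt_fact, Her2_succ]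
  field_simp
  ring

theorem hn_neg (m : ℕ) (x : ℝ) : hn m (-x) = (-1) ^ m * hn m x := by
  have key : ∀ m : ℕ, Polynomial.aeval (-x) (Polynomial.hermite m) =
      (-1) ^ m * Polynomial.aeval x (Polynomial.hermite m) := by
    intro m
    induction m using Nat.strong_induction_on with
    | _ m ih =>
      match m with
      | 0 => simp
      | 1 => simp
      | m + 2 =>
        rw [Her2_succ, Her2_succ (m + 1) x, Nat.add_sub_cancel, ih (m + 1) (by omega),
          ih m (by omega)]
        ring
  rw [hn, hn, key, mul_div_assoc]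

/-- Multi-indices. -/
abbrev MI (n : ℕ) := Fin n → ℕ

/-- The total degree. -/
def deg (α : MI n) : ℕ := ∑ i, α i

/-- The unit multi-index. -/
def ek (k : Fin n) : MI n := Pi.single k 1

/-- The Hermite basis. -/
def He (α : MI n) (z : E n) : ℝ := ∏ i, hn (α i) (z i)

theorem deg_add (α β : MI n) : deg (α + β) = deg α + deg β := by
  simp [deg, Finset.sum_add_distrib]

theorem deg_ek (k : Fin n) : deg (ek k) = 1 := by
  simp [deg, ek]

theorem deg_eq_zero {α : MI n} : deg α = 0 ↔ α = 0 := by
  simp only [deg, Finset.sum_eq_zero_iff, Finset.mem_univ, true_imp_iff]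
  exact ⟨fun h => funext h, fun h i => by simp [h]⟩

theorem Her2_ek_ne {k i : Fin n} (h : i ≠ k) : ek k i = 0 := by
  simp [ek, h]

theorem Her2_split {α : MI n} (h : α ≠ 0) : ∃ (k : Fin n) (β : MI n), α = β + ek k := by
  obtain ⟨k, hk⟩ := Function.ne_iff.1 h
  refine ⟨k, α - ek k, funext fun i => ?_⟩
  by_cases hi : i = k
  · subst hi
    simp only [Pi.sub_apply, Pi.add_apply, ek, Pi.single_eq_same, Pi.zero_apply] at hk ⊢
    omega
  · simp [Her2_ek_ne hi]

theorem deg_eq_one {α : MI n} : deg α = 1 ↔ ∃ k, α = ek k := by
  constructor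
  · intro h
    obtain ⟨k, β, rfl⟩ := Her2_split (α := α) (fun h0 => by
      rw [deg_eq_zero.2 h0] at h; exact absurd h (by simp))
    rw [deg_add, deg_ek] at h
    rw [deg_eq_zero.1 (by omega : deg β = 0)]
    exact ⟨k, by simp⟩
  · rintro ⟨k, rfl⟩
    exact deg_ek k

theorem ek_injective : Function.Injective (ek : Fin n → MI n) := by
  intro a b h
  by_contra hab
  have := congrFun h a
  simp [ek, hab] at this

theorem Her2_He_eq (k : Fin n) (α : MI n) (z : E n) :
    He α z = hn (α k) (z k) * ∏ i ∈ Finset.univ.erase k, hn (α i) (z i) :=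
  (Finset.mul_prod_erase _ (fun i => hn (α i) (z i)) (Finset.mem_univ k)).symm

theorem Her2_He_sub (k : Fin n) (α : MI n) (z : E n) :
    He (α - ek k) z = hn (α k - 1) (z k) * ∏ i ∈ Finset.univ.erase k, hn (α i) (z i) := by
  rw [Her2_He_eq k]
  congr 1
  · simp [ek]
  · exact Finset.prod_congr rfl fun i hi => by
      simp [Her2_ek_ne (Finset.ne_of_mem_erase hi)]

theorem Her2_He_add (k : Fin n) (α : MI n) (z : E n) :
    He (α + ek k) z = hn (α k + 1) (z k) * ∏ i ∈ Finset.univ.erase k, hn (α i) (z i) := by
  rw [Her2_He_eq k]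
  congr 1
  · simp [ek]
  · exact Finset.prod_congr rfl fun i hi => by
      simp [Her2_ek_ne (Finset.ne_of_mem_erase hi)]

theorem Her2_c1_poly (i : Fin n) (p : Polynomial ℤ) :
    C1 (fun z : E n => Polynomial.aeval (z i) p) := by
  induction p using Polynomial.induction_on with
  | C a => simpa using C1.const (n := n) (a : ℝ)
  | add p q hp hq => simpa using hp.add hq
  | monomial m a h =>
    have h2 := h.mul (C1.coord i)
    simpa [pow_succ, mul_assoc] using h2

theorem He_zero (z : E n) : He 0 z = 1 := by
  simp [He, hn_zero]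

theorem He_ek (k : Fin n) (z : E n) : He (ek k) z = z k := by
  rw [Her2_He_eq k, Finset.prod_eq_one fun i hi => by
    rw [Her2_ek_ne (Finset.ne_of_mem_erase hi), hn_zero]]
  simp [ek, hn_one]

theorem He_c1 (α : MI n) : C1 (He α) := by
  refine C1.prod Finset.univ (F := fun i z => hn (α i) (z i)) fun i _ => ?_
  simp only [hn, div_eq_mul_inv]
  exact (Her2_c1_poly i _).mul_const _

theorem dk_He (k : Fin n) (α : MI n) (z : E n) :
    dk k (He α) z = Real.sqrt (α k) * He (α - ek k) z := by
  have h1 : HasDerivAt (fun t => He α (Function.update z k t)) (dk k (He α) z) (z k) := by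
    have h := ((He_c1 α).diff (Function.update z k (z k))).hasFDerivAt.comp_hasDerivAt (z k)
      (hasDerivAt_update z k (z k))
    rw [Function.update_eq_self] at h
    exact h
  have h2 : (fun t => He α (Function.update z k t)) =
      fun t => hn (α k) t * ∏ i ∈ Finset.univ.erase k, hn (α i) (z i) := by
    funext t
    rw [Her2_He_eq k, Function.update_self]
    congr 1
    exact Finset.prod_congr rfl fun i hi => by
      rw [Function.update_of_ne (Finset.ne_of_mem_erase hi)]
  rw [h2] at h1
  rw [h1.unique ((hasDerivAt_hn (α k) (z k)).mul_const _), Her2_He_sub, mul_assoc]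

theorem coord_mul_He (k : Fin n) (α : MI n) (z : E n) :
    z k * He α z = Real.sqrt (α k + 1) * He (α + ek k) z + Real.sqrt (α k) * He (α - ek k) z := by
  rw [Her2_He_sub, Her2_He_add, Her2_He_eq k α, ← mul_assoc, mul_hn]
  ring

theorem He_neg (α : MI n) (z : E n) : He α (-z) = (-1) ^ deg α * He α z := by
  simp only [He, Pi.neg_apply, hn_neg, Finset.prod_mul_distrib, deg, Finset.prod_pow_eq_pow_sum]

theorem Her2_step (k : Fin n) (α β : MI n) :
    Real.sqrt (β k + 1) * GE (fun z => He α z * He (β + ek k) z) =
      Real.sqrt (α k) * GE (fun z => He (α - ek k) z * He β z) := by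
  have h := GE_ibp2 (He_c1 α) (He_c1 β) k
  simp only [dk_He, coord_mul_He, add_sub_cancel_right] at h
  rw [← GE_const_mul, ← GE_const_mul]
  simp only [← mul_assoc]
  rw [h]
  congr 1
  funext z
  ring

theorem GE_He_mul (α β : MI n) : GE (fun z => He α z * He β z) = if α = β then 1 else 0 := by
  induction hd : deg β using Nat.strong_induction_on generalizing α β with
  | _ d ih =>
    by_cases hβ : β = 0
    · subst hβ
      by_cases hα : α = 0
      · subst hα
        simp [He_zero, GE_const]
      · obtain ⟨k, γ, rfl⟩ := Her2_split hα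
        have h := Her2_step k 0 γ
        have h2 : 0 < Real.sqrt ((γ k : ℝ) + 1) := Real.sqrt_pos.2 (by positivity)
        simp only [Pi.zero_apply, Nat.cast_zero, Real.sqrt_zero, zero_mul] at h
        rw [if_neg hα]
        simp only [mul_comm (He (γ + ek k) _)]
        exact (mul_eq_zero.1 h).resolve_left h2.ne'
    · obtain ⟨k, γ, rfl⟩ := Her2_split hβ
      have h := Her2_step k α γ
      have h2 : 0 < Real.sqrt ((γ k : ℝ) + 1) := Real.sqrt_pos.2 (by positivity)
      rw [ih (deg γ) (by rw [← hd, deg_add, deg_ek]; omega) (α - ek k) γ rfl] at h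
      refine mul_left_cancel₀ h2.ne' (h.trans ?_)
      by_cases hα : α = γ + ek k
      · subst hα
        simp [ek]
      · rw [if_neg hα, mul_zero]
        by_cases h0 : α k = 0
        · simp [h0]
        · rw [if_neg, mul_zero]
          intro h3
          refine hα (funext fun i => ?_)
          have h4 := congrFun h3 i
          by_cases hi : i = k
          · subst hi
            simp only [Pi.sub_apply, Pi.add_apply, ek, Pi.single_eq_same] at h4 ⊢
            omega
          · simpa [Her2_ek_ne hi] using h4

/-- The span of the Hermite polynomials is closed under multiplication by a coordinate. -/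
theorem Her2_coord_mul_mem (k : Fin n) {f : E n → ℝ}
    (hf : f ∈ Submodule.span ℝ (Set.range (He : MI n → E n → ℝ))) :
    (fun z : E n => z k * f z) ∈ Submodule.span ℝ (Set.range (He : MI n → E n → ℝ)) := by
  induction hf using Submodule.span_induction with
  | mem f hf =>
    obtain ⟨α, rfl⟩ := hf
    have e : (fun z : E n => z k * He α z) =
        Real.sqrt (α k + 1) • He (α + ek k) + Real.sqrt (α k) • He (α - ek k) :=
      funext fun z => by simpa using coord_mul_He k α z
    rw [e]
    exact Submodule.add_mem _ (Submodule.smul_mem _ _ (Submodule.subset_span ⟨_, rfl⟩))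
      (Submodule.smul_mem _ _ (Submodule.subset_span ⟨_, rfl⟩))
  | zero =>
    have e : (fun z : E n => z k * (0 : E n → ℝ) z) = 0 := funext fun z => by simp
    rw [e]
    exact Submodule.zero_mem _
  | add f g _ _ hf hg =>
    have := Submodule.add_mem _ hf hg
    convert this using 1
    funext z
    simp [mul_add]
  | smul c f _ hf =>
    have := Submodule.smul_mem _ c hf
    convert this using 1
    funext z
    simp only [Pi.smul_apply, smul_eq_mul]
    ring

/-- Every monomial is a finite combination of Hermite polynomials. -/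
theorem monomial_mem_span (γ : MI n) :
    (fun z : E n => ∏ i, z i ^ γ i) ∈ Submodule.span ℝ (Set.range (He : MI n → E n → ℝ)) := by
  induction hd : deg γ using Nat.strong_induction_on generalizing γ with
  | _ d ih =>
    by_cases h0 : γ = 0
    · subst h0
      refine Submodule.subset_span ⟨0, funext fun z => ?_⟩
      simp [He_zero]
    · obtain ⟨k, β, rfl⟩ := Her2_split h0
      have h := Her2_coord_mul_mem k
        (ih (deg β) (by rw [← hd, deg_add, deg_ek]; omega) β rfl)
      convert h using 2 with z
      simp only [Pi.add_apply, pow_add, Finset.prod_mul_distrib]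
      rw [mul_comm, ← Finset.mul_prod_erase _ (fun i => z i ^ ek k i) (Finset.mem_univ k),
        Finset.prod_eq_one fun i hi => by rw [Her2_ek_ne (Finset.ne_of_mem_erase hi), pow_zero]]
      simp [ek]

/-- The Hermite coefficient. -/
def co (α : MI n) (F : E n → ℝ) : ℝ := GE (fun z => F z * He α z)

end Crest.Agent.R253
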