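import Crest.Agent.R253.Her2

/-!
# Row 253: completeness of the Hermite basis and Parseval's identity

Plan.  Let `μ = volume.withDensity (ofReal ∘ gw)`.  The `He α` form an orthonormal family in
`Lp ℝ 2 μ` (`GE_He_mul`).  If `F ∈ L²(μ)` is orthogonal to all `He α` then to all monomials
(`monomial_mem_span`), hence to all powers `(ξ ⬝ z)^k`; expanding `exp (i ξ ⬝ z)` in its power series
(dominated by `|F| exp |ξ ⬝ z|`, integrable by Cauchy–Schwarz; `hasSum_integral_of_summable_norm` or
dominated convergence) the finite measures `F₊ μ` and `F₋ μ` have the same characteristic function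
(`Measure.ext_of_charFunDual`), so `F = 0` a.e.  Then `HilbertBasis.mkOfOrthogonalEqBot` and
`HilbertBasis.hasSum_inner_mul_inner`.
-/

set_option autoImplicit false
open MeasureTheory Matrix Filter Topology
open scoped ContDiff BigOperators

noncomputable section
namespace Crest.Agent.R253
open Crest.Agent.R238 Crest.Agent.R215

variable {n : ℕ}

/-- An integrable function whose Fourier transform vanishes is zero. -/
theorem Her3_fourier {g : E n → ℝ} (hg : Integrable g)
    (h : ∀ L : StrongDual ℝ (E n), ∫ z, (g z : ℂ) * Complex.exp (L z * Complex.I) = 0) :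
    g =ᵐ[volume] 0 := by
  have hm : ∀ {u : E n → ℝ}, Integrable u → AEMeasurable (fun z => ENNReal.ofReal (u z)) volume :=
    fun hu => hu.aemeasurable.ennreal_ofReal
  have hint : ∀ {u : E n → ℝ}, Integrable u → ∀ L : StrongDual ℝ (E n),
      Integrable (fun z => ((max (u z) 0 : ℝ) : ℂ) * Complex.exp (L z * Complex.I)) := by
    intro u hu L
    refine Integrable.mul_bdd (c := 1) (hu.pos_part.ofReal) (by fun_prop)
      (Eventually.of_forall fun z => ?_)
    rw [Complex.norm_exp_ofReal_mul_I]
  have hch : ∀ {u : E n → ℝ}, Integrable u → ∀ L : StrongDual ℝ (E n),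
      charFunDual (volume.withDensity fun z => ENNReal.ofReal (u z)) L =
        ∫ z, ((max (u z) 0 : ℝ) : ℂ) * Complex.exp (L z * Complex.I) := by
    intro u hu L
    rw [charFunDual_apply, integral_withDensity_eq_integral_toReal_smul₀ (hm hu)
      (Eventually.of_forall fun _ => ENNReal.ofReal_lt_top)]
    refine integral_congr_ae (Eventually.of_forall fun z => ?_)
    simp only [ENNReal.toReal_ofReal', Complex.real_smul]
  have := isFiniteMeasure_withDensity_ofReal hg.2
  have := isFiniteMeasure_withDensity_ofReal hg.neg.2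
  have he : (volume.withDensity fun z => ENNReal.ofReal (g z)) =
      volume.withDensity fun z => ENNReal.ofReal ((-g) z) := by
    refine Measure.ext_of_charFunDual (funext fun L => ?_)
    rw [hch hg, hch hg.neg, ← sub_eq_zero, ← integral_sub (hint hg L) (hint hg.neg L), ← h L]
    refine integral_congr_ae (Eventually.of_forall fun z => ?_)
    simp only [Pi.neg_apply]
    rw [← sub_mul, ← Complex.ofReal_sub, max_zero_sub_max_neg_zero_eq_self]
  filter_upwards [(withDensity_eq_iff_of_sigmaFinite (hm hg) (hm hg.neg)).1 he] with z hz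
  have h1 := congrArg ENNReal.toReal hz
  simp only [ENNReal.toReal_ofReal', Pi.neg_apply] at h1
  have h2 := max_zero_sub_max_neg_zero_eq_self (g z)
  rw [h1, sub_self] at h2
  exact h2.symm

theorem Her3_exp1 (c : ℝ) : Integrable (fun x : ℝ => Real.exp (c * x) * phi x) := by
  refine ((integrable_exp_neg_mul_sq (b := 1 / 4) (by norm_num)).const_mul
    ((√(2 * Real.pi))⁻¹ * Real.exp (c ^ 2))).mono' ?_ (Eventually.of_forall fun x => ?_)
  · unfold phi
    fun_prop
  · rw [phi, Real.norm_eq_abs, abs_of_nonneg (by positivity), mul_left_comm, mul_assoc,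
      ← Real.exp_add, ← Real.exp_add]
    refine mul_le_mul_of_nonneg_left (Real.exp_le_exp.2 ?_) (by positivity)
    nlinarith [sq_nonneg (c - x / 2)]

theorem Her3_lin (L : StrongDual ℝ (E n)) (z : E n) : L z = ∑ k, L (Pi.single k 1) * z k := by
  conv_lhs => rw [pi_eq_sum_univ z]
  simp only [map_sum, map_smul, smul_eq_mul]
  refine Finset.sum_congr rfl fun k _ => ?_
  rw [mul_comm]
  congr 2
  ext j
  simp [Pi.single_apply, eq_comm]

theorem Her3_exp (L : StrongDual ℝ (E n)) : Integrable (fun z => Real.exp (L z) * gw z) := by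
  have h := Integrable.fintype_prod (μ := fun _ : Fin n => (volume : Measure ℝ))
    (f := fun k x => Real.exp (L (Pi.single k 1) * x) * phi x) fun k => Her3_exp1 _
  refine (h.congr (Eventually.of_forall fun z => ?_))
  simp only [Finset.prod_mul_distrib, ← Real.exp_sum, ← Her3_lin, gw_eq_prod]

/-- Product of two `L²(gw)` functions. -/
theorem Her3_mul {F G : E n → ℝ} (hF : AEStronglyMeasurable F volume)
    (hG : AEStronglyMeasurable G volume) (h2 : Integrable (fun z => F z ^ 2 * gw z))
    (h3 : Integrable (fun z => G z ^ 2 * gw z)) : Integrable (fun z => F z * G z * gw z) := by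
  refine (h2.add h3).mono' ((hF.mul hG).mul MehlerA_continuous_gw.aestronglyMeasurable)
    (Eventually.of_forall fun z => ?_)
  rw [Real.norm_eq_abs, abs_mul, abs_of_pos (gw_pos z), Pi.add_apply, ← add_mul]
  refine mul_le_mul_of_nonneg_right (abs_le.2 ⟨?_, ?_⟩) (gw_pos z).le
  · nlinarith [sq_nonneg (F z + G z)]
  · nlinarith [sq_nonneg (F z - G z)]

theorem Her3_pow_mem (L : StrongDual ℝ (E n)) (m : ℕ) :
    (fun z : E n => L z ^ m) ∈ Submodule.span ℝ (Set.range (He : MI n → E n → ℝ)) := by
  induction m with
  | zero => exact Submodule.subset_span ⟨0, funext fun z => by simp [He_zero]⟩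
  | succ m ih =>
    have h := Submodule.sum_mem _ (t := Finset.univ) fun k _ =>
      Submodule.smul_mem _ (L (Pi.single k 1)) (Her2_coord_mul_mem k ih)
    convert h using 1
    funext z
    simp only [Finset.sum_apply, Pi.smul_apply, smul_eq_mul, ← mul_assoc, ← Finset.sum_mul,
      ← Her3_lin]
    ring

theorem Her3_span {F : E n → ℝ} (hm : AEStronglyMeasurable F volume)
    (h2 : Integrable (fun z => F z ^ 2 * gw z)) (h : ∀ α, co α F = 0) {P : E n → ℝ}
    (hP : P ∈ Submodule.span ℝ (Set.range (He : MI n → E n → ℝ))) :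
    Integrable (fun z => F z * P z * gw z) ∧ ∫ z, F z * P z * gw z = 0 := by
  induction hP using Submodule.span_induction with
  | mem f hf =>
    obtain ⟨α, rfl⟩ := hf
    exact ⟨Her3_mul hm (He_c1 α).pg.cont.aestronglyMeasurable h2 ((He_c1 α).pg.pow 2).integrable,
      h α⟩
  | zero => simp
  | add f g _ _ hf hg =>
    simp only [Pi.add_apply, mul_add, add_mul]
    exact ⟨hf.1.add hg.1, by rw [integral_add hf.1 hg.1, hf.2, hg.2, add_zero]⟩
  | smul c f _ hf =>
    have e : (fun z => F z * (c • f) z * gw z) = fun z => c * (F z * f z * gw z) :=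
      funext fun z => by simp only [Pi.smul_apply, smul_eq_mul]; ring
    rw [e]
    exact ⟨hf.1.const_mul c, by rw [integral_const_mul, hf.2, mul_zero]⟩

/-- Completeness. -/
theorem He_complete {F : E n → ℝ} (hm : AEStronglyMeasurable F volume)
    (h2 : Integrable (fun z => F z ^ 2 * gw z)) (h : ∀ α, co α F = 0) : F =ᵐ[volume] 0 := by
  have hg : Integrable (fun z => F z * gw z) := by
    simpa [He_zero] using (Her3_span hm h2 h (Submodule.subset_span ⟨0, rfl⟩)).1
  have h0 := Her3_fourier hg fun L => by
    have hb : Integrable (fun z => |F z| * Real.exp |L z| * gw z) := by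
      refine Her3_mul (F := fun z => |F z|) hm.norm (by fun_prop) (by simpa using h2) ?_
      refine ((Her3_exp ((2 : ℝ) • L)).add (Her3_exp ((-2 : ℝ) • L))).mono'
        (Continuous.aestronglyMeasurable (Continuous.mul (by fun_prop) MehlerA_continuous_gw))
        (Eventually.of_forall fun z => ?_)
      rw [Real.norm_eq_abs, abs_of_nonneg (mul_nonneg (sq_nonneg _) (gw_pos z).le), Pi.add_apply,
        ← add_mul, ← Real.exp_nat_mul]
      refine mul_le_mul_of_nonneg_right ?_ (gw_pos z).le
      simp only [_root_.smul_apply, smul_eq_mul]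
      rcases abs_cases (L z) with h3 | h3
      · rw [h3.1]
        push_cast
        linarith [Real.exp_pos (-2 * L z)]
      · rw [h3.1, show ((2 : ℕ) : ℝ) * -L z = -2 * L z by push_cast; ring]
        linarith [Real.exp_pos (2 * L z)]
    have hs : ∀ z, HasSum (fun m : ℕ => |F z| * (|L z| ^ m / m.factorial) * gw z)
        (|F z| * Real.exp |L z| * gw z) := fun z => by
      have h3 := NormedSpace.expSeries_div_hasSum_exp (𝔸 := ℝ) |L z|
      rw [← Real.exp_eq_exp_ℝ] at h3
      exact (h3.mul_left _).mul_right _
    have h3 := hasSum_integral_of_dominated_convergence (μ := volume)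
      (F := fun (m : ℕ) z => (Complex.I ^ m / m.factorial) * ((F z * L z ^ m * gw z : ℝ) : ℂ))
      (f := fun z => ((F z * gw z : ℝ) : ℂ) * Complex.exp (L z * Complex.I))
      (fun m z => |F z| * (|L z| ^ m / m.factorial) * gw z)
      (fun m => ((Her3_span hm h2 h (Her3_pow_mem L m)).1.ofReal.const_mul _).aestronglyMeasurable)
      (fun m => Eventually.of_forall fun z => le_of_eq (by
        rw [norm_mul, norm_div, norm_pow, Complex.norm_I, Complex.norm_natCast, Complex.norm_real,
          Real.norm_eq_abs, abs_mul, abs_mul, abs_pow, abs_of_pos (gw_pos z)]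
        ring))
      (Eventually.of_forall fun z => (hs z).summable)
      (by simpa only [fun z => (hs z).tsum_eq] using hb)
      (Eventually.of_forall fun z => by
        have h4 := NormedSpace.expSeries_div_hasSum_exp (𝔸 := ℂ) (L z * Complex.I)
        rw [← Complex.exp_eq_exp_ℂ] at h4
        refine (h4.mul_left ((F z * gw z : ℝ) : ℂ)).congr_fun fun m => ?_
        push_cast
        ring)
    have h4 : ∀ m : ℕ,
        ∫ z, (Complex.I ^ m / m.factorial) * ((F z * L z ^ m * gw z : ℝ) : ℂ) = 0 := fun m => by
      rw [integral_const_mul, integral_complex_ofReal, (Her3_span hm h2 h (Her3_pow_mem L m)).2]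
      simp
    simp only [h4] at h3
    exact h3.unique hasSum_zero
  filter_upwards [h0] with z hz
  exact (mul_eq_zero.1 hz).resolve_right (gw_pos z).ne'

/-- The Gaussian measure. -/
def Her3_mu (n : ℕ) : Measure (E n) := volume.withDensity fun z => ENNReal.ofReal (gw z)

theorem Her3_meas : Measurable fun z : E n => ENNReal.ofReal (gw z) :=
  MehlerA_continuous_gw.measurable.ennreal_ofReal

theorem Her3_integral (f : E n → ℝ) : ∫ z, f z ∂Her3_mu n = GE f := by
  rw [Her3_mu, integral_withDensity_eq_integral_toReal_smul Her3_meas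
    (Eventually.of_forall fun _ => ENNReal.ofReal_lt_top), GE]
  refine integral_congr_ae (Eventually.of_forall fun z => ?_)
  simp only [ENNReal.toReal_ofReal (gw_pos z).le, smul_eq_mul, mul_comm]

theorem Her3_integrable (f : E n → ℝ) :
    Integrable f (Her3_mu n) ↔ Integrable (fun z => f z * gw z) := by
  rw [Her3_mu, integrable_withDensity_iff_integrable_smul' Her3_meas
    (Eventually.of_forall fun _ => ENNReal.ofReal_lt_top)]
  simp only [ENNReal.toReal_ofReal (gw_pos _).le, smul_eq_mul, mul_comm]

theorem Her3_memLp {F : E n → ℝ} (hF : PG F) : MemLp F 2 (Her3_mu n) :=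
  (memLp_two_iff_integrable_sq hF.cont.aestronglyMeasurable).2
    ((Her3_integrable _).2 (hF.pow 2).integrable)

theorem Her3_inner {F : E n → ℝ} (hF : PG F) (g : Lp ℝ 2 (Her3_mu n)) :
    inner ℝ ((Her3_memLp hF).toLp F) g = GE fun z => g z * F z := by
  rw [L2.inner_def, ← Her3_integral]
  refine integral_congr_ae ?_
  filter_upwards [(Her3_memLp hF).coeFn_toLp] with z hz
  rw [hz]
  simp

theorem Her3_inner' {F G : E n → ℝ} (hF : PG F) (hG : PG G) :
    inner ℝ ((Her3_memLp hF).toLp F) ((Her3_memLp hG).toLp G) = GE fun z => F z * G z := by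
  rw [Her3_inner hF, ← Her3_integral, ← Her3_integral]
  refine integral_congr_ae ?_
  filter_upwards [(Her3_memLp hG).coeFn_toLp] with z hz
  rw [hz, mul_comm]

/-- **Parseval's identity.** -/
theorem parseval {F G : E n → ℝ} (hF : PG F) (hG : PG G) :
    HasSum (fun α => co α F * co α G) (GE fun z => F z * G z) := by
  classical
  set v : MI n → Lp ℝ 2 (Her3_mu n) := fun α => (Her3_memLp (He_c1 α).pg).toLp (He α) with hv
  have ho : Orthonormal ℝ v := orthonormal_iff_ite.2 fun α β => by
    rw [hv, Her3_inner' (He_c1 α).pg (He_c1 β).pg, GE_He_mul]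
  have hc : (Submodule.span ℝ (Set.range v))ᗮ = ⊥ := by
    refine (Submodule.eq_bot_iff _).2 fun f hf => ?_
    have h1 : (f : E n → ℝ) =ᵐ[volume] 0 := by
      refine He_complete (Lp.stronglyMeasurable f).aestronglyMeasurable
        ((Her3_integrable _).1 (Lp.memLp f).integrable_sq) fun α => ?_
      rw [co, ← Her3_inner (He_c1 α).pg]
      exact Submodule.inner_right_of_mem_orthogonal
        (Submodule.subset_span (Set.mem_range_self (f := v) α)) hf
    exact Lp.eq_zero_iff_ae_eq_zero.2 ((withDensity_absolutelyContinuous _ _).ae_eq h1)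
  have h := (HilbertBasis.mkOfOrthogonalEqBot ho hc).hasSum_inner_mul_inner
    ((Her3_memLp hF).toLp F) ((Her3_memLp hG).toLp G)
  rw [Her3_inner' hF hG] at h
  refine h.congr_fun fun α => ?_
  rw [HilbertBasis.coe_mkOfOrthogonalEqBot, hv, Her3_inner' hF (He_c1 α).pg,
    Her3_inner' (He_c1 α).pg hG, co, co]
  simp only [mul_comm (G _)]

end Crest.Agent.R253
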