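import Crest.Agent.R253.Defs

/-!
# Row 253: matrix functional calculus, part 1 (frames, algebra, order, Jensen, trace and determinant)

`Fr A U a` says `A = U diag(a) Uᵀ` with `U` orthogonal.  Everything about `mf` reduces to `Fr.mf_eq`.
-/

set_option autoImplicit false
open MeasureTheory Matrix Filter Topology
open scoped BigOperators

noncomputable section
namespace Crest.Agent.R253
open Crest.Agent.R238

variable {n : ℕ}

/-- An orthogonal eigenframe of `A`. -/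
structure Fr (A U : RM n) (a : Fin n → ℝ) : Prop where
  orth : Uᵀ * U = 1
  eq : A = U * diagonal a * Uᵀ

theorem mf1_std {A : RM n} (hA : Aᵀ = A) : ∃ (U : RM n) (a : Fin n → ℝ), Fr A U a ∧
    ∀ f, mf f A = U * diagonal (fun i => f (a i)) * Uᵀ := by
  have hH := alg_herm hA
  have e : star (hH.eigenvectorUnitary : RM n) = (hH.eigenvectorUnitary : RM n)ᵀ :=
    conjTranspose_eq_transpose_of_trivial _
  refine ⟨hH.eigenvectorUnitary, hH.eigenvalues, ⟨?_, ?_⟩, fun f => ?_⟩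
  · rw [← e]
    exact Unitary.coe_star_mul_self _
  · rw [← e]
    exact hH.spectral_theorem
  · rw [← e]
    exact hH.cfc_eq f

theorem mf1_hs (A : RM n) : hs A = (Aᵀ * A).trace := by
  simp only [hs, trace, diag, Matrix.mul_apply, transpose_apply, sq]
  exact Finset.sum_comm

theorem mf1_cols (A X : RM n) :
    hs (A * X) = ∑ j, (A *ᵥ fun i => X i j) ⬝ᵥ (A *ᵥ fun i => X i j) := by
  simp only [hs, sq]
  exact Finset.sum_comm

theorem mf1_col (U A : RM n) (j : Fin n) :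
    (fun i => U i j) ⬝ᵥ (A *ᵥ fun i => U i j) = (Uᵀ * A * U) j j := by
  rw [Matrix.mul_assoc]
  rfl

theorem exists_fr {A : RM n} (hA : Aᵀ = A) : ∃ (U : RM n) (a : Fin n → ℝ), Fr A U a :=
  let ⟨U, a, h, _⟩ := mf1_std hA
  ⟨U, a, h⟩

namespace Fr
variable {A U : RM n} {a : Fin n → ℝ}

theorem orth' (h : Fr A U a) : U * Uᵀ = 1 := mul_eq_one_comm.1 h.orth

theorem symm (h : Fr A U a) : Aᵀ = A := by
  rw [h.eq, transpose_mul, transpose_mul, transpose_transpose, diagonal_transpose, Matrix.mul_assoc]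

theorem conj (h : Fr A U a) : Uᵀ * A * U = diagonal a := by
  have : Uᵀ * A * U = Uᵀ * U * diagonal a * (Uᵀ * U) := by
    rw [h.eq]
    simp only [Matrix.mul_assoc]
  rw [this, h.orth, Matrix.one_mul, Matrix.mul_one]

theorem mul_U (h : Fr A U a) : A * U = U * diagonal a := by
  rw [h.eq, Matrix.mul_assoc, h.orth, Matrix.mul_one]

theorem abs_le_one (h : Fr A U a) (i j : Fin n) : |U i j| ≤ 1 := by
  have h1 : ∑ k, U i k * U i k = 1 := by
    simpa [Matrix.mul_apply] using congrFun (congrFun h.orth' i) i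
  exact abs_le_one_iff_mul_self_le_one.2 (h1 ▸ Finset.single_le_sum (f := fun k => U i k * U i k)
    (fun k _ => mul_self_nonneg _) (Finset.mem_univ j))

theorem spectrum_eq (h : Fr A U a) : spectrum ℝ A = Set.range a := by
  rw [h.eq, ← spectrum_diagonal]
  exact spectrum.units_conjugate (u := ⟨U, Uᵀ, h.orth', h.orth⟩)

theorem mem_spectrum (h : Fr A U a) (i : Fin n) : a i ∈ spectrum ℝ A := by
  rw [h.spectrum_eq]; exact ⟨i, rfl⟩

theorem mul {B : RM n} {b : Fin n → ℝ} (h : Fr A U a) (h' : Fr B U b) :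
    Fr (A * B) U fun i => a i * b i := ⟨h.orth, by
  rw [h'.eq, ← Matrix.mul_assoc, ← Matrix.mul_assoc, h.mul_U, Matrix.mul_assoc U,
    diagonal_mul_diagonal]⟩

/-- Intertwiners of `A` and `B` intertwine all their functions. -/
theorem inter {B V X : RM n} {b : Fin n → ℝ} (h : Fr A U a) (h' : Fr B V b) (hX : A * X = X * B)
    (f : ℝ → ℝ) : U * diagonal (fun i => f (a i)) * Uᵀ * X =
      X * (V * diagonal (fun i => f (b i)) * Vᵀ) := by
  have h1 : diagonal a * (Uᵀ * X * V) = Uᵀ * X * V * diagonal b := by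
    rw [← h.conj, Matrix.mul_assoc _ V, ← h'.mul_U, Matrix.mul_assoc Uᵀ X (B * V),
      ← Matrix.mul_assoc X, ← hX]
    simp only [← Matrix.mul_assoc]
    rw [Matrix.mul_assoc _ U, h.orth', Matrix.mul_one]
  have h2 : diagonal (fun i => f (a i)) * (Uᵀ * X * V) =
      Uᵀ * X * V * diagonal fun i => f (b i) := by
    ext i j
    have := congrFun (congrFun h1 i) j
    rw [diagonal_mul, mul_diagonal, mul_comm] at this ⊢
    rcases mul_eq_mul_left_iff.1 this with e | e <;> simp [e]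
  have h3 := congrArg (fun Y => U * Y * Vᵀ) h2
  simp only [Matrix.mul_assoc, h'.orth', Matrix.mul_one] at h3 ⊢
  rwa [← Matrix.mul_assoc U Uᵀ, h.orth', Matrix.one_mul] at h3

/-- The frame formula for the functional calculus. -/
theorem mf_eq (h : Fr A U a) (f : ℝ → ℝ) : mf f A = U * diagonal (fun i => f (a i)) * Uᵀ := by
  obtain ⟨V, b, h', e⟩ := mf1_std h.symm
  simpa only [Matrix.mul_one, Matrix.one_mul, ← e] using h'.inter h (X := 1) (by simp) f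

theorem mf_fr (h : Fr A U a) (f : ℝ → ℝ) : Fr (mf f A) U (fun i => f (a i)) :=
  ⟨h.orth, h.mf_eq f⟩

theorem quad (h : Fr A U a) (v w : E n) :
    v ⬝ᵥ (A *ᵥ w) = ∑ i, a i * ((Uᵀ *ᵥ v) i * (Uᵀ *ᵥ w) i) := by
  rw [h.eq, ← mulVec_mulVec, ← mulVec_mulVec, dotProduct_mulVec, ← mulVec_transpose]
  exact Finset.sum_congr rfl fun i _ => by rw [mulVec_diagonal, mul_left_comm]

theorem norm_sq (h : Fr A U a) (v : E n) : v ⬝ᵥ v = ∑ i, (Uᵀ *ᵥ v) i ^ 2 := by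
  have h1 : Fr 1 U fun _ => 1 := ⟨h.orth, by rw [diagonal_one, Matrix.mul_one, h.orth']⟩
  simpa only [one_mulVec, one_mul, sq] using h1.quad v v

theorem trace_eq (h : Fr A U a) : A.trace = ∑ i, a i := by
  rw [h.eq, trace_mul_cycle, h.orth, Matrix.one_mul, trace_diagonal]

theorem det_eq (h : Fr A U a) : A.det = ∏ i, a i := by
  rw [h.eq, Matrix.mul_assoc, det_mul_comm, Matrix.mul_assoc, h.orth, Matrix.mul_one, det_diagonal]

theorem hs_eq (h : Fr A U a) : hs A = ∑ i, a i ^ 2 := by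
  simp only [mf1_hs, h.symm, (h.mul h).trace_eq, sq]

end Fr

/-! ### Hilbert–Schmidt norm -/

theorem hs_nonneg (A : RM n) : 0 ≤ hs A :=
  Finset.sum_nonneg fun _ _ => Finset.sum_nonneg fun _ _ => sq_nonneg _

theorem hs_eq_trace (A : RM n) : hs A = (Aᵀ * A).trace := mf1_hs A

theorem hs_transpose (A : RM n) : hs Aᵀ = hs A := Finset.sum_comm

theorem hs_neg (A : RM n) : hs (-A) = hs A := by
  simp [hs]

theorem hs_smul (c : ℝ) (A : RM n) : hs (c • A) = c ^ 2 * hs A := by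
  simp [hs, mul_pow, Finset.mul_sum]

theorem hs_sub_comm (A B : RM n) : hs (A - B) = hs (B - A) := by
  rw [← hs_neg, neg_sub]

theorem hs_add_le (A B : RM n) : hs (A + B) ≤ 2 * hs A + 2 * hs B := by
  simp only [hs, Finset.mul_sum, ← Finset.sum_add_distrib, Matrix.add_apply]
  exact Finset.sum_le_sum fun i _ => Finset.sum_le_sum fun j _ => by
    linarith [sq_nonneg (A i j - B i j)]

theorem hs_mul_le (A B : RM n) : hs (A * B) ≤ hs A * hs B := by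
  rw [← hs_transpose B]
  simp only [hs, Finset.sum_mul_sum, Matrix.mul_apply]
  exact Finset.sum_le_sum fun i _ => Finset.sum_le_sum fun j _ =>
    (Finset.sum_mul_sq_le_sq_mul_sq _ _ _).trans_eq (Finset.sum_mul_sum _ _ _ _)

theorem sq_le_hs (A : RM n) (i j : Fin n) : A i j ^ 2 ≤ hs A :=
  (Finset.single_le_sum (f := fun b => A i b ^ 2) (fun _ _ => sq_nonneg _) (Finset.mem_univ j)).trans
    (Finset.single_le_sum (f := fun a => ∑ b, A a b ^ 2)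
      (fun _ _ => Finset.sum_nonneg fun _ _ => sq_nonneg _) (Finset.mem_univ i))

theorem hs_eq_zero {A : RM n} : hs A = 0 ↔ A = 0 := by
  refine ⟨fun h => ?_, fun h => by simp [h, hs]⟩
  ext i j
  exact pow_eq_zero_iff two_ne_zero |>.1 (le_antisymm (h ▸ sq_le_hs A i j) (sq_nonneg _))

theorem hs_orth_left {U : RM n} (hU : Uᵀ * U = 1) (A : RM n) : hs (U * A) = hs A := by
  rw [mf1_hs, mf1_hs, transpose_mul, Matrix.mul_assoc, ← Matrix.mul_assoc Uᵀ, hU, Matrix.one_mul]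

theorem hs_orth_right {U : RM n} (hU : Uᵀ * U = 1) (A : RM n) : hs (A * U) = hs A := by
  rw [← hs_transpose, transpose_mul, hs_orth_left (mul_eq_one_comm.1 hU), hs_transpose]

/-- Column decomposition of `hs` along an orthonormal basis (the columns of `U`). -/
theorem hs_eq_sum_cols {U : RM n} (hU : Uᵀ * U = 1) (A : RM n) :
    hs A = ∑ j, (A *ᵥ fun i => U i j) ⬝ᵥ (A *ᵥ fun i => U i j) := by
  rw [← mf1_cols, hs_orth_right hU]

theorem mulVec_sq_le_hs (A : RM n) (v : E n) : (A *ᵥ v) ⬝ᵥ (A *ᵥ v) ≤ hs A * (v ⬝ᵥ v) := by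
  rw [hs, Finset.sum_mul]
  refine Finset.sum_le_sum fun i _ => ?_
  simp only [sq]
  exact (sq _).symm.trans_le (alg_cs (A i) v)

theorem trace_mul_sq_le (A B : RM n) : (A * B).trace ^ 2 ≤ hs A * hs B := by
  rw [← hs_transpose B]
  have := Finset.sum_mul_sq_le_sq_mul_sq Finset.univ
    (fun p : Fin n × Fin n => A p.1 p.2) fun p => B p.2 p.1
  simp only [Fintype.sum_prod_type] at this
  exact this

theorem continuous_hs : Continuous (hs : RM n → ℝ) := by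
  unfold hs
  fun_prop

theorem tendsto_iff_hs {ι : Type*} {l : Filter ι} {A : ι → RM n} {B : RM n} :
    Tendsto A l (𝓝 B) ↔ Tendsto (fun i => hs (A i - B)) l (𝓝 0) := by
  refine ⟨fun h => ?_, fun h => tendsto_pi_nhds.2 fun a => tendsto_pi_nhds.2 fun b => ?_⟩
  · have := (continuous_hs.tendsto _).comp (h.sub_const B)
    rwa [sub_self, hs_eq_zero.2 rfl] at this
  · refine tendsto_iff_norm_sub_tendsto_zero.2 (squeeze_zero (fun _ => norm_nonneg _)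
      (fun i => Real.abs_le_sqrt (sq_le_hs (A i - B) a b)) ?_)
    simpa using h.sqrt

/-! ### Algebra -/

section alg
variable {A : RM n}

theorem mf_symm (f : ℝ → ℝ) (A : RM n) : (mf f A)ᵀ = mf f A := by
  have : (mf f A).IsHermitian := cfc_predicate f A
  rwa [IsHermitian, conjTranspose_eq_transpose_of_trivial] at this

theorem mf_congr (hA : Aᵀ = A) {f g : ℝ → ℝ} (h : ∀ x ∈ spectrum ℝ A, f x = g x) :
    mf f A = mf g A :=
  have _ := hA
  cfc_congr h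

theorem mf_id (hA : Aᵀ = A) : mf (fun x => x) A = A := by
  obtain ⟨U, a, h⟩ := exists_fr hA
  rw [h.mf_eq, ← h.eq]

theorem mf_const (hA : Aᵀ = A) (c : ℝ) : mf (fun _ => c) A = c • (1 : RM n) := by
  obtain ⟨U, a, h⟩ := exists_fr hA
  rw [h.mf_eq, ← smul_one_eq_diagonal, Matrix.mul_smul, Matrix.smul_mul, Matrix.mul_one, h.orth']

theorem mf_add (hA : Aᵀ = A) (f g : ℝ → ℝ) : mf (fun x => f x + g x) A = mf f A + mf g A := by
  obtain ⟨U, a, h⟩ := exists_fr hA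
  simp only [h.mf_eq, ← diagonal_add, Matrix.mul_add, Matrix.add_mul]

theorem mf_sub (hA : Aᵀ = A) (f g : ℝ → ℝ) : mf (fun x => f x - g x) A = mf f A - mf g A := by
  obtain ⟨U, a, h⟩ := exists_fr hA
  simp only [h.mf_eq, ← diagonal_sub, Matrix.mul_sub, Matrix.sub_mul]

theorem mf_neg (hA : Aᵀ = A) (f : ℝ → ℝ) : mf (fun x => -f x) A = -mf f A := by
  obtain ⟨U, a, h⟩ := exists_fr hA
  simp only [h.mf_eq, ← diagonal_neg, Matrix.mul_neg, Matrix.neg_mul]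

theorem mf_smul (hA : Aᵀ = A) (c : ℝ) (f : ℝ → ℝ) : mf (fun x => c * f x) A = c • mf f A := by
  obtain ⟨U, a, h⟩ := exists_fr hA
  rw [h.mf_eq, h.mf_eq, ← Matrix.smul_mul, ← Matrix.mul_smul, ← diagonal_smul]
  rfl

theorem mf_mul (hA : Aᵀ = A) (f g : ℝ → ℝ) : mf (fun x => f x * g x) A = mf f A * mf g A := by
  obtain ⟨U, a, h⟩ := exists_fr hA
  rw [h.mf_eq, ((h.mf_fr f).mul (h.mf_fr g)).eq]

theorem mf_sq (hA : Aᵀ = A) (f : ℝ → ℝ) : mf (fun x => f x ^ 2) A = mf f A * mf f A := by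
  simp only [sq, mf_mul hA]

theorem mf_comm (hA : Aᵀ = A) (f g : ℝ → ℝ) : mf f A * mf g A = mf g A * mf f A := by
  simp only [← mf_mul hA, mul_comm]

theorem mf_sum (hA : Aᵀ = A) {ι : Type*} (s : Finset ι) (f : ι → ℝ → ℝ) :
    mf (fun x => ∑ i ∈ s, f i x) A = ∑ i ∈ s, mf (f i) A := by
  classical
  induction s using Finset.induction_on with
  | empty => simpa using mf_const hA 0
  | insert i s hi ih => simp only [Finset.sum_insert hi, mf_add hA, ih]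

theorem mf_comp (hA : Aᵀ = A) (f g : ℝ → ℝ) : mf f (mf g A) = mf (fun x => f (g x)) A := by
  obtain ⟨U, a, h⟩ := exists_fr hA
  rw [(h.mf_fr g).mf_eq, h.mf_eq]

theorem mf_neg_arg (hA : Aᵀ = A) (f : ℝ → ℝ) : mf f (-A) = mf (fun x => f (-x)) A := by
  rw [← mf_comp hA f fun x => -x, mf_neg hA fun x => x, mf_id hA]

theorem spectrum_mf (hA : Aᵀ = A) (f : ℝ → ℝ) : spectrum ℝ (mf f A) = f '' spectrum ℝ A := by
  obtain ⟨U, a, h⟩ := exists_fr hA
  rw [(h.mf_fr f).spectrum_eq, h.spectrum_eq, ← Set.range_comp]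
  rfl

theorem mf_inv (hA : Aᵀ = A) (hd : A.det ≠ 0) : mf (fun x => x⁻¹) A = A⁻¹ := by
  obtain ⟨U, a, h⟩ := exists_fr hA
  refine (Matrix.inv_eq_left_inv ?_).symm
  have h1 := mf_mul hA (fun x => x⁻¹) fun x => x
  rw [mf_id hA] at h1
  rw [← h1, mf_congr hA (g := fun _ => 1), mf_const hA, one_smul]
  rw [h.spectrum_eq]
  rintro _ ⟨i, rfl⟩
  exact inv_mul_cancel₀ (Finset.prod_ne_zero_iff.1 (h.det_eq ▸ hd) i (Finset.mem_univ _))

theorem mf_conj (hA : Aᵀ = A) {O : RM n} (hO : Oᵀ * O = 1) (f : ℝ → ℝ) :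
    mf f (O * A * Oᵀ) = O * mf f A * Oᵀ := by
  obtain ⟨U, a, h⟩ := exists_fr hA
  have h1 : Fr (O * A * Oᵀ) (O * U) a := ⟨by
    rw [transpose_mul, Matrix.mul_assoc, ← Matrix.mul_assoc Oᵀ, hO, Matrix.one_mul, h.orth], by
    rw [h.eq]
    simp only [transpose_mul, Matrix.mul_assoc]⟩
  rw [h1.mf_eq]
  simp only [h.mf_eq, transpose_mul, Matrix.mul_assoc]

theorem mf_diagonal (a : Fin n → ℝ) (f : ℝ → ℝ) :
    mf f (diagonal a : RM n) = diagonal fun i => f (a i) := by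
  simpa using (⟨by simp, by simp⟩ : Fr (diagonal a) 1 a).mf_eq f

/-- A matrix commuting with `A` commutes with `f(A)`. -/
theorem mf_commute (hA : Aᵀ = A) {X : RM n} (h : A * X = X * A) (f : ℝ → ℝ) :
    mf f A * X = X * mf f A := by
  obtain ⟨U, a, F⟩ := exists_fr hA
  simpa only [← F.mf_eq] using F.inter F h f

/-- On an eigenvector, `f(A)` acts by `f` of the eigenvalue. -/
theorem mf_mulVec_eig (hA : Aᵀ = A) {v : E n} {t : ℝ} (h : A *ᵥ v = t • v) (f : ℝ → ℝ) :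
    mf f A *ᵥ v = f t • v := by
  obtain ⟨U, a, F⟩ := exists_fr hA
  have h1 : diagonal a *ᵥ (Uᵀ *ᵥ v) = t • (Uᵀ *ᵥ v) := by
    rw [← mulVec_smul, ← h, mulVec_mulVec, mulVec_mulVec, ← F.conj, Matrix.mul_assoc, F.orth',
      Matrix.mul_one]
  have h2 : (diagonal fun i => f (a i)) *ᵥ (Uᵀ *ᵥ v) = f t • (Uᵀ *ᵥ v) := by
    ext i
    have := congrFun h1 i
    rw [mulVec_diagonal] at this ⊢
    rcases mul_eq_mul_right_iff.1 this with e | e <;> simp [e]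
  rw [F.mf_eq, ← mulVec_mulVec, ← mulVec_mulVec, h2, mulVec_smul, mulVec_mulVec, F.orth', one_mulVec]

/-! ### Order -/

theorem mf_quad_le (hA : Aᵀ = A) {f g : ℝ → ℝ} (h : ∀ x ∈ spectrum ℝ A, f x ≤ g x) (v : E n) :
    v ⬝ᵥ (mf f A *ᵥ v) ≤ v ⬝ᵥ (mf g A *ᵥ v) := by
  obtain ⟨U, a, F⟩ := exists_fr hA
  rw [(F.mf_fr f).quad, (F.mf_fr g).quad]
  exact Finset.sum_le_sum fun i _ =>
    mul_le_mul_of_nonneg_right (h _ (F.mem_spectrum i)) (mul_self_nonneg _)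

theorem mf_quad_le_const (hA : Aᵀ = A) {f : ℝ → ℝ} {C : ℝ} (h : ∀ x ∈ spectrum ℝ A, f x ≤ C)
    (v : E n) : v ⬝ᵥ (mf f A *ᵥ v) ≤ C * (v ⬝ᵥ v) := by
  simpa [mf_const hA, smul_mulVec] using mf_quad_le hA (g := fun _ => C) h v

theorem const_le_mf_quad (hA : Aᵀ = A) {f : ℝ → ℝ} {C : ℝ} (h : ∀ x ∈ spectrum ℝ A, C ≤ f x)
    (v : E n) : C * (v ⬝ᵥ v) ≤ v ⬝ᵥ (mf f A *ᵥ v) := by
  simpa [mf_const hA, smul_mulVec] using mf_quad_le hA (f := fun _ => C) h v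

theorem mf_posSemidef (hA : Aᵀ = A) {f : ℝ → ℝ} (h : ∀ x ∈ spectrum ℝ A, 0 ≤ f x) :
    (mf f A).PosSemidef :=
  psd_of_low (mf_symm f A) le_rfl (const_le_mf_quad hA h)

theorem mf_posDef (hA : Aᵀ = A) {f : ℝ → ℝ} (h : ∀ x ∈ spectrum ℝ A, 0 < f x) :
    (mf f A).PosDef := by
  have hH := alg_herm (mf_symm f A)
  refine hH.posDef_iff_eigenvalues_pos.2 fun i => ?_
  obtain ⟨x, hx, e⟩ := spectrum_mf hA f ▸ hH.eigenvalues_mem_spectrum_real i
  exact e ▸ h x hx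

theorem mf_dot_mf (hA : Aᵀ = A) (f g : ℝ → ℝ) (v w : E n) :
    (mf f A *ᵥ v) ⬝ᵥ (mf g A *ᵥ w) = v ⬝ᵥ (mf (fun x => f x * g x) A *ᵥ w) := by
  rw [mf_mul hA, ← mulVec_mulVec, dotProduct_mulVec v, ← mulVec_transpose, mf_symm]

theorem mf_mulVec_sq (hA : Aᵀ = A) (f : ℝ → ℝ) (v : E n) :
    (mf f A *ᵥ v) ⬝ᵥ (mf f A *ᵥ v) = v ⬝ᵥ (mf (fun x => f x ^ 2) A *ᵥ v) := by
  simp only [mf_dot_mf hA, sq]

theorem mf_mulVec_sq_le (hA : Aᵀ = A) {f : ℝ → ℝ} {L : ℝ} (h : ∀ x ∈ spectrum ℝ A, |f x| ≤ L)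
    (v : E n) : (mf f A *ᵥ v) ⬝ᵥ (mf f A *ᵥ v) ≤ L ^ 2 * (v ⬝ᵥ v) := by
  rw [mf_mulVec_sq hA]
  exact mf_quad_le_const hA (fun x hx => sq_le_sq' (abs_le.1 (h x hx)).1 (abs_le.1 (h x hx)).2) v

/-- `|f| ≤ |g|` on the spectrum gives `|f(A) v| ≤ |g(A) v|`. -/
theorem mf_mulVec_sq_mono (hA : Aᵀ = A) {f g : ℝ → ℝ} (h : ∀ x ∈ spectrum ℝ A, f x ^ 2 ≤ g x ^ 2)
    (v : E n) : (mf f A *ᵥ v) ⬝ᵥ (mf f A *ᵥ v) ≤ (mf g A *ᵥ v) ⬝ᵥ (mf g A *ᵥ v) := by
  rw [mf_mulVec_sq hA, mf_mulVec_sq hA]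
  exact mf_quad_le hA h v

theorem abs_mf_apply_le (hA : Aᵀ = A) {f : ℝ → ℝ} {L : ℝ} (h : ∀ x ∈ spectrum ℝ A, |f x| ≤ L)
    (i j : Fin n) : |mf f A i j| ≤ L :=
  abs_entry_le (mf_symm f A) (fun v => abs_le.2 ⟨by
    simpa using const_le_mf_quad hA (fun x hx => (abs_le.1 (h x hx)).1) v,
    mf_quad_le_const hA (fun x hx => (abs_le.1 (h x hx)).2) v⟩) i j

theorem hs_mf_le (hA : Aᵀ = A) {f g : ℝ → ℝ} (h : ∀ x ∈ spectrum ℝ A, f x ^ 2 ≤ g x ^ 2) :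
    hs (mf f A) ≤ hs (mf g A) := by
  obtain ⟨U, a, F⟩ := exists_fr hA
  rw [(F.mf_fr f).hs_eq, (F.mf_fr g).hs_eq]
  exact Finset.sum_le_sum fun i _ => h _ (F.mem_spectrum i)

theorem hs_mf_mul_le (hA : Aᵀ = A) {f : ℝ → ℝ} {L : ℝ} (h : ∀ x ∈ spectrum ℝ A, |f x| ≤ L)
    (X : RM n) : hs (mf f A * X) ≤ L ^ 2 * hs X := by
  have h1 := mf1_cols 1 X
  simp only [Matrix.one_mul, one_mulVec] at h1
  rw [mf1_cols, h1, Finset.mul_sum]
  exact Finset.sum_le_sum fun j _ => mf_mulVec_sq_le hA h _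

theorem trace_mf_le (hA : Aᵀ = A) {f g : ℝ → ℝ} (h : ∀ x ∈ spectrum ℝ A, f x ≤ g x) :
    (mf f A).trace ≤ (mf g A).trace := by
  obtain ⟨U, a, F⟩ := exists_fr hA
  rw [(F.mf_fr f).trace_eq, (F.mf_fr g).trace_eq]
  exact Finset.sum_le_sum fun i _ => h _ (F.mem_spectrum i)

theorem sq_le_hs_of_mem (hA : Aᵀ = A) {x : ℝ} (hx : x ∈ spectrum ℝ A) : x ^ 2 ≤ hs A := by
  obtain ⟨U, a, F⟩ := exists_fr hA
  obtain ⟨i, rfl⟩ := F.spectrum_eq ▸ hx
  exact F.hs_eq ▸ Finset.single_le_sum (f := fun i => a i ^ 2) (fun _ _ => sq_nonneg _)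
    (Finset.mem_univ i)

theorem mf1_eig (hA : Aᵀ = A) {x : ℝ} (hx : x ∈ spectrum ℝ A) :
    ∃ v : E n, v ⬝ᵥ v = 1 ∧ v ⬝ᵥ (A *ᵥ v) = x := by
  obtain ⟨U, a, F⟩ := exists_fr hA
  obtain ⟨i, rfl⟩ := F.spectrum_eq ▸ hx
  exact ⟨fun k => U k i, (congrFun (congrFun F.orth i) i).trans (one_apply_eq i), by
    rw [mf1_col, F.conj, diagonal_apply_eq]⟩

theorem le_of_mem_spectrum (hA : Aᵀ = A) {c : ℝ} (h : ∀ v : E n, c * (v ⬝ᵥ v) ≤ v ⬝ᵥ (A *ᵥ v))
    {x : ℝ} (hx : x ∈ spectrum ℝ A) : c ≤ x := by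
  obtain ⟨v, h1, h2⟩ := mf1_eig hA hx
  simpa only [h1, h2, mul_one] using h v

theorem ge_of_mem_spectrum (hA : Aᵀ = A) {c : ℝ} (h : ∀ v : E n, v ⬝ᵥ (A *ᵥ v) ≤ c * (v ⬝ᵥ v))
    {x : ℝ} (hx : x ∈ spectrum ℝ A) : x ≤ c := by
  obtain ⟨v, h1, h2⟩ := mf1_eig hA hx
  simpa only [h1, h2, mul_one] using h v

theorem abs_le_of_mem_spectrum (hA : Aᵀ = A) {K : ℝ} (h : ∀ i j, |A i j| ≤ K)
    {x : ℝ} (hx : x ∈ spectrum ℝ A) : |x| ≤ n * K := by
  obtain ⟨v, h1, h2⟩ := mf1_eig hA hx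
  simpa only [h1, h2, mul_one] using abs_quad_le h v

theorem pos_of_mem_spectrum (hA : A.PosDef) {x : ℝ} (hx : x ∈ spectrum ℝ A) : 0 < x := by
  obtain ⟨v, h1, h2⟩ := mf1_eig (psd_transpose hA.posSemidef) hx
  exact h2 ▸ hA.dotProduct_mulVec_pos (x := v) fun h0 => by simp [h0] at h1

theorem Ell_symm {c K : ℝ} {τ : Mat n} (h : Ell c K τ) (z : E n) : (evM z τ)ᵀ = evM z τ := by
  ext a b
  exact congrArg (ev z) (congrFun (congrFun h.symm a) b)

theorem Ell_spectrum {c K : ℝ} {τ : Mat n} (h : Ell c K τ) (z : E n) :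
    spectrum ℝ (evM z τ) ⊆ Set.Icc c (n * K) := fun _ hx =>
  ⟨le_of_mem_spectrum (Ell_symm h z) (h.low z) hx,
    (le_abs_self _).trans (abs_le_of_mem_spectrum (Ell_symm h z) (h.bd z) hx)⟩

/-! ### Jensen -/

theorem mf_jensen_concave (hA : Aᵀ = A) {f : ℝ → ℝ} {s : Set ℝ} (hf : ConcaveOn ℝ s f)
    (hs : spectrum ℝ A ⊆ s) {v : E n} (hv : v ⬝ᵥ v = 1) :
    v ⬝ᵥ (mf f A *ᵥ v) ≤ f (v ⬝ᵥ (A *ᵥ v)) := by
  obtain ⟨U, a, F⟩ := exists_fr hA
  rw [(F.mf_fr f).quad, F.quad]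
  simpa only [smul_eq_mul, sq, mul_comm] using hf.le_map_sum (t := Finset.univ)
    (w := fun i => (Uᵀ *ᵥ v) i ^ 2) (p := a) (fun _ _ => sq_nonneg _) (by rw [← F.norm_sq, hv])
    fun i _ => hs (F.mem_spectrum i)

theorem mf_jensen_convex (hA : Aᵀ = A) {f : ℝ → ℝ} {s : Set ℝ} (hf : ConvexOn ℝ s f)
    (hs : spectrum ℝ A ⊆ s) {v : E n} (hv : v ⬝ᵥ v = 1) :
    f (v ⬝ᵥ (A *ᵥ v)) ≤ v ⬝ᵥ (mf f A *ᵥ v) := by
  obtain ⟨U, a, F⟩ := exists_fr hA
  rw [(F.mf_fr f).quad, F.quad]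
  simpa only [smul_eq_mul, sq, mul_comm] using hf.map_sum_le (t := Finset.univ)
    (w := fun i => (Uᵀ *ᵥ v) i ^ 2) (p := a) (fun _ _ => sq_nonneg _) (by rw [← F.norm_sq, hv])
    fun i _ => hs (F.mem_spectrum i)

theorem quad_mem_of_convex (hA : Aᵀ = A) {s : Set ℝ} (hc : Convex ℝ s)
    (hs : spectrum ℝ A ⊆ s) {v : E n} (hv : v ⬝ᵥ v = 1) : v ⬝ᵥ (A *ᵥ v) ∈ s := by
  obtain ⟨U, a, F⟩ := exists_fr hA
  rw [F.quad]
  simpa only [smul_eq_mul, sq, mul_comm] using hc.sum_mem (t := Finset.univ)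
    (w := fun i => (Uᵀ *ᵥ v) i ^ 2) (z := a) (fun _ _ => sq_nonneg _) (by rw [← F.norm_sq, hv])
    fun i _ => hs (F.mem_spectrum i)

/-! ### Trace and determinant -/

theorem log_det_eq (hA : A.PosDef) : Real.log A.det = (mf Real.log A).trace := by
  obtain ⟨U, a, F⟩ := exists_fr (psd_transpose hA.posSemidef)
  rw [F.det_eq, (F.mf_fr _).trace_eq,
    Real.log_prod fun i _ => (pos_of_mem_spectrum hA (F.mem_spectrum i)).ne']

theorem log_det_mf (hA : Aᵀ = A) {f : ℝ → ℝ} (h : ∀ x ∈ spectrum ℝ A, 0 < f x) :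
    Real.log (mf f A).det = (mf (fun x => Real.log (f x)) A).trace := by
  rw [log_det_eq (mf_posDef hA h), mf_comp hA]

/-- The trace along an orthonormal basis (the columns of `U`). -/
theorem trace_eq_sum_cols {U : RM n} (hU : Uᵀ * U = 1) (A : RM n) :
    A.trace = ∑ j, (fun i => U i j) ⬝ᵥ (A *ᵥ fun i => U i j) := by
  have : A.trace = (Uᵀ * A * U).trace := by
    rw [trace_mul_cycle, mul_eq_one_comm.1 hU, Matrix.one_mul]
  simp only [this, mf1_col]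
  rfl

/-- Hadamard's inequality along an orthonormal basis. -/
theorem log_det_le_sum_cols (hA : A.PosDef) {U : RM n} (hU : Uᵀ * U = 1) :
    Real.log A.det ≤ ∑ j, Real.log ((fun i => U i j) ⬝ᵥ (A *ᵥ fun i => U i j)) := by
  rw [log_det_eq hA, trace_eq_sum_cols hU]
  exact Finset.sum_le_sum fun j _ => mf_jensen_concave (psd_transpose hA.posSemidef)
    strictConcaveOn_log_Ioi.concaveOn (fun _ hx => pos_of_mem_spectrum hA hx)
    ((congrFun (congrFun hU j) j).trans (one_apply_eq j))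

theorem log_det_le_trace {P Q : RM n} (hP : P.PosDef) (hQ : Q.PosDef) :
    Real.log Q.det ≤ (P * Q).trace - n - Real.log P.det := by
  have := logdet_le hP.inv hQ (mul_nonsing_inv P hP.det_pos.ne'.isUnit)
  rw [det_nonsing_inv, Ring.inverse_eq_inv', Real.log_inv] at this
  linarith

/-! ### Taylor -/

theorem hs_mf_taylor (hA : Aᵀ = A) {f : ℝ → ℝ} {f0 f1 f2 C : ℝ}
    (h : ∀ x ∈ spectrum ℝ A, |f x - f0 - f1 * x - f2 * x ^ 2| ≤ C * |x| ^ 3) :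
    hs (mf f A - f0 • (1 : RM n) - f1 • A - f2 • (A * A)) ≤ C ^ 2 * hs A ^ 3 := by
  obtain ⟨U, a, F⟩ := exists_fr hA
  have e : mf f A - f0 • (1 : RM n) - f1 • A - f2 • (A * A) =
      mf (fun x => f x - f0 - f1 * x - f2 * x ^ 2) A := by
    rw [mf_sub hA, mf_sub hA, mf_sub hA f, mf_const hA, mf_smul hA f1 fun x => x,
      mf_smul hA f2 fun x => x ^ 2, mf_sq hA fun x => x, mf_id hA]
  rw [e, (F.mf_fr _).hs_eq, show C ^ 2 * hs A ^ 3 = C ^ 2 * hs A ^ 2 * hs A by ring]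
  nth_rw 2 [F.hs_eq]
  rw [Finset.mul_sum]
  refine Finset.sum_le_sum fun i _ => ?_
  have h1 := pow_le_pow_left₀ (abs_nonneg _) (h _ (F.mem_spectrum i)) 2
  have h2 := pow_le_pow_left₀ (sq_nonneg _) (sq_le_hs_of_mem hA (F.mem_spectrum i)) 2
  rw [sq_abs, mul_pow, ← pow_mul, mul_comm 3, pow_mul, sq_abs] at h1
  have h3 := mul_le_mul_of_nonneg_left h2 (mul_nonneg (sq_nonneg C) (sq_nonneg (a i)))
  linarith

end alg

end Crest.Agent.R253
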