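import Crest.Agent.R253.MF3
import Crest.Agent.Lib.Brouwer.Basic

/-!
# Row 253, PDE part: a zero of a matrix valued map with inward boundary behaviour
-/

set_option autoImplicit false
open MeasureTheory Matrix Filter Topology
open scoped ContDiff BigOperators

noncomputable section
namespace Crest.Agent.R253
open Crest.Agent.R238

variable {n : ℕ}

/-- Symmetric matrices with `-1 ≤ X ≤ 1`. -/
def Box (n : ℕ) : Set (RM n) := {X | Xᵀ = X ∧ ∀ v : E n, |v ⬝ᵥ (X *ᵥ v)| ≤ v ⬝ᵥ v}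

/-- Closed, and entries are bounded by `1` (`abs_entry_le`); `RM n` is `Fin n → Fin n → ℝ`. -/
theorem isCompact_Box : IsCompact (Box n) := by
  have h1 : IsCompact (Set.pi Set.univ fun _ : Fin n => Set.pi Set.univ fun _ : Fin n =>
      Set.Icc (-1 : ℝ) 1) := isCompact_univ_pi fun _ => isCompact_univ_pi fun _ => isCompact_Icc
  have h2 : IsClosed (Box n) := by
    have e : Box n = {X : RM n | Xᵀ = X} ∩ ⋂ v : E n, {X : RM n | |v ⬝ᵥ (X *ᵥ v)| ≤ v ⬝ᵥ v} := by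
      ext X
      simp [Box]
    rw [e]
    refine (isClosed_eq continuous_id.matrix_transpose continuous_id).inter
      (isClosed_iInter fun v => isClosed_le ?_ continuous_const)
    exact (continuous_const.dotProduct (continuous_id.matrix_mulVec continuous_const)).abs
  refine IsCompact.of_isClosed_subset (s := (Set.pi Set.univ fun _ : Fin n => Set.pi Set.univ
    fun _ : Fin n => Set.Icc (-1 : ℝ) 1 : Set (Fin n → Fin n → ℝ))) h1 h2 ?_
  intro X hX a _ b _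
  exact abs_le.1 (abs_entry_le (Λ := 1) hX.1 (fun v => by rw [one_mul]; exact hX.2 v) a b)

instance : CompactSpace (Box n) := isCompact_iff_compactSpace.1 isCompact_Box

theorem pbrou_eig {A : RM n} (hA : Aᵀ = A) {x : ℝ} (hx : x ∈ spectrum ℝ A) :
    ∃ v : E n, v ⬝ᵥ v = 1 ∧ A *ᵥ v = x • v := by
  obtain ⟨U, a, h⟩ := exists_fr hA
  rw [h.spectrum_eq] at hx
  obtain ⟨j, rfl⟩ := hx
  refine ⟨fun i => U i j, ?_, ?_⟩
  · have h1 := congrFun (congrFun h.orth j) j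
    rw [Matrix.mul_apply, Matrix.one_apply_eq] at h1
    simpa [dotProduct] using h1
  · funext i
    have h1 := congrFun (congrFun h.mul_U i) j
    rw [Matrix.mul_diagonal, Matrix.mul_apply] at h1
    simp only [Matrix.mulVec, dotProduct, Pi.smul_apply, smul_eq_mul]
    rw [h1, mul_comm]

/-- The clamp. -/
def pbrouCl (t : ℝ) : ℝ := max (-1) (min t 1)

theorem pbrouCl_cont : Continuous pbrouCl :=
  continuous_const.max (continuous_id.min continuous_const)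

theorem pbrouCl_le (t : ℝ) : pbrouCl t ≤ 1 := max_le (by norm_num) (min_le_right _ _)

theorem pbrouCl_ge (t : ℝ) : -1 ≤ pbrouCl t := le_max_left _ _

theorem pbrou_mem {A : RM n} (hA : Aᵀ = A) : mf pbrouCl A ∈ Box n := by
  refine ⟨mf_symm _ _, fun v => abs_le.2 ⟨?_, ?_⟩⟩
  · have := const_le_mf_quad hA (f := pbrouCl) (C := -1) (fun x _ => pbrouCl_ge x) v
    linarith
  · have := mf_quad_le_const hA (f := pbrouCl) (C := 1) (fun x _ => pbrouCl_le x) v
    linarith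

/-- The symmetrisation. -/
def pbrouS (Y : Fin n → Fin n → ℝ) : RM n := Matrix.of fun a b => (Y a b + Y b a) / 2

theorem pbrouS_symm (Y : Fin n → Fin n → ℝ) : (pbrouS Y)ᵀ = pbrouS Y := by
  ext a b
  simp only [pbrouS, Matrix.transpose_apply, Matrix.of_apply]
  ring

theorem pbrouS_cont : Continuous (pbrouS : (Fin n → Fin n → ℝ) → RM n) := by
  refine continuous_matrix fun a b => ?_
  simp only [pbrouS, Matrix.of_apply]
  fun_prop

/-- Let `cl t = max (-1) (min t 1)`, `s Y = (1/2) • (Y + Yᵀ)`, `R Y = mf cl (s Y) ∈ Box n`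
(`continuous_mf`, `mf_quad_le_const`, `const_le_mf_quad`). The map `Y ↦ R Y - F (R Y)` is continuous and
bounded on `Fin n → Fin n → ℝ`; a fixed point `Y` (`exists_fixed_of_bounded`) is symmetric and
`Y - mf cl Y = -F (mf cl Y)`. For a frame `Fr Y U a` and the column `v` of `U` with eigenvalue `a i > 1`:
`mf cl Y v = v` (`mf_mulVec_eig`) and `v ⬝ (Y - mf cl Y) v = a i - 1 > 0`, contradiction; similarly for
`a i < -1`. So `mf cl Y = Y` (`mf_congr`, `mf_id`). -/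
theorem exists_zero (F : Box n → RM n) (hF : Continuous F) (hs : ∀ X, (F X)ᵀ = F X)
    (hp : ∀ (X : Box n) (v : E n), v ⬝ᵥ v = 1 → X.1 *ᵥ v = v → 0 < v ⬝ᵥ (F X *ᵥ v))
    (hm : ∀ (X : Box n) (v : E n), v ⬝ᵥ v = 1 → X.1 *ᵥ v = -v → v ⬝ᵥ (F X *ᵥ v) < 0) :
    ∃ X, F X = 0 := by
  let R : (Fin n → Fin n → ℝ) → Box n := fun Y => ⟨mf pbrouCl (pbrouS Y), pbrou_mem (pbrouS_symm Y)⟩
  have hR : Continuous R :=
    (continuous_mf (s := Set.univ) pbrouS_symm pbrouS_cont (fun _ => Set.subset_univ _)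
      pbrouCl_cont.continuousOn).subtype_mk _
  let Φ : Box n → (Fin n → Fin n → ℝ) := fun X a b => X.1 a b - F X a b
  have hΦ : Continuous Φ := continuous_pi fun a => continuous_pi fun b =>
    (continuous_subtype_val.matrix_elem a b).sub (hF.matrix_elem a b)
  obtain ⟨C, hC⟩ := isCompact_univ.exists_bound_of_continuousOn hΦ.continuousOn
  obtain ⟨Y, hY⟩ := Crest.Agent.Lib.Brouwer.exists_fixed_of_bounded (fun Y => Φ (R Y)) (hΦ.comp hR) C
    (fun Y => hC _ (Set.mem_univ _))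
  have hYab : ∀ a b, Y a b = (R Y).1 a b - F (R Y) a b := fun a b =>
    (congrFun (congrFun hY a) b).symm
  have hsym : ∀ a b, Y b a = Y a b := by
    intro a b
    have h1 : (R Y).1 b a = (R Y).1 a b := congrFun (congrFun (R Y).2.1 a) b
    have h2 : F (R Y) b a = F (R Y) a b := congrFun (congrFun (hs (R Y)) a) b
    rw [hYab a b, hYab b a, h1, h2]
  have hA := pbrouS_symm Y
  have hRA : (R Y).1 = mf pbrouCl (pbrouS Y) := rfl
  have hFA : F (R Y) = (R Y).1 - pbrouS Y := by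
    ext a b
    simp only [pbrouS, Matrix.sub_apply, Matrix.of_apply]
    rw [hsym a b, hYab a b]
    ring
  have hq : ∀ (v : E n) (x : ℝ), v ⬝ᵥ v = 1 → pbrouS Y *ᵥ v = x • v →
      v ⬝ᵥ (F (R Y) *ᵥ v) = pbrouCl x - x := by
    intro v x hv hx
    rw [hFA, Matrix.sub_mulVec, hRA, mf_mulVec_eig hA hx, hx, dotProduct_sub, dotProduct_smul,
      dotProduct_smul, hv, smul_eq_mul, smul_eq_mul, mul_one, mul_one]
  have hcl : ∀ x ∈ spectrum ℝ (pbrouS Y), pbrouCl x = x := by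
    intro x hx
    obtain ⟨v, hv, hxv⟩ := pbrou_eig hA hx
    have h1 : x ≤ 1 := by
      by_contra hlt
      push Not at hlt
      have e : pbrouCl x = 1 := by
        rw [pbrouCl, min_eq_right hlt.le, max_eq_right (by norm_num)]
      have h2 := hp (R Y) v hv (by rw [hRA, mf_mulVec_eig hA hxv, e, one_smul])
      rw [hq v x hv hxv, e] at h2
      linarith
    have h2 : -1 ≤ x := by
      by_contra hlt
      push Not at hlt
      have e : pbrouCl x = -1 := by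
        rw [pbrouCl, min_eq_left h1, max_eq_left hlt.le]
      have h2 := hm (R Y) v hv (by rw [hRA, mf_mulVec_eig hA hxv, e, neg_smul, one_smul])
      rw [hq v x hv hxv, e] at h2
      linarith
    rw [pbrouCl, min_eq_left h1, max_eq_right h2]
  refine ⟨R Y, ?_⟩
  rw [hFA, hRA, mf_congr hA (g := fun x => x) hcl, mf_id hA, sub_self]

/-- The position matrix, with spectrum in `[ε, ε⁻¹]`. -/
def Bm (ε : ℝ) (X : RM n) : RM n := ((ε⁻¹ + ε) / 2) • (1 : RM n) - ((ε⁻¹ - ε) / 2) • X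

theorem pbrou_Bm_quad (ε : ℝ) (X : RM n) (v : E n) : v ⬝ᵥ (Bm ε X *ᵥ v) =
    (ε⁻¹ + ε) / 2 * (v ⬝ᵥ v) - (ε⁻¹ - ε) / 2 * (v ⬝ᵥ (X *ᵥ v)) := by
  rw [Bm, Matrix.sub_mulVec, Matrix.smul_mulVec, Matrix.smul_mulVec, Matrix.one_mulVec,
    dotProduct_sub, dotProduct_smul, dotProduct_smul, smul_eq_mul, smul_eq_mul]

theorem continuous_Bm (ε : ℝ) : Continuous fun X : Box n => Bm ε X.1 := by
  unfold Bm
  fun_prop

theorem Bm_symm (ε : ℝ) (X : Box n) : (Bm ε X.1)ᵀ = Bm ε X.1 := by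
  rw [Bm, Matrix.transpose_sub, Matrix.transpose_smul, Matrix.transpose_smul, Matrix.transpose_one,
    X.2.1]

theorem Bm_low {ε : ℝ} (h0 : 0 < ε) (h1 : ε ≤ 1) (X : Box n) (v : E n) :
    ε * (v ⬝ᵥ v) ≤ v ⬝ᵥ (Bm ε X.1 *ᵥ v) := by
  have h2 : ε ≤ ε⁻¹ := h1.trans (one_le_inv₀ h0 |>.2 h1)
  have h3 := (abs_le.1 (X.2.2 v)).2
  rw [pbrou_Bm_quad]
  nlinarith [mul_le_mul_of_nonneg_left h3 (sub_nonneg.2 h2)]

theorem Bm_posDef {ε : ℝ} (h0 : 0 < ε) (h1 : ε ≤ 1) (X : Box n) : (Bm ε X.1).PosDef := by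
  refine Matrix.PosDef.of_dotProduct_mulVec_pos (alg_herm (Bm_symm ε X)) fun v hv => ?_
  have h2 := Bm_low h0 h1 X v
  have h3 : 0 < v ⬝ᵥ v := lt_of_le_of_ne (dot_self_nonneg v) fun h =>
    hv (dotProduct_self_eq_zero.1 h.symm)
  have h4 := mul_pos h0 h3
  simpa using h4.trans_le h2

theorem Bm_abs_le {ε : ℝ} (h0 : 0 < ε) (h1 : ε ≤ 1) (X : Box n) (a b : Fin n) :
    |Bm ε X.1 a b| ≤ ε⁻¹ := by
  have h2 : ε ≤ ε⁻¹ := h1.trans (one_le_inv₀ h0 |>.2 h1)
  refine abs_entry_le (Bm_symm ε X) (fun v => abs_le.2 ⟨?_, ?_⟩) a b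
  · have h3 := Bm_low h0 h1 X v
    have h4 := mul_nonneg h0.le (dot_self_nonneg v)
    have h5 := mul_nonneg (inv_pos.2 h0).le (dot_self_nonneg v)
    linarith
  · have h3 := (abs_le.1 (X.2.2 v)).1
    rw [pbrou_Bm_quad]
    nlinarith [mul_le_mul_of_nonneg_left h3 (sub_nonneg.2 h2)]

/-- `Bm_low` and Cauchy–Schwarz. -/
theorem Bm_sq_le {ε : ℝ} (h0 : 0 < ε) (h1 : ε ≤ 1) (X : Box n) (x : E n) :
    ε ^ 2 * (x ⬝ᵥ x) ≤ (Bm ε X.1 *ᵥ x) ⬝ᵥ (Bm ε X.1 *ᵥ x) := by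
  have h2 := Bm_low h0 h1 X x
  have h3 := sq_quad_le (Bm_symm ε X) x
  rcases (dot_self_nonneg x).eq_or_lt with h | h
  · rw [← h, mul_zero]
    exact dot_self_nonneg _
  · have h4 : (ε * (x ⬝ᵥ x)) ^ 2 ≤ (x ⬝ᵥ (Bm ε X.1 *ᵥ x)) ^ 2 :=
      pow_le_pow_left₀ (mul_pos h0 h).le h2 2
    refine le_of_mul_le_mul_left ?_ h
    nlinarith

theorem Bm_eig_pos {ε : ℝ} {X : RM n} {v : E n} (h : X *ᵥ v = v) : Bm ε X *ᵥ v = ε • v := by
  rw [Bm, Matrix.sub_mulVec, Matrix.smul_mulVec, Matrix.smul_mulVec, Matrix.one_mulVec, h,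
    ← sub_smul]
  congr 1
  ring

theorem Bm_eig_neg {ε : ℝ} {X : RM n} {v : E n} (h : X *ᵥ v = -v) : Bm ε X *ᵥ v = ε⁻¹ • v := by
  rw [Bm, Matrix.sub_mulVec, Matrix.smul_mulVec, Matrix.smul_mulVec, Matrix.one_mulVec, h,
    smul_neg, sub_neg_eq_add, ← add_smul]
  congr 1
  ring

end Crest.Agent.R253
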