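import Crest.Agent.R253.PInv
import Crest.Agent.R238.Pot

/-!
# Row 253, PDE part: the target potentials

`W0 = Q + θ(A - Q)` is a smooth maximum of `A = U(Bx) + ε|x|²/2` and `Q = |x|²/2 - C`.
-/

set_option autoImplicit false
open MeasureTheory Matrix Filter Topology
open scoped ContDiff BigOperators

noncomputable section
namespace Crest.Agent.R253
open Crest.Agent.R238

variable {n : ℕ}

/-- A smooth convex function with `th t = max t 0` for `|t| ≥ 1`. -/
def th (t : ℝ) : ℝ := pot_om (t + (1 - pot_om 1))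

theorem th_sm : ContDiff ℝ ∞ th := pot_om_sm.comp (contDiff_id.add contDiff_const)

theorem pcut_om_le : pot_om 1 ≤ 1 := by
  have h := intervalIntegral.norm_integral_le_of_norm_le_const (a := (0 : ℝ)) (b := 1) (C := 1)
    (f := Real.smoothTransition) fun x _ => by
      rw [Real.norm_eq_abs, abs_of_nonneg (Real.smoothTransition.nonneg x)]
      exact Real.smoothTransition.le_one x
  rw [Real.norm_eq_abs] at h
  have := (le_abs_self _).trans h
  simpa [pot_om] using this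

theorem pcut_hasDerivAt (t : ℝ) :
    HasDerivAt th (Real.smoothTransition (t + (1 - pot_om 1))) t :=
  (pot_om_deriv (t + (1 - pot_om 1))).comp_add_const t _

theorem pcut_deriv : deriv th = fun t => Real.smoothTransition (t + (1 - pot_om 1)) :=
  funext fun t => (pcut_hasDerivAt t).deriv

/-- `0 ≤ pot_om 1 ≤ 1`; `pot_om_zero`, `pot_om_one`, `pot_om_deriv`; `th t - t` is antitone and vanishes for
`t ≥ 1`; `deriv th` is monotone (`Real.smoothTransition.monotone`), `Monotone.deriv_nonneg`. -/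
theorem th_facts : (∀ t, t ≤ -1 → th t = 0) ∧ (∀ t, 1 ≤ t → th t = t) ∧ (∀ t, t ≤ th t) ∧
    (∀ t, 0 ≤ deriv th t) ∧ (∀ t, deriv th t ≤ 1) ∧ (∀ t, 1 ≤ t → deriv th t = 1) ∧
    ∀ t, 0 ≤ deriv (deriv th) t := by
  have h0 := pot_om_nonneg 1
  have h1 := pcut_om_le
  have e2 : ∀ t, 1 ≤ t → th t = t := fun t ht => by
    rw [th, pot_om_one (by linarith)]; ring
  refine ⟨fun t ht => pot_om_zero (by linarith), e2, fun t => ?_, fun t => ?_, fun t => ?_,
    fun t ht => ?_, fun t => ?_⟩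
  · rcases le_total 1 t with h | h
    · exact (e2 t h).ge
    · have hd : ∀ s, HasDerivAt (fun s => th s - s)
          (Real.smoothTransition (s + (1 - pot_om 1)) - 1) s := fun s =>
        (pcut_hasDerivAt s).sub (hasDerivAt_id s)
      have ha : Antitone fun s => th s - s :=
        antitone_of_deriv_nonpos (fun s => (hd s).differentiableAt) fun s => by
          rw [(hd s).deriv]
          linarith [Real.smoothTransition.le_one (s + (1 - pot_om 1))]
      have := ha h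
      simp only [e2 1 le_rfl] at this
      linarith
  · rw [pcut_deriv]; exact Real.smoothTransition.nonneg _
  · rw [pcut_deriv]; exact Real.smoothTransition.le_one _
  · rw [pcut_deriv]; exact Real.smoothTransition.one_of_one_le (by linarith)
  · rw [pcut_deriv]
    exact Monotone.deriv_nonneg fun a b hab => Real.smoothTransition.monotone (by linarith)

/-- The linear map `x ↦ B x`. -/
def linM (B : RM n) : Fin n → Sm n := fun a => ∑ b, B a b • X b

theorem vec_linM (B : RM n) (x : E n) : vec (linM B) x = B *ᵥ x := by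
  funext a
  simp [vec, linM, Matrix.mulVec, dotProduct]

theorem pcut_pd_linM (B : RM n) (a b : Fin n) : pd a (linM B b) = cst (B b a) := by
  simp only [linM, map_sum, Derivation.map_smul, pd_X]
  ext x
  simp

theorem pd_comp_linM (B : RM n) (a : Fin n) (f : Sm n) :
    pd a (comp (linM B) f) = ∑ b, B b a • comp (linM B) (pd b f) := by
  rw [pd_comp]
  refine Finset.sum_congr rfl fun b _ => ?_
  rw [pcut_pd_linM, mul_comm, Algebra.smul_def]

/-- `A - Q`. -/
def gapS (U : Sm n) (ε C : ℝ) (B : RM n) : Sm n :=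
  comp (linM B) U + (ε / 2) • nsq - ((1 / 2 : ℝ) • nsq - cst C)

/-- `W0 - |x|²/2`. -/
def V0 (U : Sm n) (ε C : ℝ) (B : RM n) : Sm n := cmp th th_sm (gapS U ε C B) - cst C

theorem pcut_dot (x : E n) : ∑ a, x a ^ 2 = x ⬝ᵥ x := by simp [dotProduct, sq]

theorem pcut_dot_nonneg (x : E n) : 0 ≤ x ⬝ᵥ x := by rw [← pcut_dot]; positivity

theorem pcut_ev_gap (U : Sm n) (ε C : ℝ) (B : RM n) (x : E n) :
    ev x (gapS U ε C B) = ev (B *ᵥ x) U + ε / 2 * (x ⬝ᵥ x) - (x ⬝ᵥ x / 2 - C) := by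
  simp only [gapS, map_sub, map_add, ev_smul, ev_comp, vec_linM, ev_nsq, ev_cst, pcut_dot]
  ring

theorem pcut_ev_V0 (U : Sm n) (ε C : ℝ) (B : RM n) (x : E n) :
    ev x (V0 U ε C B) = th (ev x (gapS U ε C B)) - C := by
  simp only [V0, map_sub, ev_cmp, ev_cst]

theorem pcut_pd_gap (U : Sm n) (ε C : ℝ) (B : RM n) (a : Fin n) :
    pd a (gapS U ε C B) = ∑ b, B b a • comp (linM B) (pd b U) + (ε - 1) • X a := by
  simp only [gapS, map_sub, map_add, Derivation.map_smul, pd_nsq, pd_cst, pd_comp_linM]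
  ext x
  simp only [map_sub, map_add, ev_smul, map_mul, ev_ofNat, ev_X, map_zero]
  ring

theorem pcut_pd_V0 (U : Sm n) (ε C : ℝ) (B : RM n) (a : Fin n) :
    pd a (V0 U ε C B) =
      cmp (deriv th) (contDiff_deriv th_sm) (gapS U ε C B) * pd a (gapS U ε C B) := by
  rw [V0, map_sub, pd_cst, sub_zero, pd_cmp]

theorem pcut_dir_gap (U : Sm n) (ε C : ℝ) (B : RM n) (x v : E n) :
    ∑ a, v a * ev x (pd a (gapS U ε C B)) =
      ∑ b, (B *ᵥ v) b * ev (B *ᵥ x) (pd b U) + (ε - 1) * (v ⬝ᵥ x) := by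
  simp only [pcut_pd_gap, map_add, map_sum, ev_smul, ev_comp, vec_linM, ev_X, mul_add,
    Finset.sum_add_distrib, Finset.mul_sum, Matrix.mulVec, dotProduct, Finset.sum_mul]
  congr 1
  · rw [Finset.sum_comm]
    exact Finset.sum_congr rfl fun b _ => Finset.sum_congr rfl fun a _ => by ring
  · exact Finset.sum_congr rfl fun a _ => by ring

theorem pcut_quad (M : Mat n) (x v : E n) :
    v ⬝ᵥ (evM x M *ᵥ v) = ∑ a, ∑ b, v a * v b * ev x (M a b) := by
  simp only [dotProduct, Matrix.mulVec, evM_apply, Finset.mul_sum]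
  exact Finset.sum_congr rfl fun a _ => Finset.sum_congr rfl fun b _ => by ring

theorem pcut_hess_gap (U : Sm n) (ε C : ℝ) (B : RM n) (x v : E n) :
    ∑ a, ∑ b, v a * v b * ev x (pd a (pd b (gapS U ε C B))) =
      (B *ᵥ v) ⬝ᵥ (evM (B *ᵥ x) (hess U) *ᵥ (B *ᵥ v)) + (ε - 1) * (v ⬝ᵥ v) := by
  have e : ∀ a b, ev x (pd a (pd b (gapS U ε C B))) =
      ∑ c, ∑ e, B c b * B e a * ev (B *ᵥ x) (pd e (pd c U)) +
        (ε - 1) * (if a = b then 1 else 0) := fun a b => by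
    rw [pcut_pd_gap]
    simp only [map_add, map_sum, Derivation.map_smul, pd_comp_linM, ev_smul, ev_comp, vec_linM,
      pd_X, Finset.mul_sum, mul_assoc]
    congr 2
    split_ifs <;> simp
  rw [pcut_quad]
  simp only [e, mul_add, Finset.sum_add_distrib, hess_apply]
  congr 1
  · have e1 : ∀ e c : Fin n, (B *ᵥ v) e * (B *ᵥ v) c * ev (B *ᵥ x) (pd e (pd c U)) =
        ∑ a, ∑ b, v a * v b * (B c b * B e a * ev (B *ᵥ x) (pd e (pd c U))) := fun e c => by
      generalize ev (B *ᵥ x) (pd e (pd c U)) = t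
      simp only [Matrix.mulVec, dotProduct]
      rw [Finset.sum_mul_sum, Finset.sum_mul]
      refine Finset.sum_congr rfl fun a _ => ?_
      rw [Finset.sum_mul]
      exact Finset.sum_congr rfl fun b _ => by ring
    simp only [e1, Finset.mul_sum]
    calc _ = ∑ a, ∑ c, ∑ e, ∑ b, v a * v b * (B c b * B e a * ev (B *ᵥ x) (pd e (pd c U))) := by
          refine Finset.sum_congr rfl fun a _ => ?_
          rw [Finset.sum_comm]
          exact Finset.sum_congr rfl fun c _ => Finset.sum_comm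
      _ = ∑ c, ∑ e, ∑ a, ∑ b, v a * v b * (B c b * B e a * ev (B *ᵥ x) (pd e (pd c U))) := by
          rw [Finset.sum_comm]
          exact Finset.sum_congr rfl fun c _ => Finset.sum_comm
      _ = _ := Finset.sum_comm
  · simp only [mul_ite, mul_one, mul_zero, Finset.sum_ite_eq, Finset.mem_univ, if_true,
      dotProduct, Finset.mul_sum]
    exact Finset.sum_congr rfl fun a _ => by ring

theorem pcut_r_le {κ : ℝ} {B : RM n} (hB : ∀ a b, |B a b| ≤ κ) (x : E n) :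
    r (B *ᵥ x) ≤ (1 + n * (n * κ) ^ 2) * r x := by
  have hr := one_le_r x
  have hK : 0 ≤ (n : ℝ) * (n * κ) ^ 2 := by positivity
  refine abs_le_abs_iff_aux ?_ (by positivity)
  have h1 : ∀ a, (B *ᵥ x) a ^ 2 ≤ (n * κ * r x) ^ 2 := fun a => by
    have : |(B *ᵥ x) a| ≤ n * κ * r x := by
      simp only [Matrix.mulVec, dotProduct]
      refine (Finset.abs_sum_le_sum_abs _ _).trans ?_
      refine (Finset.sum_le_card_nsmul _ _ (κ * r x) fun b _ => ?_).trans (le_of_eq ?_)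
      · rw [abs_mul]
        exact mul_le_mul (hB a b) (abs_le_r x b) (abs_nonneg _) ((abs_nonneg _).trans (hB a b))
      · simp [mul_assoc]
    rw [← sq_abs]
    exact pow_le_pow_left₀ (abs_nonneg _) this 2
  have h2 : ∑ a, (B *ᵥ x) a ^ 2 ≤ n * (n * κ * r x) ^ 2 := by
    simpa using Finset.sum_le_card_nsmul Finset.univ _ _ fun a _ => h1 a
  rw [r_sq]
  have h3 : 1 ≤ r x ^ 2 := one_le_pow₀ hr
  have h4 : (n : ℝ) * (n * κ * r x) ^ 2 = n * (n * κ) ^ 2 * r x ^ 2 := by ring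
  rw [mul_pow]
  nlinarith [mul_nonneg hK (sq_nonneg (r x)), mul_nonneg (mul_nonneg hK hK) (sq_nonneg (r x))]

theorem V0_ge (U : Sm n) {ε : ℝ} (hε : 0 ≤ ε) (C : ℝ) (B : RM n) (x : E n) :
    ev (B *ᵥ x) U ≤ ev x (Wp (V0 U ε C B)) := by
  have h := th_facts.2.2.1 (ev x (gapS U ε C B))
  rw [ev_Wp, pcut_ev_V0, pcut_dot]
  have h2 := pcut_ev_gap U ε C B x
  have h3 := mul_nonneg hε (pcut_dot_nonneg x)
  linarith

theorem V0_eq {U : Sm n} {α ε C : ℝ} (hU : ∀ y, -α ≤ ev y U) (hε : 0 ≤ ε) (B : RM n) {x : E n}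
    (hx : x ⬝ᵥ x / 2 ≤ C - α - 1) :
    ev x (Wp (V0 U ε C B)) = ev (B *ᵥ x) U + ε / 2 * (x ⬝ᵥ x) := by
  have h2 := pcut_ev_gap U ε C B x
  have h3 := mul_nonneg hε (pcut_dot_nonneg x)
  have h4 := hU (B *ᵥ x)
  rw [ev_Wp, pcut_ev_V0, pcut_dot, th_facts.2.1 _ (by linarith), h2]
  ring

/-- `v (1 + hess V0) v = (1 - θ') |v|² + θ' (D²U(Bv, Bv) + ε |v|²) + θ'' (v · ∇(A - Q))²` (`pd_cmp` twice). -/
theorem V0_low {U : Sm n} (hU : Low 0 (hess U)) {ε : ℝ} (hε : ε ≤ 1) (C : ℝ) (B : RM n) :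
    Low ε (1 + hess (V0 U ε C B)) := by
  intro x v
  obtain ⟨-, -, -, t0, t1, -, t2⟩ := th_facts
  set g := gapS U ε C B with hg
  have e : ∀ a b, ev x ((1 + hess (V0 U ε C B)) a b) = (if a = b then 1 else 0) +
      (deriv (deriv th) (ev x g) * (ev x (pd a g) * ev x (pd b g)) +
        deriv th (ev x g) * ev x (pd a (pd b g))) := fun a b => by
    rw [Matrix.add_apply, map_add, hess_apply, pcut_pd_V0, pd_mul, pd_cmp, Matrix.one_apply]
    simp only [map_add, map_mul, ev_cmp, ← hg]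
    congr 1
    · split_ifs <;> simp
    · ring
  have e2 : v ⬝ᵥ (evM x (1 + hess (V0 U ε C B)) *ᵥ v) = v ⬝ᵥ v +
      (deriv (deriv th) (ev x g) * (∑ a, v a * ev x (pd a g)) ^ 2 +
        deriv th (ev x g) * ∑ a, ∑ b, v a * v b * ev x (pd a (pd b g))) := by
    rw [pcut_quad]
    simp only [e, mul_add, Finset.sum_add_distrib]
    congr 1
    · simp [dotProduct]
    congr 1
    · rw [sq, Finset.sum_mul_sum]
      simp only [Finset.mul_sum]
      exact Finset.sum_congr rfl fun a _ => Finset.sum_congr rfl fun b _ => by ring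
    · simp only [Finset.mul_sum]
      exact Finset.sum_congr rfl fun a _ => Finset.sum_congr rfl fun b _ => by ring
  rw [e2, hg, pcut_hess_gap, ← hg]
  have h1 := hU (B *ᵥ x) (B *ᵥ v)
  rw [zero_mul] at h1
  have h2 := mul_nonneg (t2 (ev x g)) (sq_nonneg (∑ a, v a * ev x (pd a g)))
  have h3 := mul_nonneg (t0 (ev x g)) h1
  have h4 := mul_nonneg (mul_nonneg (sub_nonneg.2 (t1 (ev x g))) (sub_nonneg.2 hε))
    (pcut_dot_nonneg v)
  nlinarith

/-- `|U y - U 0| ≤ Λ r y` (`abs_sub_le_of_d_one`), `r (B x) ≤ C r x`, so `A - Q ≤ -1` for large `r x`. -/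
theorem V0_const {U : Sm n} {Λ ε : ℝ} (hΛ : ∀ x, d 1 U x ≤ Λ) (hε : ε ≤ 1 / 2) (C κ : ℝ) :
    ∃ R, ∀ B : RM n, (∀ a b, |B a b| ≤ κ) → ∀ x, R ≤ r x → ev x (V0 U ε C B) = -C := by
  have hΛ0 : 0 ≤ Λ := (d_nonneg 1 U 0).trans (hΛ 0)
  set K : ℝ := 1 + n * (n * κ) ^ 2 with hK
  have hK0 : 0 ≤ K := by positivity
  refine ⟨4 * (Λ * K + |ev 0 U| + |C| + 2), fun B hB x hx => ?_⟩
  have h1 := (abs_le.1 (abs_sub_le_of_d_one hΛ (B *ᵥ x))).2
  have h2 := mul_le_mul_of_nonneg_left (pcut_r_le hB x) hΛ0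
  rw [← hK] at h2
  have h3 := r_sq x
  rw [pcut_dot] at h3
  have h4 := one_le_r x
  have h5 := pcut_dot_nonneg x
  have h6 := le_abs_self (ev 0 U)
  have h7 := le_abs_self C
  have h8 : 0 ≤ |ev 0 U| + |C| + 2 := by positivity
  have h9 : 4 * (Λ * K + |ev 0 U| + |C| + 2) * r x ≤ r x * r x :=
    mul_le_mul_of_nonneg_right hx (by linarith)
  have h10 : (|ev 0 U| + |C| + 2) * 1 ≤ (|ev 0 U| + |C| + 2) * r x :=
    mul_le_mul_of_nonneg_left h4 h8
  have h11 := mul_le_mul_of_nonneg_right hε h5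
  rw [pcut_ev_V0, th_facts.1 _ ?_, zero_sub]
  rw [pcut_ev_gap]
  nlinarith

/-- `sym_of_eventually_const`. -/
theorem V0_sym {U : Sm n} {Λ ε : ℝ} (hΛ : ∀ x, d 1 U x ≤ Λ) (hε : ε ≤ 1 / 2) (C : ℝ) (B : RM n) :
    Sym 0 (V0 U ε C B) := by
  obtain ⟨R, hR⟩ := V0_const hΛ hε C (∑ a, ∑ b, |B a b|)
  refine sym_of_eventually_const (hR B fun a b => ?_)
  exact (Finset.single_le_sum (f := fun b => |B a b|) (fun _ _ => abs_nonneg _)
    (Finset.mem_univ b)).trans (Finset.single_le_sum (f := fun a => ∑ b, |B a b|)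
      (fun _ _ => Finset.sum_nonneg fun _ _ => abs_nonneg _) (Finset.mem_univ a))

/-- `∂_v W0 = θ' (∇U(Bx) · Bv + ε v·x) + (1 - θ') v·x`, and `θ' = 1` where `|x|²/2 ≤ C - α - 1`. -/
theorem V0_grad {U : Sm n} {Λ α ε : ℝ} (hΛ : ∀ x, d 1 U x ≤ Λ) (hU : ∀ y, -α ≤ ev y U) (hε : 0 ≤ ε)
    (C : ℝ) (B : RM n) (x v : E n) :
    |∑ a, v a * ev x (pd a (Wp (V0 U ε C B)))| ≤ Λ * ‖B *ᵥ v‖ +
      (ε + if x ⬝ᵥ x / 2 ≤ C - α - 1 then 0 else 1) * |v ⬝ᵥ x| := by
  obtain ⟨-, -, -, t0, t1, t2, -⟩ := th_facts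
  set t := deriv th (ev x (gapS U ε C B)) with ht
  set s := ∑ b, (B *ᵥ v) b * ev (B *ᵥ x) (pd b U) with hs
  have e : ∑ a, v a * ev x (pd a (Wp (V0 U ε C B))) = t * s + (t * ε + (1 - t)) * (v ⬝ᵥ x) := by
    have : ∑ a, v a * ev x (pd a (Wp (V0 U ε C B))) =
        v ⬝ᵥ x + t * ∑ a, v a * ev x (pd a (gapS U ε C B)) := by
      simp only [pd_Wp, pcut_pd_V0, map_add, map_mul, ev_cmp, ev_X, ← ht, mul_add,
        Finset.sum_add_distrib, Finset.mul_sum, dotProduct]
      congr 1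
      exact Finset.sum_congr rfl fun a _ => by ring
    rw [this, pcut_dir_gap, ← hs]
    ring
  have h0 : 0 ≤ t := t0 _
  have h1 : t ≤ 1 := t1 _
  have h2 : |s| ≤ Λ * ‖B *ᵥ v‖ := by
    refine (Finset.abs_sum_le_sum_abs _ _).trans ?_
    have h3 := hΛ (B *ᵥ x)
    simp only [d_succ, d_zero_eq] at h3
    refine le_trans ?_ (mul_le_mul_of_nonneg_right h3 (norm_nonneg _))
    rw [Finset.sum_mul]
    refine Finset.sum_le_sum fun b _ => ?_
    rw [abs_mul, mul_comm]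
    exact mul_le_mul_of_nonneg_left (norm_le_pi_norm (B *ᵥ v) b) (abs_nonneg _)
  have h4 : t * ε + (1 - t) ≤ ε + if x ⬝ᵥ x / 2 ≤ C - α - 1 then 0 else 1 := by
    split_ifs with hx
    · have h5 : t = 1 := by
        refine t2 _ ?_
        have := pcut_ev_gap U ε C B x
        have h6 := mul_nonneg hε (pcut_dot_nonneg x)
        have h7 := hU (B *ᵥ x)
        linarith
      rw [h5]; linarith
    · nlinarith
  have h5 : 0 ≤ t * ε + (1 - t) := by nlinarith [mul_nonneg h0 hε]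
  rw [e]
  refine (abs_add_le _ _).trans (add_le_add ?_ ?_)
  · rw [abs_mul, abs_of_nonneg h0]
    nlinarith [abs_nonneg s]
  · rw [abs_mul, abs_of_nonneg h5]
    exact mul_le_mul_of_nonneg_right h4 (abs_nonneg _)

end Crest.Agent.R253
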