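import Crest.Agent.R253.PFM
import Crest.Agent.R253.PCut
import Crest.Agent.R253.PBrou

/-!
# Row 253, PDE part: boundary behaviour of the position map
-/

set_option autoImplicit false
open MeasureTheory Matrix Filter Topology
open scoped ContDiff BigOperators

noncomputable section
namespace Crest.Agent.R253
open Crest.Agent.R238

variable {n : ℕ}

theorem bd_tail_meas (β ρ : ℝ) :
    Measurable fun y : E n => (if ‖y‖ ≤ ρ then 0 else ‖y‖ ^ 2) * Real.exp (-β * ‖y‖) :=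
  (Measurable.ite (measurableSet_le measurable_norm measurable_const) measurable_const
    (by fun_prop)).mul (by fun_prop)

theorem bd_tail_le (β ρ : ℝ) (y : E n) :
    ‖(if ‖y‖ ≤ ρ then 0 else ‖y‖ ^ 2) * Real.exp (-β * ‖y‖)‖ ≤
      (1 + ‖y‖ ^ 2) * Real.exp (-β * ‖y‖) := by
  rw [Real.norm_eq_abs, abs_mul, abs_of_pos (Real.exp_pos _)]
  refine mul_le_mul_of_nonneg_right ?_ (Real.exp_pos _).le
  split_ifs
  · rw [abs_zero]; positivity
  · rw [abs_of_nonneg (sq_nonneg _)]; linarith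

theorem bd_comp {B : RM n} (hB : B.det ≠ 0) {g : E n → ℝ} (hg : Integrable g) :
    Integrable (fun x => g (B *ᵥ x)) ∧ ∫ x, g (B *ᵥ x) = |B.det|⁻¹ * ∫ y, g y := by
  have hm := Real.map_matrix_volume_pi_eq_smul_volume_pi hB
  have hme : AEMeasurable (toLin' B) (volume : Measure (E n)) :=
    (LinearMap.continuous_of_finiteDimensional _).measurable.aemeasurable
  have hi : Integrable g (Measure.map (toLin' B) volume) := by
    rw [hm]
    exact hg.smul_measure ENNReal.ofReal_ne_top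
  constructor
  · exact (integrable_map_measure hi.aestronglyMeasurable hme).1 hi
  · have := integral_map hme hi.aestronglyMeasurable
    rw [hm, integral_smul_measure, ENNReal.toReal_ofReal (abs_nonneg _), abs_inv, smul_eq_mul] at this
    exact this.symm

theorem bd_dot_nonneg (x : E n) : 0 ≤ x ⬝ᵥ x :=
  Finset.sum_nonneg fun a _ => mul_self_nonneg (x a)

theorem bd_dot_le (y : E n) : y ⬝ᵥ y ≤ n * ‖y‖ ^ 2 := by
  have h : ∀ a ∈ (Finset.univ : Finset (Fin n)), y a * y a ≤ ‖y‖ ^ 2 := fun a _ => by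
    have h1 : |y a| ≤ ‖y‖ := norm_le_pi_norm y a
    calc y a * y a = |y a| ^ 2 := by rw [sq_abs, sq]
      _ ≤ ‖y‖ ^ 2 := pow_le_pow_left₀ (abs_nonneg _) h1 2
  have := Finset.sum_le_card_nsmul _ _ _ h
  simpa [dotProduct] using this

theorem bd_cs (v y : E n) : (v ⬝ᵥ y) ^ 2 ≤ (v ⬝ᵥ v) * (y ⬝ᵥ y) := by
  have := Finset.sum_mul_sq_le_sq_mul_sq Finset.univ v y
  simpa [dotProduct, sq] using this

theorem bd_norm_le {v : E n} (hv : v ⬝ᵥ v = 1) : ‖v‖ ≤ 1 := by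
  refine (pi_norm_le_iff_of_nonneg zero_le_one).2 fun a => ?_
  have h : v a * v a ≤ v ⬝ᵥ v :=
    Finset.single_le_sum (f := fun a => v a * v a) (fun a _ => mul_self_nonneg (v a))
      (Finset.mem_univ a)
  rw [hv] at h
  rw [Real.norm_eq_abs]
  exact abs_le_one_iff_mul_self_le_one.2 h

theorem bd_four (a b c e : ℝ) : (a + b + c + e) ^ 2 ≤ 4 * (a ^ 2 + b ^ 2 + c ^ 2 + e ^ 2) := by
  nlinarith [sq_nonneg (a - b), sq_nonneg (a - c), sq_nonneg (a - e), sq_nonneg (b - c),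
    sq_nonneg (b - e), sq_nonneg (c - e)]

theorem integrable_sq_exp {β : ℝ} (hβ : 0 < β) :
    Integrable fun y : E n => (1 + ‖y‖ ^ 2) * Real.exp (-β * ‖y‖) := by
  have hfin : ((Module.finrank ℝ (E n) : ℕ) : ℝ) < (n : ℝ) + 1 := by simp
  have hint := (integrable_one_add_norm (E := E n) (μ := volume) hfin).const_mul
    (((n + 3).factorial : ℝ) * Real.exp β / β ^ (n + 3))
  refine hint.mono' (Continuous.aestronglyMeasurable (by fun_prop)) (ae_of_all _ fun y => ?_)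
  have ht : 0 ≤ ‖y‖ := norm_nonneg y
  set t := ‖y‖ with htdef
  have h1 : 0 < 1 + t := by linarith
  have h2 := Real.pow_div_factorial_le_exp (β * (1 + t)) (by positivity) (n + 3)
  have hf : (0 : ℝ) < ((n + 3).factorial : ℝ) := by exact_mod_cast Nat.factorial_pos _
  rw [div_le_iff₀ hf, mul_pow] at h2
  have e1 : (1 + t) ^ (-((n : ℝ) + 1)) = ((1 + t) ^ (n + 1))⁻¹ := by
    rw [Real.rpow_neg h1.le]
    congr 1
    rw [← Real.rpow_natCast]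
    push_cast
    rfl
  rw [Real.norm_eq_abs, abs_of_nonneg (by positivity), e1, ← div_eq_mul_inv, le_div_iff₀ (by positivity),
    le_div_iff₀ (by positivity)]
  have e2 : Real.exp (β * (1 + t)) * Real.exp (-β * t) = Real.exp β := by
    rw [← Real.exp_add]
    congr 1
    ring
  have h3 : 1 + t ^ 2 ≤ (1 + t) ^ 2 := by nlinarith
  have hE := Real.exp_pos (-β * t)
  calc (1 + t ^ 2) * Real.exp (-β * t) * (1 + t) ^ (n + 1) * β ^ (n + 3)
      ≤ (1 + t) ^ 2 * Real.exp (-β * t) * (1 + t) ^ (n + 1) * β ^ (n + 3) := by gcongr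
    _ = (β ^ (n + 3) * (1 + t) ^ (n + 3)) * Real.exp (-β * t) := by ring
    _ ≤ (Real.exp (β * (1 + t)) * ((n + 3).factorial : ℝ)) * Real.exp (-β * t) := by gcongr
    _ = ((n + 3).factorial : ℝ) * (Real.exp (β * (1 + t)) * Real.exp (-β * t)) := by ring
    _ = _ := by rw [e2]

/-- Dominated convergence. -/
theorem tail_small {β η : ℝ} (hβ : 0 < β) (hη : 0 < η) : ∃ ρ, 0 < ρ ∧
    ∫ y : E n, (if ‖y‖ ≤ ρ then 0 else ‖y‖ ^ 2) * Real.exp (-β * ‖y‖) ≤ η := by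
  have h := tendsto_integral_filter_of_dominated_convergence (μ := (volume : Measure (E n)))
    (l := (atTop : Filter ℝ))
    (F := fun (ρ : ℝ) (y : E n) => (if ‖y‖ ≤ ρ then 0 else ‖y‖ ^ 2) * Real.exp (-β * ‖y‖))
    (f := fun _ => (0 : ℝ)) (fun y : E n => (1 + ‖y‖ ^ 2) * Real.exp (-β * ‖y‖))
    (Eventually.of_forall fun ρ => (bd_tail_meas β ρ).aestronglyMeasurable)
    (Eventually.of_forall fun ρ => ae_of_all _ fun y => bd_tail_le β ρ y)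
    (integrable_sq_exp hβ)
    (ae_of_all _ fun y => by
      refine tendsto_const_nhds.congr' ?_
      filter_upwards [eventually_ge_atTop ‖y‖] with ρ hρ
      rw [if_pos hρ, zero_mul])
  rw [integral_zero] at h
  obtain ⟨ρ, h1, h2⟩ := ((h.eventually (ge_mem_nhds hη)).and (eventually_gt_atTop 0)).exists
  exact ⟨ρ, h2, h1⟩

/-- Substitute `y = B x` (`integral_comp_mulVec`-type formula: `Real.map_matrix_volume_pi_eq_smul_volume_pi`
or `integral_image_eq_integral_abs_det_fderiv_smul`). With `m₀ = ∫_{‖y‖ ≤ 1} e^{-U} > 0`: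
`Iw V φ ≤ e^{-c} |det B|⁻¹ e^{1+α} ∫ Φ e^{-β‖y‖}` and `Iw V 1 ≥ e^{-c} |det B|⁻¹ e^{-2} m₀`. -/
theorem Iw_ratio {U : Sm n} {α β : ℝ} (hβ : 0 < β) (hU : ∀ y, β * ‖y‖ - α ≤ ev y U) :
    ∃ C₁, 0 < C₁ ∧ ∀ (V φ : Sm n) (B : RM n) (c : ℝ) (Φ : E n → ℝ), Sym 0 V → B.det ≠ 0 →
      (∀ x, ev (B *ᵥ x) U - 1 ≤ ev x (Wp V) - c) →
      (∀ x, ‖B *ᵥ x‖ ≤ 1 → ev x (Wp V) - c ≤ ev (B *ᵥ x) U + 2) →
      (∀ x, |ev x φ| ≤ Φ (B *ᵥ x)) → Integrable (fun y => Φ y * Real.exp (-β * ‖y‖)) →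
      Iw V φ ≤ C₁ * (∫ y, Φ y * Real.exp (-β * ‖y‖)) * Iw V 1 := by
  obtain ⟨M, hM⟩ : ∃ M, ∀ y : E n, ‖y‖ ≤ 1 → ev y U ≤ M := by
    obtain ⟨M, hM⟩ := (isCompact_closedBall (0 : E n) 1).bddAbove_image
      (ev_continuous U).continuousOn
    exact ⟨M, fun y hy => hM ⟨y, by simpa using hy, rfl⟩⟩
  set g : E n → ℝ := (Metric.closedBall (0 : E n) 1).indicator fun _ => (1 : ℝ) with hg
  have hgi : Integrable g :=
    (integrable_indicator_iff measurableSet_closedBall).2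
      (integrableOn_const measure_closedBall_lt_top.ne)
  have hm : 0 < ∫ y, g y := by
    rw [hg, integral_indicator measurableSet_closedBall, setIntegral_const, smul_eq_mul, mul_one]
    exact ENNReal.toReal_pos (Metric.measure_closedBall_pos volume _ one_pos).ne'
      measure_closedBall_lt_top.ne
  set m := ∫ y, g y with hmdef
  refine ⟨Real.exp (α + 1) * Real.exp (2 + M) / m, by positivity, ?_⟩
  intro V φ B c Φ hV hB h1 h2 h3 hΦ
  obtain ⟨i1, e1⟩ := bd_comp hB hΦ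
  obtain ⟨i2, e2⟩ := bd_comp hB hgi
  have hk : 0 < |B.det|⁻¹ := inv_pos.2 (abs_pos.2 hB)
  set k := |B.det|⁻¹ with hkdef
  set I := ∫ y, Φ y * Real.exp (-β * ‖y‖) with hI
  have hI0 : 0 ≤ I := by
    have : 0 ≤ k * I := by
      rw [← e1]
      exact integral_nonneg fun x =>
        mul_nonneg ((abs_nonneg _).trans (h3 x)) (Real.exp_pos _).le
    exact nonneg_of_mul_nonneg_right this hk |> fun h => by
      by_contra hn
      push Not at hn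
      nlinarith
  have hup : Iw V φ ≤ Real.exp (-c) * Real.exp (α + 1) * (k * I) := by
    rw [← e1, ← integral_const_mul]
    refine (le_abs_self _).trans ?_
    rw [← Real.norm_eq_abs]
    refine norm_integral_le_of_norm_le (i1.const_mul _) (ae_of_all _ fun x => ?_)
    rw [Real.norm_eq_abs, abs_mul, abs_of_pos (Real.exp_pos _)]
    have h4 : Real.exp (-ev x (Wp V)) ≤
        Real.exp (-c) * Real.exp (α + 1) * Real.exp (-β * ‖B *ᵥ x‖) := by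
      rw [← Real.exp_add, ← Real.exp_add]
      refine Real.exp_le_exp.2 ?_
      have := h1 x
      have := hU (B *ᵥ x)
      linarith
    calc |ev x φ| * Real.exp (-ev x (Wp V))
        ≤ Φ (B *ᵥ x) * (Real.exp (-c) * Real.exp (α + 1) * Real.exp (-β * ‖B *ᵥ x‖)) :=
          mul_le_mul (h3 x) h4 (Real.exp_pos _).le ((abs_nonneg _).trans (h3 x))
      _ = _ := by ring
  have hlo : Real.exp (-c) * Real.exp (-(2 + M)) * (k * m) ≤ Iw V 1 := by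
    rw [← e2, ← integral_const_mul]
    refine integral_mono (i2.const_mul _) (Tm.integrable hV tm_one) fun x => ?_
    simp only [map_one, one_mul]
    by_cases hx : ‖B *ᵥ x‖ ≤ 1
    · rw [hg, Set.indicator_of_mem (by simpa using hx), mul_one, ← Real.exp_add]
      refine Real.exp_le_exp.2 ?_
      have := h2 x hx
      have := hM _ hx
      linarith
    · rw [hg, Set.indicator_of_notMem (by simpa using hx), mul_zero]
      exact (Real.exp_pos _).le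
  have e3 : Real.exp (2 + M) * Real.exp (-(2 + M)) = 1 := by
    rw [← Real.exp_add, add_neg_cancel, Real.exp_zero]
  calc Iw V φ ≤ Real.exp (-c) * Real.exp (α + 1) * (k * I) := hup
    _ = Real.exp (α + 1) * Real.exp (2 + M) / m * I *
          (Real.exp (-c) * Real.exp (-(2 + M)) * (k * m)) := by
        field_simp
        rw [mul_assoc, e3, mul_one]
    _ ≤ _ := mul_le_mul_of_nonneg_left hlo (by positivity)

/-- `B = Bm ε X`, `y = B x`, `|x|² ≤ ε⁻² n ‖y‖²` (`Bm_sq_le`). The hypotheses of `Iw_ratio` follow from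
`V0_ge`, `V0_eq` (for `‖y‖ ≤ 1`, if `n/(2ε²) ≤ C - α - 1` and `ε' n / (2ε²) ≤ 1`) and `abs_le_Y`.
If `X v = -v` then `B v = ε⁻¹ v`, `v·x = ε v·y`, `Φ y = ε² n ‖y‖²`, `FM_neg`.
If `X v = v` then `B v = ε v`, `v·x = ε⁻¹ v·y`, `|∂_vW| ≤ Λ ε + δ + (ε' + 1_{‖y‖ > ρ}) ε⁻¹ √n ‖y‖`
(`V0_grad`, `|v a| ≤ 1`, `d 1 ≤ J (n+1) ≤ Y`; if `n ρ²/(2ε²) ≤ C - α - 1`), so
`Φ y = 4 (Λ²ε² + δ² + (ε'² + 1_{‖y‖ > ρ}) ε⁻² n ‖y‖²)`; `tail_small`, `FM_pos`. -/
theorem bdry {U : Sm n} {Λ α β : ℝ} (hΛ : ∀ x, d 1 U x ≤ Λ) (hβ : 0 < β)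
    (hU : ∀ y, β * ‖y‖ - α ≤ ev y U) : ∃ ε e₀ C₀ : ℝ, 0 < ε ∧ ε ≤ 1 ∧ 0 < e₀ ∧
      ∀ (ε' δ C : ℝ), 0 < ε' → ε' ≤ e₀ → ε' ≤ 1 / 2 → δ ≤ e₀ → C₀ ≤ C →
      ∀ (X : Box n) (D : BR n) (c : ℝ), Y (D.V - V0 U ε' C (Bm ε X.1) - cst c) ≤ δ →
      ∀ v : E n, v ⬝ᵥ v = 1 →
        (X.1 *ᵥ v = v → 0 < v ⬝ᵥ (FM D *ᵥ v)) ∧ (X.1 *ᵥ v = -v → v ⬝ᵥ (FM D *ᵥ v) < 0) := by
  obtain ⟨a₁, ha₁, hneg⟩ := FM_neg
  obtain ⟨a₂, ha₂, hpos⟩ := FM_pos
  obtain ⟨C₁, hC₁, hrat⟩ := Iw_ratio hβ hU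
  have hU' : ∀ y, -α ≤ ev y U := fun y => by
    have := hU y
    have := mul_nonneg hβ.le (norm_nonneg y)
    linarith
  have hΛ0 : 0 ≤ Λ := (d_nonneg 1 U 0).trans (hΛ 0)
  have hi0 := integrable_sq_exp (n := n) hβ
  set I₀ := ∫ y : E n, (1 + ‖y‖ ^ 2) * Real.exp (-β * ‖y‖) with hI₀
  have hI0 : 0 ≤ I₀ := integral_nonneg fun y => by positivity
  have hn0 : (0 : ℝ) ≤ n := Nat.cast_nonneg n
  set T₁ := a₁ * C₁ * n * I₀ with hT₁
  set T₂ := 8 * a₂ * C₁ * (Λ ^ 2 + 2) * I₀ with hT₂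
  have hT₁0 : 0 ≤ T₁ := by positivity
  have hT₂0 : 0 ≤ T₂ := by positivity
  obtain ⟨ε, hε, hε1, hεT₁, hεT₂⟩ : ∃ ε : ℝ, 0 < ε ∧ ε ≤ 1 ∧ ε ^ 2 * T₁ < 1 ∧ ε ^ 2 * T₂ < 1 := by
    have hT : 0 < T₁ + T₂ + 1 := by linarith
    have h1 : (T₁ + T₂ + 1)⁻¹ ≤ 1 := inv_le_one_of_one_le₀ (by linarith)
    have h0 : 0 < (T₁ + T₂ + 1)⁻¹ := inv_pos.2 hT
    have h2 : (T₁ + T₂ + 1)⁻¹ * (T₁ + T₂ + 1) = 1 := inv_mul_cancel₀ hT.ne'
    set e := (T₁ + T₂ + 1)⁻¹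
    have h3 : e * T₁ < 1 := by nlinarith [mul_nonneg h0.le hT₂0]
    have h4 : e * T₂ < 1 := by nlinarith [mul_nonneg h0.le hT₁0]
    refine ⟨e, h0, h1, ?_, ?_⟩
    · nlinarith [mul_nonneg h0.le hT₁0]
    · nlinarith [mul_nonneg h0.le hT₂0]
  obtain ⟨ρ, hρ, htail⟩ := tail_small (n := n) hβ
    (η := ε ^ 2 / (8 * a₂ * C₁ * (n + 1))) (by positivity)
  refine ⟨ε, ε ^ 2 / (n + 1), α + 1 + n * (1 + ρ ^ 2) / (2 * ε ^ 2), hε, hε1, by positivity, ?_⟩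
  intro ε' δ C hε' hε'e hε'2 hδe hC X D c hY v hv
  set B := Bm ε X.1 with hB
  set η := D.V - V0 U ε' C B - cst c with hη
  have hsη : Sym 0 η := (D.symV.sub (V0_sym hΛ hε'2 C B)).sub (sym_cst c)
  have hδ0 : 0 ≤ δ := (Y_nonneg η).trans hY
  have he1 : ε ^ 2 / (n + 1) ≤ ε ^ 2 := div_le_self (by positivity) (by linarith)
  have hε2 : ε ^ 2 ≤ 1 := pow_le_one₀ hε.le hε1
  have hδ1 : δ ≤ 1 := by linarith
  have hη0 : ∀ x, |ev x η| ≤ δ := fun x => (abs_le_Y hsη x).trans hY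
  have hη1 : ∀ x, d 1 η x ≤ δ := fun x =>
    ((d_le_J' (by omega) η x).trans (J_le_Y hsη x)).trans hY
  have hW : Wp D.V = Wp (V0 U ε' C B) + η + cst c := by
    simp only [Wp, hη]
    abel
  have hWe : ∀ x, ev x (Wp D.V) - c = ev x (Wp (V0 U ε' C B)) + ev x η := fun x => by
    rw [hW, map_add, map_add, ev_cst]
    ring
  have hxx : ∀ x : E n, ε ^ 2 * (x ⬝ᵥ x) ≤ n * ‖B *ᵥ x‖ ^ 2 := fun x =>
    (Bm_sq_le hε hε1 X x).trans (bd_dot_le _)
  have hsmall : ∀ x : E n, ‖B *ᵥ x‖ ^ 2 ≤ 1 + ρ ^ 2 → x ⬝ᵥ x / 2 ≤ C - α - 1 := fun x hx => by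
    have h1 : x ⬝ᵥ x / 2 ≤ n * (1 + ρ ^ 2) / (2 * ε ^ 2) := by
      rw [div_le_div_iff₀ (by positivity) (by positivity)]
      have := hxx x
      have := mul_le_mul_of_nonneg_left hx hn0
      nlinarith
    linarith
  have hdet : B.det ≠ 0 := (Bm_posDef hε hε1 X).det_pos.ne'
  have H1 : ∀ x, ev (B *ᵥ x) U - 1 ≤ ev x (Wp D.V) - c := fun x => by
    rw [hWe]
    have := V0_ge U hε'.le C B x
    have := (abs_le.1 (hη0 x)).1
    linarith
  have H2 : ∀ x, ‖B *ᵥ x‖ ≤ 1 → ev x (Wp D.V) - c ≤ ev (B *ᵥ x) U + 2 := fun x hx => by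
    have hx2 : ‖B *ᵥ x‖ ^ 2 ≤ 1 := pow_le_one₀ (norm_nonneg _) hx
    rw [hWe, V0_eq hU' hε'.le B (hsmall x (by nlinarith [sq_nonneg ρ]))]
    have h1 := (abs_le.1 (hη0 x)).2
    have h2 : ε ^ 2 * (x ⬝ᵥ x) ≤ n := (hxx x).trans (by nlinarith)
    have h3 : 0 ≤ x ⬝ᵥ x := bd_dot_nonneg x
    have h4 : ε' * (x ⬝ᵥ x) ≤ 1 := by
      calc ε' * (x ⬝ᵥ x) ≤ ε ^ 2 / (n + 1) * (x ⬝ᵥ x) := mul_le_mul_of_nonneg_right hε'e h3
        _ = ε ^ 2 * (x ⬝ᵥ x) / (n + 1) := by ring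
        _ ≤ 1 := by
          rw [div_le_one (by positivity)]
          linarith
    linarith
  have hvB : ∀ x : E n, v ⬝ᵥ (B *ᵥ x) = (B *ᵥ v) ⬝ᵥ x := fun x => by
    rw [dotProduct_mulVec, ← mulVec_transpose, hB, Bm_symm]
  have hvy : ∀ y : E n, (v ⬝ᵥ y) ^ 2 ≤ n * ‖y‖ ^ 2 := fun y => by
    have := bd_cs v y
    rw [hv, one_mul] at this
    exact this.trans (bd_dot_le y)
  have hIw := Iw_one_pos D.symV
  constructor
  · intro hX
    have hBv : B *ᵥ v = ε • v := Bm_eig_pos hX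
    have hvx : ∀ x : E n, ε ^ 2 * (v ⬝ᵥ x) ^ 2 ≤ n * ‖B *ᵥ x‖ ^ 2 := fun x => by
      have h1 := hvy (B *ᵥ x)
      rw [hvB, hBv, smul_dotProduct, smul_eq_mul, mul_pow] at h1
      exact h1
    have hit : Integrable fun y : E n =>
        (if ‖y‖ ≤ ρ then 0 else ‖y‖ ^ 2) * Real.exp (-β * ‖y‖) :=
      hi0.mono' (bd_tail_meas β ρ).aestronglyMeasurable (ae_of_all _ fun y => bd_tail_le β ρ y)
    have hsplit : (fun y : E n => (4 * ε ^ 2 * (Λ ^ 2 + 2) * (1 + ‖y‖ ^ 2) +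
          4 * n / ε ^ 2 * (if ‖y‖ ≤ ρ then 0 else ‖y‖ ^ 2)) * Real.exp (-β * ‖y‖)) =
        fun y : E n => 4 * ε ^ 2 * (Λ ^ 2 + 2) * ((1 + ‖y‖ ^ 2) * Real.exp (-β * ‖y‖)) +
          4 * n / ε ^ 2 * ((if ‖y‖ ≤ ρ then 0 else ‖y‖ ^ 2) * Real.exp (-β * ‖y‖)) := by
      funext y
      ring
    have hr := hrat D.V (dW D.V v ^ 2) B c
      (fun y => 4 * ε ^ 2 * (Λ ^ 2 + 2) * (1 + ‖y‖ ^ 2) +
        4 * n / ε ^ 2 * (if ‖y‖ ≤ ρ then 0 else ‖y‖ ^ 2)) D.symV hdet H1 H2 (fun x => ?_)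
      (by rw [hsplit]; exact (hi0.const_mul _).add (hit.const_mul _))
    · refine hpos D v hv ?_
      rw [hsplit, integral_add (hi0.const_mul _) (hit.const_mul _), integral_const_mul,
        integral_const_mul, ← hI₀] at hr
      set τ := ∫ y : E n, (if ‖y‖ ≤ ρ then 0 else ‖y‖ ^ 2) * Real.exp (-β * ‖y‖) with hτ
      have h1 : a₂ * C₁ * (4 * n / ε ^ 2 * τ) ≤ 1 / 2 := by
        calc a₂ * C₁ * (4 * n / ε ^ 2 * τ)
            ≤ a₂ * C₁ * (4 * n / ε ^ 2 * (ε ^ 2 / (8 * a₂ * C₁ * (n + 1)))) := by gcongr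
          _ = (n : ℝ) / (2 * (n + 1)) := by field_simp; ring
          _ ≤ 1 / 2 := by
            rw [div_le_div_iff₀ (by positivity) (by positivity)]
            linarith
      have h2 : a₂ * C₁ * (4 * ε ^ 2 * (Λ ^ 2 + 2) * I₀) < 1 / 2 := by
        have : a₂ * C₁ * (4 * ε ^ 2 * (Λ ^ 2 + 2) * I₀) = ε ^ 2 * T₂ / 2 := by rw [hT₂]; ring
        linarith
      calc a₂ * Iw D.V (dW D.V v ^ 2)
          ≤ a₂ * (C₁ * (4 * ε ^ 2 * (Λ ^ 2 + 2) * I₀ + 4 * n / ε ^ 2 * τ) * Iw D.V 1) :=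
            mul_le_mul_of_nonneg_left hr ha₂.le
        _ = (a₂ * C₁ * (4 * ε ^ 2 * (Λ ^ 2 + 2) * I₀) + a₂ * C₁ * (4 * n / ε ^ 2 * τ)) * Iw D.V 1 := by
            ring
        _ < 1 * Iw D.V 1 := mul_lt_mul_of_pos_right (by linarith) hIw
        _ = _ := one_mul _
    · have hv1 : ‖v‖ ≤ 1 := bd_norm_le hv
      have hd : ev x (dW D.V v) = ∑ a, v a * ev x (pd a (Wp (V0 U ε' C B))) +
          ∑ a, v a * ev x (pd a η) := by
        rw [dW, map_sum, ← Finset.sum_add_distrib]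
        refine Finset.sum_congr rfl fun a _ => ?_
        rw [ev_smul, hW]
        simp only [map_add, pd_cst, map_zero]
        ring
      have g1 := V0_grad hΛ hU' hε'.le C B x v
      have g2 : |∑ a, v a * ev x (pd a η)| ≤ δ := by
        refine (Finset.abs_sum_le_sum_abs _ _).trans (le_trans ?_ (hη1 x))
        rw [d_succ]
        refine Finset.sum_le_sum fun a _ => ?_
        rw [abs_mul, d_zero_eq]
        have : |v a| ≤ 1 := (norm_le_pi_norm v a).trans hv1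
        exact mul_le_of_le_one_left (abs_nonneg _) this
      have g3 : Λ * ‖B *ᵥ v‖ ≤ Λ * ε := by
        rw [hBv, norm_smul, Real.norm_eq_abs, abs_of_pos hε]
        exact mul_le_mul_of_nonneg_left (mul_le_of_le_one_right hε.le hv1) hΛ0
      set s := |v ⬝ᵥ x| with hs
      set t := ‖B *ᵥ x‖ with ht
      set i : ℝ := if x ⬝ᵥ x / 2 ≤ C - α - 1 then 0 else 1 with hi
      have hs0 : 0 ≤ s := abs_nonneg _
      have hst : ε ^ 2 * s ^ 2 ≤ n * t ^ 2 := by rw [hs, sq_abs]; exact hvx x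
      have g4 : |ev x (dW D.V v)| ≤ Λ * ε + δ + ε' * s + i * s := by
        rw [hd]
        refine (abs_add_le _ _).trans ?_
        nlinarith
      have g5 : (i * s) ^ 2 ≤ n / ε ^ 2 * (if t ≤ ρ then 0 else t ^ 2) := by
        by_cases htρ : t ≤ ρ
        · have : t ^ 2 ≤ ρ ^ 2 := pow_le_pow_left₀ (norm_nonneg _) htρ 2
          rw [hi, if_pos (hsmall x (by linarith)), if_pos htρ]
          simp
        · rw [if_neg htρ, div_mul_eq_mul_div, le_div_iff₀ (by positivity)]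
          have : (i * s) ^ 2 ≤ s ^ 2 := by
            rw [hi]
            split_ifs
            · simp [sq_nonneg]
            · simp
          nlinarith [mul_le_mul_of_nonneg_left this (sq_nonneg ε)]
      have g6 : δ ^ 2 ≤ ε ^ 2 := by nlinarith
      have g7 : (ε' * s) ^ 2 ≤ ε ^ 2 * t ^ 2 := by
        have a1 : ε' * (n + 1) ≤ ε ^ 2 := by rwa [le_div_iff₀ (by positivity)] at hε'e
        have a2 : ε' ^ 2 * n ≤ (ε ^ 2) ^ 2 := by
          calc ε' ^ 2 * n ≤ ε' ^ 2 * (n + 1) ^ 2 :=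
                mul_le_mul_of_nonneg_left (by nlinarith) (sq_nonneg _)
            _ = (ε' * (n + 1)) ^ 2 := by ring
            _ ≤ (ε ^ 2) ^ 2 := pow_le_pow_left₀ (by positivity) a1 2
        have a3 : ε ^ 2 * (ε' * s) ^ 2 ≤ ε ^ 2 * (ε ^ 2 * t ^ 2) := by
          calc ε ^ 2 * (ε' * s) ^ 2 = ε' ^ 2 * (ε ^ 2 * s ^ 2) := by ring
            _ ≤ ε' ^ 2 * (n * t ^ 2) := mul_le_mul_of_nonneg_left hst (sq_nonneg _)
            _ = (ε' ^ 2 * n) * t ^ 2 := by ring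
            _ ≤ (ε ^ 2) ^ 2 * t ^ 2 := mul_le_mul_of_nonneg_right a2 (sq_nonneg _)
            _ = _ := by ring
        exact le_of_mul_le_mul_left a3 (by positivity)
      rw [map_pow, abs_pow]
      have g8 : |ev x (dW D.V v)| ^ 2 ≤ (Λ * ε + δ + ε' * s + i * s) ^ 2 :=
        pow_le_pow_left₀ (abs_nonneg _) g4 2
      have g9 := bd_four (Λ * ε) δ (ε' * s) (i * s)
      have g10 : 0 ≤ ε ^ 2 * Λ ^ 2 * t ^ 2 := by positivity
      have g11 : 0 ≤ ε ^ 2 * t ^ 2 := by positivity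
      have g12 : 0 ≤ ε ^ 2 := by positivity
      have e : 4 * ε ^ 2 * (Λ ^ 2 + 2) * (1 + t ^ 2) + 4 * n / ε ^ 2 * (if t ≤ ρ then 0 else t ^ 2) =
          4 * ((Λ * ε) ^ 2 + 2 * ε ^ 2 + ε ^ 2 * Λ ^ 2 * t ^ 2 + 2 * (ε ^ 2 * t ^ 2) +
            n / ε ^ 2 * (if t ≤ ρ then 0 else t ^ 2)) := by ring
      rw [e]
      linarith
  · intro hX
    have hBv : B *ᵥ v = ε⁻¹ • v := Bm_eig_neg hX
    have hsplit : (fun y : E n => ε ^ 2 * n * (1 + ‖y‖ ^ 2) * Real.exp (-β * ‖y‖)) =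
        fun y : E n => ε ^ 2 * n * ((1 + ‖y‖ ^ 2) * Real.exp (-β * ‖y‖)) := by
      funext y
      ring
    have hr := hrat D.V (lin v ^ 2) B c (fun y => ε ^ 2 * n * (1 + ‖y‖ ^ 2)) D.symV hdet H1 H2
      (fun x => ?_) (by rw [hsplit]; exact hi0.const_mul _)
    · refine hneg D v hv ?_
      rw [hsplit, integral_const_mul, ← hI₀] at hr
      calc a₁ * Iw D.V (lin v ^ 2) ≤ a₁ * (C₁ * (ε ^ 2 * n * I₀) * Iw D.V 1) :=
            mul_le_mul_of_nonneg_left hr ha₁.le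
        _ = (ε ^ 2 * T₁) * Iw D.V 1 := by rw [hT₁]; ring
        _ < 1 * Iw D.V 1 := mul_lt_mul_of_pos_right hεT₁ hIw
        _ = _ := one_mul _
    · rw [map_pow, ev_lin, abs_pow, sq_abs]
      have h1 := hvy (B *ᵥ x)
      rw [hvB, hBv, smul_dotProduct, smul_eq_mul] at h1
      calc (v ⬝ᵥ x) ^ 2 = ε ^ 2 * (ε⁻¹ * (v ⬝ᵥ x)) ^ 2 := by field_simp
        _ ≤ ε ^ 2 * (n * ‖B *ᵥ x‖ ^ 2) := mul_le_mul_of_nonneg_left h1 (sq_nonneg _)
        _ ≤ ε ^ 2 * (n * (1 + ‖B *ᵥ x‖ ^ 2)) := by gcongr; linarith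
        _ = _ := by ring

end Crest.Agent.R253
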