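import Crest.Agent.R253.PBernF
import Crest.Agent.R238.Bern1

/-!
# Row 253, PDE part: decay of third derivatives (port of `R238.Bern1`)
-/

set_option autoImplicit false
open MeasureTheory Matrix Filter Topology
open scoped ContDiff BigOperators

noncomputable section
namespace Crest.Agent.R253
open Crest.Agent.R238

variable {n : ℕ}

/-- The pointwise inequality for `L p`. -/
theorem pb1_p {c K C0 C1 N s w a0 a1 b0 e F p v L : ℝ} (hK : 0 ≤ K) (hC0 : 0 ≤ C0) (hC1 : 0 ≤ C1)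
    (hs : 0 ≤ s) (hsw : s ≤ w) (hw : w ≤ 1) (ha0 : 0 ≤ a0) (ha0' : a0 ≤ K * s) (hb0 : b0 ≤ K * s)
    (he : e ≤ K * w) (ha1 : 0 ≤ a1) (hp : 0 ≤ p) (hv : 0 ≤ v)
    (hF : F ≤ C1 * (a1 ^ 2 + e * a1 + a0 ^ 2)) (ha1' : a1 ^ 2 ≤ N * v) (hN : 0 ≤ N)
    (hsm : C0 * C1 * N * (K + K ^ 2) * w ≤ c)
    (hL : 2 * c * v + 4 * p - C0 * (a0 * (b0 + F)) ≤ L) :
    c * v - C0 * (K ^ 2 + C1 * K ^ 2 + C1 * K ^ 3) * s ^ 2 ≤ L := by
  have hw0 : 0 ≤ w := hs.trans hsw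
  have h1 : a0 * b0 ≤ K * s * (K * s) :=
    (mul_le_mul_of_nonneg_left hb0 ha0).trans (mul_le_mul_of_nonneg_right ha0' (by positivity))
  have h2 : a0 * a1 ^ 2 ≤ K * w * (N * v) :=
    mul_le_mul (ha0'.trans (mul_le_mul_of_nonneg_left hsw hK)) ha1' (by positivity) (by positivity)
  have h3 : a0 * (e * a1) ≤ K ^ 2 * (s ^ 2 + w * (N * v)) := by
    have h4 : a0 * (e * a1) ≤ K * s * (K * w * a1) :=
      (mul_le_mul_of_nonneg_left (mul_le_mul_of_nonneg_right he ha1) ha0).trans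
        (mul_le_mul_of_nonneg_right ha0' (by positivity))
    have h5 : s * (w * a1) ≤ s ^ 2 + (w * a1) ^ 2 := by
      nlinarith [sq_nonneg (s - w * a1), mul_nonneg hs (mul_nonneg hw0 ha1)]
    have h6 : (w * a1) ^ 2 ≤ w * (N * v) := by
      rw [mul_pow]
      exact mul_le_mul (by nlinarith) ha1' (by positivity) hw0
    calc a0 * (e * a1) ≤ K ^ 2 * (s * (w * a1)) := h4.trans_eq (by ring)
      _ ≤ _ := mul_le_mul_of_nonneg_left (by linarith) (by positivity)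
  have h7 : a0 * a0 ^ 2 ≤ K ^ 3 * s ^ 2 := by
    have h8 : a0 ≤ K := ha0'.trans (mul_le_of_le_one_right hK (hsw.trans hw))
    calc a0 * a0 ^ 2 ≤ K * (K * s) ^ 2 := by gcongr
      _ = _ := by ring
  have h9 : a0 * (b0 + F) ≤ K * s * (K * s) + C1 * (K * w * (N * v) + K ^ 2 * (s ^ 2 + w * (N * v))
      + K ^ 3 * s ^ 2) := by
    have h10 := mul_le_mul_of_nonneg_left hF ha0
    have h11 : a0 * (C1 * (a1 ^ 2 + e * a1 + a0 ^ 2)) =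
        C1 * (a0 * a1 ^ 2 + a0 * (e * a1) + a0 * a0 ^ 2) := by ring
    have h12 := mul_le_mul_of_nonneg_left (add_le_add (add_le_add h2 h3) h7) hC1
    rw [mul_add]
    linarith
  have h13 := mul_le_mul_of_nonneg_left h9 hC0
  have h14 := mul_le_mul_of_nonneg_right hsm hv
  nlinarith

/-- The pointwise inequality for `L v`. -/
theorem pb1_v {c K C2 C3 N N' t w a0 a1 a2 b1 e F v z L : ℝ} (hc : 0 < c) (hK : 0 ≤ K) (hC2 : 0 ≤ C2)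
    (hC3 : 0 ≤ C3) (hw : 0 ≤ w) (ha0 : a0 ≤ K * w ^ 2) (ha1 : 0 ≤ a1) (ha2 : 0 ≤ a2)
    (hb1 : b1 ≤ K * t) (he : e ≤ K * w) (hv : 0 ≤ v) (hz : 0 ≤ z)
    (hF : F ≤ C3 * (a1 * a2 + a1 ^ 3 + e * a2 + a0 * a1)) (ha1' : a1 ^ 2 ≤ N * v)
    (ha2' : a2 ^ 2 ≤ N' * z) (hN : 0 ≤ N) (hN' : 0 ≤ N')
    (hL : 2 * c * z + 6 * v - C2 * (a1 * (b1 + F)) ≤ L) :
    23 / 4 * v - N * (C2 * C3 + (C2 * C3) ^ 2 * (N' + 1) / (8 * (c / 2))) * a1 ^ 2 * v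
      - N * ((N' + 1) * (C2 * C3 * K) ^ 2 / (4 * c) + C2 * C3 * K) * w ^ 2 * v
      - (N + 1) * C2 ^ 2 * K ^ 2 * t ^ 2 ≤ L := by
  have h0 := bern1_v (c := c / 2) (K := K) (t := t) (b1 := b1) (F := C3 * (a1 * a2 + a1 ^ 3))
    (L := 2 * (c / 2) * z + 4 * v - C2 * (a1 * (b1 + C3 * (a1 * a2 + a1 ^ 3)))) (by positivity) hC2 hC3
    ha1 hb1 hv hz le_rfl ha1' ha2' hN hN' le_rfl
  have h1 : C2 * (a1 * F) ≤ C2 * (a1 * (C3 * (a1 * a2 + a1 ^ 3 + e * a2 + a0 * a1))) :=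
    mul_le_mul_of_nonneg_left (mul_le_mul_of_nonneg_left hF ha1) hC2
  have h2 : C2 * C3 * (a1 * a2) * e ≤ C2 * C3 * (a1 * a2) * (K * w) :=
    mul_le_mul_of_nonneg_left he (by positivity)
  have h3 : C2 * C3 * K * (w * a1) * a2 ≤
      c * z + (N' + 1) * (C2 * C3 * K) ^ 2 / (4 * c) * (w * a1) ^ 2 := by
    have h5 : (4 * c * (N' + 1)) * (C2 * C3 * K * (w * a1) * a2) ≤ (4 * c * (N' + 1)) *
        (c * z + (N' + 1) * (C2 * C3 * K) ^ 2 / (4 * c) * (w * a1) ^ 2) := by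
      have e1 : (4 * c * (N' + 1)) * (c * z + (N' + 1) * (C2 * C3 * K) ^ 2 / (4 * c) * (w * a1) ^ 2) =
          4 * c ^ 2 * ((N' + 1) * z) + ((N' + 1) * (C2 * C3 * K * (w * a1))) ^ 2 := by
        field_simp
      have h6 : 4 * c ^ 2 * a2 ^ 2 ≤ 4 * c ^ 2 * ((N' + 1) * z) :=
        mul_le_mul_of_nonneg_left (by nlinarith) (by positivity)
      rw [e1]
      nlinarith [sq_nonneg (2 * c * a2 - (N' + 1) * (C2 * C3 * K * (w * a1)))]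
    exact le_of_mul_le_mul_left h5 (by positivity)
  have h4 : (N' + 1) * (C2 * C3 * K) ^ 2 / (4 * c) * (w * a1) ^ 2 ≤
      (N' + 1) * (C2 * C3 * K) ^ 2 / (4 * c) * (w ^ 2 * (N * v)) := by
    rw [mul_pow w]
    gcongr
  have h7 : C2 * C3 * (a0 * a1 ^ 2) ≤ C2 * C3 * (K * w ^ 2 * (N * v)) :=
    mul_le_mul_of_nonneg_left ((mul_le_mul_of_nonneg_right ha0 (by positivity)).trans
      (mul_le_mul_of_nonneg_left ha1' (by positivity))) (by positivity)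
  nlinarith

theorem pb1_aux (n : ℕ) {c : ℝ} (hc : 0 < c) {K : ℝ} (hK : 0 ≤ K) :
    ∃ C, 0 ≤ C ∧ ∀ D : BR n, Ell c K D.τ →
    (∀ x, d 1 D.ζ x ≤ K * r x ^ (-1 / 2 : ℝ)) →
    (∀ x, d 2 D.ζ x ≤ K * r x ^ (-5 / 4 : ℝ)) → (∀ x, d 3 D.ζ x ≤ K) →
    (∀ x, d 2 D.V x ≤ K * r x ^ (-5 / 4 : ℝ)) → (∀ x, d 3 D.V x ≤ K * r x ^ (-9 / 4 : ℝ)) →
    ∀ x, d 3 D.ζ x ≤ C * r x ^ (-9 / 4 : ℝ) := by
  obtain ⟨C0, hC0, H0⟩ := Lq_BR 0
  obtain ⟨C2, hC2, H2⟩ := Lq_BR 1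
  obtain ⟨C1, hC1, H1⟩ := F_zero_leB ((n : ℝ) ^ 2 * K)
  obtain ⟨C3, hC3, H3⟩ := F_one_leB ((n : ℝ) ^ 2 * K)
  set N : ℝ := (n : ℝ) ^ 3 with hNdef
  set N' : ℝ := (n : ℝ) ^ 4 with hN'def
  have hN : 0 ≤ N := by positivity
  have hN' : 0 ≤ N' := by positivity
  obtain ⟨P, hP⟩ : ∃ P, P = C0 * (K ^ 2 + C1 * K ^ 2 + C1 * K ^ 3) := ⟨_, rfl⟩
  obtain ⟨C4, hC4def⟩ : ∃ C4, C4 = N * (C2 * C3 + (C2 * C3) ^ 2 * (N' + 1) / (8 * (c / 2))) := ⟨_, rfl⟩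
  obtain ⟨C5, hC5def⟩ : ∃ C5, C5 = (N + 1) * C2 ^ 2 * K ^ 2 := ⟨_, rfl⟩
  obtain ⟨C6, hC6def⟩ : ∃ C6, C6 = N * ((N' + 1) * (C2 * C3 * K) ^ 2 / (4 * c) + C2 * C3 * K) :=
    ⟨_, rfl⟩
  have hP0 : 0 ≤ P := by rw [hP]; positivity
  have hC4 : 0 ≤ C4 := by rw [hC4def]; positivity
  have hC5 : 0 ≤ C5 := by rw [hC5def]; positivity
  have hC6 : 0 ≤ C6 := by rw [hC6def]; positivity
  obtain ⟨R, hR⟩ := maxP_rpow (p := 1 / 2) (by norm_num) (C0 * C1 * N * (K + K ^ 2) / c)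
  obtain ⟨CA, hCA, HA⟩ := bern_A n hc (K + K ^ 2 + P + (C4 * K ^ 2 + C6) + C5) R
    (α := 5 / 2) (by norm_num)
  obtain ⟨CB, hCB, HB⟩ := bern_B n (K + K ^ 2 + (C4 * (N * CA) + C6) + C5) (α := 9 / 2) (β := 1)
    (κ := 23 / 4) (by norm_num) one_pos (by norm_num)
  refine ⟨Real.sqrt (N * CB), Real.sqrt_nonneg _, fun D hE h1 h2 h3 hV2 hV3 => ?_⟩
  have e0 : ∀ x : E n, r x ^ (-(1 : ℝ)) = (r x ^ (-1 / 2 : ℝ)) ^ 2 := fun x => by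
    rw [sq, ← r_rpow_add]; norm_num
  have e1 : ∀ x : E n, r x ^ (-(5 / 2 : ℝ)) = (r x ^ (-5 / 4 : ℝ)) ^ 2 := fun x => by
    rw [sq, ← r_rpow_add]; norm_num
  have e3 : ∀ x : E n, r x ^ (-(9 / 2 : ℝ)) = (r x ^ (-9 / 4 : ℝ)) ^ 2 := fun x => by
    rw [sq, ← r_rpow_add]; norm_num
  have hK2 : 0 ≤ K ^ 2 := by positivity
  have hC4K : 0 ≤ C4 * K ^ 2 := by positivity
  have hC4A : 0 ≤ C4 * (N * CA) := by positivity
  have hsp : Sym (-15 / 4) (q 2 D.ζ) := (D.symζ.q 2).mono (by norm_num)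
  have hsv : Sym (-15 / 4) (q 3 D.ζ) := (D.symζ.q 3).mono (by norm_num)
  have ha1K : ∀ x, d 3 D.ζ x ^ 2 ≤ K ^ 2 := fun x => pow_le_pow_left₀ (d_nonneg _ _ _) (h3 x) 2
  have hvK : ∀ x, ev x (q 3 D.ζ) ≤ K ^ 2 := fun x => (q_le_d_sq 3 _ x).trans (ha1K x)
  have hLv : ∀ x, 23 / 4 * ev x (q 3 D.ζ) - C4 * d 3 D.ζ x ^ 2 * ev x (q 3 D.ζ)
      - C6 * r x ^ (-(1 : ℝ)) * ev x (q 3 D.ζ)
      - C5 * r x ^ (-(9 / 2 : ℝ)) ≤ ev x (Lop D.τ (q 3 D.ζ)) := fun x => by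
    have hL := H2 D c x hE.low
    rw [e3, e0, hC4def, hC5def, hC6def]
    refine pb1_v hc hK hC2 hC3 (r_rpow_pos x _).le ((h2 x).trans ?_) (d_nonneg _ _ _)
      (d_nonneg 4 D.ζ x) (hV3 x) (h1 x) (q_nonneg _ _ _) (q_nonneg 4 D.ζ x)
      (H3 D x (hE.dM_zero_le x)) (d_sq_le_q 3 _ x) (d_sq_le_q 4 _ x) hN hN' ?_
    · rw [← e0]
      exact mul_le_mul_of_nonneg_left (r_rpow_mono x (by norm_num)) hK
    · refine le_of_eq_of_le ?_ hL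
      norm_num
  have hA : ∀ x, ev x (q 3 D.ζ) ≤ CA * r x ^ (-(5 / 2 : ℝ)) := by
    refine HA D.τ (q 2 D.ζ) (q 3 D.ζ) (-15 / 4) (hE.mono hc.le (by linarith)) hsp hsv (by norm_num)
      (q_nonneg _ _) (fun x => ?_) (q_nonneg _ _) (fun x => (hvK x).trans (by linarith))
      (fun x hx => ?_) (fun x => ?_)
    · refine (q_le_d_sq 2 _ x).trans ((pow_le_pow_left₀ (d_nonneg _ _ _) (h2 x) 2).trans ?_)
      rw [mul_pow, e1]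
      exact mul_le_mul_of_nonneg_right (by linarith) (sq_nonneg _)
    · have hL := H0 D c x hE.low
      have hsm : C0 * C1 * N * (K + K ^ 2) * r x ^ (-1 / 2 : ℝ) ≤ c := by
        have h5 := (div_le_iff₀ hc).1 (hR _ hx)
        have h6 : r x ^ (1 / 2 : ℝ) * r x ^ (-1 / 2 : ℝ) = 1 := by
          rw [← r_rpow_add]; norm_num
        calc C0 * C1 * N * (K + K ^ 2) * r x ^ (-1 / 2 : ℝ)
            ≤ r x ^ (1 / 2 : ℝ) * c * r x ^ (-1 / 2 : ℝ) :=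
              mul_le_mul_of_nonneg_right h5 (r_rpow_pos x _).le
          _ = c := by rw [mul_right_comm, h6, one_mul]
      have h7 := pb1_p (L := ev x (Lop D.τ (q 2 D.ζ))) hK hC0 hC1 (r_rpow_pos x _).le
        (r_rpow_mono x (by norm_num)) (r_rpow_le_one x (by norm_num))
        (d_nonneg 2 D.ζ x) (h2 x) (hV2 x) (h1 x) (d_nonneg 3 D.ζ x)
        (q_nonneg 2 D.ζ x) (q_nonneg 3 D.ζ x) (H1 D x (hE.dM_zero_le x)) (d_sq_le_q 3 _ x) hN hsm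
        (le_of_eq_of_le (by norm_num) hL)
      rw [← e1, ← hP] at h7
      refine le_trans ?_ h7
      have := mul_le_mul_of_nonneg_right
        (show P ≤ K + K ^ 2 + P + (C4 * K ^ 2 + C6) + C5 by linarith)
        (r_rpow_pos x (-(5 / 2 : ℝ))).le
      linarith
    · refine le_trans ?_ (hLv x)
      have hv := q_nonneg 3 D.ζ x
      have h4 : C4 * d 3 D.ζ x ^ 2 + C6 * r x ^ (-(1 : ℝ)) ≤ C4 * K ^ 2 + C6 :=
        add_le_add (mul_le_mul_of_nonneg_left (ha1K x) hC4)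
          (mul_le_of_le_one_right hC6 (r_rpow_le_one x (by norm_num)))
      have h5 : (C4 * d 3 D.ζ x ^ 2 + C6 * r x ^ (-(1 : ℝ))) * ev x (q 3 D.ζ) ≤
          (K + K ^ 2 + P + (C4 * K ^ 2 + C6) + C5) * ev x (q 3 D.ζ) :=
        mul_le_mul_of_nonneg_right (h4.trans (by linarith)) hv
      have h6 : C5 * r x ^ (-(9 / 2 : ℝ)) ≤
          (K + K ^ 2 + P + (C4 * K ^ 2 + C6) + C5) * r x ^ (-(5 / 2 : ℝ)) :=
        mul_le_mul (by linarith) (r_rpow_mono x (by norm_num)) (r_rpow_pos x _).le (by linarith)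
      linarith
  have hB : ∀ x, ev x (q 3 D.ζ) ≤ CB * r x ^ (-(9 / 2 : ℝ)) := by
    refine HB D.τ (q 3 D.ζ) (-15 / 4) (hE.mono hc.le (by linarith)) hsv (by norm_num)
      (q_nonneg _ _) (fun x => (hvK x).trans (by linarith)) (fun x => ?_)
    refine le_trans ?_ (hLv x)
    have hv := q_nonneg 3 D.ζ x
    have h4 : d 3 D.ζ x ^ 2 ≤ N * CA * r x ^ (-(1 : ℝ)) := by
      rw [mul_assoc]
      exact (d_sq_le_q 3 _ x).trans (mul_le_mul_of_nonneg_left ((hA x).trans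
        (mul_le_mul_of_nonneg_left (r_rpow_mono x (by norm_num)) hCA)) hN)
    have h5 : (C4 * d 3 D.ζ x ^ 2 + C6 * r x ^ (-(1 : ℝ))) * ev x (q 3 D.ζ) ≤
        (K + K ^ 2 + (C4 * (N * CA) + C6) + C5) * r x ^ (-(1 : ℝ)) * ev x (q 3 D.ζ) := by
      refine mul_le_mul_of_nonneg_right
        ((add_le_add (mul_le_mul_of_nonneg_left h4 hC4) le_rfl).trans ?_) hv
      rw [← mul_assoc, ← add_mul]
      exact mul_le_mul_of_nonneg_right (by linarith) (r_rpow_pos x _).le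
    have h6 : C5 * r x ^ (-(9 / 2 : ℝ)) ≤
        (K + K ^ 2 + (C4 * (N * CA) + C6) + C5) * r x ^ (-(9 / 2 : ℝ)) :=
      mul_le_mul_of_nonneg_right (by linarith) (r_rpow_pos x _).le
    linarith
  intro x
  refine (pow_le_pow_iff_left₀ (d_nonneg _ _ _)
    (mul_nonneg (Real.sqrt_nonneg _) (r_rpow_pos x _).le) two_ne_zero).1 ?_
  rw [mul_pow, Real.sq_sqrt (by positivity), ← e3, mul_assoc]
  exact (d_sq_le_q 3 _ x).trans (mul_le_mul_of_nonneg_left (hB x) hN)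

/-- `p = q 2 ζ ≤ K² r^{-5/2}`, `v = q 3 ζ`, `z = q 4 ζ`, `q ≤ d² ≤ n^k q`, operator `Lop D.τ`.
`Lq_BR 0`, `F_zero_leB`: `L p ≥ 2c v - C a₀ (d₂V + a₁² + d₁ζ a₁ + a₀²) ≥ c v - C r^{-5/2}` for `r ≥ R`.
`Lq_BR 1`, `F_one_leB`: `L v ≥ 2c z + 6 v - C a₁ (d₃V + a₁a₂ + a₁³ + d₁ζ a₂ + a₀a₁)
≥ (23/4) v - C (a₁² + r⁻¹) v - C r^{-9/2}` (Young against `2 c z`).
`bern_A` (`α = 5/2`, `a₁ ≤ K`) gives `a₁² ≤ C r^{-5/2}`; then `bern_B` (`α = 9/2`, `β = 1`, `κ = 23/4`). -/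
theorem bern_oneB (n : ℕ) {c : ℝ} (hc : 0 < c) (K : ℝ) : ∃ C, 0 ≤ C ∧ ∀ D : BR n, Ell c K D.τ →
    (∀ x, d 1 D.ζ x ≤ K * r x ^ (-1 / 2 : ℝ)) →
    (∀ x, d 2 D.ζ x ≤ K * r x ^ (-5 / 4 : ℝ)) → (∀ x, d 3 D.ζ x ≤ K) →
    (∀ x, d 2 D.V x ≤ K * r x ^ (-5 / 4 : ℝ)) → (∀ x, d 3 D.V x ≤ K * r x ^ (-9 / 4 : ℝ)) →
    ∀ x, d 3 D.ζ x ≤ C * r x ^ (-9 / 4 : ℝ) := by
  obtain ⟨C, hC, H⟩ := pb1_aux n hc (abs_nonneg K)
  have hK := le_abs_self K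
  refine ⟨C, hC, fun D hE h1 h2 h3 hV2 hV3 => H D (hE.mono le_rfl hK) (fun x => (h1 x).trans ?_)
    (fun x => (h2 x).trans ?_) (fun x => (h3 x).trans hK) (fun x => (hV2 x).trans ?_)
    (fun x => (hV3 x).trans ?_)⟩ <;>
  exact mul_le_mul_of_nonneg_right hK (r_rpow_pos x _).le

end Crest.Agent.R253
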