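import Crest.Agent.R253.PBernF
import Crest.Agent.R238.Bern2

/-!
# Row 253, PDE part: higher order Bernstein estimates (port of `R238.Bern2`)
-/

set_option autoImplicit false
open MeasureTheory Matrix Filter Topology
open scoped ContDiff BigOperators

noncomputable section
namespace Crest.Agent.R253
open Crest.Agent.R238

variable {n : ℕ}

theorem bsB_pt (n : ℕ) {c : ℝ} (hc : 0 < c) {K : ℝ} (hK : 0 ≤ K) {k : ℕ} (hk : 1 ≤ k) :
    ∃ P G : ℝ, 0 ≤ P ∧ 0 ≤ G ∧ ∀ (D : BR n) (x : E n), Low c D.τ → dM 0 D.τ x ≤ K →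
    d 1 D.ζ x ≤ K * r x ^ (-1 / 2 : ℝ) →
    (∀ i < k + 1, d (i + 2) D.ζ x ≤ K * r x ^ (-5 / 4 - (i : ℝ))) →
    (∀ i ≤ k + 1, d (i + 2) D.V x ≤ K * r x ^ (-5 / 4 - (i : ℝ))) →
    c * ev x (q (k + 3) D.ζ) - P * (r x ^ (-5 / 4 - (k : ℝ))) ^ 2
        ≤ ev x (Lop D.τ (q (k + 2) D.ζ)) ∧
      c * ev x (q (k + 4) D.ζ) + 2 * ((k : ℝ) + 3) * ev x (q (k + 3) D.ζ)
        - G * (r x ^ (-1 / 2 : ℝ) * d (k + 3) D.ζ x ^ 2 + d (k + 3) D.ζ x ^ 3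
          + d (k + 3) D.ζ x * r x ^ (-9 / 4 - (k : ℝ))) ≤ ev x (Lop D.τ (q (k + 3) D.ζ)) := by
  obtain ⟨C1, hC1, h1⟩ := Lq_BR k
  obtain ⟨C2, hC2, h2⟩ := Lq_BR (k + 1)
  obtain ⟨C3, hC3, h3⟩ := F_leB K (l := k + 1) (by omega)
  refine ⟨C1 * K * (K + C3) + (C1 * K * C3) ^ 2 * (n : ℝ) ^ (k + 3) / c,
    (C2 * C3) ^ 2 * (n : ℝ) ^ (k + 4) / c + C2 * C3 + C2 * K, by positivity, by positivity,
    fun D x hlow hτ h1ζ hζ hV => ?_⟩
  obtain ⟨hF1, hF0⟩ := h3 D x hτ h1ζ hζ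
  have he : (-5 / 4 - ((k + 1 : ℕ) : ℝ)) = -9 / 4 - (k : ℝ) := by push_cast; ring
  have hV1 := hV (k + 1) le_rfl
  rw [he] at hF1 hF0 hV1
  rw [Nat.add_sub_cancel] at hF0
  constructor
  · exact bs_p (m := 2 * ((k : ℝ) + 2)) hc hK hC1 hC3 (by positivity) (q_nonneg _ _ _)
      (q_nonneg _ _ _) (by positivity) (d_nonneg _ _ _) (d_nonneg _ _ _) (r_rpow_pos _ _).le
      (r_rpow_mono x (by linarith)) (d_sq_le_q (k + 3) D.ζ x) (hζ k (by omega)) (hV k (by omega))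
      hF0 (h1 D c x hlow)
  · have h4 := h2 D c x hlow
    have he2 : (((k + 1 : ℕ) : ℝ) + 2) = (k : ℝ) + 3 := by push_cast; ring
    rw [he2] at h4
    exact bs_v hc hK hC2 hC3 (by positivity) (q_nonneg _ _ _) (d_nonneg _ _ _) (r_rpow_pos _ _).le
      (r_rpow_pos _ _).le (r_rpow_le_one x (by norm_num)) (d_sq_le_q (k + 4) D.ζ x) hV1 hF1 h4

theorem bsB_main (n : ℕ) {c : ℝ} (hc : 0 < c) {K : ℝ} (hK : 0 ≤ K) {k : ℕ} (hk : 1 ≤ k) :
    ∃ C, 0 ≤ C ∧ ∀ D : BR n, Ell c K D.τ → (∀ x, dM 0 D.τ x ≤ K) →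
    (∀ x, d 1 D.ζ x ≤ K * r x ^ (-1 / 2 : ℝ)) →
    (∀ i < k + 1, ∀ x, d (i + 2) D.ζ x ≤ K * r x ^ (-5 / 4 - (i : ℝ))) →
    (∀ i ≤ k + 1, ∀ x, d (i + 2) D.V x ≤ K * r x ^ (-5 / 4 - (i : ℝ))) →
    ∀ x, d (k + 3) D.ζ x ≤ C * r x ^ (-9 / 4 - (k : ℝ)) := by
  obtain ⟨P, G, hP, hG, hpt⟩ := bsB_pt n hc hK hk
  have hk' : (1 : ℝ) ≤ k := by exact_mod_cast hk
  obtain ⟨N, hN⟩ : ∃ N : ℝ, N = (n : ℝ) ^ (k + 3) := ⟨_, rfl⟩
  obtain ⟨N', hN'⟩ : ∃ N : ℝ, N = (n : ℝ) ^ (k + 4) := ⟨_, rfl⟩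
  have hN0 : 0 ≤ N := by rw [hN]; positivity
  have hN0' : 0 ≤ N' := by rw [hN']; positivity
  obtain ⟨a1, ha1⟩ : ∃ a : ℝ, a = G * (3 * (1 + Real.sqrt N ^ 3)) := ⟨_, rfl⟩
  obtain ⟨a2, ha2⟩ : ∃ a : ℝ, a = 4 * (n : ℝ) ^ 2 * K * (K * N * Real.sqrt N') := ⟨_, rfl⟩
  have ha10 : 0 ≤ a1 := by rw [ha1]; positivity
  have ha20 : 0 ≤ a2 := by rw [ha2]; positivity
  have hK2 : 0 ≤ K ^ 2 := sq_nonneg K
  obtain ⟨CU, hCU, hU⟩ := bern_U hc (K + K ^ 2 + P + a1 + a2)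
  obtain ⟨a3, ha3⟩ : ∃ a : ℝ, a = G * ((2 + Real.sqrt N * Real.sqrt CU) * N) := ⟨_, rfl⟩
  have ha30 : 0 ≤ a3 := by rw [ha3]; positivity
  obtain ⟨CA, hCA, hA⟩ := bern_A n hc (K + K ^ 2 + P + CU + G + a3) 0 (α := 2 * k + 5 / 2)
    (by positivity)
  obtain ⟨a4, ha4⟩ : ∃ a : ℝ, a = G * (1 + Real.sqrt (N * CA)) * N := ⟨_, rfl⟩
  obtain ⟨a5, ha5⟩ : ∃ a : ℝ, a = G ^ 2 * N / (1 / 4) := ⟨_, rfl⟩
  have ha40 : 0 ≤ a4 := by rw [ha4]; positivity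
  have ha50 : 0 ≤ a5 := by rw [ha5]; positivity
  obtain ⟨CB, hCB, hB⟩ := bern_B n (K + CU + a4 + a5) (α := 2 * k + 9 / 2) (β := 1 / 2)
    (κ := 2 * k + 23 / 4) (by positivity) (by norm_num) (by linarith)
  refine ⟨Real.sqrt (N * CB), Real.sqrt_nonneg _, fun D hτ hτ0 h1ζ hζ hV => ?_⟩
  have hL := fun x => hpt D x hτ.low (hτ0 x) (h1ζ x) (fun i hi => hζ i hi x) (fun i hi => hV i hi x)
  have hsp : Sym (-1) (q (k + 2) D.ζ) := (D.symζ.q (k + 2)).mono (by push_cast; linarith)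
  have hsv : Sym (-1) (q (k + 3) D.ζ) := (D.symζ.q (k + 3)).mono (by push_cast; linarith)
  have hAv : ∀ x, d (k + 3) D.ζ x ^ 2 ≤ N * ev x (q (k + 3) D.ζ) := fun x => by
    rw [hN]; exact d_sq_le_q _ _ _
  have hBz : ∀ x, d (k + 4) D.ζ x ^ 2 ≤ N' * ev x (q (k + 4) D.ζ) := fun x => by
    rw [hN']; exact d_sq_le_q _ _ _
  have hs' : ∀ x : E n, (r x ^ (-5 / 4 - (k : ℝ))) ^ 2 = r x ^ (-(2 * (k : ℝ) + 5 / 2)) := fun x => by
    rw [bs_rsq]; congr 1; ring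
  have hs : ∀ x : E n, (r x ^ (-9 / 4 - (k : ℝ))) ^ 2 = r x ^ (-(2 * (k : ℝ) + 9 / 2)) := fun x => by
    rw [bs_rsq]; congr 1; ring
  have hρ1 : ∀ x : E n, r x ^ (-(2 * (k : ℝ) + 5 / 2)) ≤ 1 := fun x => r_rpow_le_one x (by linarith)
  have hp : ∀ x, ev x (q (k + 2) D.ζ) ≤ K ^ 2 * r x ^ (-(2 * (k : ℝ) + 5 / 2)) := fun x => by
    refine (q_le_d_sq _ _ _).trans ?_
    rw [← hs', ← mul_pow]
    exact pow_le_pow_left₀ (d_nonneg _ _ _) (hζ k (by omega) x) 2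
  have hT : ∀ x, 0 ≤ 2 * ((k : ℝ) + 3) * ev x (q (k + 3) D.ζ) := fun x =>
    mul_nonneg (by positivity) (q_nonneg _ _ _)
  have hz : ∀ x, 0 ≤ c * ev x (q (k + 4) D.ζ) := fun x => mul_nonneg hc.le (q_nonneg _ _ _)
  -- (U)
  have hvU : ∀ x, ev x (q (k + 3) D.ζ) ≤ CU := by
    refine hU D.τ (q (k + 2) D.ζ) (q (k + 3) D.ζ) (fun x => ev x (q (k + 4) D.ζ)) (-1)
      (hτ.mono hc.le (by linarith)) hsp hsv (by norm_num) (fun x => q_nonneg _ _ _)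
      (fun x => ?_) (fun x => q_nonneg _ _ _) (fun x => q_nonneg _ _ _) (fun x => ?_)
      (fun x => ?_) (fun x => ?_)
    · have h1 := mul_le_mul_of_nonneg_left (hρ1 x) hK2
      have h2 := hp x
      linarith
    · have h1 := (hL x).1
      rw [hs'] at h1
      have h2 := mul_le_mul_of_nonneg_left (hρ1 x) hP
      linarith
    · have h1 := (hL x).2
      have h2 := bs_U hN0 (q_nonneg _ _ _) (d_nonneg _ _ _)
        (r_rpow_le_one x (show (-1 / 2 : ℝ) ≤ 0 by norm_num))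
        (r_rpow_le_one x (show -9 / 4 - (k : ℝ) ≤ 0 by linarith)) (hAv x)
      have h3 := mul_le_mul_of_nonneg_left h2 hG
      rw [← mul_assoc, ← ha1] at h3
      have h4 : 0 ≤ 1 + ev x (q (k + 3) D.ζ) * Real.sqrt (ev x (q (k + 3) D.ζ)) := by
        have := q_nonneg (k + 3) D.ζ x
        positivity
      have h5 := mul_le_mul_of_nonneg_right
        (show a1 ≤ K + K ^ 2 + P + a1 + a2 by linarith) h4
      have h6 := hT x
      linarith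
    · have h1 := (abs_le.1 (abs_gam_q_le hτ (k + 2) (k + 3) D.ζ D.ζ x)).1
      have h2 : d (k + 2) D.ζ x ≤ K := by
        have h := hζ k (by omega) x
        have h' := mul_le_mul_of_nonneg_left
          (r_rpow_le_one x (show -5 / 4 - (k : ℝ) ≤ 0 by linarith)) hK
        linarith
      have h3 := bs_le_sqrt hN0' (q_nonneg _ _ _) (hBz x)
      have hv0 := q_nonneg (k + 3) D.ζ x
      have h4 : d (k + 2) D.ζ x * d (k + 2 + 1) D.ζ x * (d (k + 3) D.ζ x * d (k + 3 + 1) D.ζ x)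
          ≤ K * N * Real.sqrt N' *
            (ev x (q (k + 3) D.ζ) * Real.sqrt (ev x (q (k + 4) D.ζ))) := by
        calc d (k + 2) D.ζ x * d (k + 2 + 1) D.ζ x * (d (k + 3) D.ζ x * d (k + 3 + 1) D.ζ x)
            = d (k + 2) D.ζ x * d (k + 3) D.ζ x ^ 2 * d (k + 4) D.ζ x := by
              show d (k + 2) D.ζ x * d (k + 3) D.ζ x * (d (k + 3) D.ζ x * d (k + 4) D.ζ x) = _
              ring
          _ ≤ K * (N * ev x (q (k + 3) D.ζ)) *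
              (Real.sqrt N' * Real.sqrt (ev x (q (k + 4) D.ζ))) :=
              mul_le_mul (mul_le_mul h2 (hAv x) (sq_nonneg _) hK) h3 (d_nonneg _ _ _)
                (by positivity)
          _ = _ := by ring
      have h5 := mul_le_mul_of_nonneg_left h4 (show 0 ≤ 4 * (n : ℝ) ^ 2 * K by positivity)
      rw [← mul_assoc (4 * (n : ℝ) ^ 2 * K) (K * N * Real.sqrt N'), ← ha2] at h5
      have h6 : 0 ≤ ev x (q (k + 3) D.ζ) * Real.sqrt (ev x (q (k + 4) D.ζ)) := by positivity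
      have h7 := mul_le_mul_of_nonneg_right
        (show a2 ≤ K + K ^ 2 + P + a1 + a2 by linarith) h6
      linarith
  -- (A)
  have hvA : ∀ x, ev x (q (k + 3) D.ζ) ≤ CA * r x ^ (-(2 * (k : ℝ) + 5 / 2)) := by
    refine hA D.τ (q (k + 2) D.ζ) (q (k + 3) D.ζ) (-1)
      (hτ.mono hc.le (by linarith)) hsp hsv (by norm_num) (fun x => q_nonneg _ _ _)
      (fun x => ?_) (fun x => q_nonneg _ _ _) (fun x => ?_) (fun x _ => ?_) (fun x => ?_)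
    · exact (hp x).trans (mul_le_mul_of_nonneg_right (by linarith) (r_rpow_pos _ _).le)
    · have := hvU x
      linarith
    · have h1 := (hL x).1
      rw [hs'] at h1
      have h2 := mul_le_mul_of_nonneg_right
        (show P ≤ K + K ^ 2 + P + CU + G + a3 by linarith)
        (r_rpow_pos x (-(2 * (k : ℝ) + 5 / 2))).le
      linarith
    · have h1 := (hL x).2
      have hv0 := q_nonneg (k + 3) D.ζ x
      have h0 : d (k + 3) D.ζ x ≤ Real.sqrt N * Real.sqrt CU :=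
        bs_le_sqrt hN0 hCU ((hAv x).trans (mul_le_mul_of_nonneg_left (hvU x) hN0))
      have h2 := bs_A (s := r x ^ (-9 / 4 - (k : ℝ))) (ρ := r x ^ (-(2 * (k : ℝ) + 5 / 2))) hN0 hv0
        (d_nonneg _ _ _) (r_rpow_le_one x (show (-1 / 2 : ℝ) ≤ 0 by norm_num)) h0
        (by rw [hs]; exact r_rpow_mono x (by linarith)) (hAv x)
      have h3 := mul_le_mul_of_nonneg_left h2 hG
      rw [mul_add G (_ * ev x _), ← mul_assoc G _ (ev x _), ← ha3] at h3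
      have h4 := mul_le_mul_of_nonneg_right
        (show G ≤ K + K ^ 2 + P + CU + G + a3 by linarith)
        (r_rpow_pos x (-(2 * (k : ℝ) + 5 / 2))).le
      have h5 := mul_le_mul_of_nonneg_right
        (show a3 ≤ K + K ^ 2 + P + CU + G + a3 by linarith) hv0
      have h6 := hT x
      have h7 := hz x
      linarith
  -- (B)
  have hvB : ∀ x, ev x (q (k + 3) D.ζ) ≤ CB * r x ^ (-(2 * (k : ℝ) + 9 / 2)) := by
    refine hB D.τ (q (k + 3) D.ζ) (-1) (hτ.mono hc.le (by linarith)) hsv (by norm_num)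
      (fun x => q_nonneg _ _ _) (fun x => ?_) (fun x => ?_)
    · have := hvU x
      linarith
    · have h1 := (hL x).2
      have hv0 := q_nonneg (k + 3) D.ζ x
      have hw0 := (r_rpow_pos x (-1 / 2 : ℝ)).le
      have h0 : d (k + 3) D.ζ x ≤ Real.sqrt (N * CA) * r x ^ (-1 / 2 : ℝ) := by
        refine abs_le_abs_iff_aux ?_ (by positivity)
        rw [mul_pow, Real.sq_sqrt (by positivity), bs_rsq, mul_assoc]
        refine (hAv x).trans (mul_le_mul_of_nonneg_left ((hvA x).trans ?_) hN0)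
        exact mul_le_mul_of_nonneg_left (r_rpow_mono x (by linarith)) hCA
      have h2 := bs_B (s := r x ^ (-9 / 4 - (k : ℝ))) hG hN0 hv0 (d_nonneg _ _ _) hw0
        (Real.sqrt_nonneg _) h0 (hAv x)
      rw [← ha4, ← ha5, hs] at h2
      have h4 := mul_le_mul_of_nonneg_right
        (show a5 ≤ K + CU + a4 + a5 by linarith) (r_rpow_pos x (-(2 * (k : ℝ) + 9 / 2))).le
      have h5 := mul_le_mul_of_nonneg_right (mul_le_mul_of_nonneg_right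
        (show a4 ≤ K + CU + a4 + a5 by linarith) hw0) hv0
      have h7 := hz x
      rw [show (-(1 / 2) : ℝ) = -1 / 2 by norm_num]
      linarith
  intro x
  refine abs_le_abs_iff_aux ?_ (mul_nonneg (Real.sqrt_nonneg _) (r_rpow_pos _ _).le)
  rw [mul_pow, Real.sq_sqrt (by positivity), hs, mul_assoc]
  exact (hAv x).trans (mul_le_mul_of_nonneg_left (hvB x) hN0)

/-- As `R238.bern_step` (reuse the numerical lemmas `bs_*` with `w = r^{-1/2}`, `s = r^{-5/4-l}`,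
`s' = r^{-1/4-l}`): `p = q (l+1) ζ`, `v = q (l+2) ζ`, `z = q (l+3) ζ`, `α' = 2l + 1/2`, `α = 2l + 5/2`.
`Lq_BR (l-1)`, `F_leB`: `L p ≥ c v - C r^{-α'}`, `p ≤ K² r^{-α'}`.
`Lq_BR l`, `F_leB`: `L v ≥ 2c z + 2(l+2) v - C a_l (w a_{l+1} + a_l² + w a_l + s)`.
(U) `bern_U` with `abs_gam_q_le` gives `v ≤ C`; (A) `bern_A` gives `v ≤ C r^{-α'}`, so `a_l ≤ C w`;
(B) `L v ≥ (2l + 15/4) v - C w v - C r^{-α}`, `bern_B` with `β = 1/2`. -/
theorem bern_stepB (n : ℕ) {c : ℝ} (hc : 0 < c) (K : ℝ) {l : ℕ} (hl : 2 ≤ l) :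
    ∃ C, 0 ≤ C ∧ ∀ D : BR n, Ell c K D.τ → (∀ x, d 1 D.ζ x ≤ K * r x ^ (-1 / 2 : ℝ)) →
    (∀ i < l, ∀ x, d (i + 2) D.ζ x ≤ K * r x ^ (-5 / 4 - (i : ℝ))) →
    (∀ i ≤ l, ∀ x, d (i + 2) D.V x ≤ K * r x ^ (-5 / 4 - (i : ℝ))) →
    ∀ x, d (l + 2) D.ζ x ≤ C * r x ^ (-5 / 4 - (l : ℝ)) := by
  obtain ⟨k, rfl⟩ : ∃ k, l = k + 1 := ⟨l - 1, by omega⟩
  have hK0 : 0 ≤ |K| := abs_nonneg K
  have hK1 : 0 ≤ (n : ℝ) ^ 2 * |K| := by positivity
  have hK2 : K ≤ |K| + (n : ℝ) ^ 2 * |K| := by linarith [le_abs_self K]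
  obtain ⟨C, hC, h⟩ := bsB_main n hc (K := |K| + (n : ℝ) ^ 2 * |K|) (by positivity)
    (k := k) (by omega)
  refine ⟨C, hC, fun D hτ h1ζ hζ hV x => ?_⟩
  have he : (-5 / 4 - ((k + 1 : ℕ) : ℝ)) = -9 / 4 - (k : ℝ) := by push_cast; ring
  rw [he]
  refine h D (hτ.mono le_rfl hK2) (fun y => (hτ.dM_zero_le y).trans ?_)
    (fun y => (h1ζ y).trans (mul_le_mul_of_nonneg_right hK2 (r_rpow_pos _ _).le))
    (fun i hi y => (hζ i hi y).trans (mul_le_mul_of_nonneg_right hK2 (r_rpow_pos _ _).le))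
    (fun i hi y => (hV i hi y).trans (mul_le_mul_of_nonneg_right hK2 (r_rpow_pos _ _).le)) x
  have := mul_le_mul_of_nonneg_left (le_abs_self K) (sq_nonneg (n : ℝ))
  linarith

end Crest.Agent.R253
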