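import Crest.Agent.R253.PId
import Crest.Agent.R238.BernF

/-!
# Row 253, PDE part: nonlinear terms in the Bernstein method (port of `R238.BernF`)

The Bernstein argument is run with the drift-free operator `Lop τ` of `R238` (so that `bern_U`, `bern_A`,
`bern_B` apply verbatim); the drift is put on the right-hand side (`Top_pd`).
Notation: `a l = d (l+2) ζ`, `t l = dM l τ`, `w = r^{-1/2}`, `s l = r^{-5/4-l}`.
-/

set_option autoImplicit false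
open MeasureTheory Matrix Filter Topology
open scoped ContDiff BigOperators

noncomputable section
namespace Crest.Agent.R253
open Crest.Agent.R238

variable {n : ℕ}

/-- `F_l = ∑_{i ≤ l} t_{i+1} a_{l+1-i} + ∑_{i ≤ l+1} d_{i+1}ζ · a_{l+1-i}`. -/
def BR.F (D : BR n) (l : ℕ) (x : E n) : ℝ :=
  ∑ i ∈ Finset.range (l + 1), dM (i + 1) D.τ x * d (l + 3 - i) D.ζ x +
    ∑ i ∈ Finset.range (l + 2), d (i + 1) D.ζ x * d (l + 3 - i) D.ζ x

/-- Leibniz for the drift: `d_sum_le`, `d_mul_le`, `d_pd_le`, `d_pd_pd_le`, `d_succ`. -/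
theorem d_dr_le (k : ℕ) (ζ : Sm n) (e : Fin n) (x : E n) :
    d k (dr (grad ζ) (pd e ζ)) x ≤
      2 ^ k * ∑ i ∈ Finset.range (k + 1), d (i + 1) ζ x * d (k + 2 - i) ζ x := by
  calc d k (dr (grad ζ) (pd e ζ)) x ≤
        ∑ a, 2 ^ k * ∑ i ∈ Finset.range (k + 1), d i (pd a ζ) x * d (k + 2 - i) ζ x := by
        refine (d_sum_le k _ _ x).trans (Finset.sum_le_sum fun a _ => (d_mul_le k _ _ x).trans ?_)
        refine mul_le_mul_of_nonneg_left (Finset.sum_le_sum fun i hi => ?_) (by positivity)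
        have hi' := Finset.mem_range.1 hi
        rw [show k + 2 - i = k - i + 2 by omega]
        exact mul_le_mul_of_nonneg_left (d_pd_pd_le _ _ _ _ _) (d_nonneg _ _ _)
    _ = _ := by
        rw [← Finset.mul_sum, Finset.sum_comm]
        simp only [← Finset.sum_mul, d_succ]

/-- Sum `Lop_q_ge (l+1)` over `ψ = ∂_eζ` with `l = -1` there, `Top_pd`, `d_dr_le`. -/
theorem Lq_BR (l : ℕ) : ∃ C, 0 ≤ C ∧ ∀ {n : ℕ} (D : BR n) (c : ℝ) (x : E n), Low c D.τ →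
    2 * c * ev x (q (l + 3) D.ζ) + 2 * (l + 2) * ev x (q (l + 2) D.ζ)
      - C * (d (l + 2) D.ζ x * (d (l + 2) D.V x + D.F l x)) ≤ ev x (Lop D.τ (q (l + 2) D.ζ)) := by
  obtain ⟨C, hC, h⟩ := Lop_q_ge (l + 1)
  refine ⟨C * 2 ^ (l + 1), by positivity, fun D c x hc => ?_⟩
  have h1 : ∀ e, 2 * c * ev x (q (l + 2) (pd e D.ζ)) + 2 * (l + 2) * ev x (q (l + 1) (pd e D.ζ))
      - C * 2 ^ (l + 1) * (d (l + 1) (pd e D.ζ) x * (d (l + 2) D.V x + D.F l x)) ≤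
      ev x (Lop D.τ (q (l + 1) (pd e D.ζ))) := by
    intro e
    have h2 := h c (-1) D.τ (pd e D.ζ) x D.τ_symm hc
    rw [D.Top_pd] at h2
    have h3 : ∑ i ∈ Finset.range (l + 1), dM (i + 1) D.τ x * d (l + 1 + 1 - i) (pd e D.ζ) x ≤
        ∑ i ∈ Finset.range (l + 1), dM (i + 1) D.τ x * d (l + 3 - i) D.ζ x := by
      refine Finset.sum_le_sum fun i hi => mul_le_mul_of_nonneg_left ?_ (dM_nonneg _ _ _)
      have hi' := Finset.mem_range.1 hi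
      rw [show l + 3 - i = l + 1 + 1 - i + 1 by omega]
      exact d_pd_le _ _ _ _
    have h5 := d_sub_le (l + 1) (dr (grad D.ζ) (pd e D.ζ)) (pd e D.V) x
    have h6 := d_dr_le (l + 1) D.ζ e x
    have h7 := d_pd_le (l + 1) e D.V x
    have h8 : (1 : ℝ) ≤ 2 ^ (l + 1) := one_le_pow₀ (by norm_num)
    have h9 : 0 ≤ ∑ i ∈ Finset.range (l + 1), dM (i + 1) D.τ x * d (l + 3 - i) D.ζ x :=
      Finset.sum_nonneg fun i _ => mul_nonneg (dM_nonneg _ _ _) (d_nonneg _ _ _)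
    have h10 := d_nonneg (l + 2) D.V x
    have h11 : d (l + 1) (dr (grad D.ζ) (pd e D.ζ) - pd e D.V) x +
        ∑ i ∈ Finset.range (l + 1), dM (i + 1) D.τ x * d (l + 1 + 1 - i) (pd e D.ζ) x ≤
        2 ^ (l + 1) * (d (l + 2) D.V x + D.F l x) := by
      rw [BR.F]
      have e1 : l + 1 + 2 = l + 3 := rfl
      have e2 : l + 1 + 1 = l + 2 := rfl
      rw [e1, e2] at h6
      rw [e2] at h7
      nlinarith [mul_le_mul_of_nonneg_right h8 h9, mul_le_mul_of_nonneg_right h8 h10]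
    have h4 := mul_le_mul_of_nonneg_left (mul_le_mul_of_nonneg_left h11
      (d_nonneg (l + 1) (pd e D.ζ) x)) hC
    push_cast at h2
    linarith
  have h5 := Finset.sum_le_sum fun e (_ : e ∈ Finset.univ) => h1 e
  rw [q_succ (l + 2), q_succ (l + 1), d_succ (l + 1) D.ζ, Lop_sum]
  simp only [Finset.sum_sub_distrib, Finset.sum_add_distrib, ← Finset.mul_sum, ← Finset.sum_mul]
    at h5
  simpa only [map_sum] using h5

theorem bernF_dM_g (D : BR n) (j : ℕ) (x : E n) : dM (j + 1) D.g x = d (j + 3) D.ζ x := by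
  rw [BR.g, dM_succ_one_add, dM_hess]

theorem bernF_t_one {K : ℝ} (D : BR n) (x : E n) (h : dM 0 D.τ x ≤ K) :
    dM 1 D.τ x ≤ K ^ 2 * d 3 D.ζ x := by
  have h1 := dM_inv_succ D.τg 0 x
  simp only [Finset.sum_range_one, zero_add, pow_zero, one_mul, Nat.sub_zero] at h1
  rw [bernF_dM_g D 0] at h1
  have h0 := dM_nonneg 0 D.τ x
  have h2 := d_nonneg 3 D.ζ x
  calc dM 1 D.τ x ≤ dM 0 D.τ x ^ 2 * d 3 D.ζ x := by linarith
    _ ≤ K ^ 2 * d 3 D.ζ x := by gcongr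

theorem F_zero_leB (K : ℝ) : ∃ C, 0 ≤ C ∧ ∀ {n : ℕ} (D : BR n) (x : E n), dM 0 D.τ x ≤ K →
    D.F 0 x ≤ C * (d 3 D.ζ x ^ 2 + d 1 D.ζ x * d 3 D.ζ x + d 2 D.ζ x ^ 2) := by
  refine ⟨K ^ 2 + 1, by positivity, fun D x h => ?_⟩
  have h1 := mul_le_mul_of_nonneg_right (bernF_t_one D x h) (d_nonneg 3 D.ζ x)
  simp only [BR.F, Finset.sum_range_succ, Finset.range_zero, Finset.sum_empty, zero_add,
    Nat.sub_zero, Nat.reduceAdd, Nat.add_one_sub_one]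
  have a1 := d_nonneg 1 D.ζ x
  have a3 := d_nonneg 3 D.ζ x
  have h2 : 0 ≤ K ^ 2 * (d 1 D.ζ x * d 3 D.ζ x) := by positivity
  have h3 : 0 ≤ K ^ 2 * d 2 D.ζ x ^ 2 := by positivity
  nlinarith [sq_nonneg (d 3 D.ζ x)]

theorem F_one_leB (K : ℝ) : ∃ C, 0 ≤ C ∧ ∀ {n : ℕ} (D : BR n) (x : E n), dM 0 D.τ x ≤ K →
    D.F 1 x ≤ C * (d 3 D.ζ x * d 4 D.ζ x + d 3 D.ζ x ^ 3 + d 1 D.ζ x * d 4 D.ζ x
      + d 2 D.ζ x * d 3 D.ζ x) := by
  refine ⟨5 * K ^ 2 + 8 * |K| ^ 3 + 2, by positivity, fun D x h => ?_⟩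
  have h0 := dM_nonneg 0 D.τ x
  have hK : 0 ≤ K := h0.trans h
  rw [abs_of_nonneg hK]
  have h1 := bernF_t_one D x h
  have h2 := dM_inv_succ D.τg 1 x
  simp only [Finset.sum_range_succ, Finset.range_zero, Finset.sum_empty, zero_add, pow_one,
    Nat.sub_zero, Nat.add_one_sub_one, Nat.sub_self] at h2
  rw [bernF_dM_g D 0, bernF_dM_g D 1] at h2
  simp only [BR.F, Finset.sum_range_succ, Finset.range_zero, Finset.sum_empty, zero_add,
    Nat.sub_zero, Nat.reduceAdd, Nat.add_one_sub_one, Nat.reduceSub] at h2 ⊢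
  have a0 := d_nonneg 1 D.ζ x
  have a0' := d_nonneg 2 D.ζ x
  have a1 := d_nonneg 3 D.ζ x
  have a2 := d_nonneg 4 D.ζ x
  have t1 := dM_nonneg 1 D.τ x
  have h3 : dM 2 D.τ x ≤ 4 * (K * d 3 D.ζ x * (K ^ 2 * d 3 D.ζ x) + K * d 4 D.ζ x * K +
      K ^ 2 * d 3 D.ζ x * d 3 D.ζ x * K) := h2.trans (by gcongr)
  have h4 := mul_le_mul_of_nonneg_right h1 a2
  have h5 := mul_le_mul_of_nonneg_right h3 a1
  have h6 : 0 ≤ K ^ 2 * d 3 D.ζ x ^ 3 := by positivity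
  have h7 : 0 ≤ K ^ 3 * (d 3 D.ζ x * d 4 D.ζ x) := by positivity
  have h8 : 0 ≤ (5 * K ^ 2 + 8 * K ^ 3) * (d 1 D.ζ x * d 4 D.ζ x + d 2 D.ζ x * d 3 D.ζ x) := by
    positivity
  have h9 : 0 ≤ d 3 D.ζ x * d 4 D.ζ x := by positivity
  have h10 : 0 ≤ d 3 D.ζ x ^ 3 := by positivity
  have h11 : 0 ≤ d 1 D.ζ x * d 4 D.ζ x := by positivity
  nlinarith

theorem bernF_first (K : ℝ) {l : ℕ} (hl : 2 ≤ l) : ∃ C, 0 ≤ C ∧ ∀ {n : ℕ} (D : BR n) (x : E n),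
    dM 0 D.τ x ≤ K → (∀ i < l, d (i + 2) D.ζ x ≤ K * r x ^ (-5 / 4 - (i : ℝ))) →
    ∑ i ∈ Finset.range (l + 1), dM (i + 1) D.τ x * d (l + 3 - i) D.ζ x ≤
      C * (r x ^ (-1 / 2 : ℝ) * d (l + 3) D.ζ x + d (l + 2) D.ζ x ^ 2
      + r x ^ (-1 / 2 : ℝ) * d (l + 2) D.ζ x + r x ^ (-5 / 4 - (l : ℝ))) ∧
    ∑ i ∈ Finset.range (l - 1 + 1), dM (i + 1) D.τ x * d (l - 1 + 3 - i) D.ζ x ≤
      C * (d (l + 2) D.ζ x + r x ^ (-5 / 4 - (l : ℝ))) := by
  have h0 : ∀ j : ℕ, ∃ C, 0 ≤ C ∧ (1 ≤ j → j ≤ l + 1 → ∀ {n : ℕ} (τ g : Mat n) (x : E n) (s : ℝ),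
      τ * g = 1 → 0 ≤ s → s ≤ 1 → dM 0 τ x ≤ K →
      (∀ i, 1 ≤ i → i ≤ l - 1 → r x ^ i * dM i g x ≤ K * s) →
      r x ^ j * dM j τ x ≤
        C * (s + r x ^ j * dM j g x + s * ∑ i ∈ Finset.Ioo (l - 1) j, r x ^ i * dM i g x)) := by
    intro j
    by_cases hj : 1 ≤ j ∧ j ≤ l + 1
    · obtain ⟨C, hC, h⟩ := dM_inv_le K (l - 1) j hj.1 (by omega)
      exact ⟨C, hC, fun _ _ n τ g x s h1 h2 h3 h4 h5 => h τ g x s h1 h2 h3 h4 h5⟩
    · exact ⟨0, le_rfl, fun h1 h2 => absurd ⟨h1, h2⟩ hj⟩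
  choose c hc0 hc using h0
  set C := ∑ j ∈ Finset.range (l + 2), c j with hCdef
  have hC : 0 ≤ C := Finset.sum_nonneg fun j _ => hc0 j
  refine ⟨(l + 1) * (C * (1 + K) ^ 2), by positivity, fun {n} D x hτ ha => ?_⟩
  have hK : 0 ≤ K := (dM_nonneg 0 D.τ x).trans hτ
  have hr := r_pos x
  have hr1 := one_le_r x
  set s : ℝ := r x ^ (-5 / 4 : ℝ) with hsdef
  set p : ℝ := r x ^ (5 / 4 : ℝ) with hpdef
  have hs0 : 0 < s := r_rpow_pos x _
  have hs1 : s ≤ 1 := r_rpow_le_one x (by norm_num)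
  have hp0 : 0 < p := r_rpow_pos x _
  have hp1 : 1 ≤ p := Real.one_le_rpow hr1 (by norm_num)
  have hps : p * s = 1 := by
    rw [hsdef, hpdef, ← r_rpow_add]; norm_num
  set A : ℕ → ℝ := fun i => p * (r x ^ i * d (i + 2) D.ζ x) with hAdef
  set T : ℕ → ℝ := fun j => p * (r x ^ j * dM j D.τ x) with hTdef
  have hA0 : ∀ i, 0 ≤ A i := fun i =>
    mul_nonneg hp0.le (mul_nonneg (pow_nonneg hr.le _) (d_nonneg _ _ _))
  have hrs : ∀ i : ℕ, r x ^ i * r x ^ (-5 / 4 - (i : ℝ)) = s := fun i => by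
    rw [← Real.rpow_natCast, ← r_rpow_add, hsdef]
    congr 1
    ring
  have hA' : ∀ i < l, r x ^ i * d (i + 2) D.ζ x ≤ K * s := by
    intro i hi
    calc r x ^ i * d (i + 2) D.ζ x ≤ r x ^ i * (K * r x ^ (-5 / 4 - (i : ℝ))) :=
          mul_le_mul_of_nonneg_left (ha i hi) (pow_nonneg hr.le _)
      _ = K * (r x ^ i * r x ^ (-5 / 4 - (i : ℝ))) := by ring
      _ = K * s := by rw [hrs]
  have hA : ∀ i < l, A i ≤ K := by
    intro i hi
    calc A i ≤ p * (K * s) := mul_le_mul_of_nonneg_left (hA' i hi) hp0.le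
      _ = K * (p * s) := by ring
      _ = K := by rw [hps, mul_one]
  have hg : ∀ i, 1 ≤ i → r x ^ i * dM i D.g x = r x ^ i * d (i + 2) D.ζ x := by
    intro i hi
    obtain ⟨k, rfl⟩ := Nat.exists_eq_add_of_le' hi
    rw [bernF_dM_g]
  have hT : ∀ j, 1 ≤ j → j ≤ l + 1 → T j ≤ C * (1 + A j + ∑ i ∈ Finset.Ioo (l - 1) j, A i) := by
    intro j h1 h2
    have h3 := hc j h1 h2 D.τ D.g x s D.τg hs0.le hs1 hτ fun i hi hi' => by
      rw [hg i hi]; exact hA' i (by omega)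
    rw [hg j h1, Finset.sum_congr rfl fun i hi =>
      hg i (by have := Finset.mem_Ioo.1 hi; omega)] at h3
    have h4 := mul_le_mul_of_nonneg_left h3 hp0.le
    have h5 : 0 ≤ ∑ i ∈ Finset.Ioo (l - 1) j, A i := Finset.sum_nonneg fun i _ => hA0 i
    have h6 : c j ≤ C := Finset.single_le_sum (fun j _ => hc0 j) (Finset.mem_range.2 (by omega))
    have h7 : ∑ i ∈ Finset.Ioo (l - 1) j, A i =
        p * ∑ i ∈ Finset.Ioo (l - 1) j, r x ^ i * d (i + 2) D.ζ x := by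
      rw [Finset.mul_sum]
    have h8 : p * (c j * (s + r x ^ j * d (j + 2) D.ζ x +
        s * ∑ i ∈ Finset.Ioo (l - 1) j, r x ^ i * d (i + 2) D.ζ x)) =
        c j * (1 + A j + s * ∑ i ∈ Finset.Ioo (l - 1) j, A i) := by
      rw [h7, ← hps]
      simp only [hAdef]
      ring
    have h9 := hA0 j
    calc T j ≤ c j * (1 + A j + s * ∑ i ∈ Finset.Ioo (l - 1) j, A i) := h8 ▸ h4
      _ ≤ C * (1 + A j + 1 * ∑ i ∈ Finset.Ioo (l - 1) j, A i) := by gcongr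
      _ = _ := by rw [one_mul]
  obtain ⟨h1, h2⟩ := BernF_num hl (Q := p ^ 2 * (r x ^ (l + 2) * d (l + 2) D.ζ x ^ 2)) hK hC
    (by positivity) (by rintro rfl; simp only [hAdef]; ring) hA0 hA hT
  have hM : 0 ≤ C * (1 + K) ^ 2 := by positivity
  have a2 := d_nonneg (l + 2) D.ζ x
  have a3 := d_nonneg (l + 3) D.ζ x
  have hrw : 1 ≤ r x * r x ^ (-1 / 2 : ℝ) := by
    nth_rewrite 1 [← Real.rpow_one (r x)]
    rw [← r_rpow_add]
    exact Real.one_le_rpow hr1 (by norm_num)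
  have hw0 : 0 < r x ^ (-1 / 2 : ℝ) := r_rpow_pos x _
  have hrl : 0 < r x ^ l := pow_pos hr l
  constructor
  · refine le_of_mul_le_mul_left ?_ (mul_pos (pow_pos hp0 2) (pow_pos hr (l + 2)))
    have e1 : p ^ 2 * r x ^ (l + 2) *
        ∑ i ∈ Finset.range (l + 1), dM (i + 1) D.τ x * d (l + 3 - i) D.ζ x =
        ∑ i ∈ Finset.range (l + 1), T (i + 1) * A (l + 1 - i) := by
      rw [Finset.mul_sum]
      refine Finset.sum_congr rfl fun i hi => ?_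
      have hi' := Finset.mem_range.1 hi
      simp only [hAdef, hTdef]
      rw [show l + 1 - i + 2 = l + 3 - i by omega,
        show l + 2 = (i + 1) + (l + 1 - i) by omega, pow_add]
      ring
    have e2 : A (l + 1) + p ^ 2 * (r x ^ (l + 2) * d (l + 2) D.ζ x ^ 2) + A l + 1 ≤
        p ^ 2 * r x ^ (l + 2) * (r x ^ (-1 / 2 : ℝ) * d (l + 3) D.ζ x + d (l + 2) D.ζ x ^ 2
          + r x ^ (-1 / 2 : ℝ) * d (l + 2) D.ζ x + r x ^ (-5 / 4 - (l : ℝ))) := by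
      have e3 : A (l + 1) ≤ p ^ 2 * r x ^ (l + 2) * (r x ^ (-1 / 2 : ℝ) * d (l + 3) D.ζ x) := by
        calc A (l + 1) = 1 * p * (r x ^ (l + 1) * 1 * d (l + 3) D.ζ x) := by
              simp only [hAdef]; ring
          _ ≤ p * p * (r x ^ (l + 1) * (r x * r x ^ (-1 / 2 : ℝ)) * d (l + 3) D.ζ x) := by gcongr
          _ = _ := by ring
      have e4 : A l ≤ p ^ 2 * r x ^ (l + 2) * (r x ^ (-1 / 2 : ℝ) * d (l + 2) D.ζ x) := by
        calc A l = 1 * p * (r x ^ l * 1 * 1 * d (l + 2) D.ζ x) := by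
              simp only [hAdef]; ring
          _ ≤ p * p * (r x ^ l * r x * (r x * r x ^ (-1 / 2 : ℝ)) * d (l + 2) D.ζ x) := by gcongr
          _ = _ := by ring
      have e5 : 1 ≤ p ^ 2 * r x ^ (l + 2) * r x ^ (-5 / 4 - (l : ℝ)) := by
        calc (1 : ℝ) = 1 * (p * s) * 1 * 1 := by rw [hps]; ring
          _ ≤ p * (p * s) * r x * r x := by gcongr
          _ = _ := by rw [← hrs l]; ring
      rw [mul_add, mul_add, mul_add]
      linarith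
    rw [e1]
    refine (Finset.sum_le_card_nsmul _ _ _ fun i hi =>
      h1 i (by have := Finset.mem_range.1 hi; omega)).trans ?_
    rw [Finset.card_range, nsmul_eq_mul, mul_left_comm (p ^ 2 * r x ^ (l + 2)),
      mul_assoc ((l : ℝ) + 1)]
    push_cast
    gcongr
  · refine le_of_mul_le_mul_left ?_ (mul_pos (pow_pos hp0 2) (pow_pos hr (l + 1)))
    have e1 : p ^ 2 * r x ^ (l + 1) *
        ∑ i ∈ Finset.range (l - 1 + 1), dM (i + 1) D.τ x * d (l - 1 + 3 - i) D.ζ x =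
        ∑ i ∈ Finset.range l, T (i + 1) * A (l - i) := by
      rw [Finset.mul_sum, show l - 1 + 1 = l by omega]
      refine Finset.sum_congr rfl fun i hi => ?_
      have hi' := Finset.mem_range.1 hi
      simp only [hAdef, hTdef]
      rw [show l - i + 2 = l - 1 + 3 - i by omega,
        show l + 1 = (i + 1) + (l - i) by omega, pow_add]
      ring
    have e2 : A l + 1 ≤
        p ^ 2 * r x ^ (l + 1) * (d (l + 2) D.ζ x + r x ^ (-5 / 4 - (l : ℝ))) := by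
      have e4 : A l ≤ p ^ 2 * r x ^ (l + 1) * d (l + 2) D.ζ x := by
        calc A l = 1 * p * (r x ^ l * 1 * d (l + 2) D.ζ x) := by
              simp only [hAdef]; ring
          _ ≤ p * p * (r x ^ l * r x * d (l + 2) D.ζ x) := by gcongr
          _ = _ := by ring
      have e5 : 1 ≤ p ^ 2 * r x ^ (l + 1) * r x ^ (-5 / 4 - (l : ℝ)) := by
        calc (1 : ℝ) = 1 * (p * s) * 1 := by rw [hps]; ring
          _ ≤ p * (p * s) * r x := by gcongr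
          _ = _ := by rw [← hrs l]; ring
      rw [mul_add]
      linarith
    rw [e1]
    refine (Finset.sum_le_card_nsmul _ _ _ fun i hi => h2 i (Finset.mem_range.1 hi)).trans ?_
    rw [Finset.card_range, nsmul_eq_mul, mul_left_comm (p ^ 2 * r x ^ (l + 1)),
      mul_assoc ((l : ℝ) + 1)]
    have := hA0 l
    gcongr
    linarith

theorem bernF_second {K : ℝ} (hK : 0 ≤ K) {l : ℕ} (hl : 2 ≤ l) (ζ : Sm n) (x : E n)
    (h1 : d 1 ζ x ≤ K * r x ^ (-1 / 2 : ℝ))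
    (ha : ∀ i < l, d (i + 2) ζ x ≤ K * r x ^ (-5 / 4 - (i : ℝ))) :
    ∑ i ∈ Finset.range (l + 2), d (i + 1) ζ x * d (l + 3 - i) ζ x ≤
      (l + 2) * (1 + K) ^ 2 * (r x ^ (-1 / 2 : ℝ) * d (l + 3) ζ x + d (l + 2) ζ x ^ 2
      + r x ^ (-1 / 2 : ℝ) * d (l + 2) ζ x + r x ^ (-5 / 4 - (l : ℝ))) ∧
    ∑ i ∈ Finset.range (l - 1 + 2), d (i + 1) ζ x * d (l - 1 + 3 - i) ζ x ≤
      (l + 2) * (1 + K) ^ 2 * (d (l + 2) ζ x + r x ^ (-5 / 4 - (l : ℝ))) := by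
  have a2 := d_nonneg (l + 2) ζ x
  have a3 := d_nonneg (l + 3) ζ x
  have hw0 : 0 < r x ^ (-1 / 2 : ℝ) := r_rpow_pos x _
  have hw1 : r x ^ (-1 / 2 : ℝ) ≤ 1 := r_rpow_le_one x (by norm_num)
  have hs0 : 0 < r x ^ (-5 / 4 - (l : ℝ)) := r_rpow_pos x _
  have hK1 : K ≤ (1 + K) ^ 2 := by nlinarith
  have hK2 : K * K ≤ (1 + K) ^ 2 := by nlinarith
  have h2 : d 2 ζ x ≤ K * r x ^ (-1 / 2 : ℝ) := by
    refine (ha 0 (by omega)).trans (mul_le_mul_of_nonneg_left (r_rpow_mono x ?_) hK)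
    norm_num
  have hkk : ∀ i j : ℕ, i < l → j < l → l ≤ i + j + 1 →
      d (i + 2) ζ x * d (j + 2) ζ x ≤ (1 + K) ^ 2 * r x ^ (-5 / 4 - (l : ℝ)) := by
    intro i j hi hj hij
    have hij' : (l : ℝ) ≤ i + j + 1 := by exact_mod_cast hij
    calc d (i + 2) ζ x * d (j + 2) ζ x ≤
          K * r x ^ (-5 / 4 - (i : ℝ)) * (K * r x ^ (-5 / 4 - (j : ℝ))) :=
          mul_le_mul (ha i hi) (ha j hj) (d_nonneg _ _ _) (mul_nonneg hK (r_rpow_pos x _).le)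
      _ = K * K * r x ^ ((-5 / 4 - (i : ℝ)) + (-5 / 4 - (j : ℝ))) := by rw [r_rpow_add]; ring
      _ ≤ (1 + K) ^ 2 * r x ^ (-5 / 4 - (l : ℝ)) :=
          mul_le_mul hK2 (r_rpow_mono x (by linarith)) (r_rpow_pos x _).le (by positivity)
  have hw : ∀ {a b : ℝ}, 0 ≤ b → a ≤ K * r x ^ (-1 / 2 : ℝ) →
      a * b ≤ (1 + K) ^ 2 * (r x ^ (-1 / 2 : ℝ) * b) := fun {a b} hb h => by
    calc a * b ≤ K * r x ^ (-1 / 2 : ℝ) * b := mul_le_mul_of_nonneg_right h hb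
      _ = K * (r x ^ (-1 / 2 : ℝ) * b) := by ring
      _ ≤ _ := by gcongr
  have b2 : 0 ≤ r x ^ (-1 / 2 : ℝ) * d (l + 2) ζ x := by positivity
  have b3 : 0 ≤ r x ^ (-1 / 2 : ℝ) * d (l + 3) ζ x := by positivity
  have b4 := sq_nonneg (d (l + 2) ζ x)
  have hK0 : 0 ≤ (1 + K) ^ 2 := by positivity
  constructor
  · refine (Finset.sum_le_card_nsmul _ _ ((1 + K) ^ 2 * (r x ^ (-1 / 2 : ℝ) * d (l + 3) ζ x +
      d (l + 2) ζ x ^ 2 + r x ^ (-1 / 2 : ℝ) * d (l + 2) ζ x + r x ^ (-5 / 4 - (l : ℝ))))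
      fun i hi => ?_).trans_eq (by rw [Finset.card_range, nsmul_eq_mul]; push_cast; ring)
    have hi' := Finset.mem_range.1 hi
    rcases (by omega : i = 0 ∨ i = 1 ∨ i = l + 1 ∨ (2 ≤ i ∧ i ≤ l)) with rfl | rfl | rfl | h
    · exact (hw a3 h1).trans (mul_le_mul_of_nonneg_left (by linarith) hK0)
    · exact (hw a2 h2).trans (mul_le_mul_of_nonneg_left (by linarith) hK0)
    · rw [show l + 3 - (l + 1) = 2 by omega, mul_comm]
      exact (hw a2 h2).trans (mul_le_mul_of_nonneg_left (by linarith) hK0)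
    · rw [show i + 1 = (i - 1) + 2 by omega, show l + 3 - i = (l + 1 - i) + 2 by omega]
      exact (hkk _ _ (by omega) (by omega) (by omega)).trans
        (mul_le_mul_of_nonneg_left (by linarith) hK0)
  · refine (Finset.sum_le_card_nsmul _ _ ((1 + K) ^ 2 * (d (l + 2) ζ x +
      r x ^ (-5 / 4 - (l : ℝ)))) fun i hi => ?_).trans ?_
    · have hi' := Finset.mem_range.1 hi
      rcases (by omega : i = 0 ∨ (1 ≤ i ∧ i ≤ l)) with rfl | h
      · rw [show l - 1 + 3 - 0 = l + 2 by omega]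
        refine (hw a2 h1).trans (mul_le_mul_of_nonneg_left ?_ hK0)
        nlinarith
      · rw [show i + 1 = (i - 1) + 2 by omega, show l - 1 + 3 - i = (l - i) + 2 by omega]
        exact (hkk _ _ (by omega) (by omega) (by omega)).trans
          (mul_le_mul_of_nonneg_left (by linarith) hK0)
    · rw [Finset.card_range, nsmul_eq_mul, show l - 1 + 2 = l + 1 by omega, mul_assoc]
      push_cast
      gcongr
      norm_num

/-- First sums as in `R238.F_le` (`dM_inv_le` with `m = l - 1`, `s = r^{-5/4}`; `BernF_num`). Second sum of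
`F l`: `i = 0`: `d₁ζ a_{l+1} ≤ K w a_{l+1}`; `i = 1, l+1`: `a_0 a_l ≤ K w a_l`; otherwise both factors are
known, product `≤ K² r^{-5/2-l}`. Second sum of `F (l-1)`: `d₁ζ a_l ≤ K a_l`, the others
`≤ K² r^{-5/2-(l-1)} ≤ K² s l`. -/
theorem F_leB (K : ℝ) {l : ℕ} (hl : 2 ≤ l) : ∃ C, 0 ≤ C ∧ ∀ {n : ℕ} (D : BR n) (x : E n),
    dM 0 D.τ x ≤ K → d 1 D.ζ x ≤ K * r x ^ (-1 / 2 : ℝ) →
    (∀ i < l, d (i + 2) D.ζ x ≤ K * r x ^ (-5 / 4 - (i : ℝ))) →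
    D.F l x ≤ C * (r x ^ (-1 / 2 : ℝ) * d (l + 3) D.ζ x + d (l + 2) D.ζ x ^ 2
      + r x ^ (-1 / 2 : ℝ) * d (l + 2) D.ζ x + r x ^ (-5 / 4 - (l : ℝ))) ∧
    D.F (l - 1) x ≤ C * (d (l + 2) D.ζ x + r x ^ (-5 / 4 - (l : ℝ))) := by
  obtain ⟨C, hC, h⟩ := bernF_first K hl
  refine ⟨C + (l + 2) * (1 + K) ^ 2, by positivity, fun {n} D x hτ h1 ha => ?_⟩
  obtain ⟨h2, h3⟩ := h D x hτ ha
  have hK : 0 ≤ K := (dM_nonneg 0 D.τ x).trans hτ
  obtain ⟨h4, h5⟩ := bernF_second hK hl D.ζ x h1 ha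
  constructor
  · rw [BR.F, add_mul]
    exact add_le_add h2 h4
  · rw [BR.F, add_mul]
    exact add_le_add h3 h5

end Crest.Agent.R253
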