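import Crest.Agent.R253.PDefs

/-!
# Row 253, PDE part: maximum principles with a drift (port of `R238.MaxP`)
-/

set_option autoImplicit false
open MeasureTheory Matrix Filter Topology
open scoped ContDiff BigOperators

noncomputable section
namespace Crest.Agent.R253
open Crest.Agent.R238

variable {n : ℕ}

/-- At a maximum point `∇f = 0` (`pd_eq_zero_of_max`, `ev_dr`), then `Lop_nonpos_of_max`. -/
theorem Lb_nonpos_of_max {τ : Mat n} (b : Fin n → Sm n) {f : Sm n} {x : E n}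
    (hτ : (evM x τ).PosSemidef) (h : ∀ y, ev y f ≤ ev x f) : ev x (Lb τ b f) ≤ 0 := by
  have h1 := Lop_nonpos_of_max hτ h
  have h2 : ev x (dr b f) = 0 := by
    rw [ev_dr]
    exact Finset.sum_eq_zero fun a _ => by rw [pd_eq_zero_of_max h, mul_zero]
  rw [Lb, map_sub, h2, sub_zero]
  exact h1

/-- Port of `mp0`. -/
theorem mp0B {τ : Mat n} (b : Fin n → Sm n) (hτ : ∀ x, (evM x τ).PosSemidef) {m K : ℝ} (hm : m < 0)
    {f : Sm n} (hf : Sym m f) (hK : 0 ≤ K) (h : ∀ x, ev x f - K ≤ ev x (Lb τ b f)) (x : E n) :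
    ev x f ≤ K := by
  by_contra hx
  push Not at hx
  obtain ⟨x1, h1⟩ := exists_max_of_sym hm hf (hK.trans_lt hx)
  have := Lb_nonpos_of_max b (hτ x1) h1
  linarith [h x1, h1 x]

/-- `Lop_rho_le` and `|b · ∇ r^{-α}| ≤ n K α r^{-α-1}` (`pd_rho`, `abs_le_r`); `r^{-2} ≤ r^{-1}`. -/
theorem Lb_rho_le (n : ℕ) (K : ℝ) {α : ℝ} (hα : 0 ≤ α) : ∃ C, 0 ≤ C ∧
    ∀ (τ : Mat n) (b : Fin n → Sm n) (x : E n), (∀ a c, |ev x (τ a c)| ≤ K) →
    (∀ a, |ev x (b a)| ≤ K) →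
    ev x (Lb τ b (rho (-α))) ≤ (α + C * r x ^ (-1 : ℝ)) * r x ^ (-α) := by
  obtain ⟨C, hC, H⟩ := Lop_rho_le n K hα
  refine ⟨C + n * (|K| * α), by positivity, fun τ b x h hb => ?_⟩
  have h1 := H τ x h
  have hp := r_rpow_pos x (-α)
  have hp1 := r_rpow_pos x (-1)
  have h2 : r x ^ (-2 : ℝ) ≤ r x ^ (-1 : ℝ) :=
    Real.rpow_le_rpow_of_exponent_le (one_le_r x) (by norm_num)
  have e : r x * r x ^ (-α - 2) = r x ^ (-1 : ℝ) * r x ^ (-α) := by
    rw [← r_rpow_add]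
    nth_rewrite 1 [← Real.rpow_one (r x)]
    rw [← r_rpow_add]
    congr 1
    ring
  have h3 : -ev x (dr b (rho (-α))) ≤ n * (|K| * α) * (r x ^ (-1 : ℝ) * r x ^ (-α)) := by
    rw [ev_dr, ← Finset.sum_neg_distrib]
    calc _ ≤ ∑ _a : Fin n, |K| * α * (r x ^ (-1 : ℝ) * r x ^ (-α)) := by
          refine Finset.sum_le_sum fun a _ => (neg_le_abs _).trans ?_
          have hp2 := r_rpow_pos x (-α - 2)
          rw [pd_rho, ev_smul, map_mul, ev_X, ev_rho, abs_mul, abs_mul, abs_mul, abs_neg,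
            abs_of_nonneg hα, abs_of_pos hp2, ← e, mul_assoc]
          exact mul_le_mul ((hb a).trans (le_abs_self K))
            (mul_le_mul_of_nonneg_left (mul_le_mul_of_nonneg_right (abs_le_r x a) hp2.le) hα)
            (by positivity) (abs_nonneg K)
      _ = _ := by simp; ring
  have h4 := mul_le_mul_of_nonneg_right (mul_le_mul_of_nonneg_left h2 hC) hp.le
  rw [Lb, map_sub]
  nlinarith

/-- Port of `wmp` (copy the proof, with `Lb_rho_le` and `maxP_rpow` for the exponent `1`). -/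
theorem wmpB (n : ℕ) (K R : ℝ) {α κ : ℝ} (hα : 0 < α) (hκ : α + 1 / 2 ≤ κ) :
    ∃ C, 0 ≤ C ∧ ∀ (τ : Mat n) (b : Fin n → Sm n) (f : Sm n) (m : ℝ), Ell 0 K τ →
      (∀ x a, |ev x (b a)| ≤ K) → Sym m f → m < 0 → (∀ x, ev x f ≤ K) →
      (∀ x, R ≤ r x → κ * ev x f - K * r x ^ (-α) ≤ ev x (Lb τ b f)) →
      ∀ x, ev x f ≤ C * r x ^ (-α) := by
  obtain ⟨C₁, hC₁, H⟩ := Lb_rho_le n K hα.le
  obtain ⟨R₁, hR₁⟩ := maxP_rpow (show (0 : ℝ) < 1 by norm_num) (4 * C₁)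
  set R' := max (max R R₁) 1 with hR'
  have hR'0 : 0 < R' := lt_of_lt_of_le one_pos (le_max_right _ _)
  have hRα : 0 < R' ^ α := Real.rpow_pos_of_pos hR'0 α
  refine ⟨|K| * R' ^ α + 4 * |K|, by positivity, fun τ b f m hτ hb hf hm hK hL x => ?_⟩
  set C := |K| * R' ^ α + 4 * |K| with hC
  have hC0 : 0 ≤ C := by positivity
  by_contra hx
  push Not at hx
  have hg : Sym (max m (-α)) (f - C • rho (-α)) :=
    (hf.mono (le_max_left _ _)).sub (((sym_rho (-α)).smul C).mono (le_max_right _ _))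
  have ev_g : ∀ y : E n, ev y (f - C • rho (-α)) = ev y f - C * r y ^ (-α) := fun y => by
    rw [map_sub, ev_smul, ev_rho]
  obtain ⟨x1, h1⟩ := exists_max_of_sym (max_lt hm (by linarith)) hg (x0 := x)
    (by rw [ev_g]; linarith)
  have h2 : C * r x1 ^ (-α) < ev x1 f := by
    have := h1 x
    rw [ev_g, ev_g] at this
    linarith
  have hp := r_rpow_pos x1 (-α)
  have h3 : R' ≤ r x1 := by
    by_contra h3
    push Not at h3
    have h4 : r x1 ^ α ≤ R' ^ α := Real.rpow_le_rpow (r_pos x1).le h3.le hα.le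
    have h5 : r x1 ^ α * r x1 ^ (-α) = 1 := by rw [← r_rpow_add]; simp
    have h6 : 1 ≤ R' ^ α * r x1 ^ (-α) := h5 ▸ mul_le_mul_of_nonneg_right h4 hp.le
    have h7 : |K| ≤ |K| * (R' ^ α * r x1 ^ (-α)) := le_mul_of_one_le_right (abs_nonneg _) h6
    have h8 : 0 ≤ 4 * |K| * r x1 ^ (-α) := by positivity
    have := hK x1
    have := le_abs_self K
    rw [hC] at h2
    nlinarith
  have h4 := Lb_nonpos_of_max b (hτ.psd le_rfl x1) h1
  rw [Lb_sub, Lb_smul, map_sub, ev_smul] at h4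
  have h5 := H τ b x1 (hτ.bd x1) (hb x1)
  have h6 := hL x1 ((le_max_left _ _).trans ((le_max_left _ _).trans h3))
  have h7 := hR₁ _ ((le_max_right _ _).trans ((le_max_left _ _).trans h3))
  have h8 : C₁ * r x1 ^ (-1 : ℝ) ≤ 1 / 4 := by
    have h5 : r x1 ^ (1 : ℝ) * r x1 ^ (-1 : ℝ) = 1 := by rw [← r_rpow_add]; simp
    have := mul_le_mul_of_nonneg_right h7 (r_rpow_pos x1 (-1)).le
    linarith
  have h9 : ev x1 (Lb τ b (rho (-α))) ≤ (α + 1 / 4) * r x1 ^ (-α) :=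
    h5.trans (mul_le_mul_of_nonneg_right (by linarith) hp.le)
  have h10 := mul_le_mul_of_nonneg_left h9 hC0
  have h11 : (α + 1 / 2) * (C * r x1 ^ (-α)) < κ * ev x1 f :=
    mul_lt_mul' hκ h2 (by positivity) (by linarith)
  have h12 : 4 * K * r x1 ^ (-α) ≤ C * r x1 ^ (-α) := by
    refine mul_le_mul_of_nonneg_right ?_ hp.le
    have := le_abs_self K
    have : 0 ≤ |K| * R' ^ α := by positivity
    linarith
  linarith

end Crest.Agent.R253
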