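import Crest.Agent.R253.PId
import Crest.Agent.R253.PMax
import Crest.Agent.R238.C2

/-!
# Row 253, PDE part: `C¹` and `C²` estimates (port of `R238.C2`; reuse `qfS`, `c2_*`)
-/

set_option autoImplicit false
open MeasureTheory Matrix Filter Topology
open scoped ContDiff BigOperators

noncomputable section
namespace Crest.Agent.R253
open Crest.Agent.R238

variable {n : ℕ}

theorem pc2_L_qfS (D : BR n) {M P : Mat n} (h : ∀ a b, D.L (M a b) = P a b) (e : E n) :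
    D.L (qfS M e) = qfS P e := by
  simp only [qfS, D.L_sum, D.L_smul, h]

theorem pc2_sq {A : RM n} (hA : Aᵀ = A) (e : E n) :
    e ⬝ᵥ ((A * A) *ᵥ e) = (A *ᵥ e) ⬝ᵥ (A *ᵥ e) := by
  rw [← Matrix.mulVec_mulVec, Matrix.dotProduct_mulVec, ← Matrix.mulVec_transpose, hA]

theorem pc2_L_hess (D : BR n) {e : E n} (he : e ⬝ᵥ e = 1) (x : E n) :
    2 * ev x (qfS (hess D.ζ) e) + ev x (qfS (hess D.ζ) e) ^ 2 - d 2 D.V x ≤
      ev x (Lb D.τ (grad D.ζ) (qfS (hess D.ζ) e)) := by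
  have hA : (evM x (hess D.ζ))ᵀ = evM x (hess D.ζ) := by rw [← evM_transpose, hess_transpose]
  change _ ≤ ev x (D.L _)
  rw [pc2_L_qfS D (P := hess D.ζ + hess D.ζ + hess D.ζ * hess D.ζ + D.Γ - hess D.V)
    (fun a b => by
      rw [D.L_hess a b, Matrix.sub_apply, Matrix.add_apply, Matrix.add_apply, Matrix.add_apply,
        two_mul]), ev_qfS, ev_qfS,
    evM_sub, evM_add, evM_add, evM_add, evM_mul, Matrix.sub_mulVec, Matrix.add_mulVec,
    Matrix.add_mulVec, Matrix.add_mulVec, dotProduct_sub, dotProduct_add, dotProduct_add,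
    dotProduct_add, pc2_sq hA]
  have h1 := D.Γ_low x e
  have h2 := (abs_le.1 (c2_quad_hess D.V x e)).2
  have h3 := sq_quad_le hA e
  rw [zero_mul] at h1
  rw [he, mul_one] at h2
  rw [he, one_mul] at h3
  linarith

theorem pc2_L_τ (D : BR n) {e : E n} (he : e ⬝ᵥ e = 1) (x : E n) :
    -1 + (evM x D.τ *ᵥ e) ⬝ᵥ (evM x D.H *ᵥ (evM x D.τ *ᵥ e)) ≤
      ev x (Lb D.τ (grad D.ζ) (qfS (D.τ - 1) e)) := by
  have hτ : (evM x D.τ)ᵀ = evM x D.τ := by rw [← evM_transpose, D.τ_symm]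
  have h0 : ∀ a b, D.L ((D.τ - 1) a b) = (-1 + D.τ * D.Γ * D.τ + D.τ * D.H * D.τ) a b := by
    intro a b
    have h1 : D.L ((1 : Mat n) a b) = 0 := by
      rw [Matrix.one_apply]
      split_ifs
      exacts [D.L_one, D.L_zero]
    rw [Matrix.sub_apply, D.L_sub, h1, sub_zero, D.L_τ]
  change _ ≤ ev x (D.L _)
  rw [pc2_L_qfS D h0, ev_qfS, evM_add, evM_add, evM_neg, evM_one, evM_mul, evM_mul, evM_mul,
    evM_mul, Matrix.add_mulVec, Matrix.add_mulVec, dotProduct_add, dotProduct_add, c2_conj hτ,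
    c2_conj hτ, Matrix.neg_mulVec, dotProduct_neg, Matrix.one_mulVec, he]
  have h1 := D.Γ_low x (evM x D.τ *ᵥ e)
  rw [zero_mul] at h1
  linarith

theorem pc2_L_pd (D : BR n) (a : Fin n) (x : E n) :
    ev x (Lb D.τ (grad D.ζ) (pd a D.ζ)) = ev x (pd a D.ζ) - ev x (pd a D.V) := by
  change ev x (D.L _) = _
  rw [D.L_pd, map_sub]

theorem pc2_L_neg_pd (D : BR n) (a : Fin n) (x : E n) :
    ev x (Lb D.τ (grad D.ζ) (-pd a D.ζ)) = ev x (-pd a D.ζ) + ev x (pd a D.V) := by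
  rw [Lb_neg, map_neg, map_neg, pc2_L_pd]; ring


/-- `mp0B` for `± ∂_aζ ∈ Sym (-7/8)`: `L ζ_a = ζ_a - V_a` (`L_pd`), `|V_a| ≤ d 1 V` (`abs_pd_le`). -/
theorem c1_bound (D : BR n) {K : ℝ} (h : ∀ x, d 1 D.V x ≤ K) (x : E n) (a : Fin n) :
    |ev x (pd a D.ζ)| ≤ K := by
  have hK : 0 ≤ K := (d_nonneg 1 D.V x).trans (h x)
  have hpsd : ∀ x, (evM x D.τ).PosSemidef := fun x => (D.τ_posDef x).posSemidef
  have hV : ∀ y, |ev y (pd a D.V)| ≤ K := fun y => (abs_pd_le a D.V y).trans (h y)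
  have h1 := mp0B (grad D.ζ) hpsd (by norm_num) (D.symb a) hK (fun y => by
    rw [pc2_L_pd]
    linarith [(abs_le.1 (hV y)).2]) x
  have h2 := mp0B (grad D.ζ) hpsd (by norm_num) (D.symb a).neg hK (fun y => by
    rw [pc2_L_neg_pd]
    linarith [(abs_le.1 (hV y)).1]) x
  rw [map_neg] at h2
  exact abs_le.2 ⟨by linarith, h1⟩

/-- `wmpB` with `α = 1/2`, `κ = 1`, `R = 0` for `± ∂_aζ` (`c1_bound` gives the bound on the drift and on
`f`); `d 1 ζ = ∑ |ζ_a|`. -/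
theorem c1_decay (n : ℕ) (K : ℝ) : ∃ C, 0 ≤ C ∧ ∀ D : BR n, Ell 0 K D.τ →
    (∀ x, d 1 D.V x ≤ K * r x ^ (-1 / 2 : ℝ)) → ∀ x, d 1 D.ζ x ≤ C * r x ^ (-1 / 2 : ℝ) := by
  have hK := abs_nonneg K
  have hK' := le_abs_self K
  obtain ⟨C, hC, H⟩ := wmpB n |K| 0 (α := 1 / 2) (κ := 1) (by norm_num) (by norm_num)
  refine ⟨(n : ℝ) * C, by positivity, fun D hτ hV x => ?_⟩
  rw [show (-(1 / 2) : ℝ) = -1 / 2 by norm_num] at H
  have hτ' : Ell 0 |K| D.τ := hτ.mono le_rfl hK'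
  have hV' : ∀ y, d 1 D.V y ≤ |K| * r y ^ (-1 / 2 : ℝ) := fun y =>
    (hV y).trans (mul_le_mul_of_nonneg_right hK' (r_rpow_pos y _).le)
  have hV1 : ∀ y, d 1 D.V y ≤ |K| := fun y =>
    (hV' y).trans (mul_le_of_le_one_right hK (r_rpow_le_one y (by norm_num)))
  have hb : ∀ y a, |ev y (grad D.ζ a)| ≤ |K| := fun y a => c1_bound D hV1 y a
  have key : ∀ a, |ev x (pd a D.ζ)| ≤ C * r x ^ (-1 / 2 : ℝ) := by
    intro a
    have hVa : ∀ y, |ev y (pd a D.V)| ≤ |K| * r y ^ (-1 / 2 : ℝ) := fun y =>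
      (abs_pd_le a D.V y).trans (hV' y)
    have h1 := H D.τ (grad D.ζ) (pd a D.ζ) (-7 / 8) hτ' hb (D.symb a) (by norm_num)
      (fun y => (abs_le.1 (c1_bound D hV1 y a)).2) (fun y _ => by
        rw [pc2_L_pd]
        linarith [(abs_le.1 (hVa y)).2]) x
    have h2 := H D.τ (grad D.ζ) (-pd a D.ζ) (-7 / 8) hτ' hb (D.symb a).neg (by norm_num)
      (fun y => by
        rw [map_neg]
        linarith [(abs_le.1 (c1_bound D hV1 y a)).1]) (fun y _ => by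
        rw [pc2_L_neg_pd]
        linarith [(abs_le.1 (hVa y)).1]) x
    rw [map_neg] at h2
    exact abs_le.2 ⟨by linarith, h1⟩
  calc d 1 D.ζ x = ∑ a, |ev x (pd a D.ζ)| := rfl
    _ ≤ ∑ _a : Fin n, C * r x ^ (-1 / 2 : ℝ) := Finset.sum_le_sum fun a _ => key a
    _ = (n : ℝ) * C * r x ^ (-1 / 2 : ℝ) := by simp; ring

/-- For a unit vector `e`: `f = qfS (hess ζ) e ∈ Sym (-15/8)` has
`L f = 2f + |A e|² + Γ_ee - V_ee ≥ 2f + f² - K ≥ f - (K + 1/4)` (`L_hess`, `Γ_low`, `sq_quad_le`), so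
`mp0B` gives `f ≤ K + 1/4`; `h = qfS (τ - 1) e` has `L h = -1 + (τΓτ)_ee + (τHτ)_ee ≥ -1 + ε t²
≥ (t - 1) - 1/(4ε)` for `t = τ_ee` (`L_τ`). Finish as in `R238.c2_bounds`. -/
theorem c2_boundsB (n : ℕ) {ε : ℝ} (hε : 0 < ε) (K : ℝ) : ∃ c K', 0 < c ∧ 0 ≤ K' ∧ ∀ D : BR n,
    Low ε D.H → (∀ x, d 2 D.V x ≤ K) → Ell c K' D.τ ∧ Ell c K' D.g := by
  have hK := abs_nonneg K
  have hε' : 0 < ε⁻¹ := inv_pos.2 hε
  have hΛ : 0 < 2 + |K| + ε⁻¹ := by positivity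
  refine ⟨(2 + |K| + ε⁻¹)⁻¹, 2 + |K| + ε⁻¹, inv_pos.2 hΛ, hΛ.le, fun D hH hV => ?_⟩
  have hpsd : ∀ x, (evM x D.τ).PosSemidef := fun x => (D.τ_posDef x).posSemidef
  have hg : ∀ x v, v ⬝ᵥ (evM x D.g *ᵥ v) ≤ (2 + |K| + ε⁻¹) * (v ⬝ᵥ v) := by
    intro x
    refine c2_scale fun e he => ?_
    have h1 := mp0B (grad D.ζ) hpsd (K := |K| + 1) (by norm_num) (c2_sym_qfS D.symA e)
      (by linarith) (fun y => by
      have h2 := pc2_L_hess D he y
      set f := ev y (qfS (hess D.ζ) e)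
      nlinarith [hV y, le_abs_self K, sq_nonneg (f + 1 / 2)]) x
    rw [ev_qfS] at h1
    rw [BR.g, c2_one_add, he]
    linarith
  have hτ : ∀ x v, v ⬝ᵥ (evM x D.τ *ᵥ v) ≤ (2 + |K| + ε⁻¹) * (v ⬝ᵥ v) := by
    intro x
    refine c2_scale fun e he => ?_
    have h1 := mp0B (grad D.ζ) hpsd (by norm_num) (c2_sym_qfS D.symτ e) hε'.le (fun y => by
      have h2 := pc2_L_τ D he y
      have h3 := hH y (evM y D.τ *ᵥ e)
      have h4 := sq_quad_le (psd_transpose (hpsd y)) e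
      have h8 := psd_quad (hpsd y) e
      rw [he, one_mul] at h4
      rw [ev_qfS, c2_sub_one, he]
      set t := e ⬝ᵥ (evM y D.τ *ᵥ e)
      have h5 := mul_le_mul_of_nonneg_left h4 hε.le
      have h6 : 0 ≤ ε * (t - ε⁻¹) ^ 2 := by positivity
      have h7 : ε * (t - ε⁻¹) ^ 2 = ε * t ^ 2 - 2 * t + ε⁻¹ := by field_simp; ring
      linarith) x
    rw [ev_qfS, c2_sub_one, he] at h1
    linarith
  refine ⟨⟨D.τ_symm, fun x v => ?_, fun x a b => ?_⟩, ⟨D.g_symm, fun x v => ?_, fun x a b => ?_⟩⟩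
  · exact inv_low (D.g_posDef x) (evM_inv D.τg x) hΛ (hg x) v
  · refine abs_entry_le (psd_transpose (hpsd x)) (fun v => ?_) a b
    rw [abs_of_nonneg (psd_quad (hpsd x) v)]
    exact hτ x v
  · exact inv_low (D.τ_posDef x) (evM_inv D.gτ x) hΛ (hτ x) v
  · refine abs_entry_le (psd_transpose (D.g_posDef x).posSemidef) (fun v => ?_) a b
    rw [abs_of_nonneg (psd_quad (D.g_posDef x).posSemidef v)]
    exact hg x v

/-- `wmpB` with `α = 5/4`, `κ = 2`, `R = 0` (drift bounded by `c1_bound`): `f = ζ_ee` has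
`L f ≥ 2f - K r^{-5/4}`; `h = τ_ee - 1` has `L h ≥ -1 + |τ e|² + (τ D²V τ)_ee ≥ 2h + h² - C r^{-5/4}`.
Finish as in `R238.c2_decay`. -/
theorem c2_decayB (n : ℕ) (K : ℝ) : ∃ C, 0 ≤ C ∧ ∀ D : BR n, Ell 0 K D.τ → Ell 0 K D.g →
    (∀ x, d 1 D.V x ≤ K) → (∀ x, d 2 D.V x ≤ K * r x ^ (-5 / 4 : ℝ)) →
    ∀ x, d 2 D.ζ x ≤ C * r x ^ (-5 / 4 : ℝ) := by
  have hK := abs_nonneg K
  have hK' := le_abs_self K
  have hn1 : (0 : ℝ) ≤ n * |K| := by positivity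
  have hn3 : (0 : ℝ) ≤ |K| * ((n : ℝ) ^ 3 * |K| ^ 2) := by positivity
  obtain ⟨C, hC, H⟩ := wmpB n (|K| + n * |K| + |K| * ((n : ℝ) ^ 3 * |K| ^ 2)) 0
    (α := 5 / 4) (κ := 2) (by norm_num) (by norm_num)
  refine ⟨(n : ℝ) ^ 2 * C, by positivity, fun D hτ hg hV1 hV x => ?_⟩
  rw [show (-(5 / 4) : ℝ) = -5 / 4 by norm_num] at H
  have hpsd : ∀ x, (evM x D.τ).PosSemidef := fun x => (D.τ_posDef x).posSemidef
  have hτ' : Ell 0 (|K| + n * |K| + |K| * ((n : ℝ) ^ 3 * |K| ^ 2)) D.τ :=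
    hτ.mono le_rfl (by linarith)
  have hb : ∀ y a, |ev y (grad D.ζ a)| ≤ |K| + n * |K| + |K| * ((n : ℝ) ^ 3 * |K| ^ 2) :=
    fun y a => (c1_bound D hV1 y a).trans (by linarith)
  have hV' : ∀ y, d 2 D.V y ≤ |K| * r y ^ (-5 / 4 : ℝ) := fun y =>
    (hV y).trans (mul_le_mul_of_nonneg_right hK' (r_rpow_pos y _).le)
  set s := r x ^ (-5 / 4 : ℝ) with hs
  have hs0 : 0 < s := r_rpow_pos x _
  have hCs : 0 ≤ C * s := by positivity
  have h1 : ∀ v, v ⬝ᵥ (evM x (hess D.ζ) *ᵥ v) ≤ C * s * (v ⬝ᵥ v) := by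
    refine c2_scale fun e he => ?_
    have h1 := H D.τ (grad D.ζ) (qfS (hess D.ζ) e) (-15 / 8) hτ' hb (c2_sym_qfS D.symA e)
      (by norm_num)
      (fun y => by
        have h2 := (abs_le.1 (abs_quad_le (A := evM y D.g)
          (fun a b => (hg.bd y a b).trans hK') e)).2
        rw [BR.g, c2_one_add, he] at h2
        rw [ev_qfS]
        linarith)
      (fun y _ => by
        have h2 := pc2_L_hess D he y
        have h3 := hV' y
        have h4 := mul_nonneg (add_nonneg hn1 hn3) (r_rpow_pos y (-5 / 4)).le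
        have h5 := sq_nonneg (ev y (qfS (hess D.ζ) e))
        linarith) x
    rwa [ev_qfS] at h1
  have h2 : ∀ v, v ⬝ᵥ (evM x D.τ *ᵥ v) ≤ (1 + C * s) * (v ⬝ᵥ v) := by
    refine c2_scale fun e he => ?_
    have h1 := H D.τ (grad D.ζ) (qfS (D.τ - 1) e) (-15 / 8) hτ' hb (c2_sym_qfS D.symτ e)
      (by norm_num)
      (fun y => by
        have h2 := (abs_le.1 (abs_quad_le (A := evM y D.τ)
          (fun a b => (hτ.bd y a b).trans hK') e)).2
        rw [he] at h2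
        rw [ev_qfS, c2_sub_one, he]
        linarith)
      (fun y _ => by
        have h2 := pc2_L_τ D he y
        have h4 := sq_quad_le (psd_transpose (hpsd y)) e
        have h5 := c2_mulVec_sq (A := evM y D.τ) (fun a b => (hτ.bd y a b).trans hK') he
        have h6 := (abs_le.1 (c2_quad_hess D.V y (evM y D.τ *ᵥ e))).1
        rw [he, one_mul] at h4
        rw [BR.H, c2_one_add] at h2
        rw [ev_qfS, c2_sub_one, he]
        set t := e ⬝ᵥ (evM y D.τ *ᵥ e)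
        set w := (evM y D.τ *ᵥ e) ⬝ᵥ (evM y D.τ *ᵥ e) with hw
        have hw0 : 0 ≤ w := dot_self_nonneg _
        have hp := r_rpow_pos y (-5 / 4)
        have h7 : d 2 D.V y * w ≤ (|K| * r y ^ (-5 / 4 : ℝ)) * ((n : ℝ) ^ 3 * |K| ^ 2) :=
          mul_le_mul (hV' y) h5 hw0 (by positivity)
        have h8 := mul_nonneg (add_nonneg hK hn1) hp.le
        nlinarith [sq_nonneg (t - 1)]) x
    rw [ev_qfS, c2_sub_one, he, ← hs] at h1
    linarith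
  have h3 : ∀ v, |v ⬝ᵥ (evM x (hess D.ζ) *ᵥ v)| ≤ C * s * (v ⬝ᵥ v) := by
    intro v
    refine abs_le.2 ⟨?_, h1 v⟩
    have h4 := inv_low (D.τ_posDef x) (evM_inv D.gτ x) (by linarith) h2 v
    rw [BR.g, c2_one_add] at h4
    have h5 : 1 - C * s ≤ (1 + C * s)⁻¹ := by
      rw [← one_div, le_div_iff₀ (by linarith)]
      nlinarith [sq_nonneg (C * s)]
    have h6 := mul_le_mul_of_nonneg_right h5 (dot_self_nonneg v)
    linarith
  have h4 := abs_entry_le (A := evM x (hess D.ζ)) (by rw [← evM_transpose, hess_transpose]) h3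
  calc d 2 D.ζ x = dM 0 (hess D.ζ) x := (dM_hess 0 D.ζ x).symm
    _ ≤ ∑ _a : Fin n, ∑ _b : Fin n, C * s :=
        Finset.sum_le_sum fun a _ => Finset.sum_le_sum fun b _ => h4 a b
    _ = (n : ℝ) ^ 2 * C * s := by simp; ring

end Crest.Agent.R253
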