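import Crest.Agent.R253.PId
import Crest.Agent.R253.PMax
import Crest.Agent.R238.Calabi

/-!
# Row 253, PDE part: the Calabi estimate (port of `R238.CalabiPt`, `R238.Calabi`)
-/

set_option autoImplicit false
open MeasureTheory Matrix Filter Topology
open scoped ContDiff BigOperators

noncomputable section
namespace Crest.Agent.R253
open Crest.Agent.R238

variable {n : ℕ}

theorem PCalabi_L_quad (D : BR n) {G : Mat n} (hG : Gᵀ = G) (Ξ : Fin n → Sm n) :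
    D.L (∑ a, ∑ b, G a b * Ξ a * Ξ b) = ∑ a, ∑ b, D.L (G a b) * Ξ a * Ξ b
      + 2 * ∑ a, ∑ b, G a b * Ξ b * D.L (Ξ a)
      + 4 * ∑ a, ∑ b, gam D.τ (G a b) (Ξ a) * Ξ b
      + 2 * ∑ a, ∑ b, G a b * gam D.τ (Ξ a) (Ξ b) := by
  have hG' : ∀ a b, G b a = G a b := fun a b => congrFun (congrFun hG a) b
  have e1 : ∑ a, ∑ b, G a b * Ξ a * D.L (Ξ b) = ∑ a, ∑ b, G a b * Ξ b * D.L (Ξ a) := by
    rw [Finset.sum_comm]
    exact Finset.sum_congr rfl fun a _ => Finset.sum_congr rfl fun b _ => by rw [hG']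
  have e2 : ∑ a, ∑ b, gam D.τ (G a b) (Ξ b) * Ξ a = ∑ a, ∑ b, gam D.τ (G a b) (Ξ a) * Ξ b := by
    rw [Finset.sum_comm]
    exact Finset.sum_congr rfl fun a _ => Finset.sum_congr rfl fun b _ => by rw [hG']
  have e3 : D.L (∑ a, ∑ b, G a b * Ξ a * Ξ b) = ∑ a, ∑ b, D.L (G a b) * Ξ a * Ξ b
      + (∑ a, ∑ b, G a b * Ξ b * D.L (Ξ a) + ∑ a, ∑ b, G a b * Ξ a * D.L (Ξ b))
      + 2 * (∑ a, ∑ b, gam D.τ (G a b) (Ξ a) * Ξ b + ∑ a, ∑ b, gam D.τ (G a b) (Ξ b) * Ξ a)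
      + 2 * ∑ a, ∑ b, G a b * gam D.τ (Ξ a) (Ξ b) := by
    simp only [D.L_sum, D.L_mul, gam_mul_left, mul_add, Finset.mul_sum, ← Finset.sum_add_distrib]
    exact Finset.sum_congr rfl fun a _ => Finset.sum_congr rfl fun b _ => by ring
  rw [e3, e1, e2]; ring

theorem PCalabi_ev_L_affV (D : BR n) (ξ x0 : E n) (B : RM n) (a : Fin n) :
    ev x0 (D.L (affV ξ x0 B a)) = -(B *ᵥ vec D.p x0) a := by
  simp only [D.L_eq, con, pd_affV, pd_cst]
  simp [Matrix.mulVec, dotProduct, mul_comm, vec]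

theorem PCalabi_ev_L_quad (D : BR n) {G : Mat n} (hG : Gᵀ = G) (ξ x0 : E n) (B Z : RM n)
    (hZ : ∀ a k, Z a k = ∑ b, ev x0 (pd k (G a b)) * ξ b) :
    ev x0 (D.L (∑ a, ∑ b, G a b * affV ξ x0 B a * affV ξ x0 B b)) =
      ∑ a, ∑ b, ev x0 (D.L (G a b)) * ξ a * ξ b
      - 2 * ((B *ᵥ vec D.p x0) ⬝ᵥ (evM x0 G *ᵥ ξ))
      + 4 * (evM x0 D.τ * Bᵀ * Z).trace + 2 * (evM x0 D.τ * Bᵀ * evM x0 G * B).trace := by
  rw [PCalabi_L_quad D hG]
  simp only [map_add, map_mul, map_sum, ev_affV, PCalabi_ev_L_affV, ev_ofNat, gam, pd_affV, ev_cst]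
  have e1 : ∑ a, ∑ b, ev x0 (G a b) * ξ b * -(B *ᵥ vec D.p x0) a
      = -((B *ᵥ vec D.p x0) ⬝ᵥ (evM x0 G *ᵥ ξ)) := by
    simp only [dotProduct, Matrix.mulVec.eq_def (evM x0 G), evM_apply, Finset.mul_sum,
      ← Finset.sum_neg_distrib]
    exact Finset.sum_congr rfl fun a _ => Finset.sum_congr rfl fun b _ => by ring
  have e2 : ∑ a, ∑ b, (∑ k, ∑ l, ev x0 (D.τ k l) * ev x0 (pd k (G a b)) * B a l) * ξ b
      = (evM x0 D.τ * Bᵀ * Z).trace := by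
    simp only [Matrix.trace, Matrix.diag, Matrix.mul_apply, evM_apply, Matrix.transpose_apply, hZ,
      Finset.mul_sum, Finset.sum_mul]
    conv_rhs => rw [Finset.sum_comm]
    refine Finset.sum_congr rfl fun a _ => ?_
    rw [Finset.sum_comm]
    refine Finset.sum_congr rfl fun k _ => Finset.sum_congr rfl fun b _ =>
      Finset.sum_congr rfl fun l _ => by ring
  have e3 : ∑ a, ∑ b, ev x0 (G a b) * ∑ k, ∑ l, ev x0 (D.τ k l) * B a k * B b l
      = (evM x0 D.τ * Bᵀ * evM x0 G * B).trace := by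
    have hτ' : ∀ a b, D.τ b a = D.τ a b := fun a b => D.τ_apply_comm b a
    simp only [Matrix.trace, Matrix.diag, Matrix.mul_apply, evM_apply, Matrix.transpose_apply,
      Finset.mul_sum, Finset.sum_mul]
    rw [Finset.sum_comm]
    conv_rhs => rw [Finset.sum_comm]
    refine Finset.sum_congr rfl fun b _ => ?_
    conv_rhs => rw [Finset.sum_comm]
    refine Finset.sum_congr rfl fun a _ => ?_
    rw [Finset.sum_comm]
    refine Finset.sum_congr rfl fun l _ => Finset.sum_congr rfl fun k _ => ?_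
    rw [hτ' k l]; ring
  rw [e1, e2, e3]; ring

theorem PCalabi_L_third_contr (D : BR n) (x ξ : E n) :
    ∑ a, ∑ b, ∑ c, ev x (D.L (pd a (pd b (pd c D.ζ)))) * ξ a * ξ b * ξ c =
      3 * ((evM x D.g *ᵥ ξ) ⬝ᵥ ((∑ a, ξ a • evM x (hess (pd a D.ζ))) *ᵥ ξ))
      + 3 * (evM x D.τ * (∑ a, ξ a • evM x (hess (pd a D.ζ))) * evM x D.τ *
          ∑ b, ∑ c, (ξ b * ξ c) • evM x (hess (pd b (pd c D.ζ)))).trace
      - 2 * (evM x D.τ * (∑ a, ξ a • evM x (hess (pd a D.ζ))) * evM x D.τ *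
          (∑ a, ξ a • evM x (hess (pd a D.ζ))) * evM x D.τ *
          ∑ a, ξ a • evM x (hess (pd a D.ζ))).trace
      - T3 D.V x ξ := by
  have k1 := sum3_mul_trace ξ (evM x D.τ) (fun a => evM x (hess (pd a D.ζ)))
    (fun b c => evM x (hess (pd b (pd c D.ζ))))
  have k2 := sum3_cube_trace ξ (evM x D.τ) (fun a => evM x (hess (pd a D.ζ)))
  have k3 := sum3_perm_bac (fun a b c => (evM x D.τ * evM x (hess (pd a D.ζ)) * evM x D.τ *
    evM x (hess (pd b (pd c D.ζ)))).trace) ξ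
  have k4 := sum3_perm_cab (fun a b c => (evM x D.τ * evM x (hess (pd a D.ζ)) * evM x D.τ *
    evM x (hess (pd b (pd c D.ζ)))).trace) ξ
  have k5 := sum3_perm_bac (fun a b c => (evM x D.τ * evM x (hess (pd a D.ζ)) * evM x D.τ *
    evM x (hess (pd b D.ζ)) * evM x D.τ * evM x (hess (pd c D.ζ))).trace) ξ
  have hc : ∀ a b c, pd a (pd b (pd c D.ζ)) = pd b (pd a (pd c D.ζ)) := fun a b c => pd_comm _ _ _
  have hc' : ∀ a b c, pd a (pd b (pd c D.ζ)) = pd c (pd a (pd b D.ζ)) := fun a b c => by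
    rw [pd_comm b c, pd_comm a c]
  have k6 : ∑ a, ∑ b, ∑ c, (∑ k, ev x (D.g a k) * ev x (pd k (pd b (pd c D.ζ)))) * ξ a * ξ b * ξ c =
      (evM x D.g *ᵥ ξ) ⬝ᵥ ((∑ a, ξ a • evM x (hess (pd a D.ζ))) *ᵥ ξ) := by
    simp only [dotProduct, Matrix.mulVec, Matrix.sum_apply, Matrix.smul_apply, evM_apply,
      hess_apply, smul_eq_mul, Finset.mul_sum, Finset.sum_mul]
    have swap : ∀ F : Fin n → Fin n → Fin n → Fin n → ℝ,
        ∑ a, ∑ b, ∑ c, ∑ k, F a b c k = ∑ k, ∑ b, ∑ c, ∑ a, F a b c k := by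
      intro F
      simp only [← Finset.sum_product']
      refine Finset.sum_bij' (fun p _ => (p.2.2.2, p.2.1, p.2.2.1, p.1))
        (fun p _ => (p.2.2.2, p.2.1, p.2.2.1, p.1)) ?_ ?_ ?_ ?_ ?_ <;> simp
    rw [swap]
    refine Finset.sum_congr rfl fun k _ => Finset.sum_congr rfl fun b _ =>
      Finset.sum_congr rfl fun c _ => Finset.sum_congr rfl fun a _ => ?_
    rw [D.g_apply_comm a k]; ring
  have k7 := sum3_perm_bac (fun a b c => ∑ k, ev x (D.g a k) * ev x (pd k (pd b (pd c D.ζ)))) ξ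
  have k8 := sum3_perm_cab (fun a b c => ∑ k, ev x (D.g a k) * ev x (pd k (pd b (pd c D.ζ)))) ξ
  have k9 : ∀ a b c, ev x (∑ k, (D.g a k * pd k (pd b (pd c D.ζ)) + D.g b k * pd a (pd k (pd c D.ζ))
        + D.g c k * pd a (pd b (pd k D.ζ)))) =
      ∑ k, ev x (D.g a k) * ev x (pd k (pd b (pd c D.ζ))) +
      ∑ k, ev x (D.g b k) * ev x (pd k (pd a (pd c D.ζ))) +
      ∑ k, ev x (D.g c k) * ev x (pd k (pd a (pd b D.ζ))) := by
    intro a b c
    simp only [map_sum, map_add, map_mul, ← Finset.sum_add_distrib]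
    exact Finset.sum_congr rfl fun k _ => by rw [hc a k c, hc' a b k]
  simp only [D.L_third, map_sub, map_add, k9]
  simp only [ev_trace, evM_mul, sub_mul, add_mul, Finset.sum_sub_distrib, Finset.sum_add_distrib]
  rw [k3, k4, k5, k1, k2, k7, k8, k6]
  simp only [T3]
  ring

theorem PCalabi_L_g_contr (D : BR n) (x ξ : E n) :
    ∑ a, ∑ b, ev x (D.L (D.g a b)) * ξ a * ξ b =
      (evM x D.g *ᵥ ξ) ⬝ᵥ (evM x D.g *ᵥ ξ)
      + (evM x D.τ * (∑ a, ξ a • evM x (hess (pd a D.ζ))) * evM x D.τ *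
          ∑ a, ξ a • evM x (hess (pd a D.ζ))).trace
      - ξ ⬝ᵥ (evM x D.H *ᵥ ξ) := by
  have h1 : ∀ a b, D.L (D.g a b) = (D.g * D.g) a b + D.Γ a b - D.H a b := fun a b => D.L_g a b
  have h4 : ξ ⬝ᵥ (evM x (D.g * D.g) *ᵥ ξ) = (evM x D.g *ᵥ ξ) ⬝ᵥ (evM x D.g *ᵥ ξ) := by
    rw [evM_mul, ← Matrix.mulVec_mulVec, Matrix.dotProduct_mulVec ξ, ← Matrix.mulVec_transpose,
      ← evM_transpose, D.g_symm]
  have h2 : ∑ a, ∑ b, ev x (D.Γ a b) * ξ a * ξ b =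
      (evM x D.τ * (∑ a, ξ a • evM x (hess (pd a D.ζ))) * evM x D.τ *
          ∑ a, ξ a • evM x (hess (pd a D.ζ))).trace := by
    simp only [BR.Γ, Matrix.of_apply, ev_trace, evM_mul, Matrix.sum_mul,
      Matrix.trace_sum, Matrix.mul_smul, Matrix.smul_mul, Matrix.trace_smul, smul_eq_mul,
      Finset.mul_sum]
    rw [Finset.sum_comm]
    exact Finset.sum_congr rfl fun a _ => Finset.sum_congr rfl fun b _ => by ring
  have h3 : ∀ G : Mat n, ∑ a, ∑ b, ev x (G a b) * ξ a * ξ b = ξ ⬝ᵥ (evM x G *ᵥ ξ) := by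
    intro G
    simp only [dotProduct, Matrix.mulVec, evM_apply, Finset.mul_sum]
    exact Finset.sum_congr rfl fun a _ => Finset.sum_congr rfl fun b _ => by ring
  simp only [h1, map_sub, map_add, sub_mul, add_mul, Finset.sum_sub_distrib, Finset.sum_add_distrib]
  rw [h2, h3, h3, h4]

/-- Port of `R238.calabi_pt` (reuse `T3`, `calabi_alg`, `affV`, `ev_pd_quad`, `sum3_*`, ...; port `Lop_quad`,
`ev_Lop_affV`, `ev_Lop_quad`, `L_third_contr`, `L_g_contr` to `D.L`; note `D.L f = Lop τ f - dr b f` and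
`D.L (affV ξ x0 B a) = -(B *ᵥ z0) a` at `x0`, `z0 = vec D.p x0`). The differences: at `x0`
`L Nn = 3 T(gξ,ξ,ξ) - ½ tr P³ - V_ξξξ - 3 T(ξ,ξ,B z0)` with `T(gξ,ξ,ξ) = M |gξ|²` (`Tξ = M gξ`) and
`L Dd = |gξ|² - ½ tr P² - H_ξξ - 2 g(ξ, B z0)` (`L_g`: `L g = g² + Γ - H`). The drift terms cancel and
`0 ≥ LΨ ≥ 2M L Nn - 3M² L Dd = 3M²|gξ|² - M tr P³ + (3/2) M² tr P² - 2M V_ξξξ + 3M² H_ξξ
≥ ½ M⁴ - 2M |V_ξξξ|`. -/
theorem calabi_ptB (D : BR n) (hH : Low 0 D.H) (x0 ξ : E n) {M : ℝ} (hM : 0 < M)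
    (hξ : ξ ⬝ᵥ (evM x0 D.g *ᵥ ξ) = 1) (hN : T3 D.ζ x0 ξ = M)
    (hmax : ∀ x η : E n, T3 D.ζ x η ^ 2 ≤ M ^ 2 * (η ⬝ᵥ (evM x D.g *ᵥ η)) ^ 3) :
    M ^ 3 ≤ 4 * |T3 D.V x0 ξ| := by
  have hτs := D.τ_symm
  set z0 : E n := vec D.p x0 with hz0
  set τ0 : RM n := evM x0 D.τ with hτ0
  set g0 : RM n := evM x0 D.g with hg0
  set A : RM n := ∑ a, ξ a • evM x0 (hess (pd a D.ζ)) with hA
  set U : RM n := ∑ b, ∑ c, (ξ b * ξ c) • evM x0 (hess (pd b (pd c D.ζ))) with hU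
  have hinv : τ0 * g0 = 1 := evM_inv D.τg x0
  have hinv' : g0 * τ0 = 1 := mul_eq_one_comm.1 hinv
  have hτ0s : τ0ᵀ = τ0 := by rw [hτ0, ← evM_transpose, hτs]
  have hAs : Aᵀ = A := by
    rw [hA, Matrix.transpose_sum]
    exact Finset.sum_congr rfl fun a _ => by
      rw [Matrix.transpose_smul, ← evM_transpose, hess_transpose]
  obtain ⟨c1, c2, c3⟩ := calabi_alg τ0 g0 (fun a => evM x0 (hess (pd a D.ζ))) ξ hM (D.g_posDef x0)
    hinv (fun a => by rw [← evM_transpose, hess_transpose])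
    (fun a b c => by simp only [evM_apply, hess_apply]; rw [pd_comm c a, pd_comm b a, pd_comm c b])
    hξ (by rw [← T3_eq, hN]) (fun η => by rw [← T3_eq]; exact hmax x0 η)
  rw [← hA] at c1 c2 c3
  set B : RM n := (-1 / 2 : ℝ) • (τ0 * A) with hB
  have hBt : Bᵀ = (-1 / 2 : ℝ) • (A * τ0) := by
    rw [hB, Matrix.transpose_smul, Matrix.transpose_mul, hAs, hτ0s]
  set G : Mat n := ∑ c, affV ξ x0 B c • hess (pd c D.ζ) with hG
  have hGa : ∀ a b, G a b = ∑ c, affV ξ x0 B c * pd a (pd b (pd c D.ζ)) := fun a b => by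
    simp [hG, Matrix.sum_apply]
  have hGs : Gᵀ = G := by
    rw [hG, Matrix.transpose_sum]
    exact Finset.sum_congr rfl fun a _ => by rw [Matrix.transpose_smul, hess_transpose]
  have hAa : ∀ a b, A a b = ∑ c, ξ c * ev x0 (pd a (pd b (pd c D.ζ))) := fun a b => by
    simp [hA, Matrix.sum_apply]
  have hUa : ∀ a k, U a k = ∑ b, ∑ c, ξ b * ξ c * ev x0 (pd a (pd k (pd b (pd c D.ζ)))) :=
    fun a b => by simp [hU, Matrix.sum_apply]
  have hG0 : evM x0 G = A := by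
    ext a b; simp [hGa, hAa, ev_affV]
  set Nn : Sm n := ∑ a, ∑ b, G a b * affV ξ x0 B a * affV ξ x0 B b with hNn
  set Dd : Sm n := ∑ a, ∑ b, D.g a b * affV ξ x0 B a * affV ξ x0 B b with hDd
  have evN : ∀ x, ev x Nn = T3 D.ζ x (fun a => ev x (affV ξ x0 B a)) := by
    intro x
    simp only [hNn, hGa, T3, map_sum, map_mul, Finset.sum_mul]
    exact Finset.sum_congr rfl fun a _ => Finset.sum_congr rfl fun b _ =>
      Finset.sum_congr rfl fun c _ => by ring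
  have evD : ∀ x, ev x Dd = (fun a => ev x (affV ξ x0 B a)) ⬝ᵥ
      (evM x D.g *ᵥ fun a => ev x (affV ξ x0 B a)) := by
    intro x
    simp only [hDd, map_sum, map_mul, dotProduct, Matrix.mulVec, evM_apply, Finset.mul_sum]
    exact Finset.sum_congr rfl fun a _ => Finset.sum_congr rfl fun b _ => by ring
  have evN0 : ev x0 Nn = M := by rw [evN]; simpa [ev_affV] using hN
  have evD0 : ev x0 Dd = 1 := by rw [evD]; simpa [ev_affV] using hξ
  -- the maximum principle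
  have hΨ : ev x0 (D.L (Nn * Nn - (M ^ 2) • (Dd * Dd * Dd))) ≤ 0 := by
    refine Lb_nonpos_of_max _ (D.τ_posDef x0).posSemidef fun y => ?_
    have := hmax y (fun a => ev y (affV ξ x0 B a))
    rw [← evN, ← evD] at this
    simp only [map_sub, map_mul, map_smul, smul_eq_mul, evN0, evD0]
    nlinarith
  -- the quadratic quantity
  have hZD : ∀ a k, A a k = ∑ b, ev x0 (pd k (D.g a b)) * ξ b := by
    intro a k
    rw [hAa]
    refine Finset.sum_congr rfl fun b _ => ?_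
    have : pd k (D.g a b) = pdM k D.g a b := rfl
    rw [this, D.pdM_g, hess_apply, pd_comm b k, mul_comm]
  have hdD : ∀ l, ev x0 (pd l Dd) = 0 := by
    intro l
    rw [hDd, ev_pd_quad D.g_symm ξ x0 B A hZD, hAs, hBt, ← hg0, Matrix.mulVec_mulVec,
      Matrix.smul_mul, Matrix.mul_assoc, hinv, Matrix.mul_one, Matrix.smul_mulVec]
    simp only [Pi.smul_apply, smul_eq_mul]; ring
  have hLD := PCalabi_ev_L_quad D D.g_symm ξ x0 B A hZD
  rw [← hDd, PCalabi_L_g_contr, ← hτ0, ← hg0, ← hA, ← hz0] at hLD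
  have t1 : (τ0 * Bᵀ * A).trace = -1 / 2 * (τ0 * A * τ0 * A).trace := by
    rw [hBt]; simp [Matrix.mul_assoc]
  have t2 : (τ0 * Bᵀ * g0 * B).trace = 1 / 4 * (τ0 * A * τ0 * A).trace := by
    rw [hBt, hB]
    simp only [Matrix.mul_smul, Matrix.smul_mul, Matrix.trace_smul, smul_eq_mul, Matrix.mul_assoc]
    rw [← Matrix.mul_assoc g0 τ0, hinv', Matrix.one_mul]; ring
  -- the cubic quantity
  have hZN : ∀ a k, (A * B + U) a k = ∑ b, ev x0 (pd k (G a b)) * ξ b := by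
    intro a k
    simp only [Matrix.add_apply, Matrix.mul_apply, hAa, hUa, hGa, map_sum, pd_mul, pd_affV, map_add,
      map_mul, ev_cst, ev_affV, Finset.sum_mul, add_mul, Finset.sum_add_distrib]
    congr 1
    · rw [Finset.sum_comm]
      refine Finset.sum_congr rfl fun b _ => Finset.sum_congr rfl fun c _ => ?_
      rw [pd_comm c b]; ring
    · refine Finset.sum_congr rfl fun b _ => Finset.sum_congr rfl fun c _ => ?_
      rw [pd_comm a k]; ring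
  have hLN := PCalabi_ev_L_quad D hGs ξ x0 B (A * B + U) hZN
  have hLG : ∑ a, ∑ b, ev x0 (D.L (G a b)) * ξ a * ξ b =
      ∑ a, ∑ b, ∑ c, ev x0 (D.L (pd a (pd b (pd c D.ζ)))) * ξ a * ξ b * ξ c
      - (B *ᵥ z0) ⬝ᵥ (A *ᵥ ξ) + 2 * (τ0 * Bᵀ * U).trace := by
    have e1 : (B *ᵥ z0) ⬝ᵥ (A *ᵥ ξ) =
        ∑ a, ∑ b, ∑ c, ev x0 (pd a (pd b (pd c D.ζ))) * (B *ᵥ z0) c * ξ a * ξ b := by
      simp only [dotProduct, Matrix.mulVec.eq_def A, hAa, Finset.mul_sum, Finset.sum_mul]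
      rw [Finset.sum_comm]
      refine Finset.sum_congr rfl fun a _ => ?_
      rw [Finset.sum_comm]
      refine Finset.sum_congr rfl fun b _ => Finset.sum_congr rfl fun c _ => ?_
      rw [pd_comm c a, pd_comm c b]; ring
    have e2 : (τ0 * Bᵀ * U).trace = ∑ a, ∑ b, ∑ c, (∑ k, ∑ l, τ0 k l * B c k *
        ev x0 (pd l (pd a (pd b (pd c D.ζ))))) * ξ a * ξ b := by
      have : (τ0 * Bᵀ * U).trace = ∑ c, ∑ k, ∑ l, τ0 k l * B c k * U c l := by
        simp only [Matrix.trace, Matrix.diag, Matrix.mul_apply, Matrix.transpose_apply,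
          Finset.sum_mul]
        rw [Finset.sum_comm]
        refine Finset.sum_congr rfl fun c _ => ?_
        rw [Finset.sum_comm]
        refine Finset.sum_congr rfl fun k _ => Finset.sum_congr rfl fun l _ => ?_
        rw [show τ0 l k = τ0 k l from congrFun (congrFun hτ0s k) l]
      rw [this]
      simp only [hUa, Finset.mul_sum, Finset.sum_mul]
      have swap : ∀ F : Fin n → Fin n → Fin n → Fin n → Fin n → ℝ,
          ∑ c, ∑ k, ∑ l, ∑ a, ∑ b, F c k l a b = ∑ a, ∑ b, ∑ c, ∑ k, ∑ l, F c k l a b := by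
        intro F
        simp only [← Finset.sum_product']
        refine Finset.sum_bij' (fun p _ => (p.2.2.2.1, p.2.2.2.2, p.1, p.2.1, p.2.2.1))
          (fun p _ => (p.2.2.1, p.2.2.2.1, p.2.2.2.2, p.1, p.2.1)) ?_ ?_ ?_ ?_ ?_ <;> simp
      rw [swap]
      refine Finset.sum_congr rfl fun a _ => Finset.sum_congr rfl fun b _ =>
        Finset.sum_congr rfl fun c _ => Finset.sum_congr rfl fun k _ =>
        Finset.sum_congr rfl fun l _ => ?_
      rw [pd_comm c l, pd_comm c a, pd_comm c b]; ring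
    rw [e1, e2]
    simp only [hGa, D.L_sum, D.L_mul, map_sum, map_add, map_mul, ev_affV, PCalabi_ev_L_affV, ev_ofNat,
      gam, pd_affV, ev_cst, Finset.sum_mul, Finset.mul_sum, ← Finset.sum_add_distrib,
      ← Finset.sum_sub_distrib]
    refine Finset.sum_congr rfl fun a _ => Finset.sum_congr rfl fun b _ =>
      Finset.sum_congr rfl fun c _ => ?_
    simp only [← Finset.mul_sum, ← Finset.sum_mul, hτ0, evM_apply]
    ring
  rw [← hNn, hLG, PCalabi_L_third_contr, ← hτ0, ← hg0, ← hA, ← hU, ← hz0, hG0, c1] at hLN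
  have t3 : (τ0 * Bᵀ * U).trace = -1 / 2 * (τ0 * A * τ0 * U).trace := by
    rw [hBt]; simp [Matrix.mul_assoc]
  have t4 : (τ0 * Bᵀ * A * B).trace = 1 / 4 * (τ0 * A * τ0 * A * τ0 * A).trace := by
    rw [hBt, hB]
    simp only [Matrix.mul_smul, Matrix.smul_mul, Matrix.trace_smul, smul_eq_mul, Matrix.mul_assoc]
    ring
  rw [Matrix.mul_add, Matrix.trace_add, ← Matrix.mul_assoc, t3, t4, dotProduct_smul,
    dotProduct_smul, smul_eq_mul, smul_eq_mul] at hLN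
  rw [t1, t2] at hLD
  have hgN : 0 ≤ ev x0 (gam D.τ Nn Nn) := by
    rw [ev_gam]; exact psd_quad (D.τ_posDef x0).posSemidef _
  have hg1 : ∀ f : Sm n, ev x0 (gam D.τ f Dd) = 0 := fun f => by simp [gam, hdD]
  have hH0 : 0 ≤ ξ ⬝ᵥ (evM x0 D.H *ᵥ ξ) := by simpa using hH x0 ξ
  simp only [D.L_sub, D.L_smul, D.L_mul, map_sub, map_add, map_mul, map_smul, smul_eq_mul,
    ev_ofNat, evN0, evD0, hg1, hLN, hLD] at hΨ
  set P2 := (τ0 * A * τ0 * A).trace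
  set P3 := (τ0 * A * τ0 * A * τ0 * A).trace
  set w := T3 D.V x0 ξ
  set hh := ξ ⬝ᵥ (evM x0 D.H *ᵥ ξ)
  have hγ : 0 ≤ (g0 *ᵥ ξ) ⬝ᵥ (g0 *ᵥ ξ) := dot_self_nonneg _
  set γ := (g0 *ᵥ ξ) ⬝ᵥ (g0 *ᵥ ξ)
  have hw := le_abs_self w
  have hM2 : 0 < M ^ 2 := by positivity
  have k1 : M * P3 ≤ M ^ 2 * P2 := by nlinarith
  have k2 : M ^ 2 * M ^ 2 ≤ M ^ 2 * P2 := mul_le_mul_of_nonneg_left c3 hM2.le
  have k3 : 0 ≤ M ^ 2 * hh := by positivity
  have k5 : 0 ≤ M ^ 2 * γ := by positivity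
  have k4 : M * M ^ 3 ≤ M * (4 * |w|) := by nlinarith
  exact le_of_mul_le_mul_left k4 hM

/-- Copy of `R238.calabi` (`calabi_max` with `μ = 1/8`). -/
theorem calabiB (n : ℕ) {c : ℝ} (hc : 0 < c) (K : ℝ) : ∃ C, 0 ≤ C ∧ ∀ D : BR n, Ell c K D.g →
    Low 0 D.H → (∀ x, d 3 D.V x ≤ K) → ∀ x, d 3 D.ζ x ≤ C := by
  refine ⟨(n : ℝ) ^ 3 * (5 * ((1 + 4 * (|K| * Real.sqrt c⁻¹ ^ 3)) * Real.sqrt (n * |K|) ^ 3)),
    by positivity, fun D hE hH hV x => d_three_le _ x (by positivity) fun η => ?_⟩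
  by_cases h1 : T3 D.ζ x η = 0
  · rw [h1, abs_zero]; positivity
  obtain ⟨x0, ξ, M, hM, hξ, hN, hmax⟩ := calabi_max hc D.symζ (by norm_num) hE.low h1
  have h2 := calabi_ptB D hH x0 ξ hM hξ hN hmax
  have h3 : ξ ⬝ᵥ ξ ≤ c⁻¹ := by
    have := hE.low x0 ξ
    rw [hξ] at this
    rwa [inv_eq_one_div, le_div_iff₀' hc]
  have h4 : |T3 D.V x0 ξ| ≤ |K| * Real.sqrt c⁻¹ ^ 3 :=
    (abs_T3_le _ _ _).trans (mul_le_mul ((hV x0).trans (le_abs_self K))
      (pow_le_pow_left₀ (Real.sqrt_nonneg _) (Real.sqrt_le_sqrt h3) 3) (by positivity) (abs_nonneg K))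
  have h5 : M ≤ 1 + 4 * (|K| * Real.sqrt c⁻¹ ^ 3) := by
    have : M ≤ 1 + M ^ 3 := by nlinarith [mul_nonneg hM.le (sq_nonneg (M - 1)), sq_nonneg (M - 1)]
    linarith
  have h6 : η ⬝ᵥ (evM x D.g *ᵥ η) ≤ n * |K| * (η ⬝ᵥ η) :=
    (le_abs_self _).trans (abs_quad_le (fun a b => (hE.bd x a b).trans (le_abs_self K)) η)
  have h7 : 0 ≤ η ⬝ᵥ (evM x D.g *ᵥ η) := (mul_nonneg hc.le (dot_self_nonneg η)).trans (hE.low x η)
  refine abs_le_of_sq_le_sq ((hmax x η).trans ?_) (by positivity)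
  have e1 : (Real.sqrt (n * |K|) ^ 3) ^ 2 = (n * |K|) ^ 3 := by
    rw [← pow_mul, mul_comm 3 2, pow_mul, Real.sq_sqrt (by positivity)]
  have e2 : (Real.sqrt (η ⬝ᵥ η) ^ 3) ^ 2 = (η ⬝ᵥ η) ^ 3 := by
    rw [← pow_mul, mul_comm 3 2, pow_mul, Real.sq_sqrt (dot_self_nonneg η)]
  rw [mul_pow, mul_pow, e1, e2, mul_assoc, ← mul_pow]
  exact mul_le_mul (pow_le_pow_left₀ hM.le h5 2) (pow_le_pow_left₀ h7 h6 3) (by positivity)
    (by positivity)

end Crest.Agent.R253
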