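import Crest.Agent.R253.Defs
import Crest.Agent.R238.Lin
import Crest.Agent.R238.MaxP
import Crest.Agent.R238.Inv

/-!
# Row 253, PDE part: the Monge–Ampère equation of the Brenier map `e^{-W} dx → N(0,1)`

With `u = |x|²/2 + ζ`, `W = |x|²/2 + V`, `g = D²u`, `τ = g⁻¹`: `log det g = |∇u|²/2 - W`.
The linearised operator is `L = τ : D² - ∇u · ∇ = Lop τ - dr (∇ζ)`.
This part is a port of `Crest.Agent.R238` (moment measure equation) to an operator with a drift.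
-/

set_option autoImplicit false
open MeasureTheory Matrix Filter Topology
open scoped ContDiff BigOperators

noncomputable section
namespace Crest.Agent.R253
open Crest.Agent.R238

variable {n : ℕ}

/-- The drift `b · ∇ f`. -/
def dr (b : Fin n → Sm n) (f : Sm n) : Sm n := ∑ a, b a * pd a f
/-- `τ : D² - x · ∇ - b · ∇`. -/
def Lb (τ : Mat n) (b : Fin n → Sm n) (f : Sm n) : Sm n := Lop τ f - dr b f
/-- The gradient. -/
def grad (f : Sm n) : Fin n → Sm n := fun a => pd a f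
/-- Admissible corrections. -/
def Ad (ψ : Sm n) : Prop := Sym (1 / 8) ψ ∧ Sym 0 (eul ψ)
/-- `Y`-bound for the first and second derivatives. -/
def Zle (β : ℝ) (φ : Sm n) : Prop := YM β (hess φ) ∧ ∀ a, Y (pd a φ) ≤ β

/-- A solution of the Brenier Monge–Ampère equation. -/
structure BR (n : ℕ) where
  ζ : Sm n
  V : Sm n
  τ : Mat n
  symζ : Sym (1 / 8) ζ
  symV : Sym 0 V
  symτ : SymM (-15 / 8) (τ - 1)
  inv : τ * (1 + hess ζ) = 1
  pos : ∀ x, (evM x (1 + hess ζ)).PosDef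
  eqn : (1 + hess ζ).det = expS (eul ζ + (1 / 2 : ℝ) • q 1 ζ - V)

/-- `g = D²u`. -/
def BR.g (D : BR n) : Mat n := 1 + hess D.ζ
/-- `H = D²W`. -/
def BR.H (D : BR n) : Mat n := 1 + hess D.V
/-- `p = ∇u`. -/
def BR.p (D : BR n) (a : Fin n) : Sm n := X a + pd a D.ζ
/-- The linearised operator. -/
def BR.L (D : BR n) (f : Sm n) : Sm n := Lb D.τ (grad D.ζ) f

/-- Approximate solvability of `L ψ = f` modulo constants. -/
def SolvB (D : BR n) : Prop :=
  ∀ f : Sm n, Sym 0 f → ∀ η > 0, ∃ (ψ : Sm n) (c : ℝ), Ad ψ ∧ Y (D.L ψ - f + cst c) ≤ η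

/-- Continuity of a family of solutions. -/
def FamCont {P : Type*} [TopologicalSpace P] (D : P → BR n) : Prop :=
  ∀ p₀ : P, ∀ η > 0, ∀ᶠ p in 𝓝 p₀, Zle η ((D p).ζ - (D p₀).ζ)

/-- Continuity of a family of potentials in the norm `Y`. -/
def YCont {P : Type*} [TopologicalSpace P] (V : P → Sm n) : Prop :=
  ∀ p₀ : P, ∀ η > 0, ∀ᶠ p in 𝓝 p₀, Y (V p - V p₀) ≤ η

@[simp] theorem grad_apply (f : Sm n) (a : Fin n) : grad f a = pd a f := rfl

theorem dr_add (b : Fin n → Sm n) (f g : Sm n) : dr b (f + g) = dr b f + dr b g := by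
  simp only [dr, map_add, mul_add, Finset.sum_add_distrib]

theorem dr_smul (b : Fin n → Sm n) (c : ℝ) (f : Sm n) : dr b (c • f) = c • dr b f := by
  simp only [dr, Derivation.map_smul, mul_smul_comm, Finset.smul_sum]

theorem dr_zero (b : Fin n → Sm n) : dr b 0 = 0 := by simp [dr]

theorem dr_neg (b : Fin n → Sm n) (f : Sm n) : dr b (-f) = -dr b f := by
  simp only [dr, map_neg, mul_neg, Finset.sum_neg_distrib]

theorem dr_sub (b : Fin n → Sm n) (f g : Sm n) : dr b (f - g) = dr b f - dr b g := by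
  rw [sub_eq_add_neg, dr_add, dr_neg, ← sub_eq_add_neg]

theorem dr_cst (b : Fin n → Sm n) (c : ℝ) : dr b (cst c) = 0 := by simp [dr, pd_cst]

theorem dr_one (b : Fin n → Sm n) : dr b 1 = 0 := by simp [dr, pd_one]

theorem dr_X (b : Fin n → Sm n) (a : Fin n) : dr b (X a) = b a := by
  simp [dr, pd_X]

theorem dr_mul (b : Fin n → Sm n) (f g : Sm n) : dr b (f * g) = dr b f * g + f * dr b g := by
  simp only [dr, pd_mul, mul_add, Finset.sum_add_distrib, Finset.sum_mul, Finset.mul_sum]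
  congr 1 <;> exact Finset.sum_congr rfl fun a _ => by ring

theorem dr_sum {ι : Type*} (b : Fin n → Sm n) (s : Finset ι) (f : ι → Sm n) :
    dr b (∑ i ∈ s, f i) = ∑ i ∈ s, dr b (f i) := by
  simp only [dr, map_sum, Finset.mul_sum]
  exact Finset.sum_comm

theorem dr_grad_sub (ζ ζ' f : Sm n) : dr (grad (ζ' - ζ)) f = dr (grad ζ') f - dr (grad ζ) f := by
  simp only [dr, grad_apply, map_sub, sub_mul, Finset.sum_sub_distrib]

theorem dr_zero_left (f : Sm n) : dr (grad 0) f = 0 := by simp [dr]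

theorem pd_dr (a : Fin n) (b : Fin n → Sm n) (f : Sm n) :
    pd a (dr b f) = dr b (pd a f) + ∑ k, pd a (b k) * pd k f := by
  simp only [dr, map_sum, pd_mul, ← Finset.sum_add_distrib]
  exact Finset.sum_congr rfl fun k _ => by rw [pd_comm a k]; ring

theorem ev_dr (x : E n) (b : Fin n → Sm n) (f : Sm n) :
    ev x (dr b f) = ∑ a, ev x (b a) * ev x (pd a f) := by
  simp only [dr, map_sum, map_mul]

theorem Lb_add (τ : Mat n) (b : Fin n → Sm n) (f g : Sm n) :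
    Lb τ b (f + g) = Lb τ b f + Lb τ b g := by rw [Lb, Lb, Lb, Lop_add, dr_add]; ring

theorem Lb_smul (τ : Mat n) (b : Fin n → Sm n) (c : ℝ) (f : Sm n) :
    Lb τ b (c • f) = c • Lb τ b f := by rw [Lb, Lb, Lop_smul, dr_smul, smul_sub]

theorem Lb_zero (τ : Mat n) (b : Fin n → Sm n) : Lb τ b 0 = 0 := by
  rw [Lb, Lop_zero, dr_zero, sub_zero]

theorem Lb_neg (τ : Mat n) (b : Fin n → Sm n) (f : Sm n) : Lb τ b (-f) = -Lb τ b f := by
  rw [Lb, Lb, Lop_neg, dr_neg]; ring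

theorem Lb_sub (τ : Mat n) (b : Fin n → Sm n) (f g : Sm n) :
    Lb τ b (f - g) = Lb τ b f - Lb τ b g := by rw [Lb, Lb, Lb, Lop_sub, dr_sub]; ring

theorem Lb_sum {ι : Type*} (τ : Mat n) (b : Fin n → Sm n) (s : Finset ι) (f : ι → Sm n) :
    Lb τ b (∑ i ∈ s, f i) = ∑ i ∈ s, Lb τ b (f i) := by
  simp only [Lb, Lop_sum, dr_sum, Finset.sum_sub_distrib]

theorem Lb_cst (τ : Mat n) (b : Fin n → Sm n) (c : ℝ) : Lb τ b (cst c) = 0 := by
  rw [Lb, Lop_cst, dr_cst, sub_zero]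

theorem Lb_one (τ : Mat n) (b : Fin n → Sm n) : Lb τ b 1 = 0 := by
  rw [Lb, Lop_one, dr_one, sub_zero]

theorem Lb_X (τ : Mat n) (b : Fin n → Sm n) (a : Fin n) : Lb τ b (X a) = -(X a + b a) := by
  rw [Lb, Lop_X, dr_X]; ring

theorem Lb_mul {τ : Mat n} (hτ : τᵀ = τ) (b : Fin n → Sm n) (f h : Sm n) :
    Lb τ b (f * h) = f * Lb τ b h + h * Lb τ b f + 2 * gam τ f h := by
  rw [Lb, Lb, Lb, Lop_mul hτ, dr_mul]; ring

theorem pd_Lb (a : Fin n) (τ : Mat n) (b : Fin n → Sm n) (f : Sm n) :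
    pd a (Lb τ b f) = Lb τ b (pd a f) - pd a f + con (pdM a τ) f - ∑ k, pd a (b k) * pd k f := by
  rw [Lb, Lb, map_sub, pd_Lop, pd_dr]; ring

theorem Lop_eq_Lb (τ : Mat n) (b : Fin n → Sm n) (f : Sm n) : Lop τ f = Lb τ b f + dr b f := by
  rw [Lb]; ring

theorem eul_eq (τ : Mat n) (b : Fin n → Sm n) (f : Sm n) :
    eul f = con τ f - Lb τ b f - dr b f := by rw [Lb, Lop]; ring

theorem sym_dr {m m' : ℝ} {b : Fin n → Sm n} {f : Sm n} (hb : ∀ a, Sym m' (b a)) (hf : Sym m f) :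
    Sym (m' + (m - 1)) (dr b f) := Sym.sum _ fun a _ => (hb a).mul (hf.pd a)

theorem tm_dr {b : Fin n → Sm n} {f : Sm n} (hb : ∀ a, Tm (b a)) (hf : Tm f) : Tm (dr b f) :=
  Tm.sum _ fun a _ => (hb a).mul (hf.pd a)

theorem tm_Lb {τ : Mat n} {b : Fin n → Sm n} {f : Sm n} (hτ : TmM τ) (hb : ∀ a, Tm (b a))
    (hf : Tm f) : Tm (Lb τ b f) := (Tm.Lop hτ hf).sub (tm_dr hb hf)

theorem ad_zero : Ad (0 : Sm n) := ⟨sym_zero _, by simpa [eul] using sym_zero (n := n) 0⟩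

theorem Ad.add {φ ψ : Sm n} (h : Ad φ) (h' : Ad ψ) : Ad (φ + ψ) :=
  ⟨h.1.add h'.1, by rw [eul_add]; exact h.2.add h'.2⟩

theorem Ad.smul {φ : Sm n} (h : Ad φ) (c : ℝ) : Ad (c • φ) :=
  ⟨h.1.smul c, by rw [eul_smul]; exact h.2.smul c⟩

theorem ad_cst (c : ℝ) : Ad (cst c : Sm n) :=
  ⟨(sym_cst c).mono (by norm_num), by simpa [eul, pd_cst] using sym_zero (n := n) 0⟩

theorem Ad.sum {ι : Type*} (s : Finset ι) {f : ι → Sm n} (h : ∀ i ∈ s, Ad (f i)) :
    Ad (∑ i ∈ s, f i) :=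
  Finset.sum_induction f Ad (fun _ _ => Ad.add) ad_zero h

theorem Ad.sym_pd {ψ : Sm n} (h : Ad ψ) (a : Fin n) : Sym (-7 / 8) (pd a ψ) := by
  have := h.1.pd a; norm_num at this ⊢; exact this

theorem Ad.sym_hess {ψ : Sm n} (h : Ad ψ) : SymM (-15 / 8) (hess ψ) := by
  have := h.1.hess; norm_num at this ⊢; exact this

theorem Ad.sym_Lb {τ : Mat n} {b : Fin n → Sm n} {ψ : Sm n} (h : Ad ψ) (hτ : SymM 0 τ)
    (hb : ∀ a, Sym 0 (b a)) : Sym 0 (Lb τ b ψ) := by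
  rw [Lb, Lop]
  exact (((Sym.con hτ h.1).mono (by norm_num)).sub h.2).sub ((sym_dr hb h.1).mono (by norm_num))

theorem Zle.mono {β β' : ℝ} {φ : Sm n} (h : Zle β φ) (hβ : β ≤ β') : Zle β' φ :=
  ⟨fun a b => (h.1 a b).trans hβ, fun a => (h.2 a).trans hβ⟩

theorem Zle.smul {β : ℝ} {φ : Sm n} (h : Zle β φ) (c : ℝ) : Zle (|c| * β) (c • φ) := by
  refine ⟨fun a b => ?_, fun a => ?_⟩
  · rw [hess_smul, Matrix.smul_apply, Y_smul]
    exact mul_le_mul_of_nonneg_left (h.1 a b) (abs_nonneg c)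
  · rw [Derivation.map_smul, Y_smul]
    exact mul_le_mul_of_nonneg_left (h.2 a) (abs_nonneg c)

theorem Zle.add {β β' : ℝ} {φ ψ : Sm n} (hφ : Sym 1 φ) (hψ : Sym 1 ψ) (h : Zle β φ)
    (h' : Zle β' ψ) : Zle (β + β') (φ + ψ) := by
  refine ⟨fun a b => ?_, fun a => ?_⟩
  · rw [hess_add, Matrix.add_apply]
    exact (Y_add_le ((hφ.hess a b).mono (by norm_num)) ((hψ.hess a b).mono (by norm_num))).trans
      (add_le_add (h.1 a b) (h'.1 a b))
  · rw [map_add]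
    exact (Y_add_le ((hφ.pd a).mono (by norm_num)) ((hψ.pd a).mono (by norm_num))).trans
      (add_le_add (h.2 a) (h'.2 a))

theorem zle_zero : Zle 0 (0 : Sm n) :=
  ⟨fun a b => by rw [hess_zero, Matrix.zero_apply, Y_zero], fun a => by rw [map_zero, Y_zero]⟩

theorem exists_Zle (φ : Sm n) : ∃ β, 0 ≤ β ∧ Zle β φ := by
  obtain ⟨K, hK, h⟩ := exists_YM (hess φ)
  refine ⟨K + ∑ a, Y (pd a φ), add_nonneg hK (Finset.sum_nonneg fun a _ => Y_nonneg _),
    fun a b => (h a b).trans (le_add_of_nonneg_right (Finset.sum_nonneg fun a _ => Y_nonneg _)),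
    fun a => le_add_of_nonneg_of_le hK ?_⟩
  exact Finset.single_le_sum (f := fun a => Y (pd a φ)) (fun a _ => Y_nonneg _) (Finset.mem_univ a)

theorem Zle.sub_cst {β : ℝ} {φ : Sm n} (c : ℝ) (h : Zle β (φ - cst c)) : Zle β φ := by
  refine ⟨fun a b => ?_, fun a => ?_⟩
  · have := h.1 a b
    rwa [hess_apply, map_sub, pd_cst, sub_zero] at this
  · have := h.2 a
    rwa [map_sub, pd_cst, sub_zero] at this

end Crest.Agent.R253
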