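import Crest.Agent.R253.PDefs

/-!
# Row 253, PDE part: inverting the Euler operator
-/

set_option autoImplicit false
open MeasureTheory Matrix Filter Topology
open scoped ContDiff BigOperators

noncomputable section
namespace Crest.Agent.R253
open Crest.Agent.R238

variable {n : ℕ}

/-- If `eul g + l g = G` with `l ≥ 1` then `∂^α g (x) = ∫₀¹ t^{l+|α|-1} ∂^αG (t x) dt`. Induction on `j`
generalizing `l g G` (`pd_eul`: `eul g_a + (l+1) g_a = G_a`); `j = 0`: FTC for `t ↦ t^l g(t x)`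
(`hasDerivAt_line` with base point `0`). -/
theorem d_le_integral (j : ℕ) {l : ℕ} (hl : 1 ≤ l) {g G : Sm n} (h : eul g + (l : ℝ) • g = G) (x : E n) :
    d j g x ≤ ∫ t in (0 : ℝ)..1, t ^ (l + j - 1) * d j G (t • x) := by
  induction j generalizing l g G with
  | zero =>
    obtain ⟨m, rfl⟩ : ∃ m, l = m + 1 := ⟨l - 1, by omega⟩
    have hc : Continuous fun t : ℝ => t ^ m * ev (t • x) G :=
      (continuous_pow m).mul ((ev_continuous G).comp (by fun_prop))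
    have hd : ∀ t : ℝ, HasDerivAt (fun s : ℝ => s ^ (m + 1) * ev (s • x) g)
        (t ^ m * ev (t • x) G) t := by
      intro t
      have h1 := hasDerivAt_line g 0 x t
      simp only [zero_add] at h1
      have h2 := (hasDerivAt_pow (m + 1) t).mul h1
      refine h2.congr_deriv ?_
      rw [← h]
      simp only [eul, map_add, map_sum, map_mul, ev_X, ev_smul, Pi.smul_apply, smul_eq_mul,
        Nat.add_sub_cancel, mul_add, Finset.mul_sum]
      rw [add_comm]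
      congr 1
      · exact Finset.sum_congr rfl fun a _ => by ring
      · ring
    have h3 := intervalIntegral.integral_eq_sub_of_hasDerivAt (a := 0) (b := 1)
      (fun t _ => hd t) (hc.intervalIntegrable _ _)
    simp only [one_pow, one_smul, one_mul, zero_pow (Nat.succ_ne_zero m), zero_mul, sub_zero] at h3
    rw [d_zero_eq, ← h3]
    refine (intervalIntegral.abs_integral_le_integral_abs zero_le_one).trans (le_of_eq ?_)
    refine intervalIntegral.integral_congr fun t ht => ?_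
    rw [Set.uIcc_of_le zero_le_one] at ht
    simp only [d_zero_eq, abs_mul, Nat.add_zero, Nat.add_sub_cancel, abs_of_nonneg (pow_nonneg ht.1 m)]
  | succ j ih =>
    have key : ∀ a : Fin n, eul (pd a g) + ((l + 1 : ℕ) : ℝ) • pd a g = pd a G := by
      intro a
      rw [← h, map_add, pd_eul, Derivation.map_smul, Nat.cast_succ, add_smul, one_smul]
      ring
    have hi : ∀ a : Fin n, IntervalIntegrable
        (fun t : ℝ => t ^ (l + 1 + j - 1) * d j (pd a G) (t • x)) volume 0 1 := fun a =>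
      ((continuous_pow _).mul ((continuous_d j _).comp (by fun_prop))).intervalIntegrable _ _
    rw [d_succ]
    refine (Finset.sum_le_sum fun a _ => ih (by omega) (key a)).trans (le_of_eq ?_)
    rw [← intervalIntegral.integral_finsetSum fun a _ => hi a]
    refine intervalIntegral.integral_congr fun t _ => ?_
    simp only [d_succ, Finset.mul_sum]
    rw [show l + 1 + j - 1 = l + (j + 1) - 1 by omega]

/-- `d (i+1) ψ = ∑ d i ψ_a`, `eul ψ_a + 1 • ψ_a = (eul ψ)_a`; `d (i+1) F (t x) ≤ B r(t x)^{3/4-(i+1)}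
≤ B (t r x)^{3/4-(i+1)}` (`mul_r_le_r_smul`), `∫₀¹ t^{-1/4} = 4/3`. -/
theorem eul_inv (k : ℕ) {ψ : Sm n} {B : ℝ} (h : ∀ x, J (k + 1) (eul ψ) x ≤ B * r x ^ (3 / 4 : ℝ))
    (a : Fin n) (x : E n) : J k (pd a ψ) x ≤ 2 * (k + 1) * B * r x ^ (-1 / 4 : ℝ) := by
  have hB : 0 ≤ B := nonneg_of_mul_nonneg_left ((J_nonneg _ _ _).trans (h 0)) (r_rpow_pos 0 _)
  have hr := r_pos x
  have key : eul (pd a ψ) + ((1 : ℕ) : ℝ) • pd a ψ = pd a (eul ψ) := by
    rw [pd_eul, Nat.cast_one, one_smul]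
  have h1 : ∀ i ∈ Finset.range (k + 1),
      r x ^ i * d i (pd a ψ) x ≤ 2 * B * r x ^ (-1 / 4 : ℝ) := by
    intro i hi
    have hik : i + 1 ≤ k + 1 := Finset.mem_range.1 hi
    have h2 := d_le_integral i le_rfl key x
    have h3 : ∫ t in (0 : ℝ)..1, t ^ (1 + i - 1) * d i (pd a (eul ψ)) (t • x) ≤
        ∫ t in (0 : ℝ)..1, (B * r x ^ (-1 / 4 - i : ℝ)) * t ^ (-1 / 4 : ℝ) := by
      refine intervalIntegral.integral_mono_on_of_le_Ioo zero_le_one
        (((continuous_pow _).mul ((continuous_d i _).comp (by fun_prop))).intervalIntegrable _ _)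
        ((intervalIntegral.intervalIntegrable_rpow' (by norm_num)).const_mul _) fun t ht => ?_
      have ht0 := ht.1
      have hrt := r_pos (t • x)
      have h4 : r (t • x) ^ (i + 1) * d (i + 1) (eul ψ) (t • x) ≤ B * r (t • x) ^ (3 / 4 : ℝ) :=
        (d_le_J hik _ _).trans (h _)
      have h5 : d (i + 1) (eul ψ) (t • x) ≤ B * r (t • x) ^ (-1 / 4 - i : ℝ) := by
        rw [show (-1 / 4 - i : ℝ) = 3 / 4 - ((i + 1 : ℕ) : ℝ) by push_cast; ring,
          Real.rpow_sub hrt, Real.rpow_natCast, ← mul_div_assoc, le_div_iff₀ (pow_pos hrt _)]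
        linarith
      have h6 : t * r x ≤ r (t • x) := by
        have := mul_r_le_r_smul (c := t) (by rw [abs_of_pos ht0]; exact ht.2.le) x
        rwa [abs_of_pos ht0] at this
      have hi0 : (0 : ℝ) ≤ i := Nat.cast_nonneg i
      have h7 : r (t • x) ^ (-1 / 4 - i : ℝ) ≤ (t * r x) ^ (-1 / 4 - i : ℝ) :=
        Real.rpow_le_rpow_of_nonpos (mul_pos ht0 hr) h6 (by linarith)
      rw [Real.mul_rpow ht0.le hr.le] at h7
      have h8 : t ^ i * t ^ (-1 / 4 - i : ℝ) = t ^ (-1 / 4 : ℝ) := by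
        rw [← Real.rpow_natCast, ← Real.rpow_add ht0]; congr 1; ring
      rw [show 1 + i - 1 = i by omega]
      calc t ^ i * d i (pd a (eul ψ)) (t • x)
          ≤ t ^ i * (B * (t ^ (-1 / 4 - i : ℝ) * r x ^ (-1 / 4 - i : ℝ))) :=
            mul_le_mul_of_nonneg_left ((d_pd_le i a _ _).trans
              (h5.trans (mul_le_mul_of_nonneg_left h7 hB))) (pow_pos ht0 i).le
        _ = B * r x ^ (-1 / 4 - i : ℝ) * (t ^ i * t ^ (-1 / 4 - i : ℝ)) := by ring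
        _ = _ := by rw [h8]
    rw [intervalIntegral.integral_const_mul, integral_rpow (Or.inl (by norm_num))] at h3
    have h9 : r x ^ i * r x ^ (-1 / 4 - i : ℝ) = r x ^ (-1 / 4 : ℝ) := by
      rw [← Real.rpow_natCast, ← Real.rpow_add hr]; congr 1; ring
    have h10 : ((1 : ℝ) ^ (-1 / 4 + 1 : ℝ) - 0 ^ (-1 / 4 + 1 : ℝ)) / (-1 / 4 + 1) ≤ 2 := by
      rw [Real.one_rpow, Real.zero_rpow (by norm_num)]; norm_num
    have h11 := r_rpow_pos x (-1 / 4 - i : ℝ)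
    calc r x ^ i * d i (pd a ψ) x ≤ r x ^ i * (B * r x ^ (-1 / 4 - i : ℝ) * 2) :=
          mul_le_mul_of_nonneg_left (h2.trans (h3.trans
            (mul_le_mul_of_nonneg_left h10 (by positivity)))) (pow_pos hr i).le
      _ = 2 * B * (r x ^ i * r x ^ (-1 / 4 - i : ℝ)) := by ring
      _ = _ := by rw [h9]
  refine (Finset.sum_le_card_nsmul _ _ _ h1).trans (le_of_eq ?_)
  rw [Finset.card_range, nsmul_eq_mul]
  push_cast; ring

theorem peul_Iw_q {ψ : Sm n} (hψ : Tm ψ) : Iw 0 (q 1 ψ) = -Iw 0 (ψ * Lop 1 ψ) := by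
  have hV : Sym 0 (0 : Sm n) := sym_zero 0
  have h1 : ∀ a : Fin n, Iw 0 (pd a (ψ * pd a ψ) - X a * (ψ * pd a ψ)) = 0 := by
    intro a
    have hf : Tm (ψ * pd a ψ) := hψ.mul (hψ.pd a)
    have := Iw_pd hV hf a
    rw [map_zero, add_zero] at this
    rw [Iw_sub hV (hf.pd a) ((tm_X a).mul hf), this, sub_self]
  have h2 : q 1 ψ + ψ * Lop 1 ψ = ∑ a, (pd a (ψ * pd a ψ) - X a * (ψ * pd a ψ)) := by
    rw [Lop, con_one, eul, q_succ, mul_sub, Finset.mul_sum, Finset.mul_sum, ← Finset.sum_sub_distrib,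
      ← Finset.sum_add_distrib]
    refine Finset.sum_congr rfl fun a _ => ?_
    rw [q_zero_eq, pd_mul]; ring
  have h3 : Iw 0 (q 1 ψ + ψ * Lop 1 ψ) = 0 := by
    rw [h2, Iw_sum hV _ fun a _ =>
      ((hψ.mul (hψ.pd a)).pd a).sub ((tm_X a).mul (hψ.mul (hψ.pd a)))]
    exact Finset.sum_eq_zero fun a _ => h1 a
  rw [Iw_add hV (hψ.q 1) (hψ.mul (Tm.Lop tmM_one hψ))] at h3
  linarith

theorem peul_abs_Lop (ψ : Sm n) (x : E n) : |ev x (Lop 1 ψ)| ≤ r x * J2 0 ψ x := by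
  have h1 : |ev x (con 1 ψ)| ≤ d 2 ψ x := by
    rw [con_one, map_sum, d_succ]
    exact (Finset.abs_sum_le_sum_abs _ _).trans (Finset.sum_le_sum fun a _ => abs_pd_le a _ x)
  have h2 : |ev x (eul ψ)| ≤ r x * d 1 ψ x := by
    rw [eul, map_sum, d_succ, Finset.mul_sum]
    refine (Finset.abs_sum_le_sum_abs _ _).trans (Finset.sum_le_sum fun a _ => ?_)
    rw [map_mul, ev_X, abs_mul, d_zero_eq]
    exact mul_le_mul_of_nonneg_right (abs_le_r x a) (abs_nonneg _)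
  have h3 := mul_le_mul_of_nonneg_left (lin_d_le_J2 0 ψ x) (r_pos x).le
  have h4 := le_mul_of_one_le_left (d_nonneg 2 ψ x) (one_le_r x)
  rw [Lop, map_sub]
  have h5 := abs_sub (ev x (con 1 ψ)) (ev x (eul ψ))
  linarith

/-- Gaussian interpolation: `Iw 0 (q 1 ψ) = -Iw 0 (ψ * Lop 1 ψ)` (`Iw_pd` with `V = 0`), Cauchy–Schwarz
(`Iw_mul_sq_le`, `Gn_sq_eq`), `|Lop 1 ψ| ≤ r J2 0 ψ`, `Gn_le_nrm n (σ0 - 1)`, `nrm_r_mul`; and
`r^{2σ0 - 1/2} ≤ η' r^{2σ0} + C e^{-|x|²/2}` (`rpow_le_small_add_gauss`), `d_sq_le_q`. -/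
theorem grad_interp (n : ℕ) {η : ℝ} (hη : 0 < η) : ∃ C, 0 ≤ C ∧ ∀ ψ : Sm n, Sym (9 / 8) ψ →
    nrm (σ0 n) (fun x => r x ^ (-1 / 4 : ℝ) * d 1 ψ x) ≤ η * nrm (σ0 n) (J2 0 ψ) + C * Gn ψ := by
  obtain ⟨C₁, hC₁, h1⟩ := rpow_le_small_add_gauss (n := n) (σ0 n + σ0 n) (b := 1 / 2)
    (η := η ^ 2) (by norm_num) (by positivity)
  obtain ⟨C₂, hC₂, h2⟩ := Gn_le_nrm n (σ0 n - 1)
  refine ⟨C₁ * n * C₂ / (2 * η), by positivity, fun ψ hψ => ?_⟩
  have hV : Sym 0 (0 : Sm n) := sym_zero 0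
  have hT := hψ.tm
  have hadm := lin_adm_J2 hψ 0
  set A := nrm (σ0 n) (J2 0 ψ) with hA
  have hA0 : 0 ≤ A := nrm_nonneg _ _
  have hg0 := Gn_nonneg ψ
  have hL : Gn (Lop 1 ψ) ≤ C₂ * A := by
    have := h2 (Lop 1 ψ) (fun x => r x * J2 0 ψ x)
      (Adm.r_mul (by rw [sub_add_cancel]; exact hadm)) (peul_abs_Lop ψ)
    rwa [nrm_r_mul, sub_add_cancel] at this
  have hq : Iw 0 (q 1 ψ) ≤ Gn ψ * (C₂ * A) := by
    have h3 := Iw_mul_sq_le hV hT (Tm.Lop tmM_one hT)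
    rw [← Gn_sq_eq, ← Gn_sq_eq, ← mul_pow] at h3
    have h4 := abs_le_of_sq_le_sq' h3 (mul_nonneg hg0 (Gn_nonneg _))
    have h5 := mul_le_mul_of_nonneg_left hL hg0
    rw [peul_Iw_q hT]
    linarith [h4.1]
  have hN : nrm (σ0 n) (fun x => r x ^ (-1 / 4 : ℝ) * d 1 ψ x) ^ 2 ≤
      η ^ 2 * A ^ 2 + C₁ * n * Iw 0 (q 1 ψ) := by
    have i1 := hadm.integrable.const_mul (η ^ 2)
    have i2 := ((hT.q 1).integrable hV).const_mul (C₁ * n)
    rw [nrm_sq, hA, nrm_sq, Iw, ← integral_const_mul, ← integral_const_mul, ← integral_add i1 i2]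
    refine integral_mono_of_nonneg (ae_of_all _ fun x => sq_nonneg _) (i1.add i2)
      (ae_of_all _ fun x => ?_)
    have e1 : (r x ^ (-1 / 4 : ℝ) * d 1 ψ x * r x ^ σ0 n) ^ 2 =
        d 1 ψ x ^ 2 * r x ^ (σ0 n + σ0 n - 1 / 2) := by
      rw [show σ0 n + σ0 n - 1 / 2 = (-1 / 4 + σ0 n) + (-1 / 4 + σ0 n) by ring, r_rpow_add,
        r_rpow_add]
      ring
    have e2 : d 1 ψ x ^ 2 ≤ J2 0 ψ x ^ 2 := by
      refine pow_le_pow_left₀ (d_nonneg _ _ _) ?_ 2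
      linarith [lin_d_le_J2 0 ψ x, d_nonneg 2 ψ x]
    have e3 := d_sq_le_q 1 ψ x
    rw [pow_one] at e3
    have e4 : Real.exp (-ev x (Wp 0)) = Real.exp (-(∑ a, x a ^ 2) / 2) := by
      simp only [ev_Wp, map_zero, add_zero, neg_div]
    have e5 := r_rpow_pos x (σ0 n + σ0 n)
    have e6 := Real.exp_pos (-(∑ a, x a ^ 2) / 2)
    show (r x ^ (-1 / 4 : ℝ) * d 1 ψ x * r x ^ σ0 n) ^ 2 ≤
      η ^ 2 * (J2 0 ψ x * r x ^ σ0 n) ^ 2 + C₁ * n * (ev x (q 1 ψ) * Real.exp (-ev x (Wp 0)))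
    rw [e1, e4]
    calc d 1 ψ x ^ 2 * r x ^ (σ0 n + σ0 n - 1 / 2)
        ≤ d 1 ψ x ^ 2 * (η ^ 2 * r x ^ (σ0 n + σ0 n) + C₁ * Real.exp (-(∑ a, x a ^ 2) / 2)) :=
          mul_le_mul_of_nonneg_left (h1 x) (sq_nonneg _)
      _ = d 1 ψ x ^ 2 * (η ^ 2 * r x ^ (σ0 n + σ0 n)) +
          d 1 ψ x ^ 2 * (C₁ * Real.exp (-(∑ a, x a ^ 2) / 2)) := by ring
      _ ≤ J2 0 ψ x ^ 2 * (η ^ 2 * r x ^ (σ0 n + σ0 n)) +
          n * ev x (q 1 ψ) * (C₁ * Real.exp (-(∑ a, x a ^ 2) / 2)) :=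
          add_le_add (mul_le_mul_of_nonneg_right e2 (by positivity))
            (mul_le_mul_of_nonneg_right e3 (by positivity))
      _ = _ := by rw [r_rpow_add]; ring
  refine abs_le_abs_iff_aux ?_ (by positivity)
  have h6 : C₁ * n * Iw 0 (q 1 ψ) ≤ C₁ * n * (Gn ψ * (C₂ * A)) :=
    mul_le_mul_of_nonneg_left hq (by positivity)
  have h7 : (η * A + C₁ * n * C₂ / (2 * η) * Gn ψ) ^ 2 =
      η ^ 2 * A ^ 2 + C₁ * n * (Gn ψ * (C₂ * A)) + (C₁ * n * C₂ / (2 * η) * Gn ψ) ^ 2 := by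
    field_simp; ring
  rw [h7]
  linarith [sq_nonneg (C₁ * n * C₂ / (2 * η) * Gn ψ)]

end Crest.Agent.R253
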