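import Crest.Agent.R253.PId
import Crest.Agent.Lib.Brouwer.Basic

/-!
# Row 253, PDE part: the inverse of `∇u` and the change of variables
-/

set_option autoImplicit false
open MeasureTheory Matrix Filter Topology
open scoped ContDiff BigOperators

noncomputable section
namespace Crest.Agent.R253
open Crest.Agent.R238

variable {n : ℕ}

/-- Composition with a smooth map. -/
def comp (T : Fin n → Sm n) : Sm n →ₐ[ℝ] Sm n where
  toFun f := Sm.of (fun z => ev (vec T z) f)
    ((ev_contDiff f).comp (contDiff_pi.2 fun a => ev_contDiff (T a)))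
  map_one' := by ext x; simp
  map_mul' f g := by ext x; simp
  map_zero' := by ext x; simp
  map_add' f g := by ext x; simp
  commutes' c := by ext x; simp

@[simp] theorem ev_comp (T : Fin n → Sm n) (f : Sm n) (z : E n) :
    ev z (comp T f) = ev (vec T z) f := rfl

theorem comp_X (T : Fin n → Sm n) (a : Fin n) : comp T (X a) = T a := by ext z; rfl

theorem evM_map_comp (T : Fin n → Sm n) (M : Mat n) (z : E n) :
    evM z (M.map (comp T)) = evM (vec T z) M := rfl

theorem contDiff_vec (T : Fin n → Sm n) : ContDiff ℝ ∞ (vec T) :=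
  contDiff_pi.2 fun a => ev_contDiff (T a)

/-- The derivative of `vec T` is the Jacobian (`hasFDerivAt_pi`, `hasFDerivAt_ev`). -/
theorem hasFDerivAt_vec (T : Fin n → Sm n) (z : E n) :
    HasFDerivAt (vec T) (LinearMap.toContinuousLinearMap (Matrix.toLin' (evM z (jac T)))) z := by
  refine hasFDerivAt_pi'' fun a => ?_
  refine (hasFDerivAt_ev (T a) z).congr_fderiv (ContinuousLinearMap.ext fun v => ?_)
  simp [jac, Matrix.toLin'_apply, Matrix.mulVec, dotProduct]

/-- Chain rule (`ev_pd`, `fderiv_comp`, `fderiv_ev`). -/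
theorem pd_comp (T : Fin n → Sm n) (k : Fin n) (f : Sm n) :
    pd k (comp T f) = ∑ a, comp T (pd a f) * pd k (T a) := by
  ext z
  have h := (hasFDerivAt_ev f (vec T z)).comp z (hasFDerivAt_vec T z)
  rw [ev_pd, show (fun y => ev y (comp T f)) = (fun y => ev y f) ∘ vec T from rfl, h.fderiv]
  simp [jac, Matrix.toLin'_apply]

namespace BR
variable (D : BR n)

theorem jac_p : jac D.p = D.g := by
  ext a b : 1
  exact D.pd_p a b

/-- Strong monotonicity: `t ↦ (y - x) ⬝ᵥ p (x + t (y - x))` has derivative `≥ c |y - x|²`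
(`hasDerivAt_line`, `pd_p`, `exists_ell`). -/
theorem p_mono : ∃ c, 0 < c ∧ ∀ x y : E n,
    c * ((y - x) ⬝ᵥ (y - x)) ≤ (y - x) ⬝ᵥ (vec D.p y - vec D.p x) := by
  obtain ⟨c, K, hc, -, -, hg⟩ := D.exists_ell
  refine ⟨c, hc, fun x y => ?_⟩
  set v := y - x with hv
  have h1 : ∀ t : ℝ, HasDerivAt (fun s : ℝ => ∑ a, v a * ev (x + s • v) (D.p a) - c * (v ⬝ᵥ v) * s)
      (v ⬝ᵥ (evM (x + t • v) D.g *ᵥ v) - c * (v ⬝ᵥ v)) t := fun t => by
    have h2 := (HasDerivAt.fun_sum fun a (_ : a ∈ Finset.univ) =>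
      (hasDerivAt_line (D.p a) x v t).const_mul (v a)).sub
      ((hasDerivAt_id t).const_mul (c * (v ⬝ᵥ v)))
    refine h2.congr_deriv ?_
    simp only [D.pd_p, dotProduct, Matrix.mulVec, evM_apply, one_mul, mul_comm]
  have h3 : Monotone (fun s : ℝ => ∑ a, v a * ev (x + s • v) (D.p a) - c * (v ⬝ᵥ v) * s) :=
    monotone_of_deriv_nonneg (fun t => (h1 t).differentiableAt) fun t => by
      rw [(h1 t).deriv]
      exact sub_nonneg.2 (hg.low _ _)
  have h4 := h3 (zero_le_one (α := ℝ))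
  simp only [zero_smul, add_zero, one_smul, mul_zero, sub_zero, mul_one] at h4
  have h5 : x + v = y := by rw [hv]; abel
  rw [h5] at h4
  have h6 : v ⬝ᵥ (vec D.p y - vec D.p x) = ∑ a, v a * ev y (D.p a) - ∑ a, v a * ev x (D.p a) := by
    rw [dotProduct_sub]; rfl
  rw [h6]
  linarith

theorem vec_p (x : E n) : vec D.p x = x + vec (grad D.ζ) x := by
  ext a
  simp [vec, p]

theorem grad_bdd : ∃ C, 0 ≤ C ∧ ∀ x, ‖vec (grad D.ζ) x‖ ≤ C := by
  choose C hC h using fun a => (D.sym0b a).bdd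
  have h0 : 0 ≤ ∑ a, C a := Finset.sum_nonneg fun a _ => hC a
  refine ⟨∑ a, C a, h0, fun x => (pi_norm_le_iff_of_nonneg h0).2 fun a => (h a x).trans ?_⟩
  exact Finset.single_le_sum (fun a _ => hC a) (Finset.mem_univ a)

/-- Injective by `p_mono`; surjective by `Lib.Brouwer.exists_fixed_of_bounded` for `x ↦ z - ∇ζ x`. -/
theorem p_bij : Function.Bijective (vec D.p) := by
  constructor
  · obtain ⟨c, hc, h⟩ := D.p_mono
    intro x y hxy
    have h1 := h x y
    rw [hxy, sub_self, dotProduct_zero] at h1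
    have h2 : (y - x) ⬝ᵥ (y - x) = 0 :=
      le_antisymm (by by_contra h3; push Not at h3; nlinarith) (dot_self_nonneg _)
    exact (sub_eq_zero.1 (dotProduct_self_eq_zero.1 h2)).symm
  · intro z
    obtain ⟨C, -, hC⟩ := D.grad_bdd
    obtain ⟨x, hx⟩ := Lib.Brouwer.exists_fixed_of_bounded (fun x => z - vec (grad D.ζ) x)
      (continuous_const.sub (contDiff_vec _).continuous) (‖z‖ + C)
      (fun x => (norm_sub_le _ _).trans (add_le_add le_rfl (hC x)))
    refine ⟨x, ?_⟩
    rw [D.vec_p, eq_sub_iff_add_eq.1 hx.symm]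

/-- The inverse is continuous (`p_mono` and Cauchy–Schwarz give an anti-Lipschitz bound), hence smooth:
`Homeomorph.contDiff_symm` with `hasFDerivAt_vec` (the Jacobian `g` is invertible:
`Matrix.toLin'OfInv`, `LinearEquiv.toContinuousLinearEquiv`). -/
theorem exists_inv_map : ∃ T : Fin n → Sm n,
    (∀ x, vec T (vec D.p x) = x) ∧ ∀ z, vec D.p (vec T z) = z := by
  set e : E n → E n ≃L[ℝ] E n := fun x =>
    (Matrix.toLin'OfInv (evM_inv D.τg x) (evM_inv D.gτ x)).toContinuousLinearEquiv with he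
  have h1 : ∀ x, HasFDerivAt (vec D.p) (e x : E n →L[ℝ] E n) x := fun x => by
    convert hasFDerivAt_vec D.p x using 1
    rw [D.jac_p]
    ext v a
    rfl
  have h2 : IsOpenMap (vec D.p) := isOpenMap_of_hasStrictFDerivAt_equiv (f' := e) fun x =>
    (contDiff_vec D.p).contDiffAt.hasStrictFDerivAt' (h1 x) (by simp)
  set φ : E n ≃ₜ E n := (Equiv.ofBijective _ D.p_bij).toHomeomorphOfContinuousOpen
    (contDiff_vec D.p).continuous h2 with hφ
  have h3 : ContDiff ℝ ∞ φ.symm := φ.contDiff_symm (f₀' := e) h1 (contDiff_vec D.p)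
  refine ⟨fun a => Sm.of (fun z => φ.symm z a) (contDiff_pi.1 h3 a), fun x => ?_, fun z => ?_⟩
  · exact φ.symm_apply_apply x
  · exact φ.apply_symm_apply z

/-- `comp T (p a) = X a`; differentiate with `pd_comp`: `g.map (comp T) * jac T = 1`. -/
theorem jac_inv {T : Fin n → Sm n} (hT : ∀ z, vec D.p (vec T z) = z) :
    jac T = D.τ.map (comp T) := by
  have h1 : ∀ a, comp T (D.p a) = X a := fun a => by
    ext z
    exact congrFun (hT z) a
  have h2 : D.g.map (comp T) * jac T = 1 := by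
    ext a k : 1
    have h := pd_comp T k (D.p a)
    rw [h1, pd_X] at h
    simp only [Matrix.mul_apply, Matrix.map_apply, jac, Matrix.of_apply, ← D.pd_p, ← h,
      Matrix.one_apply, eq_comm]
  have h3 : D.τ.map (comp T) * D.g.map (comp T) = 1 := by
    rw [← Matrix.map_mul, D.τg, Matrix.map_one _ (map_zero _) (map_one _)]
  rw [← Matrix.one_mul (jac T), ← h3, Matrix.mul_assoc, h2, Matrix.mul_one]

theorem pd_comp_inv {T : Fin n → Sm n} (hT : ∀ z, vec D.p (vec T z) = z) (k : Fin n) (f : Sm n) :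
    pd k (comp T f) = comp T (∑ a, pd a f * D.τ a k) := by
  rw [pd_comp, map_sum]
  refine Finset.sum_congr rfl fun a _ => ?_
  rw [map_mul]
  exact congrArg _ (congrFun (congrFun (D.jac_inv hT) a) k)

/-- Induction on the order `k` for all tempered `f` at once: `pd k (comp T f) = comp T (∑ a, pd a f * τ a k)`,
and `r (T z) ≤ C r z` since `T z = z - ∇ζ (T z)` with `∇ζ` bounded (`r_add_le`). -/
theorem tm_comp {T : Fin n → Sm n} (hT : ∀ z, vec D.p (vec T z) = z) {f : Sm n} (hf : Tm f) :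
    Tm (comp T f) := by
  obtain ⟨B, hB0, hB⟩ := D.grad_bdd
  have hr : ∃ C, 0 ≤ C ∧ ∀ z, r (vec T z) ≤ C * r z := by
    refine ⟨2 * Real.sqrt (1 + n * B ^ 2), by positivity, fun z => ?_⟩
    have h1 : vec T z = -vec (grad D.ζ) (vec T z) + z := by
      nth_rewrite 3 [← hT z]
      rw [D.vec_p]; abel
    rw [h1]
    refine (r_add_le _ _).trans (mul_le_mul_of_nonneg_right
      (mul_le_mul_of_nonneg_left ?_ (by norm_num)) (r_pos z).le)
    rw [r_neg, r]
    refine Real.sqrt_le_sqrt (add_le_add le_rfl ?_)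
    refine (Finset.sum_le_card_nsmul _ _ (B ^ 2) fun a _ => ?_).trans_eq (by simp)
    exact sq_le_sq' (abs_le.1 ((norm_le_pi_norm _ a).trans (hB _))).1
      (abs_le.1 ((norm_le_pi_norm _ a).trans (hB _))).2
  obtain ⟨C, hC0, hC⟩ := hr
  intro k
  induction k generalizing f with
  | zero =>
    obtain ⟨A, s, hA, hs, h⟩ := hf.abs_le
    refine ⟨A * C ^ s, s, fun z => ?_⟩
    rw [d_zero_eq, ev_comp, mul_assoc, ← Real.mul_rpow hC0 (r_pos z).le]
    exact (h _).trans (mul_le_mul_of_nonneg_left (Real.rpow_le_rpow (r_pos _).le (hC z) hs) hA)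
  | succ k ih =>
    have h1 : ∀ a, ∃ A s : ℝ, ∀ z, d k (pd a (comp T f)) z ≤ A * r z ^ s := fun a => by
      rw [D.pd_comp_inv hT]
      exact ih (Tm.sum _ fun b _ => (hf.pd b).mul (D.sym0τ b a).tm)
    choose A s h using h1
    refine ⟨∑ a, |A a|, ∑ a, |s a|, fun z => ?_⟩
    rw [d_succ, Finset.sum_mul]
    refine Finset.sum_le_sum fun a _ => (h a z).trans ?_
    refine mul_le_mul (le_abs_self _) (r_rpow_mono z ((le_abs_self _).trans ?_))
      (r_rpow_pos _ _).le (abs_nonneg _)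
    exact Finset.single_le_sum (f := fun a => |s a|) (fun a _ => abs_nonneg _) (Finset.mem_univ a)

/-- The Monge–Ampère equation: `|p|²/2 = |x|²/2 + eul ζ + q 1 ζ / 2` (`ev_q_one`), `eqn`, `ev_det`. -/
theorem gw_p (x : E n) : gw (vec D.p x) * (evM x D.g).det =
    (Iw (0 : Sm n) 1)⁻¹ * Real.exp (-ev x (Wp D.V)) := by
  have e : D.g.det = expS (eul D.ζ + (1 / 2 : ℝ) • q 1 D.ζ - D.V) := D.eqn
  rw [← ev_det, e, gw, ev_expS, mul_assoc, ← Real.exp_add]
  congr 2
  simp only [map_sub, map_add, ev_smul, ev_q_one, eul, map_sum, map_mul, ev_X, ev_Wp, vec, p,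
    add_sq, Finset.sum_add_distrib, mul_assoc, ← Finset.mul_sum]
  ring

/-- `integral_image_eq_integral_abs_det_fderiv_smul` for `vec D.p` on `univ` (no integrability needed),
`LinearMap.det_toLin'`, `gw_p`. -/
theorem cov (F : E n → ℝ) :
    GE F = (Iw (0 : Sm n) 1)⁻¹ * ∫ x, F (vec D.p x) * Real.exp (-ev x (Wp D.V)) := by
  have h := integral_image_eq_integral_abs_det_fderiv_smul (μ := (volume : Measure (E n)))
    MeasurableSet.univ (fun x _ => (hasFDerivAt_vec D.p x).hasFDerivWithinAt)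
    (D.p_bij.1.injOn) (fun z => F z * gw z)
  rw [Set.image_univ_of_surjective D.p_bij.2, Measure.restrict_univ] at h
  rw [GE, h, ← integral_const_mul]
  refine integral_congr_ae (Eventually.of_forall fun x => ?_)
  have h1 : (LinearMap.toContinuousLinearMap (Matrix.toLin' (evM x (jac D.p)))).det =
      (evM x D.g).det := by
    rw [D.jac_p, ← LinearMap.det_toLin']
    rfl
  simp only [h1, abs_of_pos (D.g_posDef x).det_pos, smul_eq_mul]
  linear_combination F (vec D.p x) * D.gw_p x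

/-- `cov` with `F = 1`, `integral_gw`, `Iw_one_pos`. -/
theorem Iw_one : Iw D.V 1 = Iw (0 : Sm n) 1 := by
  have h := D.cov fun _ => 1
  have h0 := Iw_one_pos (n := n) (sym_zero 0)
  simp only [GE, one_mul, integral_gw] at h
  have e : Iw D.V 1 = ∫ x, Real.exp (-ev x (Wp D.V)) := by simp only [Iw, map_one, one_mul]
  rw [← e] at h
  field_simp at h
  exact h.symm

end BR

end Crest.Agent.R253
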