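import Crest.Agent.R253.PDefs
import Crest.Agent.R253.B0

/-!
# Row 253, PDE part: elementary facts on the hazard rate and its inverse
-/

set_option autoImplicit false
open MeasureTheory Matrix Filter Topology
open scoped ContDiff BigOperators

noncomputable section
namespace Crest.Agent.R253
open Crest.Agent.R238

variable {n : ℕ}

theorem psf_continuousOn_lamI : ContinuousOn lamI (Set.Ioi 0) := continuousOn_lamI

theorem psf_lamI_le : ∃ α, 0 < α ∧ ∀ h, 0 < h → lamI h ≤ α * h - 1 := by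
  have h1 := lam_pos (-1)
  refine ⟨1 + (lam (-1))⁻¹, by positivity, fun h hh => ?_⟩
  have e := lam_lamI hh
  rcases le_or_gt (lamI h) (-1) with hx | hx
  · have : 0 ≤ (1 + (lam (-1))⁻¹) * h := by positivity
    linarith
  · have h2 : lam (-1) ≤ h := e ▸ strictMono_lam.monotone hx.le
    have h3 := lt_lam (lamI h)
    have h4 : 1 ≤ (lam (-1))⁻¹ * h := by
      rw [inv_mul_eq_div, le_div_iff₀ h1]; linarith
    rw [e] at h3
    linarith

open Crest.Agent.R215 in
theorem psf_le_lamI : ∃ α, 0 < α ∧ ∀ h, 0 < h → 1 - α * h⁻¹ ≤ lamI h := by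
  have h1 := lam_pos 1
  have hP := Pb_pos 0
  refine ⟨lam 1 + 2 * (phi 0 / Pb 0), by have := phi_pos 0; positivity, fun h hh => ?_⟩
  have e := lam_lamI hh
  have hi : 0 < h⁻¹ := inv_pos.2 hh
  have hp0 : 0 < phi 0 / Pb 0 := div_pos (phi_pos 0) hP
  set x := lamI h with hx
  rcases le_or_gt 1 x with h2 | h2
  · have : 0 ≤ (lam 1 + 2 * (phi 0 / Pb 0)) * h⁻¹ := by positivity
    linarith
  rcases le_or_gt 0 x with h3 | h3
  · have h4 : h ≤ lam 1 := e ▸ strictMono_lam.monotone h2.le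
    have h5 : 1 ≤ lam 1 * h⁻¹ := by rw [← div_eq_mul_inv, le_div_iff₀ hh]; linarith
    have : 0 ≤ 2 * (phi 0 / Pb 0) * h⁻¹ := by positivity
    nlinarith
  · have hanti : Pb 0 ≤ Pb x := by
      have : Antitone Pb := antitone_of_deriv_nonpos (fun y => (hasDerivAt_Pb y).differentiableAt)
        fun y => by rw [(hasDerivAt_Pb y).deriv]; exact neg_nonpos.2 (phi_pos y).le
      exact this h3.le
    have h4 : phi x * (1 + x ^ 2 / 2) ≤ phi 0 := by
      have h5 := Real.add_one_le_exp (x ^ 2 / 2)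
      have h6 : Real.exp (-x ^ 2 / 2) * Real.exp (x ^ 2 / 2) = 1 := by
        rw [← Real.exp_add, show -x ^ 2 / 2 + x ^ 2 / 2 = 0 by ring, Real.exp_zero]
      have h7 := Real.exp_pos (-x ^ 2 / 2)
      have h8 := sqrt_two_pi_pos
      rw [phi_zero, phi, mul_assoc]
      refine mul_le_of_le_one_right (by positivity) ?_
      nlinarith
    have h5 : h * Pb x = phi x := e ▸ lam_mul_Pb x
    have h6 : h * (1 + x ^ 2 / 2) ≤ phi 0 / Pb 0 := by
      rw [le_div_iff₀ hP]
      have : h * Pb 0 ≤ phi x := h5 ▸ mul_le_mul_of_nonneg_left hanti hh.le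
      have h7 : 0 ≤ 1 + x ^ 2 / 2 := by positivity
      nlinarith
    have h7 : 1 + x ^ 2 / 2 ≤ phi 0 / Pb 0 * h⁻¹ := by
      rw [← div_eq_mul_inv, le_div_iff₀ hh]; linarith
    have : 0 ≤ lam 1 * h⁻¹ := by positivity
    nlinarith [sq_nonneg (x + 1)]

end Crest.Agent.R253
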