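import Crest.Agent.R253.PFam
import Crest.Agent.R253.PInv
import Crest.Agent.R253.PSF
import Crest.Agent.R253.MF3
import Crest.Agent.R238.Pot
import Crest.Agent.R238.C2

/-!
# Row 253, PDE part: the mean of `λ⁻¹(τ)`
-/

set_option autoImplicit false
open MeasureTheory Matrix Filter Topology
open scoped ContDiff BigOperators

noncomputable section
namespace Crest.Agent.R253
open Crest.Agent.R238

variable {n : ℕ}

/-- `∫ λ⁻¹(τ) e^{-W}`. -/
def FM (D : BR n) : RM n :=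
  Matrix.of fun a b => ∫ x, mf lamI (evM x D.τ) a b * Real.exp (-ev x (Wp D.V))

/-- The directional derivative `∂_v W`. -/
def dW (V : Sm n) (v : E n) : Sm n := ∑ a, v a • pd a (Wp V)

theorem FM_symm (D : BR n) : (FM D)ᵀ = FM D := by
  ext a b
  simp only [FM, Matrix.transpose_apply, Matrix.of_apply]
  congr 1
  ext x
  have := congrFun (congrFun (mf_symm lamI (evM x D.τ)) a) b
  rw [Matrix.transpose_apply] at this
  rw [this]

theorem pfm_spec {c K : ℝ} (hc : 0 < c) {τ : Mat n} (h : Ell c K τ) (x : E n) :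
    spectrum ℝ (evM x τ) ⊆ Set.Ioi 0 := fun _ ht => hc.trans_le (Ell_spectrum h x ht).1

theorem pfm_bd {c : ℝ} (hc : 0 < c) (K : ℝ) : ∃ L, ∀ τ : Mat n, Ell c K τ → ∀ x a b,
    |mf lamI (evM x τ) a b| ≤ L := by
  obtain ⟨L, hL⟩ := (isCompact_Icc (a := c) (b := n * K)).exists_bound_of_continuousOn
    (psf_continuousOn_lamI.mono fun t ht => hc.trans_le ht.1)
  exact ⟨L, fun τ h x a b => abs_mf_apply_le (Ell_symm h x)
    (fun t ht => hL t (Ell_spectrum h x ht)) a b⟩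

theorem pfm_cont {c K : ℝ} (hc : 0 < c) {τ : Mat n} (h : Ell c K τ) (a b : Fin n) :
    Continuous fun x => mf lamI (evM x τ) a b := by
  have h1 : Continuous fun x => evM x τ :=
    continuous_pi fun a => continuous_pi fun b => ev_continuous (τ a b)
  exact (continuous_mf (Ell_symm h) h1 (pfm_spec hc h) psf_continuousOn_lamI).matrix_elem a b

/-- Continuous (`continuous_mf`, `Ell_spectrum`, `psf_continuousOn_lamI`) and bounded (`abs_mf_apply_le`)
times the weight (`Tm.integrable` with `tm_one`). -/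
theorem FM_integrable (D : BR n) (a b : Fin n) :
    Integrable fun x => mf lamI (evM x D.τ) a b * Real.exp (-ev x (Wp D.V)) := by
  obtain ⟨c, K, hc, -, hE, -⟩ := D.exists_ell
  obtain ⟨L, hL⟩ := pfm_bd (n := n) hc K
  refine Integrable.mono' ((tm_one.integrable D.symV).const_mul L)
    ((pfm_cont hc hE a b).mul (Real.continuous_exp.comp (ev_continuous _).neg)).aestronglyMeasurable
    (Eventually.of_forall fun x => ?_)
  rw [norm_mul, Real.norm_eq_abs, Real.norm_eq_abs, abs_of_pos (Real.exp_pos _), map_one, one_mul]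
  exact mul_le_mul_of_nonneg_right (hL _ hE x a b) (Real.exp_pos _).le

/-- `p_v = ∑ v_a p_a`. -/
def pfm_pv (D : BR n) (v : E n) : Sm n := ∑ a, v a • D.p a

theorem pfm_tm_pv (D : BR n) (v : E n) : Tm (pfm_pv D v) :=
  Tm.sum _ fun a _ => (D.symp a).tm.smul _

theorem pfm_pd_pv (D : BR n) (v : E n) (a : Fin n) :
    pd a (pfm_pv D v) = ∑ c, v c • D.g c a := by
  simp only [pfm_pv, map_sum, Derivation.map_smul, D.pd_p]

theorem pfm_stein (D : BR n) {f : Sm n} (hf : Tm f) (v : E n) :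
    Iw D.V (∑ b, v b • ∑ a, D.τ a b * pd a f) = Iw D.V (pfm_pv D v * f) := by
  have hτ : TmM D.τ := D.sym0τ.tmM
  rw [Iw_sum D.symV _ fun b _ => (Tm.sum _ fun a _ => (hτ a b).mul (hf.pd a)).smul _, pfm_pv,
    Finset.sum_mul, Iw_sum D.symV _ fun b _ => ((D.symp b).tm.smul _).mul hf]
  refine Finset.sum_congr rfl fun b _ => ?_
  rw [Iw_smul, smul_mul_assoc, Iw_smul, D.Iw_stein hf]

theorem pfm_pv_sq (D : BR n) {v : E n} (hv : v ⬝ᵥ v = 1) :
    Iw D.V (pfm_pv D v ^ 2) = Iw D.V 1 := by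
  rw [sq, ← pfm_stein D (pfm_tm_pv D v)]
  congr 1
  have h1 : ∀ b, ∑ a, D.τ a b * pd a (pfm_pv D v) = cst (v b) := by
    intro b
    have h2 : ∑ a, D.τ a b * pd a (pfm_pv D v) = ∑ c, v c • (D.g * D.τ) c b := by
      simp only [pfm_pd_pv, Matrix.mul_apply, Finset.mul_sum, Finset.smul_sum]
      rw [Finset.sum_comm]
      exact Finset.sum_congr rfl fun c _ => Finset.sum_congr rfl fun a _ => by
        rw [mul_smul_comm, mul_comm]
    rw [h2, D.gτ]
    ext x
    simp [Matrix.one_apply]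
  ext x
  simp only [h1, map_sum, ev_smul, ev_cst, map_one]
  exact hv

/-- With `p_v = ∑ v a • p a`: `I(τ_vv) = I(p_v · lin v)` (`Iw_stein`, `pd_lin`) and
`I(p_v²) = I((τ g)_vv) = I(1)` (`Iw_stein`, `pd_p`); `Iw_mul_sq_le`. -/
theorem tau_quad_sq (D : BR n) {v : E n} (hv : v ⬝ᵥ v = 1) :
    Iw D.V (qfS D.τ v) ^ 2 ≤ Iw D.V 1 * Iw D.V (lin v ^ 2) := by
  have e : qfS D.τ v = ∑ b, v b • ∑ a, D.τ a b * pd a (lin v) := by
    ext x
    simp only [qfS, pd_lin, map_sum, ev_smul, map_mul, ev_cst, Finset.mul_sum]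
    rw [Finset.sum_comm]
    exact Finset.sum_congr rfl fun b _ => Finset.sum_congr rfl fun a _ => by ring
  rw [e, pfm_stein D (sym_lin v).tm, ← pfm_pv_sq D hv]
  exact Iw_mul_sq_le D.symV (pfm_tm_pv D v) (sym_lin v).tm

/-- `I(g_vv) = I(∂_v p_v) = I(∂_vW · p_v)` (`Iw_pd`, `pd_Wp`). -/
theorem g_quad_sq (D : BR n) {v : E n} (hv : v ⬝ᵥ v = 1) :
    Iw D.V (qfS D.g v) ^ 2 ≤ Iw D.V 1 * Iw D.V (dW D.V v ^ 2) := by
  have hW : ∀ a, Tm (pd a (Wp D.V)) := fun a => by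
    rw [pd_Wp]; exact (tm_X a).add (D.symV.tm.pd a)
  have hdW : Tm (dW D.V v) := Tm.sum _ fun a _ => (hW a).smul _
  have hp := pfm_tm_pv D v
  have e : qfS D.g v = ∑ a, v a • pd a (pfm_pv D v) := by
    ext x
    simp only [qfS, pfm_pd_pv, map_sum, ev_smul, Finset.mul_sum]
    rw [Finset.sum_comm]
    exact Finset.sum_congr rfl fun b _ => Finset.sum_congr rfl fun a _ => by ring
  have e2 : Iw D.V (qfS D.g v) = Iw D.V (pfm_pv D v * dW D.V v) := by
    rw [e, Iw_sum D.symV _ fun a _ => (hp.pd a).smul _, dW, Finset.mul_sum,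
      Iw_sum D.symV _ fun a _ => hp.mul ((hW a).smul _)]
    refine Finset.sum_congr rfl fun a _ => ?_
    rw [Iw_smul, mul_smul_comm, Iw_smul, Iw_pd D.symV hp, pd_Wp, mul_comm (pfm_pv D v)]
  rw [e2, ← pfm_pv_sq D hv]
  exact Iw_mul_sq_le D.symV hp hdW

theorem pfm_quad_eq (A : RM n) (v : E n) (w : ℝ) :
    v ⬝ᵥ (A *ᵥ v) * w = ∑ a, ∑ b, v a * v b * (A a b * w) := by
  simp only [dotProduct, Matrix.mulVec, Finset.mul_sum, Finset.sum_mul]
  exact Finset.sum_congr rfl fun a _ => Finset.sum_congr rfl fun b _ => by ring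

theorem pfm_quad_int (D : BR n) (v : E n) :
    Integrable fun x => v ⬝ᵥ (mf lamI (evM x D.τ) *ᵥ v) * Real.exp (-ev x (Wp D.V)) := by
  simp only [pfm_quad_eq]
  exact integrable_finsetSum _ fun a _ => integrable_finsetSum _ fun b _ =>
    (FM_integrable D a b).const_mul _

theorem pfm_quad (D : BR n) (v : E n) : v ⬝ᵥ (FM D *ᵥ v) =
    ∫ x, v ⬝ᵥ (mf lamI (evM x D.τ) *ᵥ v) * Real.exp (-ev x (Wp D.V)) := by
  simp only [pfm_quad_eq]
  rw [integral_finsetSum _ fun a _ => integrable_finsetSum _ fun b _ =>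
    (FM_integrable D a b).const_mul _, ← mul_one (v ⬝ᵥ _), pfm_quad_eq]
  refine Finset.sum_congr rfl fun a _ => ?_
  rw [integral_finsetSum _ fun b _ => (FM_integrable D a b).const_mul _]
  refine Finset.sum_congr rfl fun b _ => ?_
  rw [integral_const_mul, mul_one]
  rfl

/-- `v λ⁻¹(τ) v ≤ α τ_vv - 1` (`psf_lamI_le`, `mf_quad_le`, `mf_sub`, `mf_smul`, `mf_id`, `mf_const`). -/
theorem FM_neg : ∃ α, 0 < α ∧ ∀ {n : ℕ} (D : BR n) (v : E n), v ⬝ᵥ v = 1 →
    α * Iw D.V (lin v ^ 2) < Iw D.V 1 → v ⬝ᵥ (FM D *ᵥ v) < 0 := by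
  obtain ⟨α, hα, h⟩ := psf_lamI_le
  refine ⟨α ^ 2, by positivity, fun {n} D v hv hlt => ?_⟩
  obtain ⟨c, K, hc, -, hE, -⟩ := D.exists_ell
  have hq : Tm (qfS D.τ v) := (c2_sym_qfS D.sym0τ v).tm
  have h1 : v ⬝ᵥ (FM D *ᵥ v) ≤ Iw D.V (α • qfS D.τ v - 1) := by
    rw [pfm_quad]
    refine integral_mono (pfm_quad_int D v) (((hq.smul α).sub tm_one).integrable D.symV) fun x => ?_
    refine mul_le_mul_of_nonneg_right ?_ (Real.exp_pos _).le
    have hs := Ell_symm hE x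
    have h2 := mf_quad_le hs (f := lamI) (g := fun t => α * t - 1)
      (fun t ht => h t (pfm_spec hc hE x ht)) v
    rw [mf_sub hs, mf_smul hs, mf_id hs, mf_const hs] at h2
    rw [map_sub, ev_smul, ev_qfS, map_one]
    simpa [Matrix.sub_mulVec, Matrix.smul_mulVec, dotProduct_sub, dotProduct_smul, hv] using h2
  rw [Iw_sub D.symV (hq.smul α) tm_one, Iw_smul] at h1
  have h2 := tau_quad_sq D hv
  have h3 := Iw_one_pos D.symV
  have h4 : α * Iw D.V (qfS D.τ v) < Iw D.V 1 := by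
    refine lt_of_pow_lt_pow_left₀ 2 h3.le ?_
    calc (α * Iw D.V (qfS D.τ v)) ^ 2 = α ^ 2 * Iw D.V (qfS D.τ v) ^ 2 := by ring
      _ ≤ α ^ 2 * (Iw D.V 1 * Iw D.V (lin v ^ 2)) := by gcongr
      _ = Iw D.V 1 * (α ^ 2 * Iw D.V (lin v ^ 2)) := by ring
      _ < Iw D.V 1 * Iw D.V 1 := mul_lt_mul_of_pos_left hlt h3
      _ = _ := by ring
  linarith

/-- `v λ⁻¹(τ) v ≥ 1 - α g_vv` (`psf_le_lamI`, `mf_inv`). -/
theorem FM_pos : ∃ α, 0 < α ∧ ∀ {n : ℕ} (D : BR n) (v : E n), v ⬝ᵥ v = 1 →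
    α * Iw D.V (dW D.V v ^ 2) < Iw D.V 1 → 0 < v ⬝ᵥ (FM D *ᵥ v) := by
  obtain ⟨α, hα, h⟩ := psf_le_lamI
  refine ⟨α ^ 2, by positivity, fun {n} D v hv hlt => ?_⟩
  obtain ⟨c, K, hc, -, hE, -⟩ := D.exists_ell
  have hq : Tm (qfS D.g v) := (c2_sym_qfS D.sym0g v).tm
  have hW : ∀ a, Tm (pd a (Wp D.V)) := fun a => by
    rw [pd_Wp]; exact (tm_X a).add (D.symV.tm.pd a)
  have h1 : Iw D.V (1 - α • qfS D.g v) ≤ v ⬝ᵥ (FM D *ᵥ v) := by
    rw [pfm_quad]
    refine integral_mono ((tm_one.sub (hq.smul α)).integrable D.symV) (pfm_quad_int D v) fun x => ?_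
    refine mul_le_mul_of_nonneg_right ?_ (Real.exp_pos _).le
    have hs := Ell_symm hE x
    have h2 := mf_quad_le hs (g := lamI) (f := fun t => 1 - α * t⁻¹)
      (fun t ht => h t (pfm_spec hc hE x ht)) v
    rw [mf_sub hs, mf_smul hs, mf_inv hs (D.τ_posDef x).det_pos.ne', mf_const hs,
      Matrix.inv_eq_right_inv (evM_inv D.τg x)] at h2
    rw [map_sub, ev_smul, ev_qfS, map_one]
    simpa [Matrix.sub_mulVec, Matrix.smul_mulVec, dotProduct_sub, dotProduct_smul, hv] using h2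
  rw [Iw_sub D.symV tm_one (hq.smul α), Iw_smul] at h1
  have h2 := g_quad_sq D hv
  have h3 := Iw_one_pos D.symV
  have h4 : α * Iw D.V (qfS D.g v) < Iw D.V 1 := by
    refine lt_of_pow_lt_pow_left₀ 2 h3.le ?_
    calc (α * Iw D.V (qfS D.g v)) ^ 2 = α ^ 2 * Iw D.V (qfS D.g v) ^ 2 := by ring
      _ ≤ α ^ 2 * (Iw D.V 1 * Iw D.V (dW D.V v ^ 2)) := by gcongr
      _ = Iw D.V 1 * (α ^ 2 * Iw D.V (dW D.V v ^ 2)) := by ring
      _ < Iw D.V 1 * Iw D.V 1 := mul_lt_mul_of_pos_left hlt h3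
      _ = _ := by ring
  linarith

/-- `continuous_of_dominated` with `FamCont.τ`, `FamCont.V`, `continuous_mf`; the bound is
`C e^{K} e^{-|x|²/2}`. -/
theorem FM_cont {P : Type} [TopologicalSpace P] [FirstCountableTopology P] {D : P → BR n}
    (h : FamCont D) {c K : ℝ} (hc : 0 < c) (hE : ∀ p, Ell c K (D p).τ)
    (hV : ∀ p x, |ev x (D p).V| ≤ K) : Continuous fun p => FM (D p) := by
  obtain ⟨L, hL⟩ := pfm_bd (n := n) hc K
  refine continuous_pi fun a => continuous_pi fun b => ?_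
  refine continuous_of_dominated (bound := fun x : E n =>
      L * Real.exp K * (ev x (1 : Sm n) * Real.exp (-ev x (Wp 0))))
    (fun p => (FM_integrable (D p) a b).aestronglyMeasurable)
    (fun p => Eventually.of_forall fun x => ?_) ((tm_one.integrable (sym_zero 0)).const_mul _)
    (Eventually.of_forall fun x => ?_)
  · rw [norm_mul, Real.norm_eq_abs, Real.norm_eq_abs, abs_of_pos (Real.exp_pos _), mul_assoc,
      map_one, one_mul, ← Real.exp_add]
    have h1 := hL _ (hE p) x a b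
    refine mul_le_mul h1 (Real.exp_le_exp.2 ?_) (Real.exp_pos _).le ((abs_nonneg _).trans h1)
    rw [ev_Wp, ev_Wp, map_zero]
    linarith [(abs_le.1 (hV p x)).1]
  · refine ((continuous_mf (fun p => Ell_symm (hE p) x) (h.τ x) (fun p => pfm_spec hc (hE p) x)
      psf_continuousOn_lamI).matrix_elem a b).mul ?_
    simp only [ev_Wp]
    exact Real.continuous_exp.comp (continuous_const.add (h.V x)).neg

/-- `BR.cov`. -/
theorem cent_of_FM {D : BR n} {G : GD n} (h1 : ∀ x, vec G.T (vec D.p x) = x)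
    (h2 : ∀ z, G.H z = evM (vec G.T z) D.τ) (h : FM D = 0) : G.Cent := by
  intro a b
  rw [D.cov]
  have h3 := congrFun (congrFun h a) b
  simp only [FM, Matrix.of_apply, Matrix.zero_apply] at h3
  simp only [GD.M, h2, h1, h3, mul_zero]

end Crest.Agent.R253
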