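import Crest.Agent.R253.PStep
import Crest.Agent.R238.Exist

/-!
# Row 253, PDE part: continuous families of solutions
-/

set_option autoImplicit false
open MeasureTheory Matrix Filter Topology
open scoped ContDiff BigOperators

noncomputable section
namespace Crest.Agent.R253
open Crest.Agent.R238

variable {n : ℕ}

variable {P : Type} [TopologicalSpace P] [CompactSpace P] [T2Space P]

/-- A finite continuous partition of unity subordinate to a family of neighbourhoods. -/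
theorem pfam_pou (U : P → Set P) (hU : ∀ x, U x ∈ 𝓝 x) :
    ∃ (t : Finset P) (φ : t → P → ℝ), (∀ i, Continuous (φ i)) ∧ (∀ i p, 0 ≤ φ i p) ∧
      (∀ p, ∑ i, φ i p = 1) ∧ ∀ i p, φ i p ≠ 0 → p ∈ U i := by
  obtain ⟨t, ht⟩ := finite_cover_nhds_interior hU
  obtain ⟨f, hf⟩ := PartitionOfUnity.exists_isSubordinate (s := (Set.univ : Set P)) isClosed_univ
    (fun i : t => interior (U i)) (fun _ => isOpen_interior) (by
      intro x _
      have hx : x ∈ ⋃ x ∈ t, interior (U x) := ht ▸ Set.mem_univ x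
      obtain ⟨i, hi, hx⟩ := Set.mem_iUnion₂.1 hx
      exact Set.mem_iUnion.2 ⟨⟨i, hi⟩, hx⟩)
  refine ⟨t, fun i p => f i p, fun i => (f i).continuous, fun i p => f.nonneg i p, fun p => ?_,
    fun i p h => interior_subset (hf i (subset_tsupport _ h))⟩
  rw [← finsum_eq_sum_of_fintype]
  exact f.sum_eq_one (Set.mem_univ p)

theorem pfam_zle_sum {ι : Type*} (s : Finset ι) {β : ι → ℝ} {f : ι → Sm n}
    (hf : ∀ i, Sym 1 (f i)) (h : ∀ i, Zle (β i) (f i)) : Zle (∑ i ∈ s, β i) (∑ i ∈ s, f i) := by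
  classical
  induction s using Finset.induction_on with
  | empty => simpa using zle_zero
  | insert a s ha ih =>
    rw [Finset.sum_insert ha, Finset.sum_insert ha]
    exact Zle.add (hf a) (Sym.sum _ fun i _ => hf i) (h a) ih

theorem pfam_cst (c : ℝ) : (cst c : Sm n) = c • 1 := Algebra.algebraMap_eq_smul_one c

theorem pfam_hess_cst (c : ℝ) : hess (cst c : Sm n) = 0 := by
  ext a b : 2
  rw [hess_apply, pd_cst, map_zero, Matrix.zero_apply]

/-- Partition of unity. For each `p₀` solve `Y (L_{p₀}ψ - (-V0 p₀) + c) ≤ e/2`;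
for `p` near `p₀`, `Y (L_pψ + V0 p + c) ≤ e` (`Y_L_sub_le`, `YM_τ_sub`, `aprioriB`, `exists_Zle`). Take a
finite subcover by interiors and a subordinate continuous partition of unity `φ_i`
(`exists_continuous_sum_one_of_isOpen_isCompact` or `PartitionOfUnity.exists_isSubordinate`);
`ψ p = ∑ φ_i p • ψ_i`, `c p = ∑ φ_i p * c_i` (`L_sum`, `L_smul`, `Y_sum_le`, `Zle.smul`, `Zle.add`). -/
theorem fam_solve {ε K e : ℝ} (hε : 0 < ε) (he : 0 < e) (D : P → BR n) (V0 : P → Sm n)
    (hH : ∀ p, Low ε (D p).H) (hY : ∀ p, Y (D p).V ≤ K) (hS : ∀ p, SolvB (D p))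
    (hV : ∀ p, Sym 0 (V0 p)) (hD : FamCont D) (hc : YCont V0) :
    ∃ (ψ : P → Sm n) (c : P → ℝ), (∀ p, Ad (ψ p)) ∧
      (∀ p, Y ((D p).L (ψ p) + V0 p + cst (c p)) ≤ e) ∧
      ∀ p₀ : P, ∀ η > 0, ∀ᶠ p in 𝓝 p₀, Zle η (ψ p - ψ p₀) := by
  obtain ⟨c₀, K', -, -, hap⟩ := aprioriB n hε K
  obtain ⟨C₁, hC₁, hL⟩ := Y_L_sub_le n
  obtain ⟨C₂, hC₂, hτ⟩ := YM_τ_sub n K'
  have hK : ∀ p, YM K' (D p).τ := fun p => (hap (D p) (hH p) (hY p)).2.2.2.ym
  choose ψ c hA hψ using fun p => hS p (-V0 p) (hV p).neg (e / 2) (half_pos he)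
  choose β hβ0 hβ using fun p => exists_Zle (ψ p)
  have hU : ∀ q, {p | Y ((D p).L (ψ q) + V0 p + cst (c q)) ≤ e} ∈ 𝓝 q := by
    intro q
    have hb := hβ0 q
    obtain ⟨η, hη⟩ : ∃ η, η = e / (4 * (C₁ * (C₂ + 1) * β q + 1)) := ⟨_, rfl⟩
    have hη0 : 0 < η := by rw [hη]; positivity
    have hη1 : C₁ * ((C₂ + 1) * η * β q) ≤ e / 4 := by
      have : η * (4 * (C₁ * (C₂ + 1) * β q + 1)) = e := by rw [hη]; field_simp
      nlinarith
    filter_upwards [hD q η hη0, hc q (e / 4) (by positivity)] with p h1 h2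
    have h3 := hL (D q) (D p) (ψ q) ((C₂ + 1) * η) (β q) (hA q) (by positivity) hb
      (fun a b => (hτ (D q) (D p) η hη0.le (hK q) (hK p) h1 a b).trans (by nlinarith))
      (h1.mono (by nlinarith)) (hβ q)
    have e1 : (D p).L (ψ q) + V0 p + cst (c q) = ((D q).L (ψ q) - -V0 q + cst (c q)) +
        (((D p).L (ψ q) - (D q).L (ψ q)) + (V0 p - V0 q)) := by ring
    have s1 := ((D p).sym_L (hA q)).sub ((D q).sym_L (hA q))
    have s2 := (hV p).sub (hV q)
    have k1 := Y_add_le ((((D q).sym_L (hA q)).sub (hV q).neg).add (sym_cst (c q))) (s1.add s2)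
    have k2 := Y_add_le s1 s2
    rw [← e1] at k1
    have := hψ q
    linarith
  obtain ⟨t, φ, hφc, hφ0, hφ1, hφU⟩ := pfam_pou _ hU
  refine ⟨fun p => ∑ i, φ i p • ψ i, fun p => ∑ i, φ i p * c i,
    fun p => Ad.sum _ fun i _ => (hA i).smul _, fun p => ?_, fun q η hη => ?_⟩
  · have e1 : (D p).L (∑ i, φ i p • ψ i) + V0 p + cst (∑ i, φ i p * c i) =
        ∑ i, φ i p • ((D p).L (ψ i) + V0 p + cst (c i)) := by
      simp only [BR.L_sum, BR.L_smul, smul_add, Finset.sum_add_distrib, ← Finset.sum_smul, hφ1,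
        one_smul, pfam_cst, smul_smul]
    rw [e1]
    refine (Y_sum_le (f := fun i : t => φ i p • ((D p).L (ψ i) + V0 p + cst (c i))) _ fun i _ =>
      ((((D p).sym_L (hA i)).add (hV p)).add (sym_cst (c i))).smul (φ i p)).trans ?_
    have k : ∀ i : t, Y (φ i p • ((D p).L (ψ i) + V0 p + cst (c i))) ≤ φ i p * e := fun i => by
      rw [Y_smul, abs_of_nonneg (hφ0 i p)]
      by_cases h : φ i p = 0
      · rw [h, zero_mul, zero_mul]
      · exact mul_le_mul_of_nonneg_left (hφU i p h) (hφ0 i p)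
    refine (Finset.sum_le_sum fun i _ => k i).trans (le_of_eq ?_)
    rw [← Finset.sum_mul, hφ1, one_mul]
  · have hcont : Continuous fun p => ∑ i, |φ i p - φ i q| * β i :=
      continuous_finsetSum _ fun i _ => ((hφc i).sub continuous_const).abs.mul continuous_const
    have h0 : (fun p => ∑ i, |φ i p - φ i q| * β i) q < η := by simpa using hη
    filter_upwards [hcont.continuousAt.eventually_lt_const h0] with p hp
    have e1 : ∑ i, φ i p • ψ i - ∑ i, φ i q • ψ i = ∑ i, (φ i p - φ i q) • ψ i := by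
      simp only [sub_smul, Finset.sum_sub_distrib]
    rw [e1]
    exact (pfam_zle_sum (f := fun i : t => (φ i p - φ i q) • ψ i)
      (β := fun i : t => |φ i p - φ i q| * β i) _
      (fun i => ((hA i).1.mono (m' := 1) (by norm_num)).smul (φ i p - φ i q))
      fun i => (hβ i).smul (φ i p - φ i q)).mono hp.le

/-- A `Y`-continuous family on a compact space is bounded. -/
theorem YCont.bdd {V0 : P → Sm n} (hV : ∀ p, Sym 0 (V0 p)) (hc : YCont V0) :
    ∃ K, 0 ≤ K ∧ ∀ p, Y (V0 p) ≤ K := by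
  obtain ⟨t, ht⟩ := finite_cover_nhds (U := fun q => {p | Y (V0 p - V0 q) ≤ 1})
    fun q => hc q 1 one_pos
  refine ⟨∑ q ∈ t, Y (V0 q) + 1, add_nonneg (Finset.sum_nonneg fun q _ => Y_nonneg _) zero_le_one,
    fun p => ?_⟩
  have hx : p ∈ ⋃ q ∈ t, {p | Y (V0 p - V0 q) ≤ 1} := ht ▸ Set.mem_univ p
  obtain ⟨q, hq, h⟩ := Set.mem_iUnion₂.1 hx
  have k1 := Y_add_le ((hV p).sub (hV q)) (hV q)
  rw [sub_add_cancel] at k1
  have k2 := Finset.single_le_sum (f := fun q => Y (V0 q)) (fun q _ => Y_nonneg _) hq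
  have k3 : Y (V0 p - V0 q) ≤ 1 := h
  linarith

/-- Euler scheme as in `R238.exists_KE`. With `K0` from `YCont.bdd` and `K = K0 + (K0 + 1) Y 1 + 1`, the
invariant is: `FamCont D_j`, `SolvB (D_j p)` and
`∀ p, ∃ c, |c| ≤ j h (K0 + 1) ∧ Y ((D_j p).V - (j h) • V0 p - cst c) ≤ j h δ`.
Step: `fam_solve` (`e = δ/2`), `|c p| ≤ K0 + 1` by `abs_c_le` (`f = -V0 p`), `step_pt` and `choose`;
`FamCont` of the new family from `ζ' = ζ + h • ψ` (`Zle.add`, `Zle.smul`). Use `exists_BR_zero`,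
`exist_low_conv`, `exist_hess_le`, `hess (cst c) = 0`; at the end `aprioriB`, `abs_le_Y`. -/
theorem exists_family (V0 : P → Sm n) (hV : ∀ p, Sym 0 (V0 p)) (hc : YCont V0) {ε : ℝ} (hε : 0 < ε)
    (hH : ∀ p, Low ε (1 + hess (V0 p))) {δ : ℝ} (hδ : 0 < δ) :
    ∃ (D : P → BR n) (c K : ℝ), 0 < c ∧ FamCont D ∧ ∀ p, Ell c K (D p).τ ∧ Low 0 (D p).H ∧
      (∀ x, |ev x (D p).V| ≤ K) ∧ ∃ c', Y ((D p).V - V0 p - cst c') ≤ δ := by
  obtain ⟨ε', hε0, hε1, hε2⟩ : ∃ ε', 0 < ε' ∧ ε' ≤ 1 ∧ ε' ≤ ε :=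
    ⟨min 1 ε, lt_min one_pos hε, min_le_left _ _, min_le_right _ _⟩
  obtain ⟨δ', hδ0, hδ1, hδ2, hδ3⟩ : ∃ δ', 0 < δ' ∧ δ' ≤ 1 ∧ δ' ≤ δ ∧ n * δ' ≤ ε' / 2 := by
    refine ⟨min 1 (min δ (ε' / (2 * (n + 1)))), by positivity, min_le_left _ _,
      (min_le_right _ _).trans (min_le_left _ _), ?_⟩
    have h1 : min 1 (min δ (ε' / (2 * (n + 1)))) ≤ ε' / (2 * (n + 1)) :=
      (min_le_right _ _).trans (min_le_right _ _)
    have h2 : 0 < min 1 (min δ (ε' / (2 * ((n : ℝ) + 1)))) := by positivity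
    have := (le_div_iff₀ (by positivity)).1 h1
    nlinarith
  obtain ⟨K0, hK0, hb⟩ := YCont.bdd hV hc
  have hY1 := Y_nonneg (1 : Sm n)
  obtain ⟨K, hK⟩ : ∃ K, K = K0 + (K0 + 1) * Y (1 : Sm n) + 1 := ⟨_, rfl⟩
  have hKK : K0 ≤ K := by rw [hK]; nlinarith
  have bd : ∀ (s : ℝ) (D : BR n) (p : P) (c : ℝ), 0 ≤ s → s ≤ 1 → |c| ≤ s * (K0 + 1) →
      Y (D.V - s • V0 p - cst c) ≤ s * δ' → Low (ε' / 2) D.H ∧ Y D.V ≤ K := by
    intro s D p c hs0 hs1 h1 h2
    have hW : Sym 0 (D.V - s • V0 p - cst c) := (D.symV.sub ((hV p).smul _)).sub (sym_cst _)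
    have h3 : Y (D.V - s • V0 p - cst c) ≤ δ' := h2.trans (mul_le_of_le_one_left hδ0.le hs1)
    constructor
    · have k1 := (exist_low_conv hε1 hs0 hs1 ((hH p).mono hε2)).add_small
        fun x a b => (exist_hess_le hW x a b).trans h3
      have e1 : 1 + s • hess (V0 p) + hess (D.V - s • V0 p - cst c) = D.H := by
        rw [hess_sub, hess_sub, hess_smul, pfam_hess_cst, BR.H]; abel
      rw [e1] at k1
      exact k1.mono (by linarith)
    · have k1 := Y_add_le hW (((hV p).smul s).add (sym_cst c))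
      have k2 := Y_add_le ((hV p).smul s) (sym_cst c)
      have e1 : D.V - s • V0 p - cst c + (s • V0 p + cst c) = D.V := by ring
      rw [e1] at k1
      rw [Y_smul, abs_of_nonneg hs0] at k2
      have k3 : Y (cst c : Sm n) ≤ (K0 + 1) * Y (1 : Sm n) := by
        rw [pfam_cst, Y_smul]
        exact mul_le_mul_of_nonneg_right (h1.trans (mul_le_of_le_one_left (by linarith) hs1)) hY1
      have k4 := (mul_le_of_le_one_left (Y_nonneg (V0 p)) hs1).trans (hb p)
      linarith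
  obtain ⟨h0, C, hh0, hC, hst⟩ := step_pt n (half_pos hε0) K
  obtain ⟨N, hN⟩ := exists_nat_gt (max (1 / h0) (2 * C / δ'))
  have hN1 : 1 / h0 < N := (le_max_left _ _).trans_lt hN
  have hN2 : 2 * C / δ' < N := (le_max_right _ _).trans_lt hN
  have hN0 : (0 : ℝ) < N := (one_div_pos.2 hh0).trans hN1
  obtain ⟨h, hh⟩ : ∃ h : ℝ, h = 1 / N := ⟨_, rfl⟩
  have hp : 0 < h := by rw [hh]; positivity
  have hNh : N * h = 1 := by rw [hh]; field_simp
  have hle : h ≤ h0 := by
    rw [hh, div_le_iff₀ hN0]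
    have := (div_lt_iff₀ hh0).1 hN1
    linarith
  have hCh : C * h ≤ δ' / 2 := by
    rw [hh, mul_one_div, div_le_iff₀ hN0]
    have := (div_lt_iff₀ hδ0).1 hN2
    linarith
  have key : ∀ j : ℕ, j ≤ N → ∃ D : P → BR n, FamCont D ∧ (∀ p, SolvB (D p)) ∧
      ∀ p, ∃ c, |c| ≤ j * h * (K0 + 1) ∧
        Y ((D p).V - ((j : ℝ) * h) • V0 p - cst c) ≤ j * h * δ' := by
    intro j
    induction j with
    | zero =>
      intro _
      obtain ⟨D, -, h1, h2⟩ := exists_BR_zero n
      refine ⟨fun _ => D, fun q η hη => Eventually.of_forall fun p => ?_, fun _ => h2,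
        fun p => ⟨0, by simp, ?_⟩⟩
      · rw [sub_self]; exact zle_zero.mono hη.le
      · rw [h1, Nat.cast_zero, zero_mul, zero_smul, sub_zero, pfam_cst, zero_smul, sub_zero, Y_zero,
          zero_mul]
    | succ j ih =>
      intro hj
      obtain ⟨D, h1, h2, h3⟩ := ih (by omega)
      choose c hc1 hc2 using h3
      have hs0 : 0 ≤ (j : ℝ) * h := by positivity
      have hs1 : (j : ℝ) * h ≤ 1 := by
        rw [← hNh]
        exact mul_le_mul_of_nonneg_right (by exact_mod_cast (by omega : j ≤ N)) hp.le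
      have h4 := fun p => bd _ (D p) p (c p) hs0 hs1 (hc1 p) (hc2 p)
      obtain ⟨ψ, c', hA, hψ, hψc⟩ := fam_solve (half_pos hε0) (half_pos hδ0) D V0
        (fun p => (h4 p).1) (fun p => (h4 p).2) h2 hV h1 hc
      have h5 : ∀ p, |c' p| ≤ K0 + 1 := fun p => by
        have k1 := abs_c_le (D p) (c := c' p) (η := δ' / 2) (hA p) (hV p).neg
          (by rw [sub_neg_eq_add]; exact hψ p)
        rw [Y_neg] at k1
        linarith [hb p]
      choose D' h6 h7 h8 using fun p => hst (D p) (V0 p) (ψ p) (c' p) h (δ' / 2) (h4 p).1 (h4 p).2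
        (h2 p) (hV p) ((hb p).trans hKK) (hA p) ((h5 p).trans (by linarith)) (hψ p) hp hle
        (by linarith)
      refine ⟨D', fun q η hη => ?_, h7, fun p => ⟨c p + h * c' p, ?_, ?_⟩⟩
      · filter_upwards [h1 q (η / 2) (half_pos hη), hψc q (η / (2 * h)) (by positivity)]
          with p k1 k2
        have e1 : (D' p).ζ - (D' q).ζ = ((D p).ζ - (D q).ζ) + h • (ψ p - ψ q) := by
          rw [h6, h6, smul_sub]; ring
        rw [e1]
        refine (Zle.add (((D p).symζ.sub (D q).symζ).mono (by norm_num))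
          ((((hA p).1.sub (hA q).1).mono (by norm_num)).smul h) k1 (k2.smul h)).mono (le_of_eq ?_)
        rw [abs_of_pos hp]; field_simp; ring
      · refine (abs_add_le _ _).trans ?_
        rw [abs_mul, abs_of_pos hp]
        have k1 := mul_le_mul_of_nonneg_left (h5 p) hp.le
        have k2 := hc1 p
        push_cast
        linarith
      · have e1 : (D' p).V - (((j + 1 : ℕ) : ℝ) * h) • V0 p - cst (c p + h * c' p) =
            ((D' p).V - (D p).V - h • V0 p - cst (h * c' p)) +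
              ((D p).V - ((j : ℝ) * h) • V0 p - cst (c p)) := by
          rw [Nat.cast_succ, add_mul, one_mul, add_smul, cst, map_add]; ring
        have k1 := Y_add_le ((((D' p).symV.sub (D p).symV).sub ((hV p).smul h)).sub
          (sym_cst (h * c' p))) (((D p).symV.sub ((hV p).smul ((j : ℝ) * h))).sub (sym_cst (c p)))
        rw [← e1] at k1
        have k2 := mul_le_mul_of_nonneg_right hCh hp.le
        have k3 := h8 p
        have k4 := hc2 p
        refine k1.trans ?_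
        rw [Nat.cast_succ]
        nlinarith
  obtain ⟨D, h1, -, h3⟩ := key N le_rfl
  obtain ⟨c₀, K', hc₀, -, hap⟩ := aprioriB n (half_pos hε0) K
  refine ⟨D, c₀, max K' K, hc₀, h1, fun p => ?_⟩
  obtain ⟨c, k1, k2⟩ := h3 p
  rw [hNh] at k1 k2
  obtain ⟨k3, k4⟩ := bd 1 (D p) p c zero_le_one le_rfl k1 k2
  rw [one_smul, one_mul] at k2
  exact ⟨(hap _ k3 k4).1.mono le_rfl (le_max_left _ _), k3.mono (half_pos hε0).le,
    fun x => ((abs_le_Y (D p).symV x).trans k4).trans (le_max_right _ _), c, k2.trans hδ2⟩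

omit [CompactSpace P] [T2Space P] in
theorem pfam_cont {f : P → Sm n} (hs : ∀ p, Sym 0 (f p)) (h : YCont f) (x : E n) :
    Continuous fun p => ev x (f p) := by
  refine continuous_iff_continuousAt.2 fun q => Metric.tendsto_nhds.2 fun η hη => ?_
  filter_upwards [h q (η / 2) (half_pos hη)] with p hp
  rw [Real.dist_eq, ← map_sub]
  exact ((abs_le_Y ((hs p).sub (hs q)) x).trans hp).trans_lt (half_lt_self hη)

omit [CompactSpace P] [T2Space P] in
theorem pfam_pd {D : P → BR n} (h : FamCont D) (x : E n) (a : Fin n) :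
    Continuous fun p => ev x (pd a (D p).ζ) :=
  pfam_cont (f := fun p => pd a (D p).ζ) (fun p => (D p).sym0b a)
    (fun q η hη => (h q η hη).mono fun p hp => by
      have := hp.2 a
      rwa [map_sub] at this) x

omit [CompactSpace P] [T2Space P] in
theorem pfam_g {D : P → BR n} (h : FamCont D) (x : E n) :
    Continuous fun p => evM x (D p).g := by
  refine continuous_matrix fun a b => ?_
  refine pfam_cont (f := fun p => (D p).g a b) (fun p => (D p).sym0g a b)
    (fun q η hη => (h q η hη).mono fun p hp => ?_) x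
  have e : (D p).g a b - (D q).g a b = hess ((D p).ζ - (D q).ζ) a b := by
    rw [hess_sub, BR.g, BR.g, Matrix.add_apply, Matrix.add_apply, Matrix.sub_apply]; ring
  rw [e]; exact hp.1 a b

omit [CompactSpace P] [T2Space P] in
/-- `evM x g_p` is continuous in `p` (`abs_le_Y`), `evM x τ_p = (evM x g_p)⁻¹`. -/
theorem FamCont.τ {D : P → BR n} (h : FamCont D) (x : E n) :
    Continuous fun p => evM x (D p).τ := by
  have e : ∀ p, evM x (D p).τ = (evM x (D p).g).det⁻¹ • (evM x (D p).g).adjugate := fun p => by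
    rw [← Matrix.inv_eq_left_inv (evM_inv (D p).τg x), Matrix.inv_def, Ring.inverse_eq_inv']
  simp only [e]
  exact ((pfam_g h x).matrix_det.inv₀ fun p => ((D p).g_posDef x).det_pos.ne').smul
    (pfam_g h x).matrix_adjugate

omit [CompactSpace P] [T2Space P] in
/-- `V = eul ζ + q 1 ζ / 2 - log det g` pointwise (`eqn`). -/
theorem FamCont.V {D : P → BR n} (h : FamCont D) (x : E n) :
    Continuous fun p => ev x (D p).V := by
  have e : ∀ p, ev x (D p).V = ∑ a, x a * ev x (pd a (D p).ζ) +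
      1 / 2 * ∑ a, ev x (pd a (D p).ζ) ^ 2 - Real.log (evM x (D p).g).det := fun p => by
    have k : (D p).g.det = _ := (D p).eqn
    rw [← ev_det, k, ev_expS, Real.log_exp, map_sub, map_add, ev_smul, ev_q_one, eul, map_sum]
    simp only [map_mul, ev_X]
    ring
  simp only [e]
  exact ((continuous_finsetSum _ fun a _ => continuous_const.mul (pfam_pd h x a)).add
    (continuous_const.mul (continuous_finsetSum _ fun a _ => (pfam_pd h x a).pow 2))).sub
    ((pfam_g h x).matrix_det.log fun p => ((D p).g_posDef x).det_pos.ne')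

end Crest.Agent.R253
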