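import Crest.Agent.R253.PEul

/-!
# Row 253, PDE part: linear estimates with a drift

`G k = nrm σ0 (J2 k ψ)`, `f = Lb τ b ψ`, `A = Y f + Gn ψ`.
-/

set_option autoImplicit false
open MeasureTheory Matrix Filter Topology
open scoped ContDiff BigOperators

noncomputable section
namespace Crest.Agent.R253
open Crest.Agent.R238

variable {n : ℕ}

/-- The hypotheses on the coefficients. -/
structure Coef (c K : ℝ) (τ : Mat n) (b : Fin n → Sm n) : Prop where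
  symm : τᵀ = τ
  low : Low c τ
  sym : SymM 0 τ
  ym : YM K τ
  symb : ∀ a, Sym 0 (b a)
  yb : ∀ a, Y (b a) ≤ K
  jb : ∀ a x, J (n + 2) (b a) x ≤ K * r x ^ (-1 / 4 : ℝ)

theorem plin_emb (n j : ℕ) : ∃ C, 0 ≤ C ∧ ∀ f : Sm n, Sym 0 f → ∀ x,
    J j f x ≤ C * N (j + n) (σ0 n) f * r x ^ (3 / 4 : ℝ) := by
  obtain ⟨C, hC0, hC⟩ := embed_J n j (σ0 n)
  refine ⟨C, hC0, fun f hf x => ?_⟩
  have h1 := hC 0 f hf (by rw [zero_add]; exact σ0_lt n) x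
  have h2 : r x ^ (σ0 n + n / 2) * r x ^ (3 / 4 : ℝ) = 1 := by
    rw [← r_rpow_add, show σ0 n + n / 2 + 3 / 4 = 0 by unfold σ0; ring, Real.rpow_zero]
  calc J j f x = J j f x * r x ^ (σ0 n + n / 2) * r x ^ (3 / 4 : ℝ) := by rw [mul_assoc, h2, mul_one]
    _ ≤ _ := mul_le_mul_of_nonneg_right h1 (r_rpow_pos x _).le

theorem plin_J2_mono {k l : ℕ} (h : k ≤ l) (ψ : Sm n) (x : E n) : J2 k ψ x ≤ J2 l ψ x := by
  rw [J2_eq, J2_eq]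
  exact add_le_add (JM_mono h _ _) (Finset.sum_le_sum fun a _ => J_mono h _ _)

theorem plin_adm {ψ : Sm n} (hψ : Ad ψ) (k : ℕ) : Adm (σ0 n) (J2 k ψ) :=
  lin_adm_J2 (hψ.1.mono (by norm_num)) k

theorem plin_G_mono {k l : ℕ} (h : k ≤ l) {ψ : Sm n} (hψ : Ad ψ) :
    nrm (σ0 n) (J2 k ψ) ≤ nrm (σ0 n) (J2 l ψ) :=
  nrm_mono (plin_adm hψ l) fun x => by
    rw [abs_of_nonneg (lin_J2_nonneg _ _ _)]
    exact plin_J2_mono h ψ x

theorem plin_N_pd {k l : ℕ} (h : k ≤ l) {ψ : Sm n} (hψ : Ad ψ) (a : Fin n) :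
    N k (σ0 n) (pd a ψ) ≤ nrm (σ0 n) (J2 l ψ) :=
  nrm_mono (plin_adm hψ l) fun x => by
    rw [abs_of_nonneg (J_nonneg _ _ _)]
    exact (J_mono h _ _).trans (lin_J_le_J2 _ _ _ _)

theorem plin_N_hess {k l : ℕ} (h : k ≤ l) {ψ : Sm n} (hψ : Ad ψ) (a b : Fin n) :
    N k (σ0 n) (hess ψ a b) ≤ nrm (σ0 n) (J2 l ψ) :=
  nrm_mono (plin_adm hψ l) fun x => by
    rw [abs_of_nonneg (J_nonneg _ _ _)]
    exact (J_mono h _ _).trans ((J_le_JM _ _ a b x).trans (lin_JM_le_J2 _ _ _))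

theorem Coef.jb' {c K : ℝ} {τ : Mat n} {b : Fin n → Sm n} (h : Coef c K τ b) {k : ℕ} (hk : k ≤ n + 2)
    (a : Fin n) (x : E n) : J k (b a) x ≤ |K| * r x ^ (-1 / 4 : ℝ) :=
  (J_mono hk _ _).trans ((h.jb a x).trans
    (mul_le_mul_of_nonneg_right (le_abs_self K) (r_rpow_pos x _).le))

theorem Coef.jb'' {c K : ℝ} {τ : Mat n} {b : Fin n → Sm n} (h : Coef c K τ b) {k : ℕ} (hk : k ≤ n + 2)
    (a : Fin n) (x : E n) : J k (b a) x ≤ |K| :=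
  (h.jb' hk a x).trans (mul_le_of_le_one_right (abs_nonneg K) (r_rpow_le_one x (by norm_num)))

theorem plin_core {τ : Mat n} {b : Fin n → Sm n} {ψ : Sm n} {p : ℕ} {A₁ A₂ A₃ : ℝ}
    (hA₁ : 0 ≤ A₁) (hA₂ : 0 ≤ A₂) (hA₃ : 0 ≤ A₃)
    (h1 : ∀ x, J (p + 1) (Lb τ b ψ) x ≤ A₁ * r x ^ (3 / 4 : ℝ))
    (h2 : ∀ a c x, J (p + 1) (τ a c) x * J (p + 1) (hess ψ a c) x ≤ A₂ * r x ^ (3 / 4 : ℝ))
    (h3 : ∀ a x, J (p + 1) (b a) x * J (p + 1) (pd a ψ) x ≤ A₃ * r x ^ (3 / 4 : ℝ))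
    (a : Fin n) (x : E n) :
    J p (pd a ψ) x ≤ 2 * (p + 1) * (A₁ + 2 ^ (p + 1) * ((n : ℝ) ^ 2 * A₂ + n * A₃)) := by
  have h : ∀ x, J (p + 1) (eul ψ) x ≤
      (A₁ + 2 ^ (p + 1) * ((n : ℝ) ^ 2 * A₂ + n * A₃)) * r x ^ (3 / 4 : ℝ) := by
    intro x
    have e1 : J (p + 1) (con τ ψ) x ≤ (n : ℝ) ^ 2 * (2 ^ (p + 1) * (A₂ * r x ^ (3 / 4 : ℝ))) := by
      unfold con
      refine (J_sum_le _ _ _ _).trans ((Finset.sum_le_sum fun a _ => J_sum_le _ _ _ _).trans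
        (ynorm_sum2 fun a c => (J_mul_le _ _ _ _).trans ?_))
      exact mul_le_mul_of_nonneg_left (h2 a c x) (by positivity)
    have e2 : J (p + 1) (dr b ψ) x ≤ (n : ℝ) * (2 ^ (p + 1) * (A₃ * r x ^ (3 / 4 : ℝ))) := by
      unfold dr
      refine (J_sum_le _ _ _ _).trans ((Finset.sum_le_sum (g := fun _ =>
        2 ^ (p + 1) * (A₃ * r x ^ (3 / 4 : ℝ))) fun a _ => (J_mul_le _ _ _ _).trans
          (mul_le_mul_of_nonneg_left (h3 a x) (by positivity))).trans (le_of_eq ?_))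
      rw [Finset.sum_const, Finset.card_univ, Fintype.card_fin, nsmul_eq_mul]
    rw [eul_eq τ b ψ]
    have e3 := J_sub_le (p + 1) (con τ ψ - Lb τ b ψ) (dr b ψ) x
    have e4 := J_sub_le (p + 1) (con τ ψ) (Lb τ b ψ) x
    have e5 := h1 x
    linarith
  refine (eul_inv p h a x).trans (mul_le_of_le_one_right (by positivity)
    (r_rpow_le_one x (by norm_num)))

/-- `eul_inv` with `eul ψ = con τ ψ - f - dr b ψ` (`eul_eq`), `p + 1 ≤ n + 2`: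
`J (p+1) f ≤ C Y f r^{3/4}` and `JM (p+1) τ ≤ C K r^{3/4}` (`d_le_Y`), `JM (p+1) (hess ψ) ≤ C G (p+2+n)`
(`lin_embed`), `J (p+1) b_a ≤ K`, `J (p+1) ψ_a ≤ C r^{3/4} G (p+1+n)` (`embed_J`); `J_mul_le`. -/
theorem lin_grad_top (n : ℕ) (c K : ℝ) : ∃ C, 0 ≤ C ∧ ∀ (τ : Mat n) (b : Fin n → Sm n) (ψ : Sm n),
    Coef c K τ b → Ad ψ → ∀ a x, J (n + 1) (pd a ψ) x ≤
      C * (Y (Lb τ b ψ) + nrm (σ0 n) (J2 (2 * n + 3) ψ)) := by
  obtain ⟨C₁, hC₁, H₁⟩ := plin_emb n (n + 2)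
  obtain ⟨C₂, hC₂, H₂⟩ := lin_embed n (n + 2)
  refine ⟨2 * ((n + 1 : ℕ) + 1) * (C₁ + 2 ^ (n + 1 + 1) * ((n : ℝ) ^ 2 * (C₁ * |K| * C₂) +
    n * (|K| * C₁))), by positivity, fun τ b ψ h hψ a x => ?_⟩
  have hf := hψ.sym_Lb h.sym h.symb
  have hY := Y_nonneg (Lb τ b ψ)
  have hG := nrm_nonneg (σ0 n) (J2 (2 * n + 3) ψ)
  have hσ : 0 + σ0 n < -(n : ℝ) / 2 := by rw [zero_add]; exact σ0_lt n
  have hY' : ∀ f : Sm n, Sym 0 f → ∀ x, J (n + 2) f x ≤ C₁ * Y f * r x ^ (3 / 4 : ℝ) := fun f hf x =>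
    (H₁ f hf x).trans (mul_le_mul_of_nonneg_right (mul_le_mul_of_nonneg_left
      ((N_mono (by omega) hf hσ).trans (N_le_Y f)) hC₁) (r_rpow_pos x _).le)
  set G := nrm (σ0 n) (J2 (2 * n + 3) ψ) with hGdef
  have key := plin_core (τ := τ) (b := b) (ψ := ψ) (p := n + 1) (A₁ := C₁ * Y (Lb τ b ψ))
    (A₂ := C₁ * |K| * C₂ * G) (A₃ := |K| * C₁ * G) (by positivity) (by positivity) (by positivity)
    (hY' _ hf) (fun a c x => ?_) (fun a x => ?_) a x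
  · refine key.trans ?_
    rw [mul_assoc _ _ (_ + G)]
    refine mul_le_mul_of_nonneg_left ?_ (by positivity)
    have : 0 ≤ C₁ * G + 2 ^ (n + 1 + 1) * ((n : ℝ) ^ 2 * (C₁ * |K| * C₂) + n * (|K| * C₁)) *
      Y (Lb τ b ψ) := by positivity
    linarith
  · have e1 : J (n + 2) (τ a c) x ≤ C₁ * |K| * r x ^ (3 / 4 : ℝ) :=
      (hY' _ (h.sym a c) x).trans (mul_le_mul_of_nonneg_right (mul_le_mul_of_nonneg_left
        ((h.ym a c).trans (le_abs_self K)) hC₁) (r_rpow_pos x _).le)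
    have e2 := H₂ ψ (hψ.1.mono (by norm_num)) a c x
    rw [show n + 2 + 1 + n = 2 * n + 3 by ring] at e2
    have := (r_rpow_pos x (3 / 4 : ℝ)).le
    refine (mul_le_mul e1 e2 (J_nonneg _ _ _) (by positivity)).trans (le_of_eq ?_)
    ring
  · have e1 := h.jb'' le_rfl a x
    have e2 : J (n + 2) (pd a ψ) x ≤ C₁ * G * r x ^ (3 / 4 : ℝ) :=
      (H₁ _ ((hψ.sym_pd a).mono (by norm_num)) x).trans (mul_le_mul_of_nonneg_right
        (mul_le_mul_of_nonneg_left (plin_N_pd (by omega) hψ a) hC₁) (r_rpow_pos x _).le)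
    refine (mul_le_mul e1 e2 (J_nonneg _ _ _) (abs_nonneg K)).trans (le_of_eq ?_)
    ring

/-- The same one level lower: for `p + 1 ≤ n + 1`, `JM (p+1) τ ≤ n² K` (`YM.JM_le`) and
`J (p+1) (hess ψ a b) ≤ C r^{3/4} N (p+1+n) σ0 (hess ψ a b) ≤ C r^{3/4} G (p+1+n)` (`embed_J`). -/
theorem lin_grad (n : ℕ) (c K : ℝ) {p : ℕ} (hp : p ≤ n) : ∃ C, 0 ≤ C ∧
    ∀ (τ : Mat n) (b : Fin n → Sm n) (ψ : Sm n), Coef c K τ b → Ad ψ → ∀ a x, J p (pd a ψ) x ≤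
      C * (Y (Lb τ b ψ) + nrm (σ0 n) (J2 (p + 1 + n) ψ)) := by
  obtain ⟨C₁, hC₁, H₁⟩ := plin_emb n (p + 1)
  refine ⟨2 * (p + 1) * (1 + 2 ^ (p + 1) * ((n : ℝ) ^ 2 * (|K| * C₁) + n * (|K| * C₁))),
    by positivity, fun τ b ψ h hψ a x => ?_⟩
  have hf := hψ.sym_Lb h.sym h.symb
  have hY := Y_nonneg (Lb τ b ψ)
  have hG := nrm_nonneg (σ0 n) (J2 (p + 1 + n) ψ)
  set G := nrm (σ0 n) (J2 (p + 1 + n) ψ) with hGdef
  have key := plin_core (τ := τ) (b := b) (ψ := ψ) (p := p) (A₁ := Y (Lb τ b ψ))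
    (A₂ := |K| * C₁ * G) (A₃ := |K| * C₁ * G) hY (by positivity) (by positivity)
    (fun x => ?_) (fun a c x => ?_) (fun a x => ?_) a x
  · refine key.trans ?_
    rw [mul_assoc _ _ (_ + G)]
    refine mul_le_mul_of_nonneg_left ?_ (by positivity)
    have : 0 ≤ G + 2 ^ (p + 1) * ((n : ℝ) ^ 2 * (|K| * C₁) + n * (|K| * C₁)) *
      Y (Lb τ b ψ) := by positivity
    linarith
  · exact ((J_mono (by omega) _ _).trans (J_le_Y hf x)).trans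
      (le_mul_of_one_le_right hY (Real.one_le_rpow (one_le_r x) (by norm_num)))
  · have e1 : J (p + 1) (τ a c) x ≤ |K| :=
      (J_mono (by omega) _ _).trans ((J_le_Y (h.sym a c) x).trans ((h.ym a c).trans (le_abs_self K)))
    have e2 : J (p + 1) (hess ψ a c) x ≤ C₁ * G * r x ^ (3 / 4 : ℝ) :=
      (H₁ _ ((hψ.sym_hess a c).mono (by norm_num)) x).trans (mul_le_mul_of_nonneg_right
        (mul_le_mul_of_nonneg_left (plin_N_hess le_rfl hψ a c) hC₁) (r_rpow_pos x _).le)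
    refine (mul_le_mul e1 e2 (J_nonneg _ _ _) (abs_nonneg K)).trans (le_of_eq ?_)
    ring
  · have e1 := h.jb'' (k := p + 1) (by omega) a x
    have e2 : J (p + 1) (pd a ψ) x ≤ C₁ * G * r x ^ (3 / 4 : ℝ) :=
      (H₁ _ ((hψ.sym_pd a).mono (by norm_num)) x).trans (mul_le_mul_of_nonneg_right
        (mul_le_mul_of_nonneg_left (plin_N_pd le_rfl hψ a) hC₁) (r_rpow_pos x _).le)
    refine (mul_le_mul e1 e2 (J_nonneg _ _ _) (abs_nonneg K)).trans (le_of_eq ?_)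
    ring

theorem plin_split {k m p : ℕ} (h : k ≤ m + p + 1) {A B : ℕ → ℝ} (hA : ∀ i, 0 ≤ A i)
    (hB : ∀ i, 0 ≤ B i) :
    ∑ i ∈ Finset.range (k + 1), A i * ∑ j ∈ Finset.range (k + 1 - i), B j ≤
      (∑ i ∈ Finset.range (m + 1), A i) * (∑ j ∈ Finset.range (k + 1), B j) +
      (∑ i ∈ Finset.range (k + 1), A i) * ∑ j ∈ Finset.range (p + 1), B j := by
  have hS : ∀ {a b : ℕ}, a ≤ b → ∑ j ∈ Finset.range a, B j ≤ ∑ j ∈ Finset.range b, B j := fun hab =>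
    Finset.sum_le_sum_of_subset_of_nonneg (Finset.range_subset_range.2 hab) fun j _ _ => hB j
  have hS0 : ∀ a, 0 ≤ ∑ j ∈ Finset.range a, B j := fun a => Finset.sum_nonneg fun j _ => hB j
  rw [← Finset.sum_filter_add_sum_filter_not _ (fun i => i ≤ m)]
  refine add_le_add ?_ ?_
  · refine le_trans (Finset.sum_le_sum fun i _ => mul_le_mul_of_nonneg_left
      (hS (Nat.sub_le (k + 1) i)) (hA i)) ?_
    rw [← Finset.sum_mul]
    refine mul_le_mul_of_nonneg_right (Finset.sum_le_sum_of_subset_of_nonneg (fun i hi => ?_)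
      fun i _ _ => hA i) (hS0 _)
    exact Finset.mem_range.2 (Nat.lt_succ_of_le (Finset.mem_filter.1 hi).2)
  · refine le_trans (Finset.sum_le_sum fun i hi => mul_le_mul_of_nonneg_left
      (hS (b := p + 1) (by have := (Finset.mem_filter.1 hi).2; omega)) (hA i)) ?_
    rw [← Finset.sum_mul]
    exact mul_le_mul_of_nonneg_right (Finset.sum_le_sum_of_subset_of_nonneg
      (Finset.filter_subset _ _) fun i _ _ => hA i) (hS0 _)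

/-- Pointwise bound for the drift (`jt_core`): terms with `i ≤ n+2` derivatives on `b` give
`K r^{-1/4} ∑ J k ψ_a`, terms with `i ≥ n+3` have `j ≤ k-n-3 ≤ p`. -/
theorem lin_dr_le {K S : ℝ} {b : Fin n → Sm n} {ψ : Sm n} {x : E n} {k p : ℕ} (hk : k ≤ p + n + 3)
    (hb : ∀ a, J (n + 2) (b a) x ≤ K * r x ^ (-1 / 4 : ℝ)) (hψ : ∀ a, J p (pd a ψ) x ≤ S) :
    J k (dr b ψ) x ≤ 2 ^ k * (K * r x ^ (-1 / 4 : ℝ) * ∑ a, J k (pd a ψ) x + S * ∑ a, J k (b a) x) := by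
  unfold dr
  refine (J_sum_le _ _ _ _).trans ?_
  rw [Finset.mul_sum, Finset.mul_sum, ← Finset.sum_add_distrib, Finset.mul_sum]
  refine Finset.sum_le_sum fun a _ => (jt_core k _ _ x).trans
    (mul_le_mul_of_nonneg_left ?_ (by positivity))
  refine (plin_split (m := n + 2) (p := p) (by omega) (fun i => jt_nonneg i (b a) x)
    fun j => jt_nonneg j (pd a ψ) x).trans (add_le_add ?_ ?_)
  · exact mul_le_mul_of_nonneg_right (hb a) (J_nonneg k (pd a ψ) x)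
  · rw [mul_comm S]
    exact mul_le_mul_of_nonneg_left (hψ a) (J_nonneg k (b a) x)

theorem plin_dr_low {K : ℝ} {b : Fin n → Sm n} {x : E n} {k : ℕ} (ψ : Sm n)
    (hb : ∀ a, J k (b a) x ≤ K) : J k (dr b ψ) x ≤ 2 ^ k * (K * ∑ a, J k (pd a ψ) x) := by
  unfold dr
  refine (J_sum_le _ _ _ _).trans ?_
  rw [Finset.mul_sum, Finset.mul_sum]
  exact Finset.sum_le_sum fun a _ => (J_mul_le k _ _ x).trans (mul_le_mul_of_nonneg_left
    (mul_le_mul_of_nonneg_right (hb a) (J_nonneg _ _ _)) (by positivity))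

theorem plin_rsplit {η : ℝ} (hη : 0 < η) (x : E n) :
    r x ^ (-1 / 4 : ℝ) ≤ η + η⁻¹ ^ 3 * (r x)⁻¹ := by
  have h0 := r_rpow_pos x (-1 / 4 : ℝ)
  have h4 : (r x ^ (-1 / 4 : ℝ)) ^ 4 = (r x)⁻¹ := by
    rw [← Real.rpow_natCast, ← Real.rpow_mul (r_pos x).le, ← Real.rpow_neg_one]
    norm_num
  rw [← h4]
  set t := r x ^ (-1 / 4 : ℝ)
  rcases le_total t η with h | h
  · exact le_add_of_le_of_nonneg h (by positivity)
  · have h1 : 1 ≤ η⁻¹ * t := by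
      rw [inv_mul_eq_div, le_div_iff₀ hη, one_mul]; exact h
    have h2 : 1 ≤ (η⁻¹ * t) ^ 3 := one_le_pow₀ h1
    have h3 := mul_le_mul_of_nonneg_right h2 h0.le
    refine le_add_of_nonneg_of_le hη.le (le_trans (by linarith) (h3.trans (le_of_eq ?_)))
    ring

theorem plin_sum_succ (k : ℕ) (ψ : Sm n) (x : E n) :
    (r x)⁻¹ * ∑ a, J (k + 1) (pd a ψ) x ≤ J2 k ψ x := by
  have hr := r_pos x
  rw [J2_eq, JM, Finset.sum_comm, ← Finset.sum_add_distrib, Finset.mul_sum]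
  refine Finset.sum_le_sum fun a _ => ?_
  rw [J_succ, mul_add, ← mul_assoc, inv_mul_cancel₀ hr.ne', one_mul, add_comm]
  refine add_le_add (le_of_eq rfl) ((mul_le_of_le_one_left (abs_nonneg _)
    (inv_le_one_of_one_le₀ (one_le_r x))).trans (abs_le_J _ _ _))

theorem plin_sum_le (k : ℕ) (ψ : Sm n) (x : E n) : ∑ a, J k (pd a ψ) x ≤ J2 k ψ x := by
  rw [J2_eq]
  exact le_add_of_nonneg_left (JM_nonneg _ _ _)

theorem plin_key (n : ℕ) {c : ℝ} (hc : 0 < c) (K : ℝ) (k : ℕ) (hk : k ≤ 2 * n + 3) : ∃ C, 0 ≤ C ∧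
    ∀ (τ : Mat n) (b : Fin n → Sm n) (ψ : Sm n), Coef c K τ b → Ad ψ →
      nrm (σ0 n) (J2 k ψ) ≤ C * (Y (Lb τ b ψ) + Gn ψ + N k (σ0 n) (dr b ψ) +
        nrm (σ0 n) (Th (n + 1) k τ ψ)) := by
  obtain ⟨C, hC0, hC⟩ := lin_tame n hc ((n : ℝ) ^ 2 * K) (m := n + 1) (by omega) k (l := 0)
    (σ := σ0 n) (by unfold σ0; linarith)
  refine ⟨C, hC0, fun τ b ψ h hψ => ?_⟩
  have h7 : 0 + σ0 n < -(n : ℝ) / 2 := by rw [zero_add]; exact σ0_lt n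
  have hf := hψ.sym_Lb h.sym h.symb
  have hd : Sym 0 (dr b ψ) := (sym_dr h.symb hψ.1).mono (by norm_num)
  have e : R238.Top τ 0 ψ = Lb τ b ψ + dr b ψ := by rw [Top_zero_eq, Lop_eq_Lb]
  have h8 := hC τ ψ (1 / 8) 0 h.symm h.low h.sym (h.ym.JM_le h.sym) hψ.1 (by unfold σ0; linarith)
    (by rw [e]; exact hf.add hd) h7
  rw [e] at h8
  refine h8.trans (mul_le_mul_of_nonneg_left ?_ hC0)
  have h9 : N k (σ0 n) (Lb τ b ψ + dr b ψ) ≤ N k (σ0 n) (Lb τ b ψ) + N k (σ0 n) (dr b ψ) :=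
    (nrm_mono ((hf.adm_J0 k).add (hd.adm_J0 k)) fun x => by
      rw [abs_of_nonneg (J_nonneg _ _ _)]
      exact J_add_le _ _ _ _).trans (nrm_add_le (hf.adm_J0 k) (hd.adm_J0 k))
  have h10 := (N_mono hk hf h7).trans (N_le_Y _)
  linarith

theorem plin_Th (n : ℕ) (c K : ℝ) (k : ℕ) (hk : k + 1 ≤ 2 * n + 3) : ∃ C, 0 ≤ C ∧
    ∀ (τ : Mat n) (b : Fin n → Sm n) (ψ : Sm n), Coef c K τ b → Ad ψ →
      nrm (σ0 n) (Th (n + 1) (k + 1) τ ψ) ≤ C * nrm (σ0 n) (J2 k ψ) := by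
  rcases le_or_gt k n with hkn | hkn
  · refine ⟨0, le_rfl, fun τ b ψ h hψ => ?_⟩
    rw [show Th (n + 1) (k + 1) τ ψ = fun _ => 0 from funext (lin_Th_eq_zero (by omega) τ ψ),
      nrm_zero, zero_mul]
  obtain ⟨p, rfl⟩ : ∃ p, k = p + 1 + n := ⟨k - (n + 1), by omega⟩
  obtain ⟨C₂, hC₂, H₂⟩ := lin_embed n p
  refine ⟨(n : ℝ) ^ 2 * C₂ * ((n : ℝ) ^ 2 * |K|), by positivity, fun τ b ψ h hψ => ?_⟩
  have hG := nrm_nonneg (σ0 n) (J2 (p + 1 + n) ψ)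
  have b1 : ∀ x, JM p (hess ψ) x ≤ (n : ℝ) ^ 2 * (C₂ * nrm (σ0 n) (J2 (p + 1 + n) ψ)) := fun x =>
    ynorm_sum2 fun a b => H₂ ψ (hψ.1.mono (by norm_num)) a b x
  set G := nrm (σ0 n) (J2 (p + 1 + n) ψ)
  have a1 : Adm (σ0 n) (JM (2 * n + 3) τ) := h.sym.adm_JM (by rw [zero_add]; exact σ0_lt n) _
  refine (nrm_mono (a1.const_mul ((n : ℝ) ^ 2 * (C₂ * G))) fun x => ?_).trans ?_
  · rw [abs_of_nonneg (lin_Th_nonneg _ _ _ _ _), mul_comm]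
    exact (lin_Th_le (p := p) (by omega) τ ψ x).trans
      (mul_le_mul (JM_mono hk τ x) (b1 x) (JM_nonneg _ _ _) (JM_nonneg _ _ _))
  · rw [nrm_const_mul, abs_of_nonneg (by positivity)]
    refine (mul_le_mul_of_nonneg_left ((h.ym.nrm_JM_le h.sym).trans
      (mul_le_mul_of_nonneg_left (le_abs_self K) (by positivity))) (by positivity)).trans
      (le_of_eq ?_)
    ring

theorem plin_D0 (n : ℕ) (c K : ℝ) {η : ℝ} (hη : 0 < η) : ∃ C, 0 ≤ C ∧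
    ∀ (τ : Mat n) (b : Fin n → Sm n) (ψ : Sm n), Coef c K τ b → Ad ψ →
      N 0 (σ0 n) (dr b ψ) ≤ η * nrm (σ0 n) (J2 0 ψ) + C * Gn ψ := by
  have hK : 0 < |K| + 1 := by positivity
  obtain ⟨C, hC0, hC⟩ := grad_interp n (η := η / (|K| + 1)) (by positivity)
  refine ⟨|K| * C, by positivity, fun τ b ψ h hψ => ?_⟩
  have e : ∀ x, ∑ a, J 0 (pd a ψ) x = d 1 ψ x := fun x => by
    simp only [J_zero_eq, d_succ, d_zero_eq]
  have a1 : Adm (σ0 n) (fun x => r x ^ (-1 / 4 : ℝ) * d 1 ψ x) :=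
    (plin_adm hψ 0).of_le ((continuous_r_rpow _).mul (continuous_d _ _)) fun x => by
      rw [abs_of_nonneg (mul_nonneg (r_rpow_pos x _).le (d_nonneg _ _ _)), ← e]
      exact (mul_le_of_le_one_left (Finset.sum_nonneg fun a _ => J_nonneg _ _ _)
        (r_rpow_le_one x (by norm_num))).trans (plin_sum_le 0 ψ x)
  refine (nrm_mono (a1.const_mul |K|) fun x => ?_).trans ?_
  · rw [abs_of_nonneg (J_nonneg _ _ _)]
    refine (plin_dr_low ψ fun a => h.jb' (by omega) a x).trans (le_of_eq ?_)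
    rw [e]; ring
  · rw [nrm_const_mul, abs_abs]
    have h1 := mul_le_mul_of_nonneg_left (hC ψ (hψ.1.mono (by norm_num))) (abs_nonneg K)
    have h2 : |K| * (η / (|K| + 1)) ≤ η := by
      rw [mul_div_assoc', div_le_iff₀ hK]; nlinarith
    have h3 := mul_le_mul_of_nonneg_right h2 (nrm_nonneg (σ0 n) (J2 0 ψ))
    nlinarith

theorem plin_Dpt (n : ℕ) (c K : ℝ) (k : ℕ) (hk : k + 1 ≤ 2 * n + 3) : ∃ C, 0 ≤ C ∧
    ∀ (τ : Mat n) (b : Fin n → Sm n) (ψ : Sm n), Coef c K τ b → Ad ψ → ∀ x,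
      J (k + 1) (dr b ψ) x ≤ 2 ^ (k + 1) * (|K| * r x ^ (-1 / 4 : ℝ) * ∑ a, J (k + 1) (pd a ψ) x +
        C * (Y (Lb τ b ψ) + nrm (σ0 n) (J2 k ψ)) * ∑ a, J (k + 1) (b a) x) := by
  rcases le_or_gt (k + 1) (n + 2) with hkn | hkn
  · refine ⟨0, le_rfl, fun τ b ψ h hψ x => ?_⟩
    rw [zero_mul, zero_mul, add_zero]
    exact plin_dr_low ψ fun a => h.jb' hkn a x
  obtain ⟨p, rfl⟩ : ∃ p, k = p + n + 2 := ⟨k - (n + 2), by omega⟩
  obtain ⟨C, hC0, hC⟩ := lin_grad n c K (p := p) (by omega)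
  refine ⟨C, hC0, fun τ b ψ h hψ x => ?_⟩
  exact lin_dr_le (p := p) (by omega) (fun a => h.jb' le_rfl a x) fun a => (hC τ b ψ h hψ a x).trans
    (mul_le_mul_of_nonneg_left (add_le_add le_rfl (plin_G_mono (by omega) hψ)) hC0)

theorem plin_D (n : ℕ) (c K : ℝ) (k : ℕ) (hk : k + 1 ≤ 2 * n + 3) {η : ℝ} (hη : 0 < η) : ∃ C, 0 ≤ C ∧
    ∀ (τ : Mat n) (b : Fin n → Sm n) (ψ : Sm n), Coef c K τ b → Ad ψ →
      N (k + 1) (σ0 n) (dr b ψ) ≤ η * nrm (σ0 n) (J2 (k + 1) ψ) +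
        C * (Y (Lb τ b ψ) + nrm (σ0 n) (J2 k ψ)) := by
  obtain ⟨C, hC0, hC⟩ := plin_Dpt n c K k hk
  have hK : 0 < 2 ^ (k + 1) * |K| + 1 := by positivity
  obtain ⟨η', hη', h2⟩ : ∃ η' : ℝ, 0 < η' ∧ 2 ^ (k + 1) * |K| * η' ≤ η := by
    refine ⟨η / (2 ^ (k + 1) * |K| + 1), by positivity, ?_⟩
    rw [mul_div_assoc', div_le_iff₀ hK]; nlinarith
  refine ⟨2 ^ (k + 1) * (|K| * η'⁻¹ ^ 3 + C * (n * |K|)), by positivity, fun τ b ψ h hψ => ?_⟩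
  have hY := Y_nonneg (Lb τ b ψ)
  have hG := nrm_nonneg (σ0 n) (J2 k ψ)
  have hG' := nrm_nonneg (σ0 n) (J2 (k + 1) ψ)
  have a1 := (plin_adm hψ (k + 1)).const_mul (2 ^ (k + 1) * |K| * η')
  have a2 := (plin_adm hψ k).const_mul (2 ^ (k + 1) * |K| * η'⁻¹ ^ 3)
  have a3' : Adm (σ0 n) fun x => ∑ a, J (k + 1) (b a) x :=
    Adm.sum _ fun a _ => (h.symb a).adm_J0 _
  have a3 := a3'.const_mul (2 ^ (k + 1) * (C * (Y (Lb τ b ψ) + nrm (σ0 n) (J2 k ψ))))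
  have b3 : nrm (σ0 n) (fun x => ∑ a, J (k + 1) (b a) x) ≤ n * |K| := by
    refine (nrm_sum_le _ fun a _ => (h.symb a).adm_J0 _).trans ((Finset.sum_le_sum
      (g := fun _ => |K|) fun a _ => ?_).trans (le_of_eq ?_))
    · exact (N_mono hk (h.symb a) (by rw [zero_add]; exact σ0_lt n)).trans
        ((N_le_Y _).trans ((h.yb a).trans (le_abs_self K)))
    · rw [Finset.sum_const, Finset.card_univ, Fintype.card_fin, nsmul_eq_mul]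
  refine (nrm_mono ((a1.add a2).add a3) fun x => ?_).trans ((nrm_add_le (a1.add a2) a3).trans ?_)
  · rw [abs_of_nonneg (J_nonneg _ _ _)]
    refine (hC τ b ψ h hψ x).trans ?_
    have s0 : 0 ≤ ∑ a, J (k + 1) (pd a ψ) x := Finset.sum_nonneg fun a _ => J_nonneg _ _ _
    have s1 := mul_le_mul_of_nonneg_right (plin_rsplit hη' x) s0
    have s2 := mul_le_mul_of_nonneg_left (plin_sum_le (k + 1) ψ x) hη'.le
    have s3 := mul_le_mul_of_nonneg_left (plin_sum_succ k ψ x) (by positivity : 0 ≤ η'⁻¹ ^ 3)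
    have s4 : r x ^ (-1 / 4 : ℝ) * ∑ a, J (k + 1) (pd a ψ) x ≤
        η' * J2 (k + 1) ψ x + η'⁻¹ ^ 3 * J2 k ψ x := by linarith
    have s5 := mul_le_mul_of_nonneg_left s4 (by positivity : (0 : ℝ) ≤ 2 ^ (k + 1) * |K|)
    linarith
  · have b1 := nrm_add_le a1 a2
    rw [nrm_const_mul, nrm_const_mul,
      abs_of_nonneg (by positivity : 0 ≤ 2 ^ (k + 1) * |K| * η'),
      abs_of_nonneg (by positivity : 0 ≤ 2 ^ (k + 1) * |K| * η'⁻¹ ^ 3)] at b1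
    rw [nrm_const_mul, abs_of_nonneg
      (by positivity : 0 ≤ 2 ^ (k + 1) * (C * (Y (Lb τ b ψ) + nrm (σ0 n) (J2 k ψ))))]
    have b4 := mul_le_mul_of_nonneg_left b3
      (by positivity : 0 ≤ 2 ^ (k + 1) * (C * (Y (Lb τ b ψ) + nrm (σ0 n) (J2 k ψ))))
    have b5 := mul_le_mul_of_nonneg_right h2 hG'
    have b6 : 0 ≤ 2 ^ (k + 1) * |K| * η'⁻¹ ^ 3 * Y (Lb τ b ψ) := by positivity
    linarith

theorem plin_eta {C : ℝ} (hC : 0 ≤ C) : ∃ η : ℝ, 0 < η ∧ C * η ≤ 1 / 2 := by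
  refine ⟨1 / (2 * (C + 1)), by positivity, ?_⟩
  rw [mul_one_div, div_le_iff₀ (by positivity)]
  linarith

/-- Induction on `k` as in `R238.lin_G`: `lin_tame` (`l = 0`, `σ = σ0`, `m = n+1`, `μ = 1/8`, `ν = 0`) with
`Top τ 0 ψ = f + dr b ψ` (`Top_zero_eq`, `Lop_eq_Lb`). `k = 0`: `J 0 (dr b ψ) ≤ K r^{-1/4} d 1 ψ` and
`grad_interp`. `1 ≤ k ≤ n+2`: `J k (dr b ψ) ≤ 2^k K r^{-1/4} ∑ J k ψ_a` (`J_mul_le`, `J_mono`);
`k ≥ n+3`: `lin_dr_le` with `p = k-n-3`, `lin_grad` (level `k-2`), `nrm σ0 (J k b_a) ≤ Y b_a`. In both cases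
`r^{-1/4} ≤ η + R r⁻¹`, `∑ J k ψ_a ≤ J2 k ψ` (absorb) and `r⁻¹ ∑ J k ψ_a ≤ J2 (k-1) ψ` (`J_succ`, `J2_eq`).
The `Th` term is treated as in `R238.lin_G`. -/
theorem lin_GB (n : ℕ) {c : ℝ} (hc : 0 < c) (K : ℝ) (k : ℕ) (hk : k ≤ 2 * n + 3) : ∃ C, 0 ≤ C ∧
    ∀ (τ : Mat n) (b : Fin n → Sm n) (ψ : Sm n), Coef c K τ b → Ad ψ →
      nrm (σ0 n) (J2 k ψ) ≤ C * (Y (Lb τ b ψ) + Gn ψ) := by
  induction k with
  | zero =>
    obtain ⟨C, hC0, hC⟩ := plin_key n hc K 0 hk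
    obtain ⟨η, hη, hCη⟩ := plin_eta hC0
    obtain ⟨C₁, hC₁, H₁⟩ := plin_D0 n c K hη
    refine ⟨2 * (C * (1 + C₁)), by positivity, fun τ b ψ h hψ => ?_⟩
    have h1 := hC τ b ψ h hψ
    rw [show Th (n + 1) 0 τ ψ = fun _ => 0 from funext (lin_Th_eq_zero (by omega) τ ψ), nrm_zero,
      add_zero] at h1
    have h2 := mul_le_mul_of_nonneg_left (H₁ τ b ψ h hψ) hC0
    have h3 := mul_le_mul_of_nonneg_right hCη (nrm_nonneg (σ0 n) (J2 0 ψ))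
    have h4 : 0 ≤ C * C₁ * Y (Lb τ b ψ) := by have := Y_nonneg (Lb τ b ψ); positivity
    linarith
  | succ k ih =>
    obtain ⟨C, hC0, hC⟩ := plin_key n hc K (k + 1) hk
    obtain ⟨η, hη, hCη⟩ := plin_eta hC0
    obtain ⟨C₁, hC₁, H₁⟩ := plin_D n c K k hk hη
    obtain ⟨C₂, hC₂, H₂⟩ := plin_Th n c K k hk
    obtain ⟨C₃, hC₃, H₃⟩ := ih (by omega)
    refine ⟨2 * (C * (1 + C₁ * (1 + C₃) + C₂ * C₃)), by positivity, fun τ b ψ h hψ => ?_⟩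
    have h1 := hC τ b ψ h hψ
    have h2 := mul_le_mul_of_nonneg_left (H₁ τ b ψ h hψ) hC0
    have h3 := mul_le_mul_of_nonneg_right hCη (nrm_nonneg (σ0 n) (J2 (k + 1) ψ))
    have h4 : 0 ≤ C * C₁ * Gn ψ := by have : 0 ≤ Gn ψ := Real.sqrt_nonneg _; positivity
    have h5 := mul_le_mul_of_nonneg_left (H₂ τ b ψ h hψ) hC0
    have h6 := mul_le_mul_of_nonneg_left (H₃ τ b ψ h hψ) (by positivity : 0 ≤ C * (C₁ + C₂))
    linarith

/-- `lin_GB`, `lin_embed n (n+1)`, `lin_grad_top`, `Y_le` (cf. `R238.lin_Y`). -/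
theorem lin_Z (n : ℕ) {c : ℝ} (hc : 0 < c) (K : ℝ) : ∃ C, 0 ≤ C ∧
    ∀ (τ : Mat n) (b : Fin n → Sm n) (ψ : Sm n), Coef c K τ b → Ad ψ →
      Zle (C * (Y (Lb τ b ψ) + Gn ψ)) ψ := by
  obtain ⟨C₁, hC₁, H₁⟩ := lin_GB n hc K (2 * n + 3) le_rfl
  obtain ⟨C₃, hC₃, H₃⟩ := lin_embed n (n + 1)
  obtain ⟨C₄, hC₄, H₄⟩ := lin_grad_top n c K
  refine ⟨C₁ + C₃ * C₁ + C₄ * (1 + C₁), by positivity, fun τ b ψ h hψ => ?_⟩
  have hY := Y_nonneg (Lb τ b ψ)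
  have hG : 0 ≤ Gn ψ := Real.sqrt_nonneg _
  have h1 := H₁ τ b ψ h hψ
  refine ⟨fun a e => ?_, fun a => ?_⟩
  · refine (Y_le ((plin_N_hess le_rfl hψ a e).trans h1) fun x =>
      (H₃ ψ (hψ.1.mono (by norm_num)) a e x).trans (mul_le_mul_of_nonneg_left
        ((plin_G_mono (by omega) hψ).trans h1) hC₃)).trans ?_
    have : 0 ≤ C₄ * (1 + C₁) * (Y (Lb τ b ψ) + Gn ψ) := by positivity
    linarith
  · refine (Y_le ((plin_N_pd le_rfl hψ a).trans h1) fun x => (H₄ τ b ψ h hψ a x).trans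
      (mul_le_mul_of_nonneg_left (add_le_add le_rfl h1) hC₄)).trans ?_
    have : 0 ≤ C₃ * C₁ * (Y (Lb τ b ψ) + Gn ψ) + C₄ * Gn ψ := by positivity
    linarith

end Crest.Agent.R253
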