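import Crest.Agent.R253.PId
import Crest.Agent.R238.NL

/-!
# Row 253, PDE part: `L²` a priori estimates (port of the second half of `R238.NL`)
-/

set_option autoImplicit false
open MeasureTheory Matrix Filter Topology
open scoped ContDiff BigOperators

noncomputable section
namespace Crest.Agent.R253
open Crest.Agent.R238

variable {n : ℕ}

/-- The lower order term. -/
def nl2S (k : ℕ) (ζ : Sm n) (x : E n) : ℝ := if k = 0 then 0 else ∑ a, J2 (k - 1) (pd a ζ) x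

theorem nl2S_nonneg (k : ℕ) (ζ : Sm n) (x : E n) : 0 ≤ nl2S k ζ x := by
  unfold nl2S
  split_ifs
  · exact le_rfl
  · exact Finset.sum_nonneg fun a _ => lin_J2_nonneg _ _ _

theorem nl2_JM (k : ℕ) (ζ : Sm n) (x : E n) :
    JM k (hess ζ) x ≤ JM 0 (hess ζ) x + r x * nl2S k ζ x := by
  cases k with
  | zero => simp [nl2S]
  | succ k =>
    refine (nl_JM_succ k ζ x).trans (le_of_eq ?_)
    simp [nl2S, Finset.mul_sum]

theorem nl2_J (k : ℕ) (ζ : Sm n) (a : Fin n) (x : E n) :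
    J k (pd a ζ) x ≤ J 0 (pd a ζ) x + r x * nl2S k ζ x := by
  cases k with
  | zero => simp [nl2S]
  | succ k =>
    rw [J_succ, J_zero_eq]
    refine add_le_add le_rfl (mul_le_mul_of_nonneg_left ?_ (r_pos x).le)
    simp only [nl2S, Nat.add_eq_zero_iff, one_ne_zero, and_false, if_false, Nat.add_sub_cancel]
    refine le_trans ?_ (Finset.single_le_sum (f := fun a => J2 k (pd a ζ) x)
      (fun a _ => lin_J2_nonneg _ _ _) (Finset.mem_univ a))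
    rw [J2_eq]
    exact le_add_of_nonneg_left (JM_nonneg _ _ _)

theorem nl2_rpow {δ : ℝ} (hδ : 0 < δ) (x : E n) :
    r x ^ (-1 / 4 : ℝ) ≤ δ + (δ ^ 3)⁻¹ * r x ^ (-1 : ℝ) := by
  have e : r x ^ (-1 : ℝ) = (r x ^ (-1 / 4 : ℝ)) ^ 4 := by
    rw [← Real.rpow_natCast, ← Real.rpow_mul (r_pos x).le]
    norm_num
  rw [e]
  have hs := r_rpow_pos x (-1 / 4 : ℝ)
  generalize r x ^ (-1 / 4 : ℝ) = s at hs
  rcases le_total s δ with h | h
  · exact h.trans (le_add_of_nonneg_right (by positivity))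
  · refine le_add_of_nonneg_of_le hδ.le ?_
    rw [le_inv_mul_iff₀ (by positivity)]
    have := pow_le_pow_left₀ hδ.le h 3
    calc δ ^ 3 * s ≤ s ^ 3 * s := mul_le_mul_of_nonneg_right this hs.le
      _ = s ^ 4 := by ring

theorem nl2S_adm (k : ℕ) (D : BR n) : Adm (σ0 n + 1) (nl2S k D.ζ) := by
  unfold nl2S
  split_ifs
  · exact adm_zero _
  · exact Adm.sum _ fun a _ => (D.symb a).adm_J2 (by unfold σ0; linarith) _

theorem nl2_adm_inv (n : ℕ) : Adm (σ0 n + 1) (fun x : E n => r x ^ (-1 : ℝ)) :=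
  ⟨continuous_r_rpow _, 1, -1, by unfold σ0; linarith, fun x => by
    rw [abs_of_pos (r_rpow_pos x _), one_mul]⟩

/-- Pointwise bound for the drift term. In `J k (ζ_a ζ_{ae}) ≤ 2^k ∑_{i+j ≤ k} (r^i d_i ζ_a)(r^j d_j ζ_{ae})`
(`jt_core`): for `i ≤ n+2` the first factors sum to `≤ K r^{-1/4}` and `r^{-1/4} ≤ η + R r⁻¹`
(`R^{-1/4} ≤ η`), `J k ζ_{ae} ≤ J2 k ζ_e`, `r⁻¹ J k ζ_{ae} ≤ K r⁻¹ + J2 (k-1) ζ_e` (`J_succ`; for `k = 0` only
the first term); for `i ≥ n+3` one has `j ≤ n-1`, `r^j d_j ζ_{ae} ≤ K r^{-5/4}` and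
`r^i d_i ζ_a ≤ r J2 (k-1) ζ_a`. -/
theorem nl_dr_le (n : ℕ) {K : ℝ} (hK : 0 ≤ K) (k : ℕ) (hk : k ≤ 2 * n + 2) {η : ℝ} (hη : 0 < η) :
    ∃ C, 0 ≤ C ∧ ∀ (ζ : Sm n) (x : E n), JM (n + 1) (hess ζ) x ≤ K * r x ^ (-5 / 4 : ℝ) →
      (∀ a, J (n + 2) (pd a ζ) x ≤ K * r x ^ (-1 / 4 : ℝ)) → ∀ e,
      J k (dr (grad ζ) (pd e ζ)) x ≤ η * J2 k (pd e ζ) x +
        C * (r x ^ (-1 : ℝ) + if k = 0 then 0 else ∑ a, J2 (k - 1) (pd a ζ) x) := by
  set δ : ℝ := η / (2 ^ k * (K + 1)) with hδdef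
  have hδ : 0 < δ := by positivity
  refine ⟨2 ^ k * (n * ((K ^ 2 + K) * ((δ ^ 3)⁻¹ + 1))), by positivity, fun ζ x hA hB e => ?_⟩
  change _ ≤ _ + _ * (_ + nl2S k ζ x)
  have hS := nl2S_nonneg k ζ x
  have hρ := r_pos x
  have hi := r_rpow_pos x (-1 : ℝ)
  have hi1 : r x ^ (-1 : ℝ) * r x = 1 := by
    rw [Real.rpow_neg_one]
    exact inv_mul_cancel₀ hρ.ne'
  have hA0 : JM 0 (hess ζ) x ≤ K :=
    nl_le_of_rpow hK (by norm_num) ((JM_mono (Nat.zero_le _) _ _).trans hA)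
  have hR : 0 ≤ (δ ^ 3)⁻¹ := by positivity
  have key : ∀ a, J k (grad ζ a * pd a (pd e ζ)) x ≤ 2 ^ k * (K * δ * J k (pd a (pd e ζ)) x +
      (K ^ 2 + K) * ((δ ^ 3)⁻¹ + 1) * (r x ^ (-1 : ℝ) + nl2S k ζ x)) := by
    intro a
    refine (J_mul_split (m := n + 1) (by omega) _ _ x).trans
      (mul_le_mul_of_nonneg_left ?_ (by positivity))
    rw [grad_apply]
    have a1 : J (n + 1) (pd a ζ) x ≤ K * (δ + (δ ^ 3)⁻¹ * r x ^ (-1 : ℝ)) :=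
      (J_mono (by omega) _ _).trans ((hB a).trans (mul_le_mul_of_nonneg_left (nl2_rpow hδ x) hK))
    have a2 : J k (pd a (pd e ζ)) x ≤ K + r x * nl2S k ζ x :=
      (J_le_JM k (hess ζ) a e x).trans ((nl2_JM k ζ x).trans (add_le_add hA0 le_rfl))
    have a3 : J k (pd a ζ) x ≤ K + r x * nl2S k ζ x :=
      (nl2_J k ζ a x).trans (add_le_add (nl_le_of_rpow hK (by norm_num)
        ((J_mono (Nat.zero_le _) _ _).trans (hB a))) le_rfl)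
    have a4 : J (n + 1) (pd a (pd e ζ)) x ≤ K * r x ^ (-1 : ℝ) :=
      (J_le_JM (n + 1) (hess ζ) a e x).trans (hA.trans
        (mul_le_mul_of_nonneg_left (r_rpow_mono x (by norm_num)) hK))
    have n1 := J_nonneg k (pd a (pd e ζ)) x
    have b1 := mul_le_mul_of_nonneg_right a1 n1
    have b2 := mul_le_mul a3 a4 (J_nonneg _ _ _) (by positivity)
    have b3 := mul_le_mul_of_nonneg_left a2 (show 0 ≤ K * ((δ ^ 3)⁻¹ * r x ^ (-1 : ℝ)) by positivity)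
    have e1 : (K + r x * nl2S k ζ x) * (K * r x ^ (-1 : ℝ)) =
        K ^ 2 * r x ^ (-1 : ℝ) + K * nl2S k ζ x := by
      linear_combination K * nl2S k ζ x * hi1
    have e2 : K * ((δ ^ 3)⁻¹ * r x ^ (-1 : ℝ)) * (K + r x * nl2S k ζ x) =
        (δ ^ 3)⁻¹ * (K ^ 2 * r x ^ (-1 : ℝ) + K * nl2S k ζ x) := by
      linear_combination (δ ^ 3)⁻¹ * K * nl2S k ζ x * hi1
    have b4 : K ^ 2 * r x ^ (-1 : ℝ) + K * nl2S k ζ x ≤
        (K ^ 2 + K) * (r x ^ (-1 : ℝ) + nl2S k ζ x) := by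
      have c1 : 0 ≤ K * r x ^ (-1 : ℝ) := by positivity
      have c2 : 0 ≤ K ^ 2 * nl2S k ζ x := by positivity
      linarith
    have b5 := mul_le_mul_of_nonneg_left b4 (show 0 ≤ (δ ^ 3)⁻¹ + 1 by positivity)
    rw [e1] at b2
    rw [e2] at b3
    linarith
  refine (J_sum_le k _ _ x).trans ((Finset.sum_le_sum fun a _ => key a).trans ?_)
  rw [← Finset.mul_sum, Finset.sum_add_distrib, ← Finset.mul_sum, Finset.sum_const,
    Finset.card_univ, Fintype.card_fin, nsmul_eq_mul]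
  have c1 : ∑ a, J k (pd a (pd e ζ)) x ≤ J2 k (pd e ζ) x := by
    rw [J2_eq]
    exact le_add_of_nonneg_left (JM_nonneg _ _ _)
  have c2 : 2 ^ k * (K * δ) ≤ η := by
    have : 2 ^ k * ((K + 1) * δ) = η := by rw [hδdef]; field_simp
    rw [← this]
    gcongr
    linarith
  have c3 := mul_le_mul c2 c1 (Finset.sum_nonneg fun a _ => J_nonneg _ _ _) hη.le
  linarith

theorem nl2_step (n : ℕ) {c : ℝ} (hc : 0 < c) {K : ℝ} (hK : 0 ≤ K) (k : ℕ) (hk : k ≤ 2 * n + 2)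
    {C₀ : ℝ} (hC₀ : 0 ≤ C₀) :
    ∃ C, 0 ≤ C ∧ ∀ D : BR n, Ell c K D.τ → Y D.V ≤ K →
      (∀ x, JM (n + 1) (hess D.ζ) x ≤ K * r x ^ (-5 / 4 : ℝ)) →
      (∀ a x, J (n + 2) (pd a D.ζ) x ≤ K * r x ^ (-1 / 4 : ℝ)) →
      nrm (σ0 n + 1) (nl2S k D.ζ) ≤ C₀ →
      ∀ e, nrm (σ0 n + 1) (J2 k (pd e D.ζ)) ≤ C := by
  have hσ := σ0_lt n
  obtain ⟨C₁, hC₁, h₁⟩ := JM_inv_le ((n : ℝ) ^ 2 * K + ((n : ℝ) ^ 2 * 1 + K)) (n + 1) (n + 1)
    (by omega)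
  obtain ⟨C₂, hC₂, h₂⟩ := JM_inv_le ((n : ℝ) ^ 2 * K + ((n : ℝ) ^ 2 * 1 + K)) (n + 1) k
    (by omega)
  obtain ⟨C₃, hC₃, h₃⟩ := lin_tame n hc (C₁ * (1 + ((n : ℝ) ^ 2 * 1 + K)))
    (show 1 ≤ n + 1 by omega) k (l := -1) (σ := σ0 n + 1) (by unfold σ0; linarith)
  obtain ⟨C₄, hC₄, h₄⟩ := Gn_le_of_le_rpow n (-1 / 4)
  obtain ⟨C₅, hC₅, h₅⟩ := nl_dr_le n hK k hk (η := 1 / (2 * (C₃ + 1))) (by positivity)
  obtain ⟨B, hB, hB'⟩ : ∃ B : ℝ, 0 ≤ B ∧ B = ((k : ℝ) + 1) * K * C₂ := ⟨_, by positivity, rfl⟩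
  have p1 := nrm_nonneg (σ0 n + 1) (fun x : E n => r x ^ (-1 : ℝ))
  have p2 := nrm_nonneg (σ0 n) (fun _ : E n => B * (1 + ((n : ℝ) ^ 2 * 1 + K)))
  refine ⟨2 * (C₃ * (C₅ * (nrm (σ0 n + 1) (fun x : E n => r x ^ (-1 : ℝ)) + C₀) + K + C₄ * K +
    (nrm (σ0 n) (fun _ : E n => B * (1 + ((n : ℝ) ^ 2 * 1 + K))) + B * C₀))), by positivity,
    fun D hE hV hA' hb hS e => ?_⟩
  have hA : ∀ x, JM (n + 1) (hess D.ζ) x ≤ K := fun x => nl_le_of_rpow hK (by norm_num) (hA' x)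
  have hτ0 : ∀ x, dM 0 D.τ x ≤ (n : ℝ) ^ 2 * K + ((n : ℝ) ^ 2 * 1 + K) := fun x =>
    (hE.dM_zero_le x).trans (le_add_of_nonneg_right (by positivity))
  have hg : ∀ x, JM (n + 1) D.g x ≤ (n : ℝ) ^ 2 * 1 + K := fun x =>
    (nl_JM_one_add _ _ x).trans (add_le_add le_rfl (hA x))
  have hg' : ∀ x, JM (n + 1) D.g x ≤ (n : ℝ) ^ 2 * K + ((n : ℝ) ^ 2 * 1 + K) := fun x =>
    (hg x).trans (le_add_of_nonneg_left (by positivity))
  have hτ : ∀ x, JM (n + 1) D.τ x ≤ C₁ * (1 + ((n : ℝ) ^ 2 * 1 + K)) := fun x =>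
    (h₁ D.τ D.g x D.τg (hτ0 x) (hg' x)).trans
      (mul_le_mul_of_nonneg_left (add_le_add le_rfl (hg x)) hC₁)
  have aJ : Adm (σ0 n + 1) (J2 k (pd e D.ζ)) := (D.symb e).adm_J2 (by unfold σ0; linarith) k
  have aS := nl2S_adm k D
  have aI := nl2_adm_inv n
  have sV : Sym (-1) (pd e D.V) := (D.symV.pd e).mono (by norm_num)
  have aV : Adm (σ0 n + 1) (J k (pd e D.V)) := sV.adm_J (by unfold σ0; linarith) k
  have sT : Sym (-1) (R238.Top D.τ (-1) (pd e D.ζ)) := by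
    rw [D.Top_pd]
    exact ((sym_dr (b := grad D.ζ) D.symb (D.symb e)).mono (by norm_num)).sub sV
  have m0 := h₃ D.τ (pd e D.ζ) _ (-1) hE.symm hE.low D.sym0τ hτ (D.symb e)
    (by unfold σ0; linarith) sT (by unfold σ0; linarith)
  have m1 : N k (σ0 n + 1) (R238.Top D.τ (-1) (pd e D.ζ)) ≤
      1 / (2 * (C₃ + 1)) * nrm (σ0 n + 1) (J2 k (pd e D.ζ)) +
        C₅ * (nrm (σ0 n + 1) (fun x : E n => r x ^ (-1 : ℝ)) + C₀) + K := by
    have a1 := aJ.const_mul (1 / (2 * (C₃ + 1)))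
    have a2 := (aI.add aS).const_mul C₅
    rw [D.Top_pd]
    refine (nrm_mono ((a1.add a2).add aV) fun x => ?_).trans
      ((nrm_add_le (a1.add a2) aV).trans (add_le_add ((nrm_add_le a1 a2).trans
        (add_le_add (le_of_eq ?_) ?_)) ?_))
    · rw [ynorm_abs_J]
      exact (J_sub_le _ _ _ _).trans (add_le_add (h₅ D.ζ x (hA' x) (fun a => hb a x) e) le_rfl)
    · rw [nrm_const_mul, abs_of_pos (by positivity)]
    · rw [nrm_const_mul _ C₅ (fun x => r x ^ (-1 : ℝ) + nl2S k D.ζ x), abs_of_nonneg hC₅]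
      exact mul_le_mul_of_nonneg_left ((nrm_add_le aI aS).trans (add_le_add le_rfl hS)) hC₅
    · exact (N_pd_le k e D.symV (by linarith)).trans
        ((N_mono (by omega) D.symV (by linarith)).trans ((N_le_Y _).trans hV))
  have m2 : Gn (pd e D.ζ) ≤ C₄ * K := h₄ _ _ fun x => (abs_le_J _ _ x).trans (hb e x)
  have m3 : nrm (σ0 n + 1) (Th (n + 1) k D.τ (pd e D.ζ)) ≤
      nrm (σ0 n) (fun _ : E n => B * (1 + ((n : ℝ) ^ 2 * 1 + K))) + B * C₀ := by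
    have a1 := aS.r_mul.const_mul B
    rw [← nrm_r_mul]
    refine (nrm_mono ((adm_const hσ (B * (1 + ((n : ℝ) ^ 2 * 1 + K)))).add a1)
      fun x => ?_).trans ((nrm_add_le (adm_const hσ _) a1).trans ?_)
    · refine (nl_Th_le hk D.τ D.ζ e x (hA x)).trans ?_
      have h5 : JM k D.τ x ≤ C₂ * (1 + ((n : ℝ) ^ 2 * 1 + (K + r x * nl2S k D.ζ x))) :=
        (h₂ D.τ D.g x D.τg (hτ0 x) (hg' x)).trans
          (mul_le_mul_of_nonneg_left (add_le_add le_rfl ((nl_JM_one_add _ _ x).trans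
            (add_le_add le_rfl ((nl2_JM k _ x).trans
              (add_le_add ((JM_mono (Nat.zero_le _) _ _).trans (hA x)) le_rfl))))) hC₂)
      refine (mul_le_mul_of_nonneg_left h5 (by positivity)).trans (le_of_eq ?_)
      rw [hB']
      ring
    · rw [nrm_const_mul _ B (fun x => r x * nl2S k D.ζ x), abs_of_nonneg hB, nrm_r_mul]
      exact add_le_add le_rfl (mul_le_mul_of_nonneg_left hS hB)
  have m4 := m0.trans (mul_le_mul_of_nonneg_left (add_le_add (add_le_add m1 m2) m3) hC₃)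
  have p3 := nrm_nonneg (σ0 n + 1) (J2 k (pd e D.ζ))
  have m5 : C₃ * (1 / (2 * (C₃ + 1))) ≤ 1 / 2 := by
    rw [mul_one_div, div_le_div_iff₀ (by positivity) (by norm_num)]
    linarith
  have m6 := mul_le_mul_of_nonneg_right m5 p3
  linarith

theorem nl2S_le {k : ℕ} (D : BR n) {C : ℝ} (h : ∀ e, nrm (σ0 n + 1) (J2 k (pd e D.ζ)) ≤ C) :
    nrm (σ0 n + 1) (nl2S (k + 1) D.ζ) ≤ n * C := by
  have e : nl2S (k + 1) D.ζ = fun x => ∑ a, J2 k (pd a D.ζ) x := by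
    funext x
    simp [nl2S]
  rw [e]
  refine (nrm_sum_le _ fun a _ => (D.symb a).adm_J2 (by unfold σ0; linarith) k).trans
    ((Finset.sum_le_card_nsmul _ _ _ fun a _ => h a).trans (le_of_eq ?_))
  rw [Finset.card_univ, Fintype.card_fin, nsmul_eq_mul]

/-- Induction on `k`. `lin_tame` for `ψ = ζ_e ∈ Sym (-7/8)`, `l = -1`, `σ = σ0 + 1`, `m = n+1`, `ν = -1`,
`Top τ (-1) ζ_e = dr b ζ_e - V_e` (`Top_pd`); `JM (n+1) τ ≤ C` by `JM_inv_le`;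
`N k (σ0+1) V_e ≤ N (k+1) σ0 V ≤ Y V`; `nl_dr_le` with `η = 1/(2C)` (absorb; everything is `Adm`);
`Gn ζ_e ≤ C` (`Gn_le_of_le_rpow`); `r Th (n+1) k τ ζ_e ≤ (k+1) K JM k τ ≤ C (1 + JM k (hess ζ))`
(`nl_Th_le`, `JM_inv_le`, `nl_JM_one_add`) and `JM k (hess ζ) ≤ JM 0 (hess ζ) + ∑ r J2 (k-1) ζ_e`
(`nl_JM_succ`). -/
theorem apriori_L2B (n : ℕ) {c : ℝ} (hc : 0 < c) {K : ℝ} (hK : 0 ≤ K) (k : ℕ) (hk : k ≤ 2 * n + 2) :
    ∃ C, 0 ≤ C ∧ ∀ D : BR n, Ell c K D.τ → Y D.V ≤ K →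
      (∀ x, JM (n + 1) (hess D.ζ) x ≤ K * r x ^ (-5 / 4 : ℝ)) →
      (∀ a x, J (n + 2) (pd a D.ζ) x ≤ K * r x ^ (-1 / 4 : ℝ)) →
      ∀ e, nrm (σ0 n + 1) (J2 k (pd e D.ζ)) ≤ C := by
  induction k with
  | zero =>
    obtain ⟨C, hC, h⟩ := nl2_step n hc hK 0 hk le_rfl
    refine ⟨C, hC, fun D h1 h2 h3 h4 => h D h1 h2 h3 h4 ?_⟩
    have e : nl2S 0 D.ζ = fun _ => 0 := by
      funext x
      simp [nl2S]
    rw [e, nrm_zero]
  | succ k ih =>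
    obtain ⟨C₀, hC₀, ih⟩ := ih (by omega)
    obtain ⟨C, hC, h⟩ := nl2_step n hc hK (k + 1) hk (C₀ := n * C₀) (by positivity)
    exact ⟨C, hC, fun D h1 h2 h3 h4 => h D h1 h2 h3 h4 (nl2S_le D (ih D h1 h2 h3 h4))⟩

/-- From `apriori_L2B` with `k = 2n+2`: `J (2n+3) (hess ζ a b) ≤ K + ∑ r J2 (2n+2) ζ_e` (`nl_JM_succ`),
`J (2n+3) ζ_a ≤ K + r J2 (2n+2) ζ_a` (`J_succ`, `J2_eq`), `Y_le`; `YM` for `τ` by `inv_YM`. -/
theorem apriori_YB (n : ℕ) {c : ℝ} (hc : 0 < c) {K : ℝ} (hK : 0 ≤ K) :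
    ∃ C, 0 ≤ C ∧ ∀ D : BR n, Ell c K D.τ → Ell c K D.g → Y D.V ≤ K →
      (∀ x, JM (n + 1) (hess D.ζ) x ≤ K * r x ^ (-5 / 4 : ℝ)) →
      (∀ a x, J (n + 2) (pd a D.ζ) x ≤ K * r x ^ (-1 / 4 : ℝ)) →
      YM C D.τ ∧ Zle C D.ζ := by
  have hσ := σ0_lt n
  obtain ⟨C, hC, h₂⟩ := apriori_L2B n hc hK (2 * n + 2) le_rfl
  obtain ⟨C₁, hC₁, h₃⟩ := YM_one n
  have p1 := nrm_nonneg (σ0 n) (fun _ : E n => K)
  obtain ⟨C₂, hC₂, h₄⟩ := inv_YM n hc (C₁ + (nrm (σ0 n) (fun _ : E n => K) + n * C + K))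
  refine ⟨C₂ + (nrm (σ0 n) (fun _ : E n => K) + n * C + K), by positivity,
    fun D eτ eg hV hA' hb' => ?_⟩
  have hA : ∀ x, JM (n + 1) (hess D.ζ) x ≤ K := fun x => nl_le_of_rpow hK (by norm_num) (hA' x)
  have hb : ∀ a x, J (n + 2) (pd a D.ζ) x ≤ K := fun a x =>
    nl_le_of_rpow hK (by norm_num) (hb' a x)
  have hS := nl2S_le D (h₂ D eτ hV hA' hb')
  have aS := (nl2S_adm (2 * n + 2 + 1) D).r_mul
  have key : ∀ f : Sm n, (∀ x, J (2 * n + 3) f x ≤ K + r x * nl2S (2 * n + 2 + 1) D.ζ x) →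
      (∀ x, J (n + 1) f x ≤ K) → Y f ≤ nrm (σ0 n) (fun _ : E n => K) + n * C + K := by
    intro f h1 h2
    refine Y_le ((nrm_mono ((adm_const hσ K).add aS) fun x => ?_).trans
      ((nrm_add_le (adm_const hσ K) aS).trans (add_le_add le_rfl ?_))) h2
    · rw [ynorm_abs_J]
      exact h1 x
    · rw [nrm_r_mul]
      exact hS
  have h6 : YM (nrm (σ0 n) (fun _ : E n => K) + n * C + K) (hess D.ζ) := fun a b =>
    key _ (fun x => (J_le_JM _ _ a b x).trans ((nl2_JM _ _ x).trans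
      (add_le_add ((JM_mono (Nat.zero_le _) _ _).trans (hA x)) le_rfl)))
      fun x => (J_le_JM _ _ a b x).trans (hA x)
  have h6' : ∀ a, Y (pd a D.ζ) ≤ nrm (σ0 n) (fun _ : E n => K) + n * C + K := fun a =>
    key _ (fun x => (nl2_J _ _ a x).trans
      (add_le_add ((J_mono (Nat.zero_le _) _ _).trans (hb a x)) le_rfl))
      fun x => (J_mono (by omega) _ _).trans (hb a x)
  have h7 : YM (C₁ + (nrm (σ0 n) (fun _ : E n => K) + n * C + K)) D.g := fun a b =>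
    (Y_add_le (symM_one a b) ((D.symA.mono (by norm_num)) a b)).trans
      (add_le_add (h₃ a b) (h6 a b))
  have h8 := h₄ D.τ D.g D.g_symm D.τg eg.low D.sym0g h7
  have p2 : 0 ≤ nrm (σ0 n) (fun _ : E n => K) + n * C + K := by positivity
  exact ⟨fun a b => (h8 a b).trans (by linarith), fun a b => (h6 a b).trans (by linarith),
    fun a => (h6' a).trans (by linarith)⟩

end Crest.Agent.R253
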