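import Crest.Agent.R253.PNL1
import Crest.Agent.R253.PNL2
import Crest.Agent.R253.PLin
import Crest.Agent.R238.Poinc

/-!
# Row 253, PDE part: spectral gap and the a priori estimate for the linearised operator
-/

set_option autoImplicit false
open MeasureTheory Matrix Filter Topology
open scoped ContDiff BigOperators

noncomputable section
namespace Crest.Agent.R253
open Crest.Agent.R238

variable {n : ℕ}

/-- `poincare`: `I(ψ²) ≤ C I(q 1 ψ) ≤ (C/c) I(gam τ ψ ψ) = -(C/c) I(ψ Lψ)` (`Low.gam`-type bound,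
`Iw_mul_L`, `Iw_mul_sq_le`); then compare weights (`Iw_zero_le_Iw`, `Iw_le_Iw_zero`, `Gn_sq_eq`) and
`|Lψ| ≤ Y (Lψ)` (cf. `R238.gap_Gn`). -/
theorem gap_GnB (n : ℕ) {c : ℝ} (hc : 0 < c) (K : ℝ) : ∃ C, 0 ≤ C ∧ ∀ (D : BR n) (ψ : Sm n),
    Low c D.τ → Y D.V ≤ K → Ad ψ → Iw D.V ψ = 0 → Gn ψ ≤ C * Y (D.L ψ) := by
  obtain ⟨C, hC, H⟩ := poincare n K
  obtain ⟨C', hC', H'⟩ := Gn_le_of_le_rpow n 0
  refine ⟨Real.exp K * (C / c) * C', by positivity, fun D ψ hl hK hψ h0 => ?_⟩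
  have hV : ∀ x, |ev x D.V| ≤ K := fun x => (abs_le_Y D.symV x).trans hK
  have hf := D.sym_L hψ
  have ht := hψ.1.tm
  have a1 := H D.V ψ D.symV hV ht h0
  have a2 : c * Iw D.V (q 1 ψ) ≤ Iw D.V (gam D.τ ψ ψ) := by
    rw [← Iw_smul]
    refine Iw_mono D.symV ((ht.q 1).smul c) (Tm.gam D.sym0τ.tmM ht ht) fun x => ?_
    have := hl.gam ψ x
    simpa only [ev_smul, q, map_sum, map_pow] using this
  have a3 := Iw_mul_sq_le D.symV ht hf.tm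
  rw [D.Iw_mul_L ht ht, neg_sq] at a3
  have a4 : 0 ≤ Iw D.V (ψ ^ 2) := Iw_nonneg _ fun x => by rw [map_pow]; exact sq_nonneg _
  have a5 : 0 ≤ Iw D.V (D.L ψ ^ 2) := Iw_nonneg _ fun x => by rw [map_pow]; exact sq_nonneg _
  have a6 : Iw D.V (ψ ^ 2) ≤ C / c * Iw D.V (gam D.τ ψ ψ) := by
    refine a1.trans ?_
    rw [div_mul_eq_mul_div, mul_div_assoc]
    exact mul_le_mul_of_nonneg_left ((le_div_iff₀' hc).2 a2) hC
  have h1 : Iw D.V (ψ ^ 2) ≤ (C / c) ^ 2 * Iw D.V (D.L ψ ^ 2) := by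
    rcases a4.eq_or_lt with h | h
    · rw [← h]; positivity
    · refine le_of_mul_le_mul_left ?_ h
      calc Iw D.V (ψ ^ 2) * Iw D.V (ψ ^ 2) ≤ (C / c * Iw D.V (gam D.τ ψ ψ)) ^ 2 := by
            rw [← sq]; exact pow_le_pow_left₀ a4 a6 2
        _ ≤ (C / c) ^ 2 * (Iw D.V (ψ ^ 2) * Iw D.V (D.L ψ ^ 2)) := by
            rw [mul_pow]; exact mul_le_mul_of_nonneg_left a3 (sq_nonneg _)
        _ = _ := by ring
  have h2 := H' _ (Y (D.L ψ)) fun x => by simpa using abs_le_Y hf x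
  have h3 := Iw_zero_le_Iw D.symV hV (ht.pow 2) fun x => by rw [map_pow]; exact sq_nonneg _
  have h4 := Iw_le_Iw_zero D.symV hV (hf.tm.pow 2) fun x => by rw [map_pow]; exact sq_nonneg _
  rw [← Gn_sq_eq] at h3 h4
  have h5 : Gn ψ ≤ Real.exp K * (C / c) * Gn (D.L ψ) := by
    refine (abs_le_of_sq_le_sq' ?_ (mul_nonneg (by positivity) (Gn_nonneg _))).2
    calc Gn ψ ^ 2 ≤ Real.exp K * ((C / c) ^ 2 * (Real.exp K * Gn (D.L ψ) ^ 2)) :=
          h3.trans (mul_le_mul_of_nonneg_left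
            (h1.trans (mul_le_mul_of_nonneg_left h4 (sq_nonneg _))) (Real.exp_pos K).le)
      _ = _ := by ring
  rw [mul_assoc]
  exact h5.trans (mul_le_mul_of_nonneg_left h2 (by positivity))

/-- `apriori_supB` and `apriori_YB`. -/
theorem aprioriB (n : ℕ) {ε : ℝ} (hε : 0 < ε) (K : ℝ) : ∃ c K', 0 < c ∧ 0 ≤ K' ∧ ∀ D : BR n,
    Low ε D.H → Y D.V ≤ K → Ell c K' D.τ ∧ Ell c K' D.g ∧ Zle K' D.ζ ∧
      Coef c K' D.τ (grad D.ζ) := by
  obtain ⟨c, K₁, hc, hK₁, H⟩ := apriori_supB n hε K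
  have hK₂ : 0 ≤ K₁ + |K| := by positivity
  have h12 : K₁ ≤ K₁ + |K| := le_add_of_nonneg_right (abs_nonneg K)
  obtain ⟨C, hC, H'⟩ := apriori_YB n hc hK₂
  have h23 : K₁ + |K| ≤ K₁ + |K| + C := le_add_of_nonneg_right hC
  have hC3 : C ≤ K₁ + |K| + C := le_add_of_nonneg_left hK₂
  refine ⟨c, K₁ + |K| + C, hc, by positivity, fun D hl hV => ?_⟩
  obtain ⟨h1, h2, h3, h4⟩ := H D hl hV
  obtain ⟨h5, h6⟩ := H' D (h1.mono le_rfl h12) (h2.mono le_rfl h12)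
    (hV.trans ((le_abs_self K).trans (le_add_of_nonneg_left hK₁)))
    (fun x => (h3 x).trans (mul_le_mul_of_nonneg_right h12 (r_rpow_pos x _).le))
    (fun a x => (h4 a x).trans (mul_le_mul_of_nonneg_right h12 (r_rpow_pos x _).le))
  exact ⟨h1.mono le_rfl (h12.trans h23), h2.mono le_rfl (h12.trans h23), h6.mono hC3,
    D.τ_symm, h1.low, D.sym0τ, fun a b => (h5 a b).trans hC3, D.sym0b,
    fun a => (h6.2 a).trans hC3,
    fun a x => (h4 a x).trans (mul_le_mul_of_nonneg_right (h12.trans h23) (r_rpow_pos x _).le)⟩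

/-- Apply `lin_Z` and `gap_GnB` to `ψ - cst m`, `m = Iw V ψ / Iw V 1` (`Zle.sub_cst`, `L_sub`, `L_cst`). -/
theorem lin_est (n : ℕ) {ε : ℝ} (hε : 0 < ε) (K : ℝ) : ∃ C, 0 ≤ C ∧ ∀ D : BR n,
    Low ε D.H → Y D.V ≤ K → ∀ ψ : Sm n, Ad ψ → Zle (C * Y (D.L ψ)) ψ := by
  obtain ⟨c, K', hc, -, H⟩ := aprioriB n hε K
  obtain ⟨C₁, hC₁, H₁⟩ := lin_Z n hc K'
  obtain ⟨C₂, hC₂, H₂⟩ := gap_GnB n hc K
  refine ⟨C₁ * (1 + C₂), by positivity, fun D hl hV ψ hψ => ?_⟩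
  obtain ⟨h1, -, -, h4⟩ := H D hl hV
  set m := Iw D.V ψ / Iw D.V 1 with hm
  have hA : Ad (ψ - cst m) := by
    have := hψ.add ((ad_cst m).smul (-1))
    rwa [neg_smul, one_smul, ← sub_eq_add_neg] at this
  have h0 : Iw D.V (ψ - cst m) = 0 := by
    rw [Iw_sub D.symV hψ.1.tm (tm_cst m), ← mul_one (cst m : Sm n), Iw_cst_mul, hm,
      div_mul_cancel₀ _ (Iw_one_pos D.symV).ne', sub_self]
  have hL : D.L (ψ - cst m) = D.L ψ := by rw [D.L_sub, D.L_cst, sub_zero]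
  have h5 := H₂ D _ h1.low hV hA h0
  have h6 : Zle (C₁ * (Y (D.L (ψ - cst m)) + Gn (ψ - cst m))) (ψ - cst m) := H₁ _ _ _ h4 hA
  rw [hL] at h5 h6
  refine Zle.sub_cst m (h6.mono ?_)
  rw [mul_assoc]
  exact mul_le_mul_of_nonneg_left (by linarith) hC₁

/-- Integrate against `e^{-W}`: `Iw_L`, `|f| ≤ Y f`, `Iw_one_pos`. -/
theorem abs_c_le (D : BR n) {ψ f : Sm n} {c η : ℝ} (hψ : Ad ψ) (hf : Sym 0 f)
    (h : Y (D.L ψ - f + cst c) ≤ η) : |c| ≤ Y f + η := by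
  have hL := D.sym_L hψ
  have hs : Sym 0 (D.L ψ - f + cst c) := (hL.sub hf).add (sym_cst c)
  have hZ := Iw_one_pos D.symV
  have e : ∀ t : ℝ, Iw D.V (cst t) = t * Iw D.V 1 := fun t => by
    rw [← Iw_cst_mul, mul_one]
  have ht : Tm (cst c + D.L ψ) := (tm_cst c).add hL.tm
  have h1 : Iw D.V (cst c + D.L ψ) = c * Iw D.V 1 := by
    rw [Iw_add D.symV (tm_cst c) hL.tm, D.Iw_L hψ.1.tm, add_zero, e]
  have h2 : ∀ x, |ev x (cst c + D.L ψ)| ≤ Y f + η := fun x => by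
    have e2 : cst c + D.L ψ = f + (D.L ψ - f + cst c) := by ring
    rw [e2, map_add]
    exact (abs_add_le _ _).trans (add_le_add (abs_le_Y hf x) ((abs_le_Y hs x).trans h))
  have h3 := Iw_mono D.symV ht (tm_cst (Y f + η)) fun x => by
    rw [ev_cst x (Y f + η)]; exact (abs_le.1 (h2 x)).2
  have h4 := Iw_mono D.symV (tm_cst (-(Y f + η))) ht fun x => by
    rw [ev_cst x (-(Y f + η))]; exact (abs_le.1 (h2 x)).1
  rw [h1, e] at h3 h4
  exact abs_le.2 ⟨le_of_mul_le_mul_right h4 hZ, le_of_mul_le_mul_right h3 hZ⟩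

end Crest.Agent.R253
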