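import Crest.Agent.R253.PDefs

/-!
# Row 253, PDE part: identities satisfied by a solution of the Brenier equation (port of `R238.KEid`)
-/

set_option autoImplicit false
open MeasureTheory Matrix Filter Topology
open scoped ContDiff BigOperators

noncomputable section
namespace Crest.Agent.R253
open Crest.Agent.R238

variable {n : ℕ}

namespace BR
variable (D : BR n)

theorem g_symm : D.gᵀ = D.g := by rw [g, Matrix.transpose_add, Matrix.transpose_one, hess_transpose]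
theorem H_symm : D.Hᵀ = D.H := by rw [H, Matrix.transpose_add, Matrix.transpose_one, hess_transpose]
theorem τg : D.τ * D.g = 1 := D.inv
theorem gτ : D.g * D.τ = 1 := mul_eq_one_comm.1 D.inv
theorem τ_symm : D.τᵀ = D.τ := inv_symm D.g_symm D.τg
theorem τ_apply_comm (a b : Fin n) : D.τ a b = D.τ b a := congrFun (congrFun D.τ_symm b) a
theorem g_apply_comm (a b : Fin n) : D.g a b = D.g b a := congrFun (congrFun D.g_symm b) a
theorem g_posDef (x : E n) : (evM x D.g).PosDef := D.pos x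
theorem τ_posDef (x : E n) : (evM x D.τ).PosDef := posDef_inv_of_mul (D.pos x) (evM_inv D.τg x)
theorem symA : SymM (-15 / 8) (hess D.ζ) := by
  have := D.symζ.hess; norm_num at this ⊢; exact this
theorem symb (a : Fin n) : Sym (-7 / 8) (pd a D.ζ) := by
  have := D.symζ.pd a; norm_num at this ⊢; exact this
theorem sym0b (a : Fin n) : Sym 0 (grad D.ζ a) := (D.symb a).mono (by norm_num)
theorem sym0τ : SymM 0 D.τ := by
  have := (D.symτ.mono (m' := 0) (by norm_num)).add symM_one; simpa using this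
theorem sym0g : SymM 0 D.g := symM_one.add (D.symA.mono (by norm_num))
theorem sym0H : SymM 0 D.H := symM_one.add (D.symV.hess.mono (by norm_num))
theorem symp (a : Fin n) : Sym 1 (D.p a) := (sym_X a).add ((D.symb a).mono (by norm_num))
theorem pd_p (a b : Fin n) : pd b (D.p a) = D.g a b := by
  rw [p, map_add, pd_X, g, Matrix.add_apply, Matrix.one_apply, hess_apply, pd_comm a b]
  simp only [eq_comm]
theorem pdM_g (a : Fin n) : pdM a D.g = hess (pd a D.ζ) := by
  rw [g, pdM_add, pdM_one, zero_add, pdM_hess]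
theorem pdM_τ (a : Fin n) : pdM a D.τ = -(D.τ * hess (pd a D.ζ) * D.τ) := by
  rw [pdM_inv a D.τg, pdM_g]

theorem L_eq (f : Sm n) : D.L f = con D.τ f - ∑ a, D.p a * pd a f := by
  simp only [L, Lb, Lop, eul, dr, p, grad_apply, add_mul, Finset.sum_add_distrib]
  ring
theorem L_add (f h : Sm n) : D.L (f + h) = D.L f + D.L h := Lb_add _ _ _ _
theorem L_sub (f h : Sm n) : D.L (f - h) = D.L f - D.L h := Lb_sub _ _ _ _
theorem L_neg (f : Sm n) : D.L (-f) = -D.L f := Lb_neg _ _ _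
theorem L_smul (c : ℝ) (f : Sm n) : D.L (c • f) = c • D.L f := Lb_smul _ _ _ _
theorem L_zero : D.L 0 = 0 := Lb_zero _ _
theorem L_one : D.L 1 = 0 := Lb_one _ _
theorem L_cst (c : ℝ) : D.L (cst c) = 0 := Lb_cst _ _ _
theorem L_X (a : Fin n) : D.L (X a) = -D.p a := Lb_X _ _ _
theorem L_sum {ι : Type*} (s : Finset ι) (f : ι → Sm n) :
    D.L (∑ i ∈ s, f i) = ∑ i ∈ s, D.L (f i) := Lb_sum _ _ _ _
theorem L_mul (f h : Sm n) : D.L (f * h) = f * D.L h + h * D.L f + 2 * gam D.τ f h :=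
  Lb_mul D.τ_symm _ _ _
theorem pd_L (a : Fin n) (f : Sm n) : pd a (D.L f) =
    D.L (pd a f) - pd a f + con (pdM a D.τ) f - ∑ k, hess D.ζ a k * pd k f := pd_Lb _ _ _ _
theorem sym_L {ψ : Sm n} (h : Ad ψ) : Sym 0 (D.L ψ) := h.sym_Lb D.sym0τ D.sym0b
theorem tm_L {ψ : Sm n} (h : Tm ψ) : Tm (D.L ψ) := tm_Lb D.sym0τ.tmM (fun a => (D.sym0b a).tm) h

/-- The matrix `Γ_ab = tr(τ g_a τ g_b)`, `g_a = ∂_a g`. -/
def Γ : Mat n := Matrix.of fun a b => (D.τ * hess (pd a D.ζ) * D.τ * hess (pd b D.ζ)).trace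

theorem pd_half_q (a : Fin n) (f : Sm n) :
    pd a ((1 / 2 : ℝ) • q 1 f) = dr (grad f) (pd a f) := by
  have e : (1 / 2 : ℝ) • (2 : Sm n) = 1 := by
    ext x
    rw [ev_smul, map_one, map_ofNat]; norm_num
  simp only [q, Derivation.map_smul, map_sum, pd_sq, dr, grad_apply, Finset.smul_sum]
  refine Finset.sum_congr rfl fun k _ => ?_
  rw [mul_assoc, ← smul_mul_assoc, e, one_mul, pd_comm a k]

theorem L_pd (a : Fin n) : D.L (pd a D.ζ) = pd a D.ζ - pd a D.V := by
  have h := pd_det a D.τg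
  have e : D.g.det = expS (eul D.ζ + (1 / 2 : ℝ) • q 1 D.ζ - D.V) := D.eqn
  rw [pdM_g, ← con_eq_trace, e, pd_expS, map_sub, map_add, pd_eul, pd_half_q] at h
  have hi := invS_mul (expS (eul D.ζ + (1 / 2 : ℝ) • q 1 D.ζ - D.V)) fun x => (Real.exp_pos _).ne'
  rw [L, Lb, Lop]
  linear_combination
    -(invS (expS (eul D.ζ + (1 / 2 : ℝ) • q 1 D.ζ - D.V)) fun x => (Real.exp_pos _).ne') * h -
    (con D.τ (pd a D.ζ) - eul (pd a D.ζ) - dr (grad D.ζ) (pd a D.ζ) - pd a D.ζ + pd a D.V) * hi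

theorem Top_pd (a : Fin n) :
    R238.Top D.τ (-1) (pd a D.ζ) = dr (grad D.ζ) (pd a D.ζ) - pd a D.V := by
  have h := D.L_pd a
  rw [L, Lb] at h
  rw [R238.Top, neg_smul, one_smul]
  linear_combination h

/-- `τ` is a Stein-type kernel: `div_μ τ = -∇u`. -/
theorem div_τ (b : Fin n) : ∑ a, (pd a (D.τ a b) - (X a + pd a D.V) * D.τ a b) = -D.p b := by
  have h1 : ∑ a, pd a (D.τ a b) = -∑ j, con D.τ (pd j D.ζ) * D.τ j b := by
    have e : ∀ a, pd a (D.τ a b) = -(D.τ * hess (pd a D.ζ) * D.τ) a b := fun a =>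
      congrFun (congrFun (D.pdM_τ a) a) b
    simp only [e, Finset.sum_neg_distrib, Matrix.mul_apply, hess_apply, con, Finset.sum_mul]
    rw [Finset.sum_comm]
    refine congrArg _ (Finset.sum_congr rfl fun j _ => Finset.sum_congr rfl fun a _ =>
      Finset.sum_congr rfl fun i _ => ?_)
    rw [pd_comm j a, pd_comm i a]
  have h2 : ∀ j, con D.τ (pd j D.ζ) = ∑ k, D.p k * D.g k j - X j - pd j D.V := fun j => by
    have h := D.L_pd j
    have e : ∑ k, D.p k * D.g k j = D.p j + ∑ k, D.p k * pd k (pd j D.ζ) := by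
      simp [g, mul_add, Finset.sum_add_distrib, Matrix.one_apply]
    rw [L_eq] at h
    have e2 : D.p j = X j + pd j D.ζ := rfl
    linear_combination h - e - e2
  have h3 : ∑ j, (∑ k, D.p k * D.g k j) * D.τ j b = D.p b := by
    simp only [Finset.sum_mul, mul_assoc]
    rw [Finset.sum_comm]
    simp only [← Finset.mul_sum, ← Matrix.mul_apply, D.gτ]
    simp [Matrix.one_apply]
  rw [Finset.sum_sub_distrib, h1, ← h3, ← Finset.sum_neg_distrib, ← Finset.sum_neg_distrib,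
    ← Finset.sum_sub_distrib]
  exact Finset.sum_congr rfl fun j _ => by rw [h2]; ring

theorem L_hess (a b : Fin n) :
    D.L (hess D.ζ a b) =
      2 * hess D.ζ a b + (hess D.ζ * hess D.ζ) a b + D.Γ a b - hess D.V a b := by
  have h := D.pd_L a (pd b D.ζ)
  rw [D.L_pd, con_eq_trace, pdM_τ, Matrix.neg_mul, Matrix.trace_neg, map_sub] at h
  simp only [hess_apply, Γ, Matrix.of_apply, Matrix.mul_apply] at h ⊢
  linear_combination -h

theorem L_g (a b : Fin n) : D.L (D.g a b) = (D.g * D.g + D.Γ - D.H) a b := by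
  have h0 : D.L ((1 : Mat n) a b) = 0 := by
    rw [Matrix.one_apply]
    split_ifs
    exacts [D.L_one, D.L_zero]
  have e : D.g * D.g = 1 + hess D.ζ + hess D.ζ + hess D.ζ * hess D.ζ := by
    rw [g, mul_add, add_mul, add_mul, mul_one, mul_one, one_mul]; abel
  rw [e]
  simp only [g, H, Matrix.add_apply, Matrix.sub_apply, L_add, h0, D.L_hess]
  ring

/-- `τ^{il} ∂_l τ^{ab} = -τ^{il} τ^{aj} τ^{bm} ζ_{ljm}` is totally symmetric. -/
theorem Phi_symm (i a b : Fin n) :
    ∑ l, D.τ i l * pd l (D.τ a b) = ∑ l, D.τ a l * pd l (D.τ i b) := by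
  have e : ∀ l a, pd l (D.τ a b) = -(D.τ * hess (pd l D.ζ) * D.τ) a b := fun l a =>
    congrFun (congrFun (D.pdM_τ l) a) b
  have key : ∀ i a, ∑ l, D.τ i l * pd l (D.τ a b) =
      -∑ m, ∑ l, ∑ j, D.τ i l * D.τ a j * pd j (pd m (pd l D.ζ)) * D.τ m b := fun i a => by
    simp only [e, mul_neg, Finset.sum_neg_distrib, Matrix.mul_apply, hess_apply, Finset.sum_mul,
      Finset.mul_sum]
    rw [Finset.sum_comm]
    exact congrArg _ (Finset.sum_congr rfl fun m _ => Finset.sum_congr rfl fun l _ =>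
      Finset.sum_congr rfl fun j _ => by ring)
  rw [key, key]
  refine congrArg _ (Finset.sum_congr rfl fun m _ => ?_)
  rw [Finset.sum_comm]
  refine Finset.sum_congr rfl fun j _ => Finset.sum_congr rfl fun l _ => ?_
  rw [pd_comm m l, pd_comm j l, pd_comm j m]
  ring

theorem Γ_eq (a b : Fin n) : D.Γ a b = (pdM a D.τ * D.g * pdM b D.τ * D.g).trace := by
  have e : ∀ a, pdM a D.τ * D.g = -(D.τ * hess (pd a D.ζ)) := fun a => by
    rw [pdM_τ, Matrix.neg_mul, Matrix.mul_assoc, D.τg, Matrix.mul_one]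
  rw [Matrix.mul_assoc, e, e, neg_mul_neg, ← Matrix.mul_assoc]
  rfl

theorem Γ_symm : D.Γᵀ = D.Γ := by
  ext a b : 1
  simp only [Γ, Matrix.transpose_apply, Matrix.of_apply]
  rw [Matrix.mul_assoc, Matrix.trace_mul_comm, ← Matrix.mul_assoc]

theorem keid_Γ_sum :
    D.Γ = ∑ k, ∑ l, D.τ k l • (hess (pd k D.ζ) * D.τ * hess (pd l D.ζ)) := by
  ext a b : 1
  simp only [Γ, Matrix.of_apply, Matrix.trace, Matrix.diag, Matrix.sum_apply, Matrix.smul_apply,
    Matrix.mul_apply, hess_apply, smul_eq_mul, Finset.sum_mul, Finset.mul_sum]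
  conv_rhs => rw [Finset.sum_comm]
  refine Finset.sum_congr rfl fun l _ => ?_
  conv_rhs => rw [Finset.sum_comm]
  refine Finset.sum_congr rfl fun j _ => ?_
  conv_rhs => rw [Finset.sum_comm]
  refine Finset.sum_congr rfl fun i _ => Finset.sum_congr rfl fun k _ => ?_
  rw [D.τ_apply_comm l k, pd_comm l b, pd_comm i a, pd_comm k a, pd_comm k i]
  ring

theorem L_τ (a b : Fin n) :
    D.L (D.τ a b) = (-1 + D.τ * D.Γ * D.τ + D.τ * D.H * D.τ) a b := by
  set M : Mat n := Matrix.of fun a b => D.L (D.τ a b) with hM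
  have hQ : ∑ k, ∑ l, D.τ k l • (pdM k D.τ * pdM l D.g) = -(D.τ * D.Γ) := by
    simp only [keid_Γ_sum, pdM_τ, pdM_g, Matrix.mul_sum, Matrix.mul_smul, Matrix.neg_mul, smul_neg,
      Finset.sum_neg_distrib, Matrix.mul_assoc]
  have h : M * D.g + D.τ * (D.g * D.g + D.Γ - D.H) - (D.τ * D.Γ + D.τ * D.Γ) = 0 := by
    ext a b : 1
    have h0 : D.L ((D.τ * D.g) a b) = 0 := by
      rw [D.τg, Matrix.one_apply]
      split_ifs
      exacts [D.L_one, D.L_zero]
    have h1 : ∑ c, gam D.τ (D.τ a c) (D.g c b) = -(D.τ * D.Γ) a b := by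
      rw [← Matrix.neg_apply, ← hQ]
      simp only [gam, Matrix.sum_apply, Matrix.smul_apply, Matrix.mul_apply, pdM_apply,
        smul_eq_mul, Finset.mul_sum, mul_assoc]
      rw [Finset.sum_comm]
      exact Finset.sum_congr rfl fun k _ => Finset.sum_comm
    rw [Matrix.mul_apply, L_sum] at h0
    simp only [L_mul, L_g, Finset.sum_add_distrib, ← Finset.mul_sum, h1] at h0
    rw [Matrix.sub_apply, Matrix.add_apply, Matrix.add_apply, Matrix.mul_apply, Matrix.mul_apply,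
      Matrix.zero_apply]
    simp only [hM, Matrix.of_apply, mul_comm (D.L _)]
    linear_combination h0
  have e : M = -1 + D.τ * D.Γ * D.τ + D.τ * D.H * D.τ := by
    have h2 := congrArg (· * D.τ) h
    simp only [Matrix.sub_mul, Matrix.add_mul, Matrix.mul_sub, Matrix.mul_add, Matrix.zero_mul,
      ← Matrix.mul_assoc D.τ D.g, D.τg, Matrix.one_mul, Matrix.mul_assoc M, D.gτ,
      Matrix.mul_one] at h2
    rw [← sub_eq_zero, ← h2]
    abel
  exact congrFun (congrFun e a) b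

theorem L_third (a b c : Fin n) :
    D.L (pd a (pd b (pd c D.ζ))) =
      ∑ k, (D.g a k * pd k (pd b (pd c D.ζ)) + D.g b k * pd a (pd k (pd c D.ζ))
        + D.g c k * pd a (pd b (pd k D.ζ)))
      + ((D.τ * hess (pd a D.ζ) * D.τ * hess (pd b (pd c D.ζ))).trace
        + (D.τ * hess (pd b D.ζ) * D.τ * hess (pd a (pd c D.ζ))).trace
        + (D.τ * hess (pd c D.ζ) * D.τ * hess (pd a (pd b D.ζ))).trace)
      - ((D.τ * hess (pd a D.ζ) * D.τ * hess (pd b D.ζ) * D.τ * hess (pd c D.ζ)).trace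
        + (D.τ * hess (pd b D.ζ) * D.τ * hess (pd a D.ζ) * D.τ * hess (pd c D.ζ)).trace)
      - pd a (pd b (pd c D.V)) := by
  have h := D.pd_L a (pd b (pd c D.ζ))
  have h1 := D.L_hess b c
  have h2 : pd a (2 * pd b (pd c D.ζ)) = 2 * pd a (pd b (pd c D.ζ)) := by
    rw [two_mul, two_mul, map_add]
  have h3 : pd a ((hess D.ζ * hess D.ζ) b c) = ∑ k, (pd b (pd k D.ζ) * pd a (pd k (pd c D.ζ)) +
      pd c (pd k D.ζ) * pd a (pd b (pd k D.ζ))) := by
    simp only [Matrix.mul_apply, hess_apply, map_sum, pd_mul]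
    exact Finset.sum_congr rfl fun k _ => by rw [pd_comm k c]; ring
  have h4 : ∑ k, (D.g a k * pd k (pd b (pd c D.ζ)) + D.g b k * pd a (pd k (pd c D.ζ))
        + D.g c k * pd a (pd b (pd k D.ζ))) = 3 * pd a (pd b (pd c D.ζ)) +
      ∑ k, pd a (pd k D.ζ) * pd k (pd b (pd c D.ζ)) +
      ∑ k, (pd b (pd k D.ζ) * pd a (pd k (pd c D.ζ)) +
        pd c (pd k D.ζ) * pd a (pd b (pd k D.ζ))) := by
    simp only [g, Matrix.add_apply, hess_apply, add_mul, Finset.sum_add_distrib, Matrix.one_apply,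
      ite_mul, one_mul, zero_mul, Finset.sum_ite_eq, Finset.mem_univ, if_true]
    ring
  rw [hess_apply, hess_apply, Γ, Matrix.of_apply] at h1
  rw [h1, con_eq_trace, pdM_τ, map_sub, map_add, map_add, pd_trace, h2, h3] at h
  simp only [pdM_mul, pdM_τ, pdM_hess, Matrix.add_mul, Matrix.neg_mul, Matrix.mul_neg,
    Matrix.trace_add, Matrix.trace_neg, ← Matrix.mul_assoc, hess_apply] at h
  have e : (D.τ * hess (pd a (pd b D.ζ)) * D.τ * hess (pd c D.ζ)).trace =
      (D.τ * hess (pd c D.ζ) * D.τ * hess (pd a (pd b D.ζ))).trace := by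
    rw [Matrix.mul_assoc, Matrix.trace_mul_comm, ← Matrix.mul_assoc]
  rw [h4]
  linear_combination e - h

/-- `v Γ v = tr(τ G τ G)`, `G = ∑ v_a g_a`; `trace_conj_nonneg`. -/
theorem Γ_low : Low 0 D.Γ := by
  intro x v
  have h := trace_conj_nonneg (D.τ_posDef x).posSemidef
    (S := ∑ a, v a • evM x (hess (pd a D.ζ))) (by
      simp only [Matrix.transpose_sum, Matrix.transpose_smul, ← evM_transpose, hess_transpose])
  rw [zero_mul]
  refine h.trans_eq ?_
  simp only [Matrix.mul_sum, Matrix.sum_mul, Matrix.mul_smul, Matrix.smul_mul, Matrix.trace_sum,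
    Matrix.trace_smul, smul_eq_mul, dotProduct, Matrix.mulVec, evM_apply, Γ, Matrix.of_apply,
    ev_trace, evM_mul, Finset.mul_sum]
  rw [Finset.sum_comm]
  exact Finset.sum_congr rfl fun a _ => Finset.sum_congr rfl fun b _ => by ring

/-- `L ψ = div_μ (τ ∇ψ)`. -/
theorem L_eq_div (ψ : Sm n) :
    D.L ψ = ∑ a, (pd a (∑ b, D.τ a b * pd b ψ) - (X a + pd a D.V) * ∑ b, D.τ a b * pd b ψ) := by
  have e : ∑ a, D.p a * pd a ψ =
      -∑ b, (∑ a, (pd a (D.τ a b) - (X a + pd a D.V) * D.τ a b)) * pd b ψ := by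
    simp only [D.div_τ, neg_mul, Finset.sum_neg_distrib, neg_neg]
  rw [L_eq, e, sub_neg_eq_add, con]
  simp only [Finset.sum_mul, map_sum, pd_mul, Finset.mul_sum]
  rw [Finset.sum_comm (f := fun b a => (pd a (D.τ a b) - (X a + pd a D.V) * D.τ a b) * pd b ψ),
    ← Finset.sum_add_distrib]
  refine Finset.sum_congr rfl fun a _ => ?_
  rw [← Finset.sum_add_distrib, ← Finset.sum_sub_distrib]
  exact Finset.sum_congr rfl fun b _ => by ring

/-- `L` is symmetric in `L²(e^{-W})`: `Iw_pd` for `f τ_ab ∂_b h` and `div_τ`. -/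
theorem Iw_mul_L {f h : Sm n} (hf : Tm f) (hh : Tm h) :
    Iw D.V (f * D.L h) = -Iw D.V (gam D.τ f h) := by
  have hτ : TmM D.τ := D.sym0τ.tmM
  have hw : ∀ a, Tm (f * ∑ b, D.τ a b * pd b h) := fun a =>
    hf.mul (Tm.sum _ fun b _ => (hτ a b).mul (hh.pd b))
  have hX : ∀ a, Tm ((X a + pd a D.V) * (f * ∑ b, D.τ a b * pd b h)) := fun a =>
    ((tm_X a).add (D.symV.tm.pd a)).mul (hw a)
  have e : f * D.L h = ∑ a, (pd a (f * ∑ b, D.τ a b * pd b h) -
      (X a + pd a D.V) * (f * ∑ b, D.τ a b * pd b h)) - gam D.τ f h := by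
    rw [L_eq_div, gam, Finset.mul_sum, ← Finset.sum_sub_distrib]
    refine Finset.sum_congr rfl fun a _ => ?_
    have : ∑ b, D.τ a b * pd a f * pd b h = pd a f * ∑ b, D.τ a b * pd b h := by
      rw [Finset.mul_sum]
      exact Finset.sum_congr rfl fun b _ => by ring
    rw [pd_mul, this]
    ring
  rw [e, Iw_sub D.symV (Tm.sum _ fun a _ => ((hw a).pd a).sub (hX a)) (Tm.gam hτ hf hh),
    Iw_sum D.symV _ fun a _ => ((hw a).pd a).sub (hX a), Finset.sum_eq_zero, zero_sub]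
  intro a _
  rw [Iw_sub D.symV ((hw a).pd a) (hX a), Iw_pd D.symV (hw a), sub_self]

theorem Iw_L {h : Sm n} (hh : Tm h) : Iw D.V (D.L h) = 0 := by
  have h1 := D.Iw_mul_L tm_one hh
  have e : gam D.τ 1 h = 0 := by simp [gam]
  rwa [one_mul, e, Iw_zero, neg_zero] at h1

/-- Stein identity `E τ ∇f = E f ∇u`. -/
theorem Iw_stein {f : Sm n} (hf : Tm f) (b : Fin n) :
    Iw D.V (∑ a, D.τ a b * pd a f) = Iw D.V (D.p b * f) := by
  have h := D.Iw_mul_L hf (tm_X b)
  have e : gam D.τ f (X b) = ∑ a, D.τ a b * pd a f := by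
    simp [gam, pd_X]
  rw [L_X, e, mul_neg, Iw_neg, neg_inj, mul_comm] at h
  exact h.symm

/-- Every solution is uniformly elliptic (with constants depending on the solution). -/
theorem exists_ell : ∃ c K, 0 < c ∧ 0 ≤ K ∧ Ell c K D.τ ∧ Ell c K D.g := by
  obtain ⟨K1, hK1, h1⟩ := D.sym0τ.JM_le 0
  obtain ⟨K2, hK2, h2⟩ := D.sym0g.JM_le 0
  have b1 : ∀ x a b, |ev x (D.τ a b)| ≤ K1 + K2 := fun x a b => by
    have := (abs_le_J 0 _ x).trans ((J_le_JM 0 D.τ a b x).trans (h1 x))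
    rw [Real.rpow_zero, mul_one] at this
    linarith
  have b2 : ∀ x a b, |ev x (D.g a b)| ≤ K1 + K2 := fun x a b => by
    have := (abs_le_J 0 _ x).trans ((J_le_JM 0 D.g a b x).trans (h2 x))
    rw [Real.rpow_zero, mul_one] at this
    linarith
  have hΛ : (0 : ℝ) < n * (K1 + K2) + 1 := by positivity
  have up : ∀ {A : RM n}, (∀ a b, |A a b| ≤ K1 + K2) → ∀ v : E n,
      v ⬝ᵥ (A *ᵥ v) ≤ (n * (K1 + K2) + 1) * (v ⬝ᵥ v) := fun h v => by
    have := (le_abs_self _).trans (abs_quad_le h v)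
    have := dot_self_nonneg v
    nlinarith
  exact ⟨(n * (K1 + K2) + 1)⁻¹, K1 + K2, inv_pos.2 hΛ, by positivity,
    ⟨D.τ_symm, fun x v => inv_low (D.g_posDef x) (evM_inv D.τg x) hΛ (up (b2 x)) v, b1⟩,
    ⟨D.g_symm, fun x v => inv_low (D.τ_posDef x) (evM_inv D.gτ x) hΛ (up (b1 x)) v, b2⟩⟩

end BR

end Crest.Agent.R253
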