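import Crest.Agent.R253.PDefs

/-!
# Row 253, PDE part: exponential tails of log-concave densities
-/

set_option autoImplicit false
open MeasureTheory Matrix Filter Topology
open scoped ContDiff BigOperators

noncomputable section
namespace Crest.Agent.R253
open Crest.Agent.R238

variable {n : ℕ}

theorem plc1_int {f : E n → ℝ} (hf : LC f) : Integrable f :=
  Integrable.of_integral_ne_zero (by rw [hf.int]; exact one_ne_zero)

theorem plc1_mid {f : E n → ℝ} (hf : LC f) {x₀ y z : E n} {ρ m : ℝ} (hm : 0 < m)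
    (hb : ∀ x ∈ Metric.ball x₀ ρ, m ≤ f x) (hy : 0 < f y)
    (hz : z ∈ Metric.ball ((1 / 2 : ℝ) • (x₀ + y)) (ρ / 2)) :
    Real.exp ((Real.log m + Real.log (f y)) / 2) ≤ f z := by
  have hw : (2 : ℝ) • z - y ∈ Metric.ball x₀ ρ := by
    rw [mem_ball_iff_norm] at hz ⊢
    have e : (2 : ℝ) • z - y - x₀ = (2 : ℝ) • (z - (1 / 2 : ℝ) • (x₀ + y)) := by module
    rw [e, norm_smul, Real.norm_two]
    linarith
  have h1 := hb _ hw
  have h2 : 0 < f ((2 : ℝ) • z - y) := hm.trans_le h1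
  have e : (1 / 2 : ℝ) • ((2 : ℝ) • z - y) + (1 / 2 : ℝ) • y = z := by module
  have h3 := hf.conv h2 hy (a := 1 / 2) (b := 1 / 2) (by norm_num) (by norm_num) (by norm_num)
  have h4 := hf.conc.2 h2 hy (show (0 : ℝ) ≤ 1 / 2 by norm_num) (show (0 : ℝ) ≤ 1 / 2 by norm_num)
    (by norm_num)
  rw [e] at h3 h4
  rw [← Real.le_log_iff_exp_le h3]
  simp only [smul_eq_mul] at h4
  linarith [Real.log_le_log hm h1]

/-- The support is convex of positive measure, so it has an interior point `x₀`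
(`Convex.addHaar_frontier` or `Convex.interior_nonempty_iff_affineSpan_eq_top` +
`Measure.addHaar_affineSubspace`), and `log f` is continuous there (`ConcaveOn.continuousOn_interior`). -/
theorem lc_ball {f : E n → ℝ} (hf : LC f) :
    ∃ (x₀ : E n) (ρ m : ℝ), 0 < ρ ∧ 0 < m ∧ ∀ x ∈ Metric.ball x₀ ρ, m ≤ f x := by
  have hne : (interior {x | 0 < f x}).Nonempty := by
    by_contra h
    rw [Set.not_nonempty_iff_eq_empty] at h
    have h0 : volume {x | 0 < f x} = 0 := by
      refine measure_mono_null ?_ (hf.conv.addHaar_frontier volume)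
      rw [frontier, h, Set.sdiff_empty]
      exact subset_closure
    have h1 : f =ᵐ[volume] 0 :=
      measure_mono_null (fun x hx => lt_of_le_of_ne (hf.nonneg x) (Ne.symm hx)) h0
    have := hf.int
    rw [integral_congr_ae h1] at this
    simp at this
  obtain ⟨x₀, hx₀⟩ := hne
  have hc := hf.conc.continuousOn_interior.continuousAt (isOpen_interior.mem_nhds hx₀)
  have h1 : ∀ᶠ x in 𝓝 x₀, Real.log (f x₀) - 1 < Real.log (f x) :=
    hc.eventually (lt_mem_nhds (by linarith))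
  obtain ⟨ρ, hρ, h2⟩ := Metric.eventually_nhds_iff_ball.1
    (h1.and (mem_interior_iff_mem_nhds.1 hx₀))
  exact ⟨x₀, ρ, Real.exp (Real.log (f x₀) - 1), hρ, Real.exp_pos _, fun x hx =>
    (Real.le_log_iff_exp_le (h2 x hx).2).1 (h2 x hx).1.le⟩

/-- If `f y > 0`, then `f ≥ √(m f y)` on the ball of radius `ρ/2` around `(x₀ + y)/2`, and `∫ f = 1`
(`f` is integrable since its integral is not `0`). -/
theorem lc_bdd {f : E n → ℝ} (hf : LC f) : ∃ M, ∀ y, f y ≤ M := by
  obtain ⟨x₀, ρ, m, hρ, hm, hb⟩ := lc_ball hf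
  have hv : 0 < volume.real (Metric.ball (0 : E n) (ρ / 2)) :=
    ENNReal.toReal_pos (Metric.measure_ball_pos _ _ (by positivity)).ne' measure_ball_lt_top.ne
  set v := volume.real (Metric.ball (0 : E n) (ρ / 2)) with hvdef
  refine ⟨Real.exp (2 * Real.log (1 / v) - Real.log m), fun y => ?_⟩
  rcases (hf.nonneg y).eq_or_lt with h0 | hy
  · rw [← h0]; positivity
  set c := Real.exp ((Real.log m + Real.log (f y)) / 2) with hc
  have hc0 : 0 < c := Real.exp_pos _
  have h1 := mul_meas_ge_le_integral_of_nonneg (ae_of_all _ hf.nonneg) (plc1_int hf) c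
  have h2 : v ≤ volume.real {x | c ≤ f x} := by
    rw [hvdef, measureReal_def, ← Measure.addHaar_ball_center volume ((1 / 2 : ℝ) • (x₀ + y))]
    exact measureReal_mono (fun z hz => plc1_mid hf hm hb hy hz)
      ((plc1_int hf).measure_ge_lt_top hc0).ne
  have h3 : c ≤ 1 / v := by
    rw [le_div_iff₀ hv, ← hf.int]
    exact (mul_le_mul_of_nonneg_left h2 hc0.le).trans h1
  rw [hc, ← Real.le_log_iff_exp_le (by positivity)] at h3
  rw [← Real.log_le_iff_le_exp hy]
  linarith

theorem plc1_level {f : E n → ℝ} (hf : LC f) {x₀ : E n} {ρ m c : ℝ} (hρ : 0 < ρ) (hc : 0 < c)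
    (hm : c ≤ m) (hb : ∀ x ∈ Metric.ball x₀ ρ, m ≤ f x) :
    ∃ R : ℝ, 0 < R ∧ ∀ y, c ≤ f y → ‖y - x₀‖ < R := by
  set s : ℕ → Set (E n) := fun k => {x | c ≤ f x} ∩ (Metric.ball x₀ k)ᶜ with hs
  have h1 : Tendsto (volume ∘ s) atTop (𝓝 (volume (⋂ k, s k))) := by
    refine tendsto_measure_iInter_atTop (fun k => ?_) (fun k l hkl => ?_) ⟨0, ?_⟩
    · exact ((measurableSet_le measurable_const hf.meas).inter
        measurableSet_ball.compl).nullMeasurableSet
    · exact Set.inter_subset_inter_right _ (Set.compl_subset_compl.2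
        (Metric.ball_subset_ball (by exact_mod_cast hkl)))
    · exact ((measure_mono Set.inter_subset_left).trans_lt
        ((plc1_int hf).measure_ge_lt_top hc)).ne
  have h2 : ⋂ k, s k = ∅ := by
    refine Set.eq_empty_of_forall_notMem fun x hx => ?_
    obtain ⟨k, hk⟩ := exists_nat_gt (dist x x₀)
    exact (Set.mem_iInter.1 hx k).2 hk
  rw [h2, measure_empty] at h1
  obtain ⟨k, hk⟩ := (h1.eventually (gt_mem_nhds
    (Metric.measure_ball_pos volume (0 : E n) (half_pos hρ)))).exists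
  refine ⟨2 * k + ρ, by positivity, fun y hy => ?_⟩
  by_contra hR
  refine absurd hk (not_lt.2 ?_)
  rw [← Measure.addHaar_ball_center volume ((1 / 2 : ℝ) • (x₀ + y))]
  refine measure_mono fun z hz => ⟨?_, fun hz' => ?_⟩
  · refine le_trans ?_ (plc1_mid hf (hc.trans_le hm) hb (hc.trans_le hy) hz)
    rw [← Real.log_le_iff_le_exp hc]
    linarith [Real.log_le_log hc hm, Real.log_le_log hc hy]
  · rw [mem_ball_iff_norm] at hz hz'
    have e : y - x₀ = (2 : ℝ) • ((z - x₀) - (z - (1 / 2 : ℝ) • (x₀ + y))) := by module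
    rw [e, norm_smul, Real.norm_two] at hR
    linarith [norm_sub_le (z - x₀) (z - (1 / 2 : ℝ) • (x₀ + y))]

/-- The convex set `S = {f ≥ m/e}` has measure `≤ e/m` and contains the ball; if `y ∈ S`, it contains the
balls of radius `ρ/2` around `x₀ + s (y - x₀)`, `0 ≤ s ≤ 1/2`, of which `N` are disjoint when
`‖y - x₀‖ ≥ 2 N ρ`; so `S ⊆ ball x₀ R`. For `‖y - x₀‖ ≥ R` with `f y > 0` concavity along the segment gives
`log f y ≤ log f x₀ - ‖y - x₀‖ / R`. Use `lc_bdd` inside the ball. (`n = 0` is fine: `‖y‖ = 0`.) -/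
theorem lc_tail {f : E n → ℝ} (hf : LC f) :
    ∃ α β : ℝ, 0 < β ∧ ∀ y, f y ≤ Real.exp (α - β * ‖y‖) := by
  obtain ⟨x₀, ρ, m, hρ, hm, hb⟩ := lc_ball hf
  obtain ⟨M, hM⟩ := lc_bdd hf
  have hc : Real.exp (Real.log m - 1) ≤ m := by
    rw [← Real.le_log_iff_exp_le hm]; linarith
  obtain ⟨R, hR, h⟩ := plc1_level hf hρ (Real.exp_pos _) hc hb
  refine ⟨|M| + |Real.log m| + 1 + 1 / R * ‖x₀‖, 1 / R, by positivity, fun y => ?_⟩
  rcases (hf.nonneg y).eq_or_lt with h0 | hy
  · rw [← h0]; positivity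
  have t1 : 1 / R * ‖y‖ ≤ 1 / R * ‖x₀‖ + ‖y - x₀‖ / R := by
    have := mul_le_mul_of_nonneg_left (norm_le_insert' y x₀) (show 0 ≤ 1 / R by positivity)
    calc _ ≤ _ := this
      _ = _ := by ring
  rcases lt_or_ge ‖y - x₀‖ R with hlt | hge
  · have t2 : ‖y - x₀‖ / R ≤ 1 := (div_le_one hR).2 hlt.le
    refine (hM y).trans (le_trans ?_ (Real.add_one_le_exp _))
    linarith [le_abs_self M, abs_nonneg (Real.log m)]
  have hd : 0 < ‖y - x₀‖ := hR.trans_le hge
  set t := R / ‖y - x₀‖ with ht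
  have ht0 : 0 < t := by positivity
  have ht1 : t ≤ 1 := (div_le_one hd).2 hge
  have hx := hb x₀ (Metric.mem_ball_self hρ)
  have h3 := hf.conv (hm.trans_le hx) hy (a := 1 - t) (b := t) (by linarith) ht0.le (by ring)
  have h4 := hf.conc.2 (hm.trans_le hx) hy (sub_nonneg.2 ht1) ht0.le (by ring)
  have h5 : Real.log (f ((1 - t) • x₀ + t • y)) < Real.log m - 1 := by
    rw [Real.log_lt_iff_lt_exp h3]
    by_contra hc'
    have := h _ (not_lt.1 hc')
    rw [show (1 - t) • x₀ + t • y - x₀ = t • (y - x₀) by module, norm_smul,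
      Real.norm_of_nonneg ht0.le, ht, div_mul_cancel₀ _ hd.ne'] at this
    exact lt_irrefl _ this
  simp only [smul_eq_mul] at h4
  have h6 := mul_le_mul_of_nonneg_left (Real.log_le_log hm hx) (sub_nonneg.2 ht1)
  have h7 : Real.log (f y) ≤ Real.log m - ‖y - x₀‖ / R := by
    have e : t * (‖y - x₀‖ / R) = 1 := by rw [ht]; field_simp
    refine le_of_mul_le_mul_left ?_ ht0
    nlinarith
  rw [← Real.log_le_iff_le_exp hy]
  linarith [le_abs_self (Real.log m), abs_nonneg M]

end Crest.Agent.R253
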