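import Crest.Agent.R253.PLC1

/-!
# Row 253, PDE part: Lipschitz convex approximation of the potential
-/

set_option autoImplicit false
open MeasureTheory Matrix Filter Topology
open scoped ContDiff BigOperators

noncomputable section
namespace Crest.Agent.R253
open Crest.Agent.R238

variable {n : ℕ}

/-- `u k x = ⨅ y : {y // 0 < f y}, (-log (f y) + (k + β) ‖x - y‖)` (bounded below by `β ‖x‖ - α`,
`lc_tail`). Convex: `le_ciInf`-type argument with near-optimal `y₁, y₂`; Lipschitz with constant `k + β`.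
Limit: off the null set `frontier {f > 0}` (`Convex.addHaar_frontier`). At an interior point `x`:
`u k x ≤ -log f x`, and given `η`, `-log f ≥ -log f x - η` on a ball of radius `ρ` (continuity) while outside
the ball the bracket is `≥ -α + k ρ`. At a point outside the closure: `u k x ≥ -α + k dist`, `f x = 0`. -/
theorem lc_lip {f : E n → ℝ} (hf : LC f) : ∃ (α β : ℝ) (u : ℕ → E n → ℝ), 0 < β ∧
    (∀ k, ConvexOn ℝ Set.univ (u k)) ∧ (∀ k, ∃ L, LipschitzWith L (u k)) ∧
    (∀ k y, β * ‖y‖ - α ≤ u k y) ∧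
    ∀ᵐ y, Tendsto (fun k => Real.exp (-u k y)) atTop (𝓝 (f y)) := by
  obtain ⟨α, β, hβ, ht⟩ := lc_tail hf
  obtain ⟨x₀, ρ₀, m, hρ₀, hm, hx₀⟩ := lc_ball hf
  have hne : Nonempty {y : E n // 0 < f y} := ⟨⟨x₀, hm.trans_le (hx₀ _ (Metric.mem_ball_self hρ₀))⟩⟩
  obtain ⟨F, hF⟩ : ∃ F : ℕ → E n → {y : E n // 0 < f y} → ℝ,
      ∀ k x y, F k x y = -Real.log (f y) + (k + β) * ‖x - y‖ := ⟨_, fun _ _ _ => rfl⟩
  have hlow : ∀ (k : ℕ) x y, β * ‖x‖ - α + k * ‖x - y.1‖ ≤ F k x y := fun k x y => by
    have a := Real.log_le_log y.2 (ht y)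
    rw [Real.log_exp] at a
    have b : ‖x‖ ≤ ‖y.1‖ + ‖x - y.1‖ := by
      simpa using norm_add_le y.1 (x - y.1)
    have c := mul_le_mul_of_nonneg_left b hβ.le
    rw [hF]
    linarith
  have hlow' : ∀ (k : ℕ) x y, β * ‖x‖ - α ≤ F k x y := fun k x y =>
    le_trans (le_add_of_nonneg_right (by positivity)) (hlow k x y)
  have hle : ∀ (k : ℕ) x y, ⨅ y, F k x y ≤ F k x y := fun k x y =>
    ciInf_le ⟨β * ‖x‖ - α, by rintro _ ⟨y, rfl⟩; exact hlow' k x y⟩ y
  have hK : ∀ k : ℕ, (0 : ℝ) ≤ k + β := fun k => by positivity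
  refine ⟨α, β, fun k x => ⨅ y, F k x y, hβ, fun k => ⟨convex_univ, ?_⟩, fun k => ?_,
    fun k x => le_ciInf (hlow' k x), ?_⟩
  · intro x₁ _ x₂ _ a b ha hb hab
    refine le_of_forall_pos_le_add fun ε hε => ?_
    obtain ⟨y₁, h₁⟩ := exists_lt_of_ciInf_lt (lt_add_of_pos_right (⨅ y, F k x₁ y) hε)
    obtain ⟨y₂, h₂⟩ := exists_lt_of_ciInf_lt (lt_add_of_pos_right (⨅ y, F k x₂ y) hε)
    refine (hle k _ ⟨a • y₁.1 + b • y₂.1, hf.conv y₁.2 y₂.2 ha hb hab⟩).trans ?_
    have c := hf.conc.2 y₁.2 y₂.2 ha hb hab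
    have d : ‖a • x₁ + b • x₂ - (a • y₁.1 + b • y₂.1)‖ ≤ a * ‖x₁ - y₁.1‖ + b * ‖x₂ - y₂.1‖ := by
      have e : a • x₁ + b • x₂ - (a • y₁.1 + b • y₂.1) = a • (x₁ - y₁.1) + b • (x₂ - y₂.1) := by
        rw [smul_sub, smul_sub]
        abel
      rw [e]
      refine (norm_add_le _ _).trans (le_of_eq ?_)
      rw [norm_smul, norm_smul, Real.norm_of_nonneg ha, Real.norm_of_nonneg hb]
    have d' := mul_le_mul_of_nonneg_left d (hK k)
    have e₁ := mul_le_mul_of_nonneg_left h₁.le ha
    have e₂ := mul_le_mul_of_nonneg_left h₂.le hb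
    have e₃ : a * ε + b * ε = ε := by rw [← add_mul, hab, one_mul]
    rw [hF] at e₁ e₂ ⊢
    simp only [smul_eq_mul] at c ⊢
    linarith
  · refine ⟨⟨k + β, hK k⟩, LipschitzWith.of_le_add_mul _ fun x x' => ?_⟩
    rw [← sub_le_iff_le_add]
    refine le_ciInf fun y => ?_
    have a := hle k x y
    have b := mul_le_mul_of_nonneg_left (norm_sub_le_norm_sub_add_norm_sub x x' y.1) (hK k)
    change (⨅ y, F k x y) - (k + β) * dist x x' ≤ _
    rw [hF] at a ⊢
    rw [dist_eq_norm]
    linarith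
  · have hfr : ∀ᵐ x, x ∉ frontier {x | 0 < f x} :=
      measure_eq_zero_iff_ae_notMem.1 (hf.conv.addHaar_frontier volume)
    filter_upwards [hfr] with x hx
    by_cases hcl : x ∈ closure {x | 0 < f x}
    · have hi : x ∈ interior {x | 0 < f x} := by
        by_contra hcon
        exact hx ⟨hcl, hcon⟩
      have hfx : 0 < f x := interior_subset (s := {x | 0 < f x}) hi
      have hc := hf.conc.continuousOn_interior.continuousAt (isOpen_interior.mem_nhds hi)
      have lim : Tendsto (fun k => ⨅ y, F k x y) atTop (𝓝 (-Real.log (f x))) := by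
        refine Metric.tendsto_atTop.2 fun η hη => ?_
        obtain ⟨ρ, hρ, h1⟩ := Metric.continuousAt_iff.1 hc (η / 2) (by positivity)
        obtain ⟨N, hN⟩ := exists_nat_ge ((α - Real.log (f x)) / ρ)
        refine ⟨N, fun k hk => ?_⟩
        have a := hle k x ⟨x, hfx⟩
        rw [hF, sub_self, norm_zero, mul_zero, add_zero] at a
        have b : -Real.log (f x) - η / 2 ≤ ⨅ y, F k x y := by
          refine le_ciInf fun y => ?_
          by_cases hy : dist y.1 x < ρ
          · have c := h1 hy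
            rw [Real.dist_eq] at c
            have d := mul_nonneg (hK k) (norm_nonneg (x - y.1))
            rw [hF]
            linarith [(abs_lt.1 c).2]
          · rw [not_lt, dist_comm, dist_eq_norm] at hy
            have c := hlow k x y
            have d : (N : ℝ) ≤ k := by exact_mod_cast hk
            have e := (div_le_iff₀ hρ).1 (hN.trans d)
            have e' := mul_le_mul_of_nonneg_left hy (Nat.cast_nonneg (α := ℝ) k)
            have e'' := mul_nonneg hβ.le (norm_nonneg x)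
            linarith
        rw [Real.dist_eq, abs_lt]
        constructor <;> linarith
      have := (Real.continuous_exp.tendsto _).comp lim.neg
      rwa [neg_neg, Real.exp_log hfx] at this
    · have hfx : f x = 0 := le_antisymm (not_lt.1 fun h => hcl (subset_closure h)) (hf.nonneg x)
      rw [Metric.mem_closure_iff] at hcl
      push Not at hcl
      obtain ⟨ρ, hρ, h1⟩ := hcl
      rw [hfx]
      refine Real.tendsto_exp_neg_atTop_nhds_zero.comp (tendsto_atTop_mono (f := fun k : ℕ => -α + k * ρ)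
        (fun k => le_ciInf fun y => ?_) ?_)
      · have c := hlow k x y
        have d := h1 y.1 y.2
        rw [dist_eq_norm] at d
        have e' := mul_le_mul_of_nonneg_left d (Nat.cast_nonneg (α := ℝ) k)
        have e'' := mul_nonneg hβ.le (norm_nonneg x)
        linarith
      · exact tendsto_atTop_add_const_left _ _ (tendsto_natCast_atTop_atTop.atTop_mul_const hρ)

end Crest.Agent.R253
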