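import Crest.Agent.R253.PC2
import Crest.Agent.R253.PCalabi
import Crest.Agent.R253.PBern1
import Crest.Agent.R253.PBern2

/-!
# Row 253, PDE part: pointwise a priori estimates (port of the first half of `R238.NL`)
-/

set_option autoImplicit false
open MeasureTheory Matrix Filter Topology
open scoped ContDiff BigOperators

noncomputable section
namespace Crest.Agent.R253
open Crest.Agent.R238

variable {n : ℕ}

theorem nl_indB (n : ℕ) {c : ℝ} (hc : 0 < c) {K : ℝ} (l : ℕ) : ∃ C, K ≤ C ∧ ∀ D : BR n,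
    Ell c K D.τ → (∀ x, d 1 D.ζ x ≤ K * r x ^ (-1 / 2 : ℝ)) →
    (∀ i < 2, ∀ x, d (i + 2) D.ζ x ≤ K * r x ^ (-5 / 4 - (i : ℝ))) →
    (∀ i < l + 2, ∀ x, d (i + 2) D.V x ≤ K * r x ^ (-5 / 4 - (i : ℝ))) →
    ∀ i < l + 2, ∀ x, d (i + 2) D.ζ x ≤ C * r x ^ (-5 / 4 - (i : ℝ)) := by
  induction l with
  | zero => exact ⟨K, le_rfl, fun D _ _ h _ => h⟩
  | succ l ih =>
    obtain ⟨C, hC, h⟩ := ih
    obtain ⟨C', hC', h'⟩ := bern_stepB n hc C (show 2 ≤ l + 2 by omega)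
    refine ⟨max C C', hC.trans (le_max_left _ _), fun D hE h0 h1 h2 i hi x => ?_⟩
    have h3 := h D hE h0 h1 fun i hi => h2 i (by omega)
    rcases Nat.lt_succ_iff_lt_or_eq.1 hi with h4 | rfl
    · exact (h3 i h4 x).trans
        (mul_le_mul_of_nonneg_right (le_max_left _ _) (r_rpow_pos x _).le)
    · exact (h' D (hE.mono le_rfl hC) (fun x => (h0 x).trans
        (mul_le_mul_of_nonneg_right hC (r_rpow_pos x _).le)) h3
        (fun i hi x => (h2 i (by omega) x).trans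
        (mul_le_mul_of_nonneg_right hC (r_rpow_pos x _).le)) x).trans
        (mul_le_mul_of_nonneg_right (le_max_right _ _) (r_rpow_pos x _).le)

theorem nl_le_of_rpowB {a K s : ℝ} {x : E n} (hK : 0 ≤ K) (hs : s ≤ 0) (h : a ≤ K * r x ^ s) :
    a ≤ K := h.trans (mul_le_of_le_one_right hK (r_rpow_le_one x hs))

/-- `d_le_Y` gives `d (i+2) V ≤ C K r^{-5/4-i}` for `i ≤ n+1`, and `J_le_Y`, `d_le_J` give
`d 1 V ≤ K r⁻¹` (if `n = 0` everything is an empty sum). Then `c2_boundsB`, `c1_decay`, `c2_decayB`,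
`calabiB`, `bern_oneB`, and `bern_stepB` by induction on `l ≤ n+1` (cf. `R238.nl_ind`). Finally
`JM (n+1) (hess ζ) = ∑ r^i a_i` (`lin_JM_hess`) and
`J (n+2) ζ_a ≤ |ζ_a| + r JM (n+1) (hess ζ)` (`J_succ`). -/
theorem apriori_supB (n : ℕ) {ε : ℝ} (hε : 0 < ε) (K : ℝ) : ∃ c K', 0 < c ∧ 0 ≤ K' ∧ ∀ D : BR n,
    Low ε D.H → Y D.V ≤ K → Ell c K' D.τ ∧ Ell c K' D.g ∧
      (∀ x, JM (n + 1) (hess D.ζ) x ≤ K' * r x ^ (-5 / 4 : ℝ)) ∧
      ∀ a x, J (n + 2) (pd a D.ζ) x ≤ K' * r x ^ (-1 / 4 : ℝ) := by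
  obtain ⟨C₀, hC₀, h₀⟩ := d_le_Y n
  obtain ⟨K₁, hK₁, hV, hV1⟩ : ∃ K₁, 0 ≤ K₁ ∧ (∀ D : BR n, Y D.V ≤ K →
      ∀ i < n + 2, ∀ x, d (i + 2) D.V x ≤ K₁ * r x ^ (-5 / 4 - (i : ℝ))) ∧
      ∀ D : BR n, Y D.V ≤ K → ∀ x, d 1 D.V x ≤ K₁ * r x ^ (-1 / 2 : ℝ) := by
    have hK0 := abs_nonneg K
    have hp : 0 ≤ C₀ * |K| := by positivity
    refine ⟨C₀ * |K| + |K|, by positivity,
      fun D hD i hi x => (h₀ _ D.symV _ (by omega) x).trans ?_, fun D hD x => ?_⟩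
    · refine mul_le_mul ((mul_le_mul_of_nonneg_left (hD.trans (le_abs_self K)) hC₀).trans
        (by linarith)) (r_rpow_mono x ?_) (r_rpow_pos x _).le (by positivity)
      push_cast
      linarith
    · have h1 := ((d_le_J (show 1 ≤ n + 1 by omega) D.V x).trans (J_le_Y D.symV x)).trans
        (hD.trans (le_abs_self K))
      have h2 : d 1 D.V x ≤ |K| * r x ^ (-1 : ℝ) := by
        rw [Real.rpow_neg_one, ← div_eq_mul_inv, le_div_iff₀ (r_pos x)]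
        linarith
      exact h2.trans (mul_le_mul (by linarith) (r_rpow_mono x (by norm_num)) (r_rpow_pos x _).le
        (by positivity))
  obtain ⟨c, K₂, hc, hK₂, h₂⟩ := c2_boundsB n hε K₁
  obtain ⟨C₁, hC₁, h₁⟩ := c1_decay n (K₁ + K₂)
  obtain ⟨C₂, hC₂, h₃⟩ := c2_decayB n (K₁ + K₂)
  obtain ⟨C₃, hC₃, h₄⟩ := calabiB n hc (K₁ + K₂)
  obtain ⟨C₄, hC₄, h₅⟩ := bern_oneB n hc (K₁ + K₂ + C₁ + C₂ + C₃)
  obtain ⟨C₅, hC₅, h₆⟩ := nl_indB n hc (K := K₁ + K₂ + C₁ + C₂ + C₄) n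
  have hC₅0 : 0 ≤ C₅ := by linarith
  refine ⟨c, K₂ + C₁ + ((n : ℝ) + 2) * C₅, hc, by positivity, fun D hH hY => ?_⟩
  have hle : ∀ {a A B s : ℝ} {x : E n}, a ≤ A * r x ^ s → A ≤ B → a ≤ B * r x ^ s :=
    fun h1 h2 => h1.trans (mul_le_mul_of_nonneg_right h2 (r_rpow_pos _ _).le)
  have v1 := hV1 D hY
  have v2 : ∀ x, d 2 D.V x ≤ K₁ * r x ^ (-5 / 4 : ℝ) := fun x => by
    simpa using hV D hY 0 (by omega) x
  have v3 : ∀ x, d 3 D.V x ≤ K₁ * r x ^ (-9 / 4 : ℝ) := fun x => by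
    have h1 := hV D hY 1 (by omega) x
    rwa [show (-5 / 4 - ((1 : ℕ) : ℝ)) = -9 / 4 by norm_num] at h1
  obtain ⟨eτ, eg⟩ := h₂ D hH fun x => nl_le_of_rpowB hK₁ (by norm_num) (v2 x)
  have z1 := h₁ D (eτ.mono hc.le (by linarith)) fun x => hle (v1 x) (by linarith)
  have z2 := h₃ D (eτ.mono hc.le (by linarith)) (eg.mono hc.le (by linarith))
    (fun x => (nl_le_of_rpowB hK₁ (by norm_num) (v1 x)).trans (by linarith))
    fun x => hle (v2 x) (by linarith)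
  have z3 := h₄ D (eg.mono le_rfl (by linarith)) (hH.mono hε.le)
    fun x => (nl_le_of_rpowB hK₁ (by norm_num) (v3 x)).trans (by linarith)
  have z4 := h₅ D (eτ.mono le_rfl (by linarith)) (fun x => hle (z1 x) (by linarith))
    (fun x => hle (z2 x) (by linarith))
    (fun x => (z3 x).trans (by linarith)) (fun x => hle (v2 x) (by linarith))
    (fun x => hle (v3 x) (by linarith))
  have z5 := h₆ D (eτ.mono le_rfl (by linarith)) (fun x => hle (z1 x) (by linarith))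
    (fun i hi x => ?_) (fun i hi x => hle (hV D hY i hi x) (by linarith))
  · have hp : 0 ≤ ((n : ℝ) + 2) * C₅ := by positivity
    have hJ : ∀ x, JM (n + 1) (hess D.ζ) x ≤ ((n : ℝ) + 2) * C₅ * r x ^ (-5 / 4 : ℝ) := by
      intro x
      rw [lin_JM_hess]
      refine (Finset.sum_le_card_nsmul _ _ (C₅ * r x ^ (-5 / 4 : ℝ)) fun i hi => ?_).trans
        (le_of_eq ?_)
      · calc _ ≤ r x ^ i * (C₅ * r x ^ (-5 / 4 - (i : ℝ))) :=
              mul_le_mul_of_nonneg_left (z5 i (Finset.mem_range.1 hi) x) (pow_pos (r_pos x) i).le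
          _ = C₅ * (r x ^ (i : ℝ) * r x ^ (-5 / 4 - (i : ℝ))) := by rw [Real.rpow_natCast]; ring
          _ = _ := by rw [← r_rpow_add]; congr 2; ring
      · rw [Finset.card_range, nsmul_eq_mul]
        push_cast
        ring
    refine ⟨eτ.mono le_rfl (by linarith), eg.mono le_rfl (by linarith),
      fun x => hle (hJ x) (by linarith), fun a x => ?_⟩
    rw [J_succ]
    have a1 : |ev x (pd a D.ζ)| ≤ C₁ * r x ^ (-1 / 4 : ℝ) :=
      ((abs_pd_le a _ x).trans (z1 x)).trans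
        (mul_le_mul_of_nonneg_left (r_rpow_mono x (by norm_num)) hC₁)
    have a2 : ∑ b, J (n + 1) (pd b (pd a D.ζ)) x ≤ JM (n + 1) (hess D.ζ) x :=
      Finset.sum_le_sum fun b _ => Finset.single_le_sum
        (f := fun a => J (n + 1) (hess D.ζ b a) x) (fun _ _ => J_nonneg _ _ _) (Finset.mem_univ a)
    have a3 : r x * ∑ b, J (n + 1) (pd b (pd a D.ζ)) x ≤
        ((n : ℝ) + 2) * C₅ * r x ^ (-1 / 4 : ℝ) := by
      refine (mul_le_mul_of_nonneg_left (a2.trans (hJ x)) (r_pos x).le).trans (le_of_eq ?_)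
      rw [show (-1 / 4 : ℝ) = 1 + -5 / 4 by norm_num, r_rpow_add, Real.rpow_one]
      ring
    have a4 : 0 ≤ K₂ * r x ^ (-1 / 4 : ℝ) := mul_nonneg hK₂ (r_rpow_pos x _).le
    linarith
  · interval_cases i
    · simpa using hle (z2 x) (show C₂ ≤ K₁ + K₂ + C₁ + C₂ + C₄ by linarith)
    · rw [show (-5 / 4 - ((1 : ℕ) : ℝ)) = -9 / 4 by norm_num]
      exact hle (z4 x) (by linarith)

end Crest.Agent.R253
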