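import Crest.Agent.R253.PId
import Crest.Agent.R238.MehlerB
import Crest.Agent.R238.YNorm

/-!
# Row 253, PDE part: solvability of the linearised equation
-/

set_option autoImplicit false
open MeasureTheory Matrix Filter Topology
open scoped ContDiff BigOperators

noncomputable section
namespace Crest.Agent.R253
open Crest.Agent.R238

variable {n : ℕ}

/-- A smooth curl-free field has a smooth potential
(`Convex.exists_forall_hasFDerivAt_of_fderiv_symmetric` on `univ`, or `ψ x = ∫₀¹ ∑ x_a p_a(t x) dt`);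
`contDiff_infty` / `contDiff_succ_iff_hasFDerivAt`, `pd_eq_of_hasFDerivAt`. -/
theorem exists_potential (p : Fin n → Sm n) (h : ∀ a b, pd b (p a) = pd a (p b)) :
    ∃ ψ : Sm n, ∀ a, pd a ψ = p a := by
  obtain ⟨W, hW⟩ : ∃ W : E n → E n →L[ℝ] ℝ, W = fun x =>
      ∑ a, ev x (p a) • (ContinuousLinearMap.proj a : E n →L[ℝ] ℝ) := ⟨_, rfl⟩
  have hs : ContDiff ℝ ∞ W := by
    rw [hW]
    exact ContDiff.sum fun a _ => (ev_contDiff (p a)).smul contDiff_const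
  have hd : Differentiable ℝ W := hs.differentiable (by simp)
  have key : ∀ x u v : E n, fderiv ℝ W x u v = ∑ a, ∑ b, v a * u b * ev x (pd b (p a)) := by
    intro x u v
    have h1 : fderiv ℝ (fun y => W y v) x u = fderiv ℝ W x u v := by
      rw [fderiv_clm_apply (hd x) (differentiableAt_const v)]
      simp
    have h2 : (fun y => W y v) = fun y => ev y (∑ a, v a • p a) := by
      funext y
      simp [hW, map_sum, mul_comm]
    rw [← h1, h2, fderiv_ev, Finset.sum_comm]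
    refine Finset.sum_congr rfl fun b _ => ?_
    simp only [map_sum, Derivation.map_smul, ev_smul, Finset.mul_sum]
    exact Finset.sum_congr rfl fun a _ => by ring
  obtain ⟨f, hf⟩ := (convex_univ (𝕜 := ℝ) (E := E n)).exists_forall_hasFDerivAt_of_fderiv_symmetric
    isOpen_univ hd.differentiableOn fun x _ u v => by
      rw [key, key, Finset.sum_comm]
      refine Finset.sum_congr rfl fun a _ => Finset.sum_congr rfl fun b _ => ?_
      rw [h a b]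
      ring
  have hc : ContDiff ℝ ∞ f := contDiff_infty_iff_fderiv.2
    ⟨fun x => (hf x trivial).differentiableAt, by
      rw [show fderiv ℝ f = W from funext fun x => (hf x trivial).fderiv]
      exact hs⟩
  refine ⟨Sm.of f hc, fun a => Sm.ext fun x =>
    pd_eq_of_hasFDerivAt (Sm.of f hc) x (fun b => ev x (p b)) ?_ a⟩
  have := hf x trivial
  rw [hW] at this
  exact this

/-- A smooth function with vanishing gradient is constant (`abs_sub_le_of_d_one` with `K = 0`). -/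
theorem eq_cst_of_pd {f : Sm n} (h : ∀ a, pd a f = 0) : ∃ c, f = cst c := by
  refine ⟨ev 0 f, Sm.ext fun x => ?_⟩
  have := abs_sub_le_of_d_one (f := f) (K := 0) (fun y => by simp [d_succ, d_zero_eq, h]) x
  rw [zero_mul, abs_nonpos_iff, sub_eq_zero] at this
  rw [this, ev_cst]

/-- `p a = -MS 1 (∂_a f)` (`Good 1`), `∂_b p_a = -MS 2 (∂_b∂_a f)` is symmetric (`pd_MS`),
`p a ∈ Sym (-7/8)` (`sym_MS`), `Top 1 (-1) (p a) = ∂_a f` (`Top_MS`). With `∂_aψ = p a`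
(`ψ ∈ Sym (1/8)` by `sym_prim`), `∂_a (Lop 1 ψ - f) = 0` (`pd_Lop`, `pdM_one`), and
`eul ψ = con 1 ψ - Lop 1 ψ ∈ Sym 0`. -/
theorem mehler_zero {f : Sm n} (hf : Sym 0 f) : ∃ (ψ : Sm n) (c : ℝ), Ad ψ ∧ Lop 1 ψ = f - cst c := by
  have h : ∀ a, Good 1 (pd a f) := fun a => ⟨(hf.pd a).mono (by norm_num), Or.inl one_pos⟩
  obtain ⟨p, hp⟩ : ∃ p : Fin n → Sm n, ∀ a, p a = (-1 : ℝ) • MS 1 (pd a f) (h a) :=
    ⟨_, fun _ => rfl⟩
  have hL : ∀ a, Lop 1 (p a) - p a = pd a f := fun a => by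
    have h1 : R238.Top 1 (-1) (p a) = pd a f := by
      rw [hp, Top_smul, Top_MS, neg_one_smul, neg_neg]
    rw [← h1, R238.Top, neg_one_smul, sub_eq_add_neg]
  have hd : ∀ a b, pd b (p a) = (-1 : ℝ) • MS (1 + 1) (pd b (pd a f)) ((h a).pd b) := fun a b => by
    rw [hp, Derivation.map_smul, pd_MS]
  have hs : ∀ a b, pd b (p a) = pd a (p b) := fun a b => by
    rw [hd, hd]
    congr 2
    exact pd_comm b a f
  obtain ⟨ψ, hψ⟩ := exists_potential p hs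
  have hsym : Sym (1 / 8) ψ := sym_prim (by norm_num) fun a => by
    rw [hψ, hp, show (1 / 8 : ℝ) - 1 = -(7 / 8) by norm_num]
    exact (sym_MS _ (by norm_num) (by norm_num) ((hf.pd a).mono (by norm_num))).smul _
  obtain ⟨c, hc⟩ := eq_cst_of_pd (f := f - Lop 1 ψ) fun a => by
    rw [map_sub, pd_Lop, pdM_one, hψ, hL]
    simp [con]
  have he : Lop 1 ψ = f - cst c := by rw [← hc]; ring
  refine ⟨ψ, c, ⟨hsym, ?_⟩, he⟩
  have e : eul ψ = con 1 ψ - (f - cst c) := by rw [← he, Lop]; ring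
  rw [e]
  exact ((Sym.con symM_one hsym).mono (by norm_num)).sub (hf.sub (sym_cst c))

/-- The trivial solution (cf. `R238.exists_KE_zero`); `L = Lop 1`, `mehler_zero`. -/
theorem exists_BR_zero (n : ℕ) : ∃ D : BR n, D.ζ = 0 ∧ D.V = 0 ∧ SolvB D := by
  refine ⟨{ ζ := 0, V := 0, τ := 1, symζ := sym_zero _, symV := sym_zero _, symτ := ?_, inv := ?_
            pos := ?_, eqn := ?_ }, rfl, rfl, ?_⟩
  · intro a b
    rw [sub_self]
    exact sym_zero _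
  · rw [hess_zero, add_zero, mul_one]
  · intro x
    rw [hess_zero, add_zero, evM_one]
    exact Matrix.PosDef.one
  · rw [hess_zero, add_zero, Matrix.det_one]
    ext x
    simp [eul, q_succ, q_zero_eq]
  · intro f hf η hη
    obtain ⟨ψ, c, h1, h2⟩ := mehler_zero hf
    refine ⟨ψ, c, h1, ?_⟩
    simp only [BR.L, Lb, dr_zero_left, h2]
    rw [show f - cst c - 0 - f + cst c = 0 by ring, Y_zero]
    exact hη.le

/-- `Y_sum_le`, `Y_mul_le`. -/
theorem Y_dr_le (n : ℕ) : ∃ C, 0 ≤ C ∧ ∀ (b : Fin n → Sm n) (ψ : Sm n) (K K' : ℝ),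
    (∀ a, Sym 0 (b a)) → (∀ a, Sym 0 (pd a ψ)) → 0 ≤ K → 0 ≤ K' → (∀ a, Y (b a) ≤ K) →
    (∀ a, Y (pd a ψ) ≤ K') → Y (dr b ψ) ≤ C * (K * K') := by
  obtain ⟨C, hC, h⟩ := Y_mul_le n
  refine ⟨n * C, by positivity, fun b ψ K K' hb hψ hK _ h1 h2 => ?_⟩
  unfold dr
  refine (Y_sum_le _ fun a _ => (hb a).mul_zero (hψ a)).trans ?_
  refine (Finset.sum_le_card_nsmul _ _ (C * (K * K')) fun a _ => (h _ _ (hb a) (hψ a)).trans
    (mul_le_mul_of_nonneg_left (mul_le_mul (h1 a) (h2 a) (Y_nonneg _) hK) hC)).trans (le_of_eq ?_)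
  simp [mul_assoc]

/-- `D'.L ψ - D.L ψ = con (τ' - τ) ψ - dr (grad (ζ' - ζ)) ψ` (`con_sub_left`, `dr_grad_sub`),
`Y_con_le`, `Y_dr_le`. -/
theorem Y_L_sub_le (n : ℕ) : ∃ C, 0 ≤ C ∧ ∀ (D D' : BR n) (ψ : Sm n) (β β' : ℝ), Ad ψ → 0 ≤ β → 0 ≤ β' →
    YM β (D'.τ - D.τ) → Zle β (D'.ζ - D.ζ) → Zle β' ψ → Y (D'.L ψ - D.L ψ) ≤ C * (β * β') := by
  obtain ⟨C₁, hC₁, h₁⟩ := Y_con_le n
  obtain ⟨C₂, hC₂, h₂⟩ := Y_dr_le n
  refine ⟨C₁ + C₂, by positivity, fun D D' ψ β β' hψ hβ hβ' hτ hζ hz => ?_⟩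
  have e : D'.L ψ - D.L ψ = con (D'.τ - D.τ) ψ - dr (grad (D'.ζ - D.ζ)) ψ := by
    rw [con_sub_left, dr_grad_sub]
    simp only [BR.L, Lb, Lop]
    ring
  have s1 : SymM 0 (D'.τ - D.τ) := D'.sym0τ.sub D.sym0τ
  have s2 : ∀ a, Sym 0 (grad (D'.ζ - D.ζ) a) := fun a =>
    ((D'.symζ.sub D.symζ).pd a).mono (by norm_num)
  rw [e, add_mul]
  refine (Y_sub_le ((Sym.con s1 hψ.1).mono (by norm_num))
    ((sym_dr s2 hψ.1).mono (by norm_num))).trans (add_le_add ?_ ?_)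
  · exact h₁ _ _ _ _ s1 (hψ.sym_hess.mono (by norm_num)) hβ hβ' hτ hz.1
  · exact h₂ _ _ _ _ s2 (fun a => (hψ.sym_pd a).mono (by norm_num)) hβ hβ' hζ.2 hz.2

/-- `τ' - τ = -(τ' * hess (ζ' - ζ) * τ)`, `YM_mul` twice. -/
theorem YM_τ_sub (n : ℕ) (K : ℝ) : ∃ C, 0 ≤ C ∧ ∀ (D D' : BR n) (β : ℝ), 0 ≤ β → YM K D.τ → YM K D'.τ →
    Zle β (D'.ζ - D.ζ) → YM (C * β) (D'.τ - D.τ) := by
  obtain ⟨C, hC, h⟩ := YM_mul n
  refine ⟨C * C * K ^ 2, by positivity, fun D D' β hβ h1 h2 hz a b => ?_⟩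
  have e : D'.τ - D.τ = -(D'.τ * hess (D'.ζ - D.ζ) * D.τ) := by
    have e1 : hess (D'.ζ - D.ζ) = D'.g - D.g := by
      rw [hess_sub, BR.g, BR.g]
      abel
    rw [e1, Matrix.mul_sub, D'.τg, Matrix.sub_mul, Matrix.one_mul, Matrix.mul_assoc, D.gτ,
      Matrix.mul_one, neg_sub]
  have s : SymM 0 (hess (D'.ζ - D.ζ)) := (D'.symζ.sub D.symζ).hess.mono (by norm_num)
  have s' : SymM 0 (D'.τ * hess (D'.ζ - D.ζ)) := by simpa using D'.sym0τ.mul s
  have := h _ _ _ _ s' D.sym0τ (h _ _ _ _ D'.sym0τ s h2 hz.1) h1 a b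
  rw [e, Matrix.neg_apply, Y_neg]
  exact this.trans (le_of_eq (by ring))

end Crest.Agent.R253
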