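import Crest.Agent.R253.PSolv
import Crest.Agent.R253.PGap
import Crest.Agent.R238.StepA

/-!
# Row 253, PDE part: one step of the continuation
-/

set_option autoImplicit false
open MeasureTheory Matrix Filter Topology
open scoped ContDiff BigOperators

noncomputable section
namespace Crest.Agent.R253
open Crest.Agent.R238

variable {n : ℕ}

theorem pstep_Y_cst (c : ℝ) : Y (cst c : Sm n) = |c| * Y (1 : Sm n) := by
  rw [← Y_smul, cst, Algebra.algebraMap_eq_smul_one]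

theorem pstep_q_one (φ : Sm n) : q 1 φ = dr (grad φ) φ := by
  simp only [q, dr, grad_apply, sq]

theorem pstep_q_add (ζ φ : Sm n) : (1 / 2 : ℝ) • q 1 (ζ + φ) =
    (1 / 2 : ℝ) • q 1 ζ + dr (grad ζ) φ + (1 / 2 : ℝ) • q 1 φ := by
  ext x
  simp only [q, dr, grad_apply, map_add, ev_smul, map_sum, map_pow, map_mul, Finset.mul_sum,
    ← Finset.sum_add_distrib]
  exact Finset.sum_congr rfl fun a _ => by ring

/-- Neumann iteration (cf. `R238.solv_step`), `θ = 1 / (4 (2 + Y 1))`-like. One step: solve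
`Y (Lψ - f + c) ≤ Y f / 8`; `|c| ≤ (9/8) Y f` (`abs_c_le`), so `Y (Lψ) ≤ (9/8) (1 + Y 1) Y f`
(`cst c = c • 1`, `Y_smul`) and `Y (L'ψ - f + c) ≤ (3/4) Y f`; apply the hypothesis to `f - c - L'ψ`. -/
theorem solvB_step (n : ℕ) : ∃ θ : ℝ, 0 < θ ∧ ∀ D D' : BR n,
    (∀ ψ : Sm n, Ad ψ → Y (D'.L ψ - D.L ψ) ≤ θ * Y (D.L ψ)) → SolvB D → SolvB D' := by
  have hY1 := Y_nonneg (1 : Sm n)
  refine ⟨1 / (2 * (1 + Y (1 : Sm n))), by positivity, fun D D' hsmall h => ?_⟩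
  have zero : ∀ f : Sm n, Y (D'.L 0 - f + cst 0) = Y f := fun f => by
    rw [D'.L_zero, zero_sub, cst, map_zero, add_zero, Y_neg]
  have one : ∀ f : Sm n, Sym 0 f → ∃ (ψ : Sm n) (c : ℝ), Ad ψ ∧
      Y (D'.L ψ - f + cst c) ≤ 3 / 4 * Y f := by
    intro f hf
    rcases (Y_nonneg f).eq_or_lt with h0 | h0
    · refine ⟨0, 0, ad_zero, ?_⟩
      rw [zero, ← h0]
      norm_num
    · obtain ⟨ψ, c, h1, h4⟩ := h f hf (Y f / 8) (by positivity)
      refine ⟨ψ, c, h1, ?_⟩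
      have hc := abs_c_le D h1 hf h4
      have h3 := D.sym_L h1
      have s1 : Sym 0 (D.L ψ - f + cst c) := (h3.sub hf).add (sym_cst c)
      have e2 : D'.L ψ - f + cst c = (D.L ψ - f + cst c) + (D'.L ψ - D.L ψ) := by ring
      have h5 := Y_add_le s1 ((D'.sym_L h1).sub h3)
      have h6 := Y_sub_le (s1.add hf) (sym_cst c)
      rw [show D.L ψ - f + cst c + f - cst c = D.L ψ by ring, pstep_Y_cst] at h6
      have h6' := Y_add_le s1 hf
      have h8 := mul_le_mul_of_nonneg_right hc hY1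
      have h9 : Y (D.L ψ) ≤ 9 / 8 * Y f * (1 + Y (1 : Sm n)) := by linarith
      have h7 := (hsmall ψ h1).trans (mul_le_mul_of_nonneg_left h9 (by positivity))
      have e3 : 1 / (2 * (1 + Y (1 : Sm n))) * (9 / 8 * Y f * (1 + Y (1 : Sm n))) =
          9 / 16 * Y f := by
        field_simp
        ring
      rw [e2]
      linarith
  have iter : ∀ j : ℕ, ∀ f : Sm n, Sym 0 f → ∃ (ψ : Sm n) (c : ℝ), Ad ψ ∧
      Y (D'.L ψ - f + cst c) ≤ (3 / 4) ^ j * Y f := by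
    intro j
    induction j with
    | zero =>
      intro f _
      exact ⟨0, 0, ad_zero, by rw [zero]; simp⟩
    | succ j ih =>
      intro f hf
      obtain ⟨ψ, c, h1, h4⟩ := one f hf
      obtain ⟨φ, c', g1, g4⟩ := ih (-(D'.L ψ - f + cst c))
        (((D'.sym_L h1).sub hf).add (sym_cst c)).neg
      refine ⟨ψ + φ, c + c', h1.add g1, ?_⟩
      have e1 : D'.L (ψ + φ) - f + cst (c + c') = D'.L φ - -(D'.L ψ - f + cst c) + cst c' := by
        rw [D'.L_add, cst, map_add]; ring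
      rw [e1, pow_succ, mul_assoc]
      refine g4.trans ?_
      rw [Y_neg]
      exact mul_le_mul_of_nonneg_left h4 (by positivity)
  intro f hf η hη
  have hY := Y_nonneg f
  obtain ⟨j, hj⟩ := exists_pow_lt_of_lt_one (show 0 < η / (Y f + 1) by positivity)
    (show (3 / 4 : ℝ) < 1 by norm_num)
  obtain ⟨ψ, c, h1, h4⟩ := iter j f hf
  refine ⟨ψ, c, h1, h4.trans ?_⟩
  rw [lt_div_iff₀ (by positivity)] at hj
  have : (0 : ℝ) ≤ (3 / 4) ^ j := by positivity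
  nlinarith

/-- Port of `R238.stepA`: same `τ'`, `η`; `V' = V - L φ - η + (1/2) • q 1 φ`, because
`q 1 (ζ + φ) / 2 = q 1 ζ / 2 + dr (grad ζ) φ + q 1 φ / 2`; `q 1 φ = dr (grad φ) φ`, `Y_dr_le`. -/
theorem stepB (n : ℕ) {c : ℝ} (hc : 0 < c) (K : ℝ) : ∃ β0 C, 0 < β0 ∧ 0 ≤ C ∧
    ∀ (D : BR n) (φ : Sm n) (β : ℝ), Low c D.g → YM K D.τ → YM K (hess D.ζ) → Ad φ →
      0 ≤ β → β ≤ β0 → Zle β φ →
      ∃ D' : BR n, D'.ζ = D.ζ + φ ∧ YM (C * β) (D'.τ - D.τ) ∧
        Y (D'.V - D.V + D.L φ) ≤ C * β ^ 2 := by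
  obtain ⟨C₁, -, H₁⟩ := YM_one n
  obtain ⟨K', hK', HK'⟩ := inv_YM n (half_pos hc) (C₁ + |K| + 1)
  obtain ⟨Cm, hCm, Hm⟩ := YM_mul n
  obtain ⟨Cp, hCp, Hp⟩ := Y_prim n
  obtain ⟨Cd, hCd, Hd⟩ := Y_dr_le n
  set c₁ := Cm * (Cm * K' * |K|) with hc₁
  set c₂ := Cm * (Cm * c₁ * |K|) with hc₂
  have hc₁0 : 0 ≤ c₁ := by positivity
  have hc₂0 : 0 ≤ c₂ := by positivity
  refine ⟨min 1 (c / (2 * (n + 1))),
    max c₁ (Cp * (n * (Cm * c₁) + ((n : ℝ) ^ 2 * c₁ + (n : ℝ) ^ 2 * (c₂ * |K|))) + Cd / 2),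
    lt_min one_pos (by positivity), le_max_of_le_left hc₁0,
    fun D φ β hlow hτ hA hφ hβ0 hβ hZ => ?_⟩
  have hB := hZ.1
  have hT := D.sym_L hφ
  replace hτ : YM |K| D.τ := fun a b => (hτ a b).trans (le_abs_self K)
  replace hA : YM |K| (hess D.ζ) := fun a b => (hA a b).trans (le_abs_self K)
  have hβ1 : β ≤ 1 := hβ.trans (min_le_left _ _)
  have hβ2 : c / 2 ≤ c - n * β := by
    have := hβ.trans (min_le_right _ _)
    rw [le_div_iff₀ (by positivity)] at this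
    linarith
  have sB' : SymM (-15 / 8) (hess φ) := hφ.sym_hess
  have sB : SymM 0 (hess φ) := sB'.mono (by norm_num)
  have sA : SymM 0 (hess D.ζ) := D.symA.mono (by norm_num)
  set B := hess φ with hBd
  have eg : 1 + hess (D.ζ + φ) = D.g + B := by rw [hess_add, BR.g, add_assoc]
  have lg : Low (c / 2) (D.g + B) :=
    (hlow.add_small fun x a b => (abs_le_Y (sB a b) x).trans (hB a b)).mono hβ2
  have tg : (D.g + B)ᵀ = D.g + B := by rw [Matrix.transpose_add, D.g_symm, hBd, hess_transpose]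
  have pg : ∀ x, (evM x (D.g + B)).PosDef := lg.posDef (half_pos hc) tg
  have sg : SymM 0 (D.g + B) := D.sym0g.add sB
  obtain ⟨τ', hτ'⟩ := exists_inv pg
  have sτ' : SymM 0 τ' := symM_inv tg hτ' (half_pos hc) lg sg
  have yτ' : YM K' τ' := HK' τ' _ tg hτ' lg sg fun a b =>
    (Y_add_le (D.sym0g a b) (sB a b)).trans (add_le_add
      ((Y_add_le (symM_one a b) (sA a b)).trans (add_le_add (H₁ a b) (hA a b))) ((hB a b).trans hβ1))
  have mul0 : ∀ {M P : Mat n}, SymM 0 M → SymM 0 P → SymM 0 (M * P) := fun h h' => by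
    simpa using h.mul h'
  have eΔ : τ' - D.τ = -(τ' * B * D.τ) := by
    have h1 : τ' * (D.g + B) * D.τ = D.τ := by rw [hτ', one_mul]
    rw [mul_add, add_mul, mul_assoc, D.gτ, mul_one] at h1
    exact sub_eq_iff_eq_add.2 (by rw [neg_add_eq_sub, eq_sub_iff_add_eq, h1])
  set P := τ' * B * D.τ with hP
  have sP : SymM 0 P := mul0 (mul0 sτ' sB) D.sym0τ
  have yP : YM (c₁ * β) P := by
    have := Hm _ _ _ _ (mul0 sτ' sB) D.sym0τ (Hm _ _ _ _ sτ' sB yτ' hB) hτ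
    convert this using 1
    rw [hc₁]; ring
  have yP' : YM (c₁ * β) (-P) := fun a b => by
    rw [Matrix.neg_apply, Y_neg]; exact yP a b
  have yPB : YM (Cm * (c₁ * β * β)) (P * B) := Hm _ _ _ _ sP sB yP hB
  have yP₂ : YM (c₂ * β ^ 2) (P * B * D.τ) := by
    have := Hm _ _ _ _ (mul0 sP sB) D.sym0τ yPB hτ
    convert this using 1
    rw [hc₂]; ring
  have d0 : ∀ x, ev x D.g.det ≠ 0 := fun x => by rw [ev_det]; exact (D.g_posDef x).det_pos.ne'
  have d1 : ∀ x, ev x (D.g + B).det ≠ 0 := fun x => by rw [ev_det]; exact (pg x).det_pos.ne'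
  set η : Sm n := logS _ d1 - logS _ d0 - (D.τ * B).trace with hη
  have hpd : ∀ a, pd a η = (-P * pdM a B).trace + (P * B * D.τ * pdM a (hess D.ζ)).trace := by
    intro a
    have e1 : pdM a D.g = pdM a (hess D.ζ) := by rw [BR.g, pdM_add, pdM_one, zero_add]
    have e2 : τ' = D.τ - P := by rw [sub_eq_add_neg, ← eΔ, add_sub_cancel]
    rw [hη, map_sub, map_sub, stepA_pd_logdet a hτ', stepA_pd_logdet a D.τg, pd_trace, pdM_mul,
      pdM_add, pdM_inv a D.τg, e1]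
    have e3 : (D.τ * pdM a (hess D.ζ) * D.τ * B).trace = (D.τ * B * D.τ * pdM a (hess D.ζ)).trace := by
      rw [mul_assoc, Matrix.trace_mul_comm, ← mul_assoc]
    have e4 : P * B * D.τ = D.τ * B * D.τ - P := by
      have e5 : (D.τ - P) * B * D.τ = P := by rw [← e2]
      rw [sub_mul, sub_mul, sub_eq_iff_eq_add'] at e5
      rw [e5, add_sub_cancel_right]
    rw [e4, e2]
    simp only [mul_add, sub_mul, neg_mul, Matrix.trace_add, Matrix.trace_sub, Matrix.trace_neg, e3]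
    ring
  have habs : ∀ x, |ev x η| ≤ n * (Cm * (c₁ * β * β)) := by
    intro x
    have h1 := abs_logdet_remainder (B := evM x B) (τ' := evM x τ') (D.g_posDef x)
      (by rw [← evM_add]; exact pg x) (evM_inv D.τg x) (by rw [← evM_add]; exact evM_inv hτ' x)
    rw [← evM_add, ← evM_mul, ← evM_mul, ← evM_mul, ← evM_mul, ← ev_det, ← ev_det, ← ev_trace,
      ← ev_trace] at h1
    rw [hη, map_sub, map_sub, ev_logS, ev_logS]
    refine h1.trans ?_
    rw [Matrix.trace, map_sum]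
    refine (Finset.abs_sum_le_sum_abs _ _).trans ?_
    calc _ ≤ ∑ _a : Fin n, Cm * (c₁ * β * β) := Finset.sum_le_sum fun a _ =>
          (abs_le_Y (mul0 sP sB a a) x).trans (yPB a a)
      _ = _ := by rw [Finset.sum_const, Finset.card_univ, Fintype.card_fin, nsmul_eq_mul]
  obtain ⟨sη, yη⟩ := Hp (ι := (Fin n × Fin n) ⊕ (Fin n × Fin n)) Finset.univ η
    (Sum.elim (fun p => (-P) p.1 p.2) fun p => (P * B * D.τ) p.1 p.2)
    (Sum.elim (fun p => B p.2 p.1) fun p => hess D.ζ p.2 p.1) _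
    (by
      rintro (p | p) -
      · exact sP.neg _ _
      · exact mul0 (mul0 sP sB) D.sym0τ _ _)
    (by
      rintro (p | p) -
      · exact sB _ _
      · exact sA _ _)
    (fun a => by
      rw [hpd, stepA_trace, stepA_trace, Fintype.sum_sum_type]
      rfl) habs
  have sφ : ∀ a, Sym 0 (pd a φ) := fun a => (hφ.sym_pd a).mono (by norm_num)
  have sq : Sym 0 ((1 / 2 : ℝ) • q 1 φ) := ((hφ.1.q 1).mono (by norm_num)).smul _
  have yq : Y ((1 / 2 : ℝ) • q 1 φ) ≤ Cd / 2 * β ^ 2 := by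
    have := Hd (grad φ) φ β β sφ sφ hβ0 hβ0 hZ.2 hZ.2
    rw [Y_smul, pstep_q_one, abs_of_pos (by norm_num : (0 : ℝ) < 1 / 2)]
    linarith
  refine ⟨⟨D.ζ + φ, D.V - D.L φ - η + (1 / 2 : ℝ) • q 1 φ, τ', D.symζ.add hφ.1,
    ((D.symV.sub hT).sub sη).add sq, ?_,
    by rw [eg, hτ'], fun x => by rw [eg]; exact pg x, ?_⟩, rfl, fun a b => ?_, ?_⟩
  · refine symM_inv_sub_one (A := hess (D.ζ + φ)) (hess_transpose _) (by rw [eg, hτ'])
      (half_pos hc) (by rw [eg]; exact lg) (by norm_num) ?_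
    rw [hess_add]
    exact D.symA.add sB'
  · have e : eul (D.ζ + φ) + (1 / 2 : ℝ) • q 1 (D.ζ + φ) -
        (D.V - D.L φ - η + (1 / 2 : ℝ) • q 1 φ) =
        eul D.ζ + (1 / 2 : ℝ) • q 1 D.ζ - D.V - logS _ d0 + logS _ d1 := by
      rw [hη, eul_add, pstep_q_add, BR.L, Lb, Lop, con_eq_trace]
      ring
    rw [e, eg]
    ext x
    have h0 : ev x D.g.det = Real.exp (ev x (eul D.ζ + (1 / 2 : ℝ) • q 1 D.ζ - D.V)) := by
      rw [← ev_expS, ← D.eqn]; rfl
    rw [ev_expS, map_add, map_sub, ev_logS, ev_logS, h0, Real.log_exp, sub_self, zero_add,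
      Real.exp_log (by rw [ev_det]; exact (pg x).det_pos)]
  · simp only
    rw [eΔ]
    exact (yP' a b).trans (mul_le_mul_of_nonneg_right (le_max_left _ _) hβ0)
  · simp only
    rw [show D.V - D.L φ - η + (1 / 2 : ℝ) • q 1 φ - D.V + D.L φ = (1 / 2 : ℝ) • q 1 φ - η by ring]
    refine (Y_sub_le sq sη).trans
      (le_trans ?_ (mul_le_mul_of_nonneg_right (le_max_right _ _) (pow_two_nonneg β)))
    rw [add_mul, add_comm]
    refine add_le_add (yη.trans ?_) yq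
    rw [mul_assoc Cp]
    refine mul_le_mul_of_nonneg_left ?_ hCp
    rw [Fintype.sum_sum_type]
    have b1 := stepA_sum yP' hB
    have b2 := stepA_sum yP₂ hA
    simp only [Sum.elim_inl, Sum.elim_inr]
    linarith

/-- As `R238.step`, but for a given correction `ψ`: `aprioriB`, `lin_est` (`Zle (C Y(Lψ)) ψ`,
`Y (Lψ) ≤ K'` from the hypothesis), `stepB` with `φ = h • ψ`, `solvB_step` with `Y_L_sub_le`;
`V' - V - h V0 - h c = (V' - V + L φ) - h (Lψ + V0 + c)`. -/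
theorem step_pt (n : ℕ) {ε : ℝ} (hε : 0 < ε) (K : ℝ) : ∃ h0 C, 0 < h0 ∧ 0 ≤ C ∧
    ∀ (D : BR n) (V0 ψ : Sm n) (c h e : ℝ), Low ε D.H → Y D.V ≤ K → SolvB D → Sym 0 V0 → Y V0 ≤ K →
      Ad ψ → |c| ≤ K + 1 → Y (D.L ψ + V0 + cst c) ≤ e → 0 < h → h ≤ h0 → e ≤ 1 →
      ∃ D' : BR n, D'.ζ = D.ζ + h • ψ ∧ SolvB D' ∧
        Y (D'.V - D.V - h • V0 - cst (h * c)) ≤ h * e + C * h ^ 2 := by
  obtain ⟨c₀, K', hc₀, -, hap⟩ := aprioriB n hε K
  obtain ⟨A, hA0, hlin⟩ := lin_est n hε K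
  obtain ⟨β0, C₃, hβ0, hC₃, hA⟩ := stepB n hc₀ K'
  obtain ⟨C₄, hC₄, hcon⟩ := Y_L_sub_le n
  obtain ⟨θ, hθ, hsolv⟩ := solvB_step n
  have hY1 := Y_nonneg (1 : Sm n)
  obtain ⟨B, hBe⟩ : ∃ B, B = A * ((|K| + 1) * (1 + Y (1 : Sm n))) := ⟨_, rfl⟩
  have hB0 : 0 ≤ B := by rw [hBe]; positivity
  obtain ⟨G, hGe⟩ : ∃ G, G = C₄ * (C₃ + 1) * B * A := ⟨_, rfl⟩
  have hG0 : 0 ≤ G := by rw [hGe]; positivity
  refine ⟨min (β0 / (B + 1)) (θ / (G + 1)), C₃ * B ^ 2, by positivity, by positivity,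
    fun D V0 ψ c h e hH hY hS hV hY0 h1 hc h4 hh hh0 he1 => ?_⟩
  obtain ⟨-, hg, hZ, hco⟩ := hap D hH hY
  have hest := hlin D hH hY
  have h3 := D.sym_L h1
  have s1 : Sym 0 (D.L ψ + V0 + cst c) := (h3.add hV).add (sym_cst c)
  have h5 : Y (D.L ψ) ≤ (|K| + 1) * (1 + Y (1 : Sm n)) := by
    have a1 := Y_sub_le (s1.sub hV) (sym_cst c)
    have a2 := Y_sub_le s1 hV
    rw [show D.L ψ + V0 + cst c - V0 - cst c = D.L ψ by ring, pstep_Y_cst] at a1
    have a3 := mul_le_mul_of_nonneg_right (hc.trans (add_le_add_left (le_abs_self K) 1)) hY1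
    linarith [le_abs_self K]
  have hb1 : h * B ≤ β0 := by
    have := (le_div_iff₀ (by positivity)).1 (hh0.trans (min_le_left _ _))
    nlinarith
  have hb2 : G * h ≤ θ := by
    have := (le_div_iff₀ (by positivity)).1 (hh0.trans (min_le_right _ _))
    nlinarith
  have hZ' : Zle (h * B) (h • ψ) := by
    have := ((hest ψ h1).mono (hBe ▸ mul_le_mul_of_nonneg_left h5 hA0)).smul h
    rwa [abs_of_pos hh] at this
  have hhB : 0 ≤ h * B := by positivity
  obtain ⟨D', h0, h6, h7⟩ := hA D (h • ψ) (h * B) hg.low hco.ym hZ.1 (h1.smul h) hhB hb1 hZ'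
  refine ⟨D', h0, hsolv D D' (fun χ k1 => ?_) hS, ?_⟩
  · have k4 := Y_nonneg (D.L χ)
    have k5 := hcon D D' χ ((C₃ + 1) * (h * B)) _ k1 (by positivity) (by positivity)
      (fun a b => (h6 a b).trans (by linarith))
      (by rw [h0, add_sub_cancel_left]; exact hZ'.mono (by nlinarith)) (hest χ k1)
    refine k5.trans ?_
    have k6 : C₄ * ((C₃ + 1) * (h * B) * (A * Y (D.L χ))) = G * h * Y (D.L χ) := by
      rw [hGe]; ring
    rw [k6]
    exact mul_le_mul_of_nonneg_right hb2 k4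
  · have e1 : D'.V - D.V - h • V0 - cst (h * c) =
        (D'.V - D.V + D.L (h • ψ)) - h • (D.L ψ + V0 + cst c) := by
      have e0 : (cst (h * c) : Sm n) = h • cst c := by
        rw [cst, cst, map_mul, Algebra.smul_def]
      rw [D.L_smul, smul_add, smul_add, e0]; ring
    have k1 : Sym 0 (D'.V - D.V + D.L (h • ψ)) :=
      (D'.symV.sub D.symV).add (D.sym_L (h1.smul h))
    have k2 := Y_sub_le k1 (s1.smul h)
    rw [Y_smul, abs_of_pos hh, ← e1] at k2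
    have k3 := mul_le_mul_of_nonneg_left h4 hh.le
    have k4 : C₃ * (h * B) ^ 2 = C₃ * B ^ 2 * h ^ 2 := by ring
    linarith

end Crest.Agent.R253
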