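import Crest.Agent.R253.SFNode

/-!
# Row 253: the one-variable inequalities on `[-8, 12]`, by interval arithmetic on cells

On a cell `[a, b]` the monotone functions `x, mm, nu, gg, kap, pp` are enclosed by the hull of the
enclosures at the two nodes.
-/

set_option autoImplicit false

namespace Crest.Agent.R253
open Crest.Agent.R238 Crest.Agent.R215 Iv

/-- The list of one-variable inequalities. -/
structure SFP (x : ℝ) : Prop where
  f1 : qq x ≤ 1 / 10
  f2 : |k2u x| ≤ 9 / 200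
  f3 : |omu x| ≤ 1 / 10
  f4 : |omu x - 2 * pp x * qq x| ≤ 3 / 50
  f5 : 2 * pp x * qq x ≤ 3 / 40
  f6 : |phu x| ≤ 9 / 250
  f7 : |phu x - 2 * pp x * qq x + ee2 x * mm x / 4| ≤ 17 / 250
  f8 : 16 * (pp x - 1 / 4) ^ 2 + k2 x ^ 2 / (9 / 1000) ≤ 1
  f9 : (om x - pp x ^ 2 - 3 / 20) ^ 2 / 2 + (pp x ^ 2 - 11 / 100) ^ 2 ≤ 7 / 250
  f10 : (ph x - pp x ^ 2 + ee1 x / 4 + 1 / 8) ^ 2 / 2 + (pp x ^ 2 - 1 / 8) ^ 2 ≤ 7 / 250
  f11 : 89 / 250 + 9 / 125 * x - 13 / 1000 * x ^ 2 ≤ om x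
  f12 : (om x - 17 / 50) ^ 2 ≤ 7 / 1000 - 1 / 500 * x + 11 / 2000 * x ^ 2
  f13 : -21 / 200 + 6 / 125 * x + 6 / 25 * x ^ 2 ≤
    x * kap x + 5 * ph x * (1 - 13 / 8 * ph x) - om x - x * ee x / 4
  f14 : nu x ≤ 3 * pp x
  f15 : DD x ≤ 2 * pp x
  f16 : -3 < x → 0 ≤ 2 * DD x + 2 * nu x ^ 2 + pp x - nu x

/-- The checks, given enclosures of `x, m, ν, p, κ, D, q, μ, ee, 1 / ee`. -/
def chk (x m nu p ka D q mu e ei : Iv) : Bool :=
  let one := rat 1 1
  let P := one.sub p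
  let ph := P.mul q
  let om := p.add ph
  let PD := P.sq.mul D
  let r := q.add (P.mul (one.add nu))
  let p2 := smul 2 1 p
  let pq := p.sq
  q.le 1 10 &&
  (((D.mul P).sub ((one.add (smul 2 1 nu)).mul q)).mul mu).ab 9 200 &&
  ((q.mul (one.sub r)).add PD).ab 1 10 &&
  ((q.mul ((one.sub r).sub p2)).add PD).ab 3 50 &&
  (p2.mul q).le 3 40 &&
  (PD.sub (q.mul r)).ab 9 250 &&
  ((PD.sub (q.mul (r.add p2))).add (smul 9 4 (m.mul (ei.sq.mul ei)))).ab 17 250 &&
  ((smul 16 1 (p.sub (rat 1 4)).sq).add (smul 1000 9 (q.mul mu).sq)).le 1 1 &&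
  ((smul 1 2 (((p.mul P).add ph).sub (rat 3 20)).sq).add (pq.sub (rat 11 100)).sq).le 7 250 &&
  ((smul 1 2 (((ph.sub pq).add (smul 1 4 (x.mul ei))).add (rat 1 8)).sq).add
    (pq.sub (rat 1 8)).sq).le 7 250 &&
  (om.sub (x.mul ((rat 9 125).sub (smul 13 1000 x)))).ge 89 250 &&
  ((x.mul ((smul 11 2000 x).sub (rat 1 500))).sub (om.sub (rat 17 50)).sq).ge (-7) 1000 &&
  (((x.mul (((ka.sub (smul 1 4 e)).sub (rat 6 125)).sub (smul 6 25 x))).add
    ((smul 5 1 ph).mul (one.sub (smul 13 8 ph)))).sub om).ge (-21) 200 &&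
  ((smul 3 1 p).sub nu).ge0 &&
  (p2.sub D).ge0 &&
  (x.le (-3) 1 || ((((smul 2 1 D).add (smul 2 1 nu.sq)).add p).sub nu).ge0)

/-- The check on the cell between two nodes. -/
def cell (A B : Nd) : Bool :=
  let x := hull A.x B.x
  let m := hull A.m B.m
  let nu := hull A.nu B.nu
  let p := hull A.p B.p
  let e := ((rat 9 1).add x.sq).sqrt
  A.ok && B.ok && m.pos && e.pos &&
    chk x m nu p (hull A.ka B.ka) ((nu.add nu.sq).sub (hull A.g B.g)).nn
      ((nu.mul ((rat 1 1).sub p)).sub p).nn m.inv e e.inv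

/-- `N` consecutive cells of width `s / 64`, starting at the node `k` with enclosures `A`. -/
def run (s : ℕ) : ℕ → ℕ → Nd → Bool
  | 0, _, _ => true
  | N + 1, k, A => cell A (nd (k + s)) && run s N (k + s) (nd (k + s))

theorem chk_sound {x m nu p ka D q mu e ei : Iv} {y : ℝ} (h : chk x m nu p ka D q mu e ei = true)
    (hx : x.mem y) (hm : m.mem (mm y)) (hnu : nu.mem (R253.nu y)) (hp : p.mem (pp y))
    (hka : ka.mem (kap y)) (hD : D.mem (DD y)) (hq : q.mem (qq y)) (hmu : mu.mem (R253.mu y))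
    (he : e.mem (ee y)) (hei : ei.mem (ee y)⁻¹) : SFP y := by
  have r1 : (rat 1 1).mem 1 := SFNode_one
  have hP := mem_sub r1 hp
  have hph := mem_mul hP hq
  have hom := mem_add hp hph
  have hPD := mem_mul (mem_sq hP) hD
  have hr := mem_add hq (mem_mul hP (mem_add r1 hnu))
  have hp2 := mem_smul 2 one_pos hp
  have hpq := mem_sq hp
  have hep := (ee_pos y).ne'
  unfold chk at h
  simp only [Bool.and_eq_true, Bool.or_eq_true] at h
  obtain ⟨⟨⟨⟨⟨⟨⟨⟨⟨⟨⟨⟨⟨⟨⟨h1, h2⟩, h3⟩, h4⟩, h5⟩, h6⟩, h7⟩, h8⟩, h9⟩, h10⟩, h11⟩, h12⟩, h13⟩, h14⟩,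
    h15⟩, h16⟩ := h
  have k1 := le_of (by norm_num) h1 hq
  have k2' := ab_of (by norm_num) h2 (mem_mul (mem_sub (mem_mul hD hP)
    (mem_mul (mem_add r1 (mem_smul 2 one_pos hnu)) hq)) hmu)
  have k3 := ab_of (by norm_num) h3 (mem_add (mem_mul hq (mem_sub r1 hr)) hPD)
  have k4 := ab_of (by norm_num) h4 (mem_add (mem_mul hq (mem_sub (mem_sub r1 hr) hp2)) hPD)
  have k5 := le_of (by norm_num) h5 (mem_mul hp2 hq)
  have k6 := ab_of (by norm_num) h6 (mem_sub hPD (mem_mul hq hr))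
  have k7 := ab_of (by norm_num) h7 (mem_add (mem_sub hPD (mem_mul hq (mem_add hr hp2)))
    (mem_smul 9 (by norm_num) (mem_mul hm (mem_mul (mem_sq hei) hei))))
  have k8 := le_of (by norm_num) h8 (mem_add (mem_smul 16 one_pos
    (mem_sq (mem_sub hp (mem_rat 1 (by norm_num))))) (mem_smul 1000 (by norm_num)
    (mem_sq (mem_mul hq hmu))))
  have k9 := le_of (by norm_num) h9 (mem_add (mem_smul 1 two_pos (mem_sq (mem_sub
    (mem_add (mem_mul hp hP) hph) (mem_rat 3 (by norm_num)))))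
    (mem_sq (mem_sub hpq (mem_rat 11 (by norm_num)))))
  have k10 := le_of (by norm_num) h10 (mem_add (mem_smul 1 two_pos (mem_sq (mem_add (mem_add
    (mem_sub hph hpq) (mem_smul 1 (by norm_num) (mem_mul hx hei))) (mem_rat 1 (by norm_num)))))
    (mem_sq (mem_sub hpq (mem_rat 1 (by norm_num)))))
  have k11 := ge_of (by norm_num) h11 (mem_sub hom (mem_mul hx (mem_sub (mem_rat 9 (by norm_num))
    (mem_smul 13 (by norm_num) hx))))
  have k12 := ge_of (by norm_num) h12 (mem_sub (mem_mul hx (mem_sub (mem_smul 11 (by norm_num) hx)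
    (mem_rat 1 (by norm_num)))) (mem_sq (mem_sub hom (mem_rat 17 (by norm_num)))))
  have k13 := ge_of (by norm_num) h13 (mem_sub (mem_add (mem_mul hx (mem_sub (mem_sub
    (mem_sub hka (mem_smul 1 (by norm_num) he)) (mem_rat 6 (by norm_num)))
    (mem_smul 6 (by norm_num) hx))) (mem_mul (mem_smul 5 one_pos hph)
    (mem_sub r1 (mem_smul 13 (by norm_num) hph)))) hom)
  have k14 := ge0_of h14 (mem_sub (mem_smul 3 one_pos hp) hnu)
  have k15 := ge0_of h15 (mem_sub hp2 hD)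
  push_cast at k1 k2' k3 k4 k5 k6 k7 k8 k9 k10 k11 k12 k13 k14 k15
  have e1 : ee1 y = y * (ee y)⁻¹ := by rw [ee1, div_eq_mul_inv]
  have e2 : ee2 y = 9 * ((ee y)⁻¹ ^ 2 * (ee y)⁻¹) := by
    rw [ee2]; field_simp
  refine ⟨k1, ?_, ?_, ?_, ?_, ?_, ?_, ?_, ?_, ?_, ?_, ?_, ?_, ?_, ?_, fun h3y => ?_⟩
  · convert k2' using 2; unfold k2u qu; ring
  · convert k3 using 2; unfold omu phu qu; ring
  · convert k4 using 2; unfold omu phu qu; ring
  · linarith
  · convert k6 using 2; unfold phu qu; ring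
  · convert k7 using 2; rw [e2]; unfold phu qu; ring
  · unfold k2; linarith
  · unfold om ph; nlinarith [k9]
  · rw [e1]; unfold ph; nlinarith [k10]
  · unfold om ph; linarith
  · unfold om ph; linarith
  · unfold om ph; linarith
  · linarith
  · linarith
  · rcases h16 with h16 | h16
    · have := le_of (by norm_num) h16 hx
      push_cast at this
      linarith
    · have := ge0_of h16 (mem_sub (mem_add (mem_add (mem_smul 2 one_pos hD)
        (mem_smul 2 one_pos (mem_sq hnu))) hp) hnu)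
      push_cast at this
      linarith

theorem cell_sound {A B : Nd} {a b y : ℝ} (h : cell A B = true) (hA : A.ok = true → A.Good a)
    (hB : B.ok = true → B.Good b) (h1 : a ≤ y) (h2 : y ≤ b) : SFP y := by
  unfold cell at h
  simp only [Bool.and_eq_true] at h
  obtain ⟨⟨⟨⟨ha, hb⟩, hmp⟩, hep⟩, hc⟩ := h
  have gA := hA ha
  have gB := hB hb
  have hx := mem_hull gA.hx gB.hx h1 h2
  have hm := mem_hull gA.hm gB.hm (strictMono_mm.monotone h1) (strictMono_mm.monotone h2)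
  have hnu := mem_hull gA.hnu gB.hnu (strictMono_nu.monotone h1) (strictMono_nu.monotone h2)
  have hp := mem_hull gA.hp gB.hp (monotone_pp h1) (monotone_pp h2)
  have hka := mem_hull gA.hka gB.hka (monotone_kap h1) (monotone_kap h2)
  have hg := mem_hull gA.hg gB.hg (monotone_gg h1) (monotone_gg h2)
  have he : ((rat 9 1).add (hull A.x B.x).sq).sqrt.mem (ee y) :=
    mem_congr (mem_sqrt (mem_add (mem_rat 9 one_pos) (mem_sq hx))) (by simp [ee])
  exact chk_sound hc hx hm hnu hp hka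
    (mem_nn (mem_sub (mem_add hnu (mem_sq hnu)) hg) (DD_pos y).le)
    (mem_nn (mem_sub (mem_mul hnu (mem_sub SFNode_one hp)) hp) (qq_nonneg y))
    (mem_congr (mem_inv hmp hm) (by rw [mm, inv_inv])) he (mem_inv hep he)

theorem run_sound (s N k : ℕ) (h : run s (N + 1) k (nd k) = true) {y : ℝ} (h1 : xk k ≤ y)
    (h2 : y ≤ xk (k + s * (N + 1))) : SFP y := by
  induction N generalizing k with
  | zero =>
    rw [run, Bool.and_eq_true] at h
    exact cell_sound h.1 (nd_good k) (nd_good (k + s)) h1 (by simpa using h2)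
  | succ N ih =>
    rw [run, Bool.and_eq_true] at h
    rcases le_total y (xk (k + s)) with h3 | h3
    · exact cell_sound h.1 (nd_good k) (nd_good (k + s)) h1 h3
    · exact ih (k + s) h.2 h3 (by rwa [show k + s + s * (N + 1) = k + s * (N + 1 + 1) by ring])

end Crest.Agent.R253
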