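import Crest.Agent.R253.B0

/-!
# Row 253: special functions attached to the hazard rate

With `u = log λ` one has `d/dx = μ d/du` and the autonomous system
`m_u = ν m`, `ν_u = D = ν + ν² - g`, `g = (1 - ν) m²`, `p_u = q = ν (1 - p) - p`.
All derivative formulas follow from `lam' = lam μ`, `tt' = lam` and the identities below
(`field_simp; ring` after unfolding, using `mu x ≠ 0`, `lam x ≠ 0`).
-/

set_option autoImplicit false
open Filter Topology Set
open scoped BigOperators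

noncomputable section
namespace Crest.Agent.R253
open Crest.Agent.R238 Crest.Agent.R215

/-- `μ = λ - x`. -/
def mu (x : ℝ) : ℝ := lam x - x
/-- `m = 1 / μ`. -/
def mm (x : ℝ) : ℝ := (mu x)⁻¹
/-- `w = 1 - λ' = -μ'`. -/
def ww (x : ℝ) : ℝ := 1 - lam1 x
/-- `ν = w m²`. -/
def nu (x : ℝ) : ℝ := ww x * mm x ^ 2
/-- `g = (1 - ν) m²`. -/
def gg (x : ℝ) : ℝ := (1 - nu x) * mm x ^ 2
/-- `D = ν_u`. -/
def DD (x : ℝ) : ℝ := nu x + nu x ^ 2 - gg x
/-- `p = κ'`. -/
def pp (x : ℝ) : ℝ := 1 - kap x * mu x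
/-- `q = p_u`. -/
def qq (x : ℝ) : ℝ := nu x * (1 - pp x) - pp x
/-- `κ''`. -/
def k2 (x : ℝ) : ℝ := qq x * mu x
/-- `q_u`. -/
def qu (x : ℝ) : ℝ := DD x * (1 - pp x) - (1 + nu x) * qq x
/-- `(κ'')_u`. -/
def k2u (x : ℝ) : ℝ := (qu x - nu x * qq x) * mu x
/-- `φ = κ κ''`. -/
def ph (x : ℝ) : ℝ := (1 - pp x) * qq x
/-- `φ_u`. -/
def phu (x : ℝ) : ℝ := (1 - pp x) * qu x - qq x ^ 2
/-- `ω = κ' + κ κ''`. -/
def om (x : ℝ) : ℝ := pp x + ph x
/-- `ω_u`. -/
def omu (x : ℝ) : ℝ := qq x + phu x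
/-- The primitive of `p²`. -/
def Pi (x : ℝ) : ℝ := ∫ y in (0 : ℝ)..x, pp y ^ 2
/-- The primitive `Ω = κ + κ κ' - Π` of `ω`. -/
def Om (x : ℝ) : ℝ := kap x + kap x * pp x - Pi x
/-- `u = log λ`. -/
def uu (x : ℝ) : ℝ := Real.log (lam x)
/-- The even `1`-Lipschitz function used for the parity argument. -/
def ee (x : ℝ) : ℝ := Real.sqrt (9 + x ^ 2)
/-- `ee'`. -/
def ee1 (x : ℝ) : ℝ := x / ee x
/-- `ee''`. -/
def ee2 (x : ℝ) : ℝ := 9 / ee x ^ 3
/-- `β = κ² / 2`. -/
def be (x : ℝ) : ℝ := kap x ^ 2 / 2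
/-- `β' = κ κ'`. -/
def be1 (x : ℝ) : ℝ := kap x * pp x
/-- The Mills ratio. -/
def m0 (x : ℝ) : ℝ := Pb x / phi x

theorem mu_pos (x : ℝ) : 0 < mu x := sub_pos.2 (lt_lam x)
theorem mm_pos (x : ℝ) : 0 < mm x := inv_pos.2 (mu_pos x)
theorem mu_mul_mm (x : ℝ) : mu x * mm x = 1 := mul_inv_cancel₀ (mu_pos x).ne'
theorem lam1_eq (x : ℝ) : lam1 x = lam x * mu x := rfl
theorem ww_pos (x : ℝ) : 0 < ww x := sub_pos.2 (lam1_lt_one x)
theorem ww_lt_one (x : ℝ) : ww x < 1 := by unfold ww; linarith [lam1_pos x]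
theorem nu_pos (x : ℝ) : 0 < nu x := mul_pos (ww_pos x) (pow_pos (mm_pos x) 2)
theorem kap_pos (x : ℝ) : 0 < kap x := div_pos (tt_pos x) (lam_pos x)
theorem ee_pos (x : ℝ) : 0 < ee x := Real.sqrt_pos.2 (by positivity)
theorem m0_pos (x : ℝ) : 0 < m0 x := div_pos (Pb_pos x) (phi_pos x)

theorem lam_eq_inv_m0 (x : ℝ) : lam x = (m0 x)⁻¹ := by
  rw [m0, inv_div, lam]
theorem nu_le_mm_sq (x : ℝ) : nu x ≤ mm x ^ 2 := by
  exact mul_le_of_le_one_left (sq_nonneg _) (ww_lt_one x).le
theorem ww_eq (x : ℝ) : ww x = nu x * mu x ^ 2 := by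
  rw [nu, mul_assoc, ← mul_pow, mul_comm (mm x), mu_mul_mm, one_pow, mul_one]
theorem lam_eq (x : ℝ) : lam x = mm x - nu x * mu x := by
  have := (mu_pos x).ne'
  unfold nu ww mm
  rw [lam1_eq]
  field_simp
  ring
theorem x_eq (x : ℝ) : x = mm x - (1 + nu x) * mu x := by
  have h : mu x = lam x - x := rfl
  linear_combination lam_eq x + h
theorem lt_mm (x : ℝ) : x < mm x := by
  have := mul_pos (add_pos one_pos (nu_pos x)) (mu_pos x)
  linarith [x_eq x]
theorem neg_lt_mu (x : ℝ) : -x < mu x := by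
  unfold mu
  linarith [lam_pos x]
theorem kap_eq (x : ℝ) : kap x = (1 - pp x) * mm x := by
  rw [pp, sub_sub_cancel, mul_assoc, mu_mul_mm, mul_one]
theorem lam_mul_kap (x : ℝ) : lam x * kap x = tt x := by
  exact mul_div_cancel₀ _ (lam_pos x).ne'
theorem x_mul_kap (x : ℝ) : x * kap x = tt x - 1 + pp x := by
  unfold pp mu
  linear_combination lam_mul_kap x
theorem kap_mul_k2 (x : ℝ) : kap x * k2 x = ph x := by
  unfold k2 ph pp
  ring
theorem lam_sub_kap (x : ℝ) : lam x - kap x = x * pp x - k2 x := by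
  have h : ww x = 1 - lam x * mu x := rfl
  have h2 : mu x = lam x - x := rfl
  unfold k2 qq pp
  linear_combination (-kap x) * ww_eq x + kap x * h - (1 - kap x * mu x) * h2
/-- The Stein identity behind the formula for `D_v`. -/
theorem stein_id (x : ℝ) : 2 * tt x - kap x ^ 2 = 1 - om x + x * Om x + x * Pi x := by
  unfold om Om
  linear_combination -x_mul_kap x + kap x * lam_sub_kap x - lam_mul_kap x - kap_mul_k2 x
theorem uu_eq (x : ℝ) : uu x = tt x - x ^ 2 / 2 - Real.log (2 * Real.pi) / 2 := by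
  have hπ := Real.pi_pos
  rw [uu, lam, Real.log_div (phi_pos x).ne' (Pb_pos x).ne', tt, phi,
    Real.log_mul (inv_ne_zero sqrt_two_pi_pos.ne') (Real.exp_pos _).ne', Real.log_inv,
    Real.log_exp, Real.log_sqrt (by positivity)]
  ring
theorem exp_uu (x : ℝ) : Real.exp (uu x) = lam x := Real.exp_log (lam_pos x)

theorem hasDerivAt_mu (x : ℝ) : HasDerivAt mu (-ww x) x := by
  refine ((hasDerivAt_lam x).fun_sub (hasDerivAt_id' x)).congr_deriv ?_
  rw [ww, neg_sub]
theorem hasDerivAt_mm (x : ℝ) : HasDerivAt mm (nu x) x := by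
  refine ((hasDerivAt_mu x).fun_inv (mu_pos x).ne').congr_deriv ?_
  rw [neg_neg, nu, mm, inv_pow, div_eq_mul_inv]
theorem hasDerivAt_ww (x : ℝ) : HasDerivAt ww (-(lam x * mu x ^ 2 * (1 - nu x))) x := by
  refine (((hasDerivAt_lam x).fun_mul (hasDerivAt_mu x)).const_sub 1).congr_deriv ?_
  rw [lam1_eq, ww_eq]
  ring
theorem hasDerivAt_nu (x : ℝ) : HasDerivAt nu (DD x * mu x) x := by
  refine ((hasDerivAt_ww x).fun_mul ((hasDerivAt_mm x).fun_pow 2)).congr_deriv ?_
  have := (mu_pos x).ne'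
  rw [ww_eq, lam_eq]
  unfold DD gg mm
  push_cast
  field_simp
  ring
theorem hasDerivAt_gg (x : ℝ) :
    HasDerivAt gg ((2 * nu x * gg x - DD x * mm x ^ 2) * mu x) x := by
  refine (((hasDerivAt_nu x).const_sub 1).fun_mul ((hasDerivAt_mm x).fun_pow 2)).congr_deriv ?_
  have := (mu_pos x).ne'
  unfold gg mm
  push_cast
  field_simp
  ring
theorem hasDerivAt_DD (x : ℝ) :
    HasDerivAt DD (((1 + 2 * nu x + mm x ^ 2) * DD x - 2 * nu x * gg x) * mu x) x := by
  refine (((hasDerivAt_nu x).fun_add ((hasDerivAt_nu x).fun_pow 2)).fun_sub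
    (hasDerivAt_gg x)).congr_deriv ?_
  push_cast
  ring
theorem hasDerivAt_kap (x : ℝ) : HasDerivAt kap (pp x) x := by
  refine ((hasDerivAt_tt x).fun_div (hasDerivAt_lam x) (lam_pos x).ne').congr_deriv ?_
  have := (lam_pos x).ne'
  rw [lam1_eq]
  unfold pp kap
  field_simp
theorem hasDerivAt_pp (x : ℝ) : HasDerivAt pp (k2 x) x := by
  refine (((hasDerivAt_kap x).fun_mul (hasDerivAt_mu x)).const_sub 1).congr_deriv ?_
  rw [ww_eq]
  unfold k2 qq pp
  ring
theorem hasDerivAt_qq (x : ℝ) : HasDerivAt qq (qu x * mu x) x := by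
  refine (((hasDerivAt_nu x).fun_mul ((hasDerivAt_pp x).const_sub 1)).fun_sub
    (hasDerivAt_pp x)).congr_deriv ?_
  unfold k2 qu
  ring
theorem hasDerivAt_k2 (x : ℝ) : HasDerivAt k2 (k2u x * mu x) x := by
  refine ((hasDerivAt_qq x).fun_mul (hasDerivAt_mu x)).congr_deriv ?_
  rw [ww_eq]
  unfold k2u
  ring
theorem hasDerivAt_ph (x : ℝ) : HasDerivAt ph (phu x * mu x) x := by
  refine (((hasDerivAt_pp x).const_sub 1).fun_mul (hasDerivAt_qq x)).congr_deriv ?_
  unfold k2 phu
  ring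
theorem hasDerivAt_om (x : ℝ) : HasDerivAt om (omu x * mu x) x := by
  refine ((hasDerivAt_pp x).fun_add (hasDerivAt_ph x)).congr_deriv ?_
  unfold k2 omu
  ring
theorem hasDerivAt_uu (x : ℝ) : HasDerivAt uu (mu x) x := by
  refine ((hasDerivAt_lam x).log (lam_pos x).ne').congr_deriv ?_
  rw [lam1_eq, mul_div_cancel_left₀ _ (lam_pos x).ne']
theorem hasDerivAt_be (x : ℝ) : HasDerivAt be (be1 x) x := by
  refine (((hasDerivAt_kap x).fun_pow 2).div_const 2).congr_deriv ?_
  unfold be1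
  push_cast
  ring
theorem hasDerivAt_m0 (x : ℝ) : HasDerivAt m0 (x * m0 x - 1) x := by
  refine ((hasDerivAt_Pb x).fun_div (hasDerivAt_phi x) (phi_pos x).ne').congr_deriv ?_
  have := (phi_pos x).ne'
  unfold m0
  field_simp
  ring
theorem hasDerivAt_ee (x : ℝ) : HasDerivAt ee (ee1 x) x := by
  refine (((hasDerivAt_pow 2 x).const_add 9).sqrt (by positivity)).congr_deriv ?_
  have := (ee_pos x).ne'
  unfold ee1
  unfold ee at this ⊢
  push_cast
  field_simp
theorem hasDerivAt_ee1 (x : ℝ) : HasDerivAt ee1 (ee2 x) x := by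
  refine ((hasDerivAt_id' x).fun_div (hasDerivAt_ee x) (ee_pos x).ne').congr_deriv ?_
  have := (ee_pos x).ne'
  have h : ee x ^ 2 = 9 + x ^ 2 := Real.sq_sqrt (by positivity)
  unfold ee1 ee2
  field_simp
  linear_combination h

@[fun_prop] theorem continuous_mu : Continuous mu := by
  exact continuous_iff_continuousAt.2 fun x => (hasDerivAt_mu x).continuousAt
@[fun_prop] theorem continuous_mm : Continuous mm := by
  exact continuous_iff_continuousAt.2 fun x => (hasDerivAt_mm x).continuousAt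
@[fun_prop] theorem continuous_nu : Continuous nu := by
  exact continuous_iff_continuousAt.2 fun x => (hasDerivAt_nu x).continuousAt
@[fun_prop] theorem continuous_kap : Continuous kap := by
  exact continuous_iff_continuousAt.2 fun x => (hasDerivAt_kap x).continuousAt
@[fun_prop] theorem continuous_pp : Continuous pp := by
  exact continuous_iff_continuousAt.2 fun x => (hasDerivAt_pp x).continuousAt
@[fun_prop] theorem continuous_qq : Continuous qq := by
  exact continuous_iff_continuousAt.2 fun x => (hasDerivAt_qq x).continuousAt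
@[fun_prop] theorem continuous_k2 : Continuous k2 := by
  exact continuous_iff_continuousAt.2 fun x => (hasDerivAt_k2 x).continuousAt
@[fun_prop] theorem continuous_ph : Continuous ph := by
  exact continuous_iff_continuousAt.2 fun x => (hasDerivAt_ph x).continuousAt
@[fun_prop] theorem continuous_om : Continuous om := by
  exact continuous_iff_continuousAt.2 fun x => (hasDerivAt_om x).continuousAt
@[fun_prop] theorem continuous_uu : Continuous uu := by
  exact continuous_iff_continuousAt.2 fun x => (hasDerivAt_uu x).continuousAt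
@[fun_prop] theorem continuous_be1 : Continuous be1 := by
  exact continuous_kap.mul continuous_pp
@[fun_prop] theorem continuous_ee : Continuous ee := by
  exact continuous_iff_continuousAt.2 fun x => (hasDerivAt_ee x).continuousAt
@[fun_prop] theorem continuous_ee1 : Continuous ee1 := by
  exact continuous_iff_continuousAt.2 fun x => (hasDerivAt_ee1 x).continuousAt

theorem hasDerivAt_Pi (x : ℝ) : HasDerivAt Pi (pp x ^ 2) x := by
  exact ((continuous_pp.pow 2).integral_hasStrictDerivAt 0 x).hasDerivAt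
theorem hasDerivAt_Om (x : ℝ) : HasDerivAt Om (om x) x := by
  refine (((hasDerivAt_kap x).fun_add ((hasDerivAt_kap x).fun_mul (hasDerivAt_pp x))).fun_sub
    (hasDerivAt_Pi x)).congr_deriv ?_
  rw [kap_mul_k2, om]
  ring
theorem hasDerivAt_pp_sq (x : ℝ) : HasDerivAt (fun y => pp y ^ 2) (2 * pp x * qq x * mu x) x := by
  refine ((hasDerivAt_pp x).fun_pow 2).congr_deriv ?_
  unfold k2
  push_cast
  ring

theorem strictMono_uu : StrictMono uu := by
  exact strictMono_of_deriv_pos fun x => by rw [(hasDerivAt_uu x).deriv]; exact mu_pos x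
theorem tendsto_uu_atTop : Tendsto uu atTop atTop := by
  exact Real.tendsto_log_atTop.comp tendsto_lam_atTop
theorem ee_neg (x : ℝ) : ee (-x) = ee x := by
  rw [ee, ee, neg_sq]
theorem abs_le_ee (x : ℝ) : |x| ≤ ee x := by
  exact Real.abs_le_sqrt (by linarith)
theorem ee_lip (x y : ℝ) : |ee x - ee y| ≤ 1 * |x - y| := by
  have h := convex_univ.norm_image_sub_le_of_norm_hasDerivWithin_le (C := 1)
    (fun z _ => (hasDerivAt_ee z).hasDerivWithinAt)
    (fun z _ => by
      rw [Real.norm_eq_abs, ee1, abs_div, abs_of_pos (ee_pos z), div_le_one (ee_pos z)]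
      exact abs_le_ee z) (mem_univ y) (mem_univ x)
  simpa only [Real.norm_eq_abs] using h
theorem ee_le (x : ℝ) : |ee x| ≤ 3 * (1 + |x|) ^ 1 := by
  rw [abs_of_pos (ee_pos x), pow_one]
  refine Real.sqrt_le_iff.2 ⟨by positivity, ?_⟩
  rw [← sq_abs]
  nlinarith [abs_nonneg x]

end Crest.Agent.R253
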