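import Crest.Agent.R253.SFMid

/-!
# Row 253: the one-variable inequalities on the whole line

Left tail `x ≤ -8`: `0 < m ≤ 1/8`, `0 < ν ≤ m²`, `ν ≤ 1/64`, `0 < p ≤ 1/64`, `ν ≤ 3p`, `0 < D ≤ 2ν²`,
`0 ≤ q ≤ 6ν²` (from `theta_nonneg`, since `Θ = 2D + 2ν² - νp - q`), `μ = 1/m`, `-1 ≤ x κ ≤ 0`
(`-x κ ≤ μ κ = 1 - p`), `|x| ≤ ee x`.
Right tail `x ≥ 12`: `x < m ≤ x + 1/5`, `0.986 ≤ ν < 1`, `0.4868 ≤ p < 1/2`, `0 ≤ q ≤ 1 - 2p`,
`0 < D ≤ 4 / (1 + 2ν + m²) ≤ 1/36`, `x κ = tt - 1 + p ≥ x²/2 + 3.4 - 1 + p`, `x ≤ ee x`,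
`x ee x ≤ x² + 9/2`, `ee1 x ≥ 12 / √153 ≥ 0.97`.
-/

set_option autoImplicit false

namespace Crest.Agent.R253
open Crest.Agent.R238 Crest.Agent.R215

theorem theta_nonneg (x : ℝ) : 0 ≤ 2 * DD x + 2 * nu x ^ 2 + pp x - nu x := by
  rcases le_or_gt x (-3) with h | h
  · exact theta_nonneg_of node_m3.1 node_m3.2 h
  rcases le_total x 12 with h' | h'
  · exact (sfp_mid (by linarith) h').f16 h
  · have h1 : nu 12 ≤ nu x := strictMono_nu.monotone h'
    have h2 := node_hi.2.1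
    have h3 := DD_pos x
    have h4 := pp_pos x
    nlinarith

theorem SFFacts_ee_sq (x : ℝ) : ee x ^ 2 = 9 + x ^ 2 := Real.sq_sqrt (by positivity)

theorem SFFacts_abs_ee1 (x : ℝ) : |ee1 x| ≤ 1 := by
  unfold ee1
  rw [abs_div, abs_of_pos (ee_pos x), div_le_one (ee_pos x)]
  exact abs_le_ee x

theorem SFFacts_ee2_nonneg (x : ℝ) : 0 ≤ ee2 x := by
  unfold ee2
  have := ee_pos x
  positivity

/-- Small `D`, `q`: the inequalities `f3`–`f7`. -/
theorem SFFacts_small {p n D q e : ℝ} (hp0 : 0 ≤ p) (hp : p ≤ 1 / 2) (hn0 : 0 ≤ n)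
    (hD0 : 0 ≤ D) (hD : D ≤ 1 / 36) (hq0 : 0 ≤ q) (hq : q ≤ 33 / 1250)
    (hr : (1 - p) * (1 + n) ≤ 26 / 25) (he0 : 0 ≤ e) (he : e ≤ 1 / 10) :
    |q + ((1 - p) * (D * (1 - p) - (1 + n) * q) - q ^ 2)| ≤ 1 / 10 ∧
    |q + ((1 - p) * (D * (1 - p) - (1 + n) * q) - q ^ 2) - 2 * p * q| ≤ 3 / 50 ∧
    2 * p * q ≤ 3 / 40 ∧
    |(1 - p) * (D * (1 - p) - (1 + n) * q) - q ^ 2| ≤ 9 / 250 ∧
    |(1 - p) * (D * (1 - p) - (1 + n) * q) - q ^ 2 - 2 * p * q + e / 4| ≤ 17 / 250 := by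
  have e1 : (1 - p) * (D * (1 - p) - (1 + n) * q) = (1 - p) ^ 2 * D - (1 - p) * (1 + n) * q := by ring
  rw [e1]
  have a0 : 0 ≤ (1 - p) ^ 2 * D := by positivity
  have a1 : (1 - p) ^ 2 * D ≤ 1 / 36 := by
    have : (1 - p) ^ 2 ≤ 1 := by nlinarith
    nlinarith
  have r0 : 0 ≤ (1 - p) * (1 + n) := mul_nonneg (by linarith) (by linarith)
  have b0 : 0 ≤ (1 - p) * (1 + n) * q := mul_nonneg r0 hq0
  have b1 : (1 - p) * (1 + n) * q ≤ 26 / 25 * (33 / 1250) := mul_le_mul hr hq hq0 (by norm_num)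
  have c0 : 0 ≤ q ^ 2 := sq_nonneg q
  have c1 : q ^ 2 ≤ (33 / 1250) ^ 2 := pow_le_pow_left₀ hq0 hq 2
  have d0 : 0 ≤ 2 * p * q := by positivity
  have d1 : 2 * p * q ≤ 33 / 1250 := by nlinarith
  generalize (1 - p) ^ 2 * D = A at *
  generalize (1 - p) * (1 + n) * q = B at *
  generalize 2 * p * q = C at *
  generalize q ^ 2 = Q at *
  norm_num at b1 c1
  refine ⟨abs_le.2 ⟨?_, ?_⟩, abs_le.2 ⟨?_, ?_⟩, ?_, abs_le.2 ⟨?_, ?_⟩, abs_le.2 ⟨?_, ?_⟩⟩ <;> linarith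

theorem SFFacts_k2u (x : ℝ) :
    k2u x = (1 - pp x) * (DD x * mu x) - (1 + 2 * nu x) * k2 x := by
  unfold k2u qu k2; ring

theorem SFFacts_f2 {p n A B : ℝ} (hp0 : 0 ≤ p) (hp : p ≤ 1 / 2) (hn0 : 0 ≤ n) (hn : n ≤ 1)
    (hA0 : 0 ≤ A) (hA : A ≤ 1 / 100) (hB0 : 0 ≤ B) (hB : B ≤ 3 / 200) :
    |(1 - p) * A - (1 + 2 * n) * B| ≤ 9 / 200 := by
  have a0 : 0 ≤ (1 - p) * A := mul_nonneg (by linarith) hA0
  have a1 : (1 - p) * A ≤ A := by nlinarith
  have b0 : 0 ≤ (1 + 2 * n) * B := by positivity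
  have b1 : (1 + 2 * n) * B ≤ 3 * B := by nlinarith
  exact abs_le.2 ⟨by linarith, by linarith⟩

theorem SFFacts_sq2 {a b A B : ℝ} (ha : |a| ≤ A) (hb : |b| ≤ B) (h : A ^ 2 / 2 + B ^ 2 ≤ 7 / 250) :
    a ^ 2 / 2 + b ^ 2 ≤ 7 / 250 := by
  have h1 : a ^ 2 ≤ A ^ 2 := by rw [← sq_abs a]; exact pow_le_pow_left₀ (abs_nonneg a) ha 2
  have h2 : b ^ 2 ≤ B ^ 2 := by rw [← sq_abs b]; exact pow_le_pow_left₀ (abs_nonneg b) hb 2
  linarith

theorem sfp_lo {x : ℝ} (h : x ≤ -8) : SFP x := by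
  have hm0 := mm_pos x
  have hmu0 := mu_pos x
  have hm : mm x ≤ 1 / 8 := (strictMono_mm.monotone h).trans node_lo.1
  have hn0 := nu_pos x
  have hn : nu x ≤ 1 / 64 := (strictMono_nu.monotone h).trans node_lo.2.1
  have hnm := nu_le_mm_sq x
  have hp0 := pp_pos x
  have hp : pp x ≤ 1 / 64 := (monotone_pp h).trans node_lo.2.2
  have hnp : nu x ≤ 3 * pp x := nu_le_three_pp_of (node_lo.2.1.trans (by norm_num)) h
  have hD0 := DD_pos x
  have hD := DD_le x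
  have hq0 := qq_nonneg x
  have hq : qq x ≤ 6 * nu x ^ 2 := by
    have h1 := theta_nonneg x
    have h2 : 0 ≤ nu x * pp x := by positivity
    have h3 : qq x = nu x - pp x - nu x * pp x := by unfold qq; ring
    linarith
  have hn2 : nu x ^ 2 ≤ 1 / 4096 := by nlinarith
  have hq' : qq x ≤ 3 / 2048 := by linarith
  have hD' : DD x ≤ 1 / 2048 := by linarith
  have hnmu : nu x * mu x ≤ 1 / 8 := by
    have h1 : nu x * mu x ≤ mm x ^ 2 * mu x := mul_le_mul_of_nonneg_right hnm hmu0.le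
    have h2 : mm x ^ 2 * mu x = mm x := by
      have := mu_mul_mm x
      calc mm x ^ 2 * mu x = mm x * (mu x * mm x) := by ring
        _ = mm x := by rw [this, mul_one]
    linarith
  have hn2mu : nu x ^ 2 * mu x ≤ nu x / 8 := by nlinarith
  have hA : DD x * mu x ≤ nu x / 4 := by
    have : DD x * mu x ≤ 2 * nu x ^ 2 * mu x := mul_le_mul_of_nonneg_right hD hmu0.le
    linarith
  have hk0 := k2_nonneg x
  have hk : k2 x ≤ 3 / 4 * nu x := by
    have : qq x * mu x ≤ 6 * nu x ^ 2 * mu x := mul_le_mul_of_nonneg_right hq hmu0.le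
    unfold k2
    linarith
  have hph0 := ph_nonneg x
  have hph : ph x ≤ 3 / 2048 := by
    have : ph x ≤ qq x := by unfold ph; nlinarith
    linarith
  have hee : -x ≤ ee x := (neg_le_abs x).trans (abs_le_ee x)
  have he2 : ee2 x ≤ 9 / 512 := by
    unfold ee2
    have h8 : (8 : ℝ) ≤ ee x := by linarith
    have : (8 : ℝ) ^ 3 ≤ ee x ^ 3 := pow_le_pow_left₀ (by norm_num) h8 3
    rw [div_le_div_iff₀ (pow_pos (ee_pos x) 3) (by norm_num)]
    linarith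
  have he20 := SFFacts_ee2_nonneg x
  have hem : ee2 x * mm x ≤ 1 / 10 := by nlinarith
  obtain ⟨g3, g4, g5, g6, g7⟩ := SFFacts_small (e := ee2 x * mm x) hp0.le (by linarith) hn0.le hD0.le
    (by linarith) hq0 (by linarith) (by nlinarith) (by positivity) hem
  have hp2 : pp x ^ 2 ≤ pp x / 64 := by nlinarith
  have hp20 : 0 ≤ pp x ^ 2 := sq_nonneg _
  have hom : om x = pp x + ph x := rfl
  have he1 := abs_le.1 (SFFacts_abs_ee1 x)
  have he1' : ee1 x ≤ 0 := div_nonpos_of_nonpos_of_nonneg (by linarith) (ee_pos x).le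
  refine ⟨by linarith, ?_, g3, g4, g5, g6, g7, ?_, ?_, ?_, ?_, ?_, ?_, hnp, ?_, fun h' => by linarith⟩
  · rw [SFFacts_k2u]
    exact SFFacts_f2 hp0.le (by linarith) hn0.le (by linarith) (by positivity) (by linarith) hk0
      (by linarith)
  · have h1 : k2 x ^ 2 ≤ (3 / 4 * nu x) ^ 2 := pow_le_pow_left₀ hk0 hk 2
    have h2 : nu x ^ 2 ≤ 3 / 64 * pp x := by nlinarith
    have h3 : k2 x ^ 2 / (9 / 1000) = 1000 / 9 * k2 x ^ 2 := by ring
    rw [h3]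
    nlinarith
  · exact SFFacts_sq2 (A := 3 / 20) (B := 11 / 100) (abs_le.2 ⟨by linarith, by linarith⟩)
      (abs_le.2 ⟨by linarith, by linarith⟩) (by norm_num)
  · exact SFFacts_sq2 (A := 13 / 100) (B := 1 / 8) (abs_le.2 ⟨by linarith, by linarith⟩)
      (abs_le.2 ⟨by linarith, by linarith⟩) (by norm_num)
  · nlinarith [sq_nonneg x]
  · have h1 : (om x - 17 / 50) ^ 2 ≤ (17 / 50) ^ 2 := by nlinarith
    have h2 : 64 ≤ x ^ 2 := by nlinarith
    nlinarith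
  · have h1 : -1 ≤ x * kap x := by
      have := x_mul_kap x
      have := tt_pos x
      linarith
    have h2 : 0 ≤ 5 * ph x * (1 - 13 / 8 * ph x) := mul_nonneg (by linarith) (by linarith)
    have h3 : x ^ 2 ≤ -(x * ee x) := by nlinarith
    have h4 : 64 ≤ x ^ 2 := by nlinarith
    linarith
  · nlinarith

theorem sfp_hi {x : ℝ} (h : 12 ≤ x) : SFP x := by
  have hm0 := mm_pos x
  have hmu0 := mu_pos x
  have hxm := lt_mm x
  have hm : mm x ≤ x + 1 / 5 := by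
    have h1 : mm x - x ≤ mm 12 - 12 := antitone_mm_sub h
    have := node_hi.1
    linarith
  have hn : 493 / 500 ≤ nu x := node_hi.2.1.trans (strictMono_nu.monotone h)
  have hn1 := nu_lt_one x
  have hp : 2434 / 5000 ≤ pp x := node_hi.2.2.1.trans (monotone_pp h)
  have hp1 := pp_lt_half x
  have hD0 := DD_pos x
  have hD : DD x ≤ 1 / 36 := by
    have h1 := DD_mul_le x
    have h2 : 144 ≤ 1 + 2 * nu x + mm x ^ 2 := by nlinarith
    nlinarith
  have hq0 := qq_nonneg x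
  have hq := qq_le_half x
  have hq' : qq x ≤ 33 / 1250 := by linarith
  have hmu : mu x ≤ 1 / 12 := by
    have := mu_mul_mm x
    nlinarith
  have hA : DD x * mu x ≤ 1 / 100 := by nlinarith
  have hk0 := k2_nonneg x
  have hk : k2 x ≤ (1 - 2 * pp x) / 12 := by
    unfold k2
    nlinarith
  have hph0 := ph_nonneg x
  have hph : ph x ≤ 17 / 1250 := by
    have : ph x ≤ 2566 / 5000 * (33 / 1250) := by
      unfold ph
      exact mul_le_mul (by linarith) hq' hq0 (by norm_num)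
    linarith
  have hee : x ≤ ee x := (le_abs_self x).trans (abs_le_ee x)
  have hee0 := ee_pos x
  have he20 := SFFacts_ee2_nonneg x
  have hem : ee2 x * mm x ≤ 1 / 10 := by
    unfold ee2
    rw [div_mul_eq_mul_div, div_le_div_iff₀ (pow_pos hee0 3) (by norm_num)]
    have h1 : 144 ≤ ee x ^ 2 := by nlinarith
    have h2 : 144 * ee x ≤ ee x ^ 3 := by nlinarith
    linarith
  obtain ⟨g3, g4, g5, g6, g7⟩ := SFFacts_small (n := nu x) (e := ee2 x * mm x) (pp_pos x).le hp1.le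
    (by linarith) hD0.le hD hq0 hq' (by nlinarith) (by positivity) hem
  have hp2 : pp x ^ 2 ≤ 1 / 4 := by nlinarith
  have hp2' : 2369 / 10000 ≤ pp x ^ 2 := by nlinarith
  have hp3 : pp x - pp x ^ 2 ≤ 1 / 4 := by nlinarith [sq_nonneg (pp x - 1 / 2)]
  have hom : om x = pp x + ph x := rfl
  have he1 := abs_le.1 (SFFacts_abs_ee1 x)
  have he1' : 0 ≤ ee1 x := div_nonneg (by linarith) hee0.le
  refine ⟨by linarith, ?_, g3, g4, g5, g6, g7, ?_, ?_, ?_, ?_, ?_, ?_, by linarith, by linarith,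
    fun _ => theta_nonneg x⟩
  · rw [SFFacts_k2u]
    exact SFFacts_f2 (pp_pos x).le hp1.le (by linarith) hn1.le (by positivity) hA hk0
      (by linarith)
  · have h1 : k2 x ^ 2 ≤ ((1 - 2 * pp x) / 12) ^ 2 := pow_le_pow_left₀ hk0 hk 2
    have h3 : k2 x ^ 2 / (9 / 1000) = 1000 / 9 * k2 x ^ 2 := by ring
    rw [h3]
    have h4 : (1 - 2 * pp x) ^ 2 ≤ (1 - 2 * pp x) / 2 := by nlinarith
    nlinarith
  · exact SFFacts_sq2 (A := 114 / 1000) (B := 14 / 100) (abs_le.2 ⟨by linarith, by linarith⟩)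
      (abs_le.2 ⟨by linarith, by linarith⟩) (by norm_num)
  · exact SFFacts_sq2 (A := 152 / 1000) (B := 1 / 8) (abs_le.2 ⟨by linarith, by linarith⟩)
      (abs_le.2 ⟨by linarith, by linarith⟩) (by norm_num)
  · nlinarith
  · have h1 : (om x - 17 / 50) ^ 2 ≤ (17 / 50) ^ 2 := by nlinarith
    nlinarith
  · have h1 : x ^ 2 / 2 + 12 / 5 + pp x ≤ x * kap x := by
      have h2 := x_mul_kap x
      have h3 : tt 12 - 12 ^ 2 / 2 ≤ tt x - x ^ 2 / 2 := monotone_tt_sub h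
      have := node_hi.2.2.2
      linarith
    have h2 : ph x ≤ 5 * ph x * (1 - 13 / 8 * ph x) := by nlinarith
    have h3 : x * ee x ≤ x ^ 2 + 9 / 2 := by nlinarith [SFFacts_ee_sq x, sq_nonneg (x - ee x)]
    nlinarith [sq_nonneg (x - 12 / 5)]

theorem sfp (x : ℝ) : SFP x := by
  rcases le_total x (-8) with h | h
  · exact sfp_lo h
  rcases le_total x 12 with h' | h'
  · exact sfp_mid h h'
  · exact sfp_hi h'

end Crest.Agent.R253
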