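import Mathlib

/-!
# Row 253: fixed point interval arithmetic

An interval `⟨lo, hi⟩` stands for `[lo / 2^320, hi / 2^320]`.
-/

set_option autoImplicit false

namespace Crest.Agent.R253

/-- The scale. -/
def scN : ℕ := 2 ^ 320
/-- The scale as an integer. -/
def scZ : ℤ := Int.ofNat scN

/-- Fixed point intervals. -/
structure Iv where
  lo : ℤ
  hi : ℤ

namespace Iv

/-- Membership. -/
def mem (I : Iv) (r : ℝ) : Prop := (I.lo : ℝ) ≤ r * (scN : ℝ) ∧ r * (scN : ℝ) ≤ (I.hi : ℝ)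

/-- Ceiling division by a positive integer. -/
def cdiv (a b : ℤ) : ℤ := -((-a) / b)
/-- Minimum. -/
def mn (a b : ℤ) : ℤ := if a ≤ b then a else b
/-- Maximum. -/
def mx (a b : ℤ) : ℤ := if a ≤ b then b else a

/-- The rational number `a / b`. -/
def rat (a : ℤ) (b : ℕ) : Iv := ⟨a * scZ / Int.ofNat b, cdiv (a * scZ) (Int.ofNat b)⟩
def add (I J : Iv) : Iv := ⟨I.lo + J.lo, I.hi + J.hi⟩
def neg (I : Iv) : Iv := ⟨-I.hi, -I.lo⟩
def sub (I J : Iv) : Iv := ⟨I.lo - J.hi, I.hi - J.lo⟩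
def mul (I J : Iv) : Iv :=
  ⟨mn (mn (I.lo * J.lo) (I.lo * J.hi)) (mn (I.hi * J.lo) (I.hi * J.hi)) / scZ,
    cdiv (mx (mx (I.lo * J.lo) (I.lo * J.hi)) (mx (I.hi * J.lo) (I.hi * J.hi))) scZ⟩
/-- Multiplication by the nonnegative rational `a / b`. -/
def smul (a b : ℕ) (I : Iv) : Iv :=
  ⟨Int.ofNat a * I.lo / Int.ofNat b, cdiv (Int.ofNat a * I.hi) (Int.ofNat b)⟩
def sq (I : Iv) : Iv :=
  ⟨if 0 ≤ I.lo then I.lo * I.lo / scZ else if I.hi ≤ 0 then I.hi * I.hi / scZ else 0,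
    cdiv (mx (I.lo * I.lo) (I.hi * I.hi)) scZ⟩
/-- Inverse of an interval with `0 < lo`. -/
def inv (I : Iv) : Iv := ⟨scZ * scZ / I.hi, cdiv (scZ * scZ) I.lo⟩
/-- Quotient of an interval with `0 ≤ lo` by an interval with `0 < lo`. -/
def div (I J : Iv) : Iv := ⟨I.lo * scZ / J.hi, cdiv (I.hi * scZ) J.lo⟩
/-- Square root. -/
def sqrt (I : Iv) : Iv :=
  ⟨Int.ofNat (Nat.sqrt (I.lo.toNat * scN)), Int.ofNat (Nat.sqrt (I.hi.toNat * scN) + 1)⟩
/-- Intersection with `[0, ∞)`. -/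
def nn (I : Iv) : Iv := ⟨mx I.lo 0, I.hi⟩
/-- The hull used for monotone functions: lower end of `I`, upper end of `J`. -/
def hull (I J : Iv) : Iv := ⟨I.lo, J.hi⟩
/-- `0 < lo`. -/
def pos (I : Iv) : Bool := decide (0 < I.lo)
/-- `0 ≤ lo`. -/
def ge0 (I : Iv) : Bool := decide (0 ≤ I.lo)
/-- The interval is contained in `(-∞, a / b]`. -/
def le (I : Iv) (a : ℤ) (b : ℕ) : Bool := decide (I.hi * Int.ofNat b ≤ a * scZ)
/-- The interval is contained in `[a / b, ∞)`. -/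
def ge (I : Iv) (a : ℤ) (b : ℕ) : Bool := decide (a * scZ ≤ I.lo * Int.ofNat b)
/-- The interval is contained in `[-a / b, a / b]`. -/
def ab (I : Iv) (a : ℤ) (b : ℕ) : Bool := I.le a b && I.ge (-a) b

variable {I J : Iv} {r s : ℝ}

theorem sf_scN_pos : 0 < scN := by
  unfold scN
  exact Nat.two_pow_pos _
theorem sf_c : (0 : ℝ) < scN := Nat.cast_pos.2 sf_scN_pos
theorem sf_scZ : ((scZ : ℤ) : ℝ) = scN := Int.cast_natCast scN
theorem sf_scZ_pos : 0 < scZ := Int.natCast_pos.2 sf_scN_pos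
theorem sf_ofNat (b : ℕ) : ((Int.ofNat b : ℤ) : ℝ) = b := Int.cast_natCast b

theorem sf_div_le {a b : ℤ} {x : ℝ} (hb : 0 < b) (h : (a : ℝ) ≤ x * b) : ((a / b : ℤ) : ℝ) ≤ x := by
  have h1 : ((a / b * b : ℤ) : ℝ) ≤ a := Int.cast_le.2 (Int.ediv_mul_le a hb.ne')
  rw [Int.cast_mul] at h1
  exact le_of_mul_le_mul_right (h1.trans h) (Int.cast_pos.2 hb)

theorem sf_le_cdiv {a b : ℤ} {x : ℝ} (hb : 0 < b) (h : x * b ≤ (a : ℝ)) : x ≤ (cdiv a b : ℝ) := by
  have := sf_div_le (a := -a) (x := -x) hb (by rw [Int.cast_neg]; linarith)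
  rw [cdiv, Int.cast_neg]
  linarith

theorem sf_mn (a b : ℤ) : ((mn a b : ℤ) : ℝ) = min (a : ℝ) b := by
  rw [← Int.cast_min, min_def, mn]

theorem sf_mx (a b : ℤ) : ((mx a b : ℤ) : ℝ) = max (a : ℝ) b := by
  rw [← Int.cast_max, max_def, mx]

theorem sf_lin {a b x : ℝ} (y : ℝ) (h1 : a ≤ x) (h2 : x ≤ b) :
    min (y * a) (y * b) ≤ y * x ∧ y * x ≤ max (y * a) (y * b) := by
  rcases le_total 0 y with h | h
  · exact ⟨(min_le_left _ _).trans (mul_le_mul_of_nonneg_left h1 h),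
      (mul_le_mul_of_nonneg_left h2 h).trans (le_max_right _ _)⟩
  · exact ⟨(min_le_right _ _).trans (mul_le_mul_of_nonpos_left h2 h),
      (mul_le_mul_of_nonpos_left h1 h).trans (le_max_left _ _)⟩

theorem sf_toNat (a : ℤ) : ((a.toNat : ℕ) : ℝ) = max (a : ℝ) 0 := by
  rw [← Int.cast_natCast, Int.ofNat_toNat, Int.cast_max, Int.cast_zero]

theorem mem_rat (a : ℤ) {b : ℕ} (hb : 0 < b) : (rat a b).mem ((a : ℝ) / b) := by
  have hb' : (b : ℝ) ≠ 0 := Nat.cast_ne_zero.2 hb.ne'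
  have e : (a : ℝ) / b * scN * (Int.ofNat b : ℤ) = (a * scZ : ℤ) := by
    rw [Int.cast_mul, sf_scZ, sf_ofNat]
    field_simp
  exact ⟨sf_div_le (Int.natCast_pos.2 hb) e.ge, sf_le_cdiv (Int.natCast_pos.2 hb) e.le⟩
theorem mem_add (h : I.mem r) (k : J.mem s) : (I.add J).mem (r + s) := by
  simp only [mem, add, Int.cast_add] at *
  constructor <;> linarith [h.1, h.2, k.1, k.2]
theorem mem_neg (h : I.mem r) : I.neg.mem (-r) := by
  simp only [mem, neg, Int.cast_neg] at *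
  constructor <;> linarith [h.1, h.2]
theorem mem_sub (h : I.mem r) (k : J.mem s) : (I.sub J).mem (r - s) := by
  simp only [mem, sub, Int.cast_sub] at *
  constructor <;> linarith [h.1, h.2, k.1, k.2]
theorem mem_mul (h : I.mem r) (k : J.mem s) : (I.mul J).mem (r * s) := by
  have e : r * s * scN * (scZ : ℤ) = s * scN * (r * scN) := by rw [sf_scZ]; ring
  have h1 := sf_lin (s * scN) h.1 h.2
  have h2 := sf_lin (I.lo : ℝ) k.1 k.2
  have h3 := sf_lin (I.hi : ℝ) k.1 k.2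
  rw [mul_comm _ (I.lo : ℝ), mul_comm _ (I.hi : ℝ)] at h1
  refine ⟨sf_div_le sf_scZ_pos ?_, sf_le_cdiv sf_scZ_pos ?_⟩
  · simp only [e, sf_mn, Int.cast_mul]
    exact (min_le_min h2.1 h3.1).trans h1.1
  · simp only [e, sf_mx, Int.cast_mul]
    exact h1.2.trans (max_le_max h2.2 h3.2)
theorem mem_smul (a : ℕ) {b : ℕ} (hb : 0 < b) (h : I.mem r) : (smul a b I).mem ((a : ℝ) / b * r) := by
  have hb' : (b : ℝ) ≠ 0 := Nat.cast_ne_zero.2 hb.ne'
  have e : (a : ℝ) / b * r * scN * (Int.ofNat b : ℤ) = a * (r * scN) := by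
    rw [sf_ofNat]
    field_simp
  refine ⟨sf_div_le (Int.natCast_pos.2 hb) ?_, sf_le_cdiv (Int.natCast_pos.2 hb) ?_⟩
  · rw [e, Int.cast_mul, sf_ofNat]
    exact mul_le_mul_of_nonneg_left h.1 (Nat.cast_nonneg a)
  · rw [e, Int.cast_mul, sf_ofNat]
    exact mul_le_mul_of_nonneg_left h.2 (Nat.cast_nonneg a)
theorem mem_sq (h : I.mem r) : I.sq.mem (r ^ 2) := by
  have e : r ^ 2 * scN * (scZ : ℤ) = r * scN * (r * scN) := by rw [sf_scZ]; ring
  obtain ⟨h1, h2⟩ := h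
  refine ⟨?_, sf_le_cdiv sf_scZ_pos ?_⟩
  · show ((if 0 ≤ I.lo then I.lo * I.lo / scZ else if I.hi ≤ 0 then I.hi * I.hi / scZ else 0 : ℤ) :
      ℝ) ≤ _
    split_ifs with c1 c2
    · refine sf_div_le sf_scZ_pos ?_
      rw [e, Int.cast_mul]
      exact mul_self_le_mul_self (Int.cast_nonneg c1) h1
    · refine sf_div_le sf_scZ_pos ?_
      have c2' : (I.hi : ℝ) ≤ 0 := Int.cast_nonpos.2 c2
      rw [e, Int.cast_mul]
      nlinarith
    · rw [Int.cast_zero]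
      positivity
  · rw [e, sf_mx, Int.cast_mul, Int.cast_mul]
    rcases le_total 0 (r * scN) with c | c
    · exact (mul_self_le_mul_self c h2).trans (le_max_right _ _)
    · exact le_trans (by nlinarith) (le_max_left _ _)
theorem sf_pos (h : 0 < r * scN) : 0 < r :=
  (mul_pos_iff_of_pos_right sf_c).1 h

theorem mem_inv (hp : I.pos = true) (h : I.mem r) : I.inv.mem r⁻¹ := by
  have hl : 0 < I.lo := of_decide_eq_true hp
  have hl' : (0 : ℝ) < I.lo := Int.cast_pos.2 hl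
  have hr : 0 < r := sf_pos (hl'.trans_le h.1)
  have e : ((scZ * scZ : ℤ) : ℝ) = r⁻¹ * scN * (r * scN) := by
    rw [Int.cast_mul, sf_scZ]
    field_simp
  have h0 : 0 ≤ r⁻¹ * scN := (mul_pos (inv_pos.2 hr) sf_c).le
  refine ⟨sf_div_le (Int.cast_pos.1 (hl'.trans_le (h.1.trans h.2))) ?_, sf_le_cdiv hl ?_⟩
  · rw [e]
    exact mul_le_mul_of_nonneg_left h.2 h0
  · rw [e]
    exact mul_le_mul_of_nonneg_left h.1 h0
theorem mem_div (hI : I.ge0 = true) (hJ : J.pos = true) (h : I.mem r) (k : J.mem s) :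
    (I.div J).mem (r / s) := by
  have hl : 0 < J.lo := of_decide_eq_true hJ
  have hl' : (0 : ℝ) < J.lo := Int.cast_pos.2 hl
  have hs : 0 < s := sf_pos (hl'.trans_le k.1)
  have hr : 0 ≤ r := (mul_nonneg_iff_of_pos_right sf_c).1
    ((Int.cast_nonneg (of_decide_eq_true hI)).trans h.1)
  have e : r * scN * scN = r / s * scN * (s * scN) := by field_simp
  have h0 : 0 ≤ r / s * scN := mul_nonneg (div_nonneg hr hs.le) sf_c.le
  refine ⟨sf_div_le (Int.cast_pos.1 (hl'.trans_le (k.1.trans k.2))) ?_, sf_le_cdiv hl ?_⟩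
  · rw [Int.cast_mul, sf_scZ]
    exact (mul_le_mul_of_nonneg_right h.1 sf_c.le).trans
      (e.trans_le (mul_le_mul_of_nonneg_left k.2 h0))
  · rw [Int.cast_mul, sf_scZ]
    exact (mul_le_mul_of_nonneg_left k.1 h0).trans
      (e.symm.trans_le (mul_le_mul_of_nonneg_right h.2 sf_c.le))
theorem mem_sqrt (h : I.mem r) : I.sqrt.mem (Real.sqrt r) := by
  have h0 : 0 ≤ Real.sqrt r * scN := mul_nonneg (Real.sqrt_nonneg r) sf_c.le
  have e : (Real.sqrt r * scN) ^ 2 = max (r * scN) 0 * scN := by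
    rw [mul_pow, Real.sq_sqrt', ← zero_mul (scN : ℝ), ← max_mul_of_nonneg _ _ sf_c.le, zero_mul]
    ring
  refine ⟨?_, ?_⟩
  · show ((Int.ofNat _ : ℤ) : ℝ) ≤ _
    rw [sf_ofNat]
    refine (pow_le_pow_iff_left₀ (Nat.cast_nonneg _) h0 two_ne_zero).1 ?_
    have a1 : ((Nat.sqrt (I.lo.toNat * scN) ^ 2 : ℕ) : ℝ) ≤ (I.lo.toNat * scN : ℕ) :=
      Nat.cast_le.2 (Nat.sqrt_le' _)
    rw [Nat.cast_pow, Nat.cast_mul, sf_toNat] at a1
    rw [e]
    exact a1.trans (mul_le_mul_of_nonneg_right (max_le_max h.1 le_rfl) sf_c.le)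
  · show _ ≤ ((Int.ofNat _ : ℤ) : ℝ)
    rw [sf_ofNat]
    refine (pow_le_pow_iff_left₀ h0 (Nat.cast_nonneg _) two_ne_zero).1 ?_
    have a1 : ((I.hi.toNat * scN : ℕ) : ℝ) ≤ ((Nat.sqrt (I.hi.toNat * scN) + 1) ^ 2 : ℕ) :=
      Nat.cast_le.2 (Nat.lt_succ_sqrt' _).le
    rw [Nat.cast_pow, Nat.cast_mul, sf_toNat] at a1
    rw [e]
    exact (mul_le_mul_of_nonneg_right (max_le_max h.2 le_rfl) sf_c.le).trans a1
theorem mem_nn (h : I.mem r) (h0 : 0 ≤ r) : I.nn.mem r := by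
  refine ⟨?_, h.2⟩
  show ((mx I.lo 0 : ℤ) : ℝ) ≤ _
  rw [sf_mx, Int.cast_zero]
  exact max_le h.1 (mul_nonneg h0 sf_c.le)
theorem mem_hull {t : ℝ} (h : I.mem r) (k : J.mem s) (h1 : r ≤ t) (h2 : t ≤ s) : (I.hull J).mem t := 
  ⟨h.1.trans (mul_le_mul_of_nonneg_right h1 sf_c.le),
    (mul_le_mul_of_nonneg_right h2 sf_c.le).trans k.2⟩
theorem mem_congr (h : I.mem r) (e : r = s) : I.mem s := e ▸ h
theorem pos_of (hp : I.pos = true) (h : I.mem r) : 0 < r := 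
  sf_pos ((Int.cast_pos.2 (of_decide_eq_true hp)).trans_le h.1)
theorem ge0_of (hp : I.ge0 = true) (h : I.mem r) : 0 ≤ r := 
  (mul_nonneg_iff_of_pos_right sf_c).1 ((Int.cast_nonneg (of_decide_eq_true hp)).trans h.1)
theorem le_of {a : ℤ} {b : ℕ} (hb : 0 < b) (hp : I.le a b = true) (h : I.mem r) : r ≤ (a : ℝ) / b := by
  have h1 : ((I.hi * Int.ofNat b : ℤ) : ℝ) ≤ (a * scZ : ℤ) := Int.cast_le.2 (of_decide_eq_true hp)
  rw [Int.cast_mul, Int.cast_mul, sf_scZ, sf_ofNat] at h1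
  rw [le_div_iff₀ (Nat.cast_pos.2 hb)]
  refine le_of_mul_le_mul_right ?_ sf_c
  linarith [mul_le_mul_of_nonneg_right h.2 (Nat.cast_nonneg (α := ℝ) b)]
theorem ge_of {a : ℤ} {b : ℕ} (hb : 0 < b) (hp : I.ge a b = true) (h : I.mem r) : (a : ℝ) / b ≤ r := by
  have h1 : ((a * scZ : ℤ) : ℝ) ≤ (I.lo * Int.ofNat b : ℤ) := Int.cast_le.2 (of_decide_eq_true hp)
  rw [Int.cast_mul, Int.cast_mul, sf_scZ, sf_ofNat] at h1
  rw [div_le_iff₀ (Nat.cast_pos.2 hb)]
  refine le_of_mul_le_mul_right ?_ sf_c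
  linarith [mul_le_mul_of_nonneg_right h.1 (Nat.cast_nonneg (α := ℝ) b)]
theorem ab_of {a : ℤ} {b : ℕ} (hb : 0 < b) (hp : I.ab a b = true) (h : I.mem r) :
    |r| ≤ (a : ℝ) / b := by
  rw [ab, Bool.and_eq_true] at hp
  have h1 := ge_of hb hp.2 h
  rw [Int.cast_neg, neg_div] at h1
  exact abs_le.2 ⟨h1, le_of hb hp.1 h⟩

end Iv

/-- `serLo a b j N t s`: adds to `s` the lower fixed point values of `N` terms, starting with `t`, of the
series with `t_{i+1} = t_i a / (b (j + 2 i))`. -/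
def serLo (a b : ℕ) : ℕ → ℕ → ℕ → ℕ → ℕ
  | _, 0, _, s => s
  | j, N + 1, t, s => serLo a b (j + 2) N (t * a / (b * j)) (s + t)

/-- As `serLo` with upward rounding; at the end twice the first omitted term is added. -/
def serHi (a b : ℕ) : ℕ → ℕ → ℕ → ℕ → ℕ
  | _, 0, t, s => s + 2 * t
  | j, N + 1, t, s => serHi a b (j + 2) N (t * a / (b * j) + 1) (s + t)

/-- Number of terms used at `y = k / 64`. -/
def nTerms (k : ℕ) : ℕ := 40 + 2 * (k * k / 4096)

/-- Enclosure of `exp (y² / 2) = ∑ y^{2j} / (2j)!!` at `y = k / 64`. -/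
def ivE (k : ℕ) : Iv :=
  ⟨Int.ofNat (serLo (k * k) 4096 2 (nTerms k) scN 0), Int.ofNat (serHi (k * k) 4096 2 (nTerms k) scN 0)⟩

/-- Enclosure of `S(y) = ∑ y^{2j+1} / (2j+1)!!` at `y = k / 64`. -/
def ivS (k : ℕ) : Iv :=
  ⟨Int.ofNat (serLo (k * k) 4096 3 (nTerms k) (k * scN / 64) 0),
    Int.ofNat (serHi (k * k) 4096 3 (nTerms k) (k * scN / 64 + 1) 0)⟩

/-- Lower value of `∑_{i = j}^{j + N - 1} ε^i / i`, where `t` is a lower value of `ε^j`. -/
def logLo (e : ℕ) : ℕ → ℕ → ℕ → ℕ → ℕ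
  | _, 0, _, s => s
  | j, N + 1, t, s => logLo e (j + 1) N (t * e / scN) (s + t / j)

/-- Upper value of the same sum plus `3 ε^{j + N}`. -/
def logHi (e : ℕ) : ℕ → ℕ → ℕ → ℕ → ℕ
  | _, 0, t, s => s + 3 * t
  | j, N + 1, t, s => logHi e (j + 1) N (t * e / scN + 1) (s + t / j + 1)

/-- Enclosure of `-log (1 - ε)` for `0 ≤ ε ≤ 2/3`. -/
def ivL (I : Iv) : Iv :=
  ⟨Int.ofNat (logLo I.lo.toNat 1 96 I.lo.toNat 0), Int.ofNat (logHi I.hi.toNat 1 96 I.hi.toNat 0)⟩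

theorem sf_div_up (m n : ℕ) : (m : ℝ) / n ≤ (m / n + 1 : ℕ) := by
  rw [Nat.cast_succ, ← Nat.floor_div_eq_div (K := ℝ)]
  exact (Nat.lt_floor_add_one _).le

theorem sf_serLo (a b N : ℕ) : ∀ (j t s : ℕ) (u : ℕ → ℝ),
    (∀ i : ℕ, u (i + 1) = u i * a / (b * (j + 2 * i))) → (t : ℝ) ≤ u 0 →
    (serLo a b j N t s : ℝ) ≤ s + ∑ i ∈ Finset.range N, u i := by
  induction N with
  | zero => intro j t s u _ _; simp [serLo]
  | succ N ih =>
    intro j t s u hu ht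
    have h1 := ih (j + 2) (t * a / (b * j)) (s + t) (fun i => u (i + 1))
      (fun i => by rw [hu]; push_cast; ring) (by
        refine Nat.cast_div_le.trans ?_
        rw [hu]
        push_cast
        rw [mul_zero, add_zero]
        gcongr)
    rw [serLo, Finset.sum_range_succ']
    push_cast at h1
    linarith

theorem sf_serHi (a b N : ℕ) : ∀ (j t s : ℕ) (u : ℕ → ℝ),
    (∀ i : ℕ, u (i + 1) = u i * a / (b * (j + 2 * i))) → u 0 ≤ (t : ℝ) →
    s + ∑ i ∈ Finset.range N, u i + 2 * u N ≤ (serHi a b j N t s : ℝ) := by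
  induction N with
  | zero => intro j t s u _ h; simpa [serHi] using h
  | succ N ih =>
    intro j t s u hu ht
    have h1 := ih (j + 2) (t * a / (b * j) + 1) (s + t) (fun i => u (i + 1))
      (fun i => by rw [hu]; push_cast; ring) (by
        refine le_trans ?_ (sf_div_up _ _)
        rw [hu]
        push_cast
        rw [mul_zero, add_zero]
        gcongr)
    rw [serHi, Finset.sum_range_succ']
    rw [Nat.cast_add s t] at h1
    linarith

theorem sf_logLo {e : ℕ} {r : ℝ} (h0 : 0 ≤ r) (he : (e : ℝ) ≤ r * scN) (N : ℕ) : ∀ j t s : ℕ,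
    (t : ℝ) ≤ r ^ j * scN →
    (logLo e j N t s : ℝ) ≤ s + (∑ i ∈ Finset.range N, r ^ (i + j) / (i + j)) * scN := by
  have hc := Iv.sf_c
  induction N with
  | zero => intro j t s _; simp [logLo]
  | succ N ih =>
    intro j t s ht
    have h1 := ih (j + 1) (t * e / scN) (s + t / j) (by
      refine Nat.cast_div_le.trans ?_
      rw [div_le_iff₀ hc, Nat.cast_mul]
      exact (mul_le_mul ht he (Nat.cast_nonneg _) (by positivity)).trans (le_of_eq (by ring)))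
    have h2 : ((t / j : ℕ) : ℝ) ≤ r ^ j / j * scN :=
      Nat.cast_div_le.trans ((div_le_div_of_nonneg_right ht (Nat.cast_nonneg _)).trans
        (le_of_eq (by ring)))
    have e1 : ∑ i ∈ Finset.range N, r ^ (i + (j + 1)) / ((i : ℝ) + (j + 1 : ℕ)) =
        ∑ i ∈ Finset.range N, r ^ (i + 1 + j) / (((i + 1 : ℕ) : ℝ) + j) :=
      Finset.sum_congr rfl fun i _ => by push_cast; ring
    rw [logLo, Finset.sum_range_succ', Nat.cast_zero, zero_add, zero_add]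
    rw [Nat.cast_add s, e1] at h1
    linarith

theorem sf_logHi {e : ℕ} {r : ℝ} (h0 : 0 ≤ r) (he : r * scN ≤ (e : ℝ)) (N : ℕ) : ∀ j t s : ℕ,
    r ^ j * scN ≤ (t : ℝ) →
    s + (∑ i ∈ Finset.range N, r ^ (i + j) / (i + j) + 3 * r ^ (N + j)) * scN ≤
      (logHi e j N t s : ℝ) := by
  have hc := Iv.sf_c
  induction N with
  | zero =>
    intro j t s h
    rw [logHi, Finset.sum_range_zero, zero_add, zero_add]
    push_cast
    linarith
  | succ N ih =>
    intro j t s ht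
    have h1 := ih (j + 1) (t * e / scN + 1) (s + t / j + 1) (by
      refine le_trans ?_ (sf_div_up _ _)
      rw [le_div_iff₀ hc, Nat.cast_mul]
      exact le_trans (le_of_eq (by ring)) (mul_le_mul ht he (by positivity) (Nat.cast_nonneg _)))
    have h2 : r ^ j / j * scN ≤ ((t / j + 1 : ℕ) : ℝ) :=
      le_trans (le_trans (le_of_eq (by ring)) (div_le_div_of_nonneg_right ht (Nat.cast_nonneg _)))
        (sf_div_up _ _)
    have e1 : ∑ i ∈ Finset.range N, r ^ (i + (j + 1)) / ((i : ℝ) + (j + 1 : ℕ)) =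
        ∑ i ∈ Finset.range N, r ^ (i + 1 + j) / (((i + 1 : ℕ) : ℝ) + j) :=
      Finset.sum_congr rfl fun i _ => by push_cast; ring
    rw [logHi, Finset.sum_range_succ', Nat.cast_zero, zero_add, zero_add]
    rw [add_assoc s, Nat.cast_add s, e1, show N + (j + 1) = N + 1 + j by ring] at h1
    rw [add_assoc s]
    linarith

/-- `-log (1 - ε)` lies between the partial sum and the partial sum plus `3 ε^{N+1}`
(`Real.abs_log_sub_add_sum_range_le`, or `hasSum_pow_div_log_of_abs_lt_one`). -/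
theorem mem_ivL {I : Iv} {r : ℝ} (h : I.mem r) (h0 : 0 ≤ r) (h1 : I.le 2 3 = true) :
    (ivL I).mem (-Real.log (1 - r)) := by
  have hr : r ≤ 2 / 3 := by simpa using Iv.le_of (by norm_num) h1 h
  have hc := Iv.sf_c
  have ha : |r| < 1 := by rw [abs_of_nonneg h0]; linarith
  have a1 : ((I.lo.toNat : ℕ) : ℝ) ≤ r * scN := by
    rw [Iv.sf_toNat]
    exact max_le h.1 (by positivity)
  have a2 : r * scN ≤ ((I.hi.toNat : ℕ) : ℝ) := by
    rw [Iv.sf_toNat]
    exact h.2.trans (le_max_left _ _)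
  have b1 := sf_logLo h0 a1 96 1 _ 0 (by rwa [pow_one])
  have b2 := sf_logHi h0 a2 96 1 _ 0 (by rwa [pow_one])
  rw [Nat.cast_zero, zero_add, Nat.cast_one] at b1 b2
  have c1 := sum_le_hasSum (Finset.range 96) (fun i _ => by positivity)
    (Real.hasSum_pow_div_log_of_abs_lt_one ha)
  have c2 := (abs_le.1 (Real.abs_log_sub_add_sum_range_le ha 96)).1
  have c3 : |r| ^ (96 + 1) / (1 - |r|) ≤ 3 * r ^ (96 + 1) := by
    rw [abs_of_nonneg h0, div_le_iff₀ (by linarith)]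
    nlinarith [pow_nonneg h0 (96 + 1)]
  refine ⟨?_, ?_⟩
  · exact (Iv.sf_ofNat _).trans_le (b1.trans (mul_le_mul_of_nonneg_right c1 hc.le))
  · exact ((mul_le_mul_of_nonneg_right (by linarith) hc.le).trans b2).trans (Iv.sf_ofNat _).ge

theorem sf_nTerms (k : ℕ) : ((k : ℝ) / 64) ^ 2 ≤ nTerms k := by
  have h := sf_div_up (k * k) 4096
  have h0 : (0 : ℝ) ≤ (k * k / 4096 : ℕ) := Nat.cast_nonneg _
  rw [nTerms, Nat.cast_add, Nat.cast_mul 2]
  rw [Nat.cast_succ, Nat.cast_mul k] at h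
  push_cast at h h0 ⊢
  linarith

/-- `exp (y² / 2)` is between `∑_{j < N} e_j` and `∑_{j < N} e_j + 2 e_N` as `y² / (2 N + 2) ≤ 1/2`. -/
theorem mem_ivE (k : ℕ) : (ivE k).mem (Real.exp (((k : ℝ) / 64) ^ 2 / 2)) := by
  have hc := Iv.sf_c
  set x : ℝ := ((k : ℝ) / 64) ^ 2 / 2 with hx
  have hx0 : 0 ≤ x := by positivity
  have hu : ∀ i : ℕ, x ^ (i + 1) / ((i + 1).factorial : ℕ) * scN =
      x ^ i / (i.factorial : ℕ) * scN * (k * k : ℕ) / ((4096 : ℕ) * ((2 : ℕ) + 2 * i)) := by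
    intro i
    have : ((i.factorial : ℕ) : ℝ) ≠ 0 := Nat.cast_ne_zero.2 i.factorial_ne_zero
    rw [Nat.factorial_succ, pow_succ, hx]
    push_cast
    field_simp
    ring
  have b1 := sf_serLo (k * k) 4096 (nTerms k) 2 scN 0 (fun i => x ^ i / (i.factorial : ℕ) * scN) hu
    (by simp)
  have b2 := sf_serHi (k * k) 4096 (nTerms k) 2 scN 0 (fun i => x ^ i / (i.factorial : ℕ) * scN) hu
    (by simp)
  rw [Nat.cast_zero, zero_add, ← Finset.sum_mul] at b1 b2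
  have c1 := Real.sum_le_exp_of_nonneg hx0 (nTerms k)
  have c2 := Complex.exp_bound' (x := x) (n := nTerms k) (by
    rw [Complex.norm_real, Real.norm_of_nonneg hx0, div_le_iff₀ (by positivity), Nat.cast_succ]
    linarith [sf_nTerms k])
  have e : Complex.exp x - ∑ m ∈ Finset.range (nTerms k), (x : ℂ) ^ m / m.factorial =
      ((Real.exp x - ∑ m ∈ Finset.range (nTerms k), x ^ m / m.factorial : ℝ) : ℂ) := by
    push_cast
    rfl
  rw [e, Complex.norm_real, Complex.norm_real, Real.norm_of_nonneg hx0] at c2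
  have c3 := mul_le_mul_of_nonneg_right (abs_le.1 c2).2 hc.le
  refine ⟨?_, ?_⟩
  · exact (Iv.sf_ofNat _).trans_le (b1.trans (mul_le_mul_of_nonneg_right c1 hc.le))
  · exact (le_trans (by linarith) b2).trans (Iv.sf_ofNat _).ge

/-- `y ^ (2 j + 1) / (2 j + 1)!!` -/
noncomputable def sfS : ℕ → ℝ → ℝ
  | 0, y => y
  | j + 1, y => sfS j y * y ^ 2 / (3 + 2 * j)

theorem sf_S_nonneg (j : ℕ) {y : ℝ} (hy : 0 ≤ y) : 0 ≤ sfS j y := by
  induction j with
  | zero => exact hy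
  | succ j ih => rw [sfS]; positivity

theorem sf_S_zero (j : ℕ) : sfS j 0 = 0 := by cases j <;> simp [sfS]

theorem sf_S_deriv (j : ℕ) (y : ℝ) : HasDerivAt (sfS (j + 1)) (y * sfS j y) y := by
  induction j with
  | zero =>
    have h := (((hasDerivAt_id y).mul (hasDerivAt_pow 2 y)).div_const (3 + 2 * ((0 : ℕ) : ℝ)))
    refine HasDerivAt.congr_deriv h ?_
    simp only [sfS, id]
    push_cast
    ring
  | succ j ih =>
    have h := ((ih.mul (hasDerivAt_pow 2 y)).div_const (3 + 2 * ((j + 1 : ℕ) : ℝ)))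
    refine HasDerivAt.congr_deriv h ?_
    simp only [sfS]
    push_cast
    field_simp
    ring

theorem sf_sum_deriv (N : ℕ) (y : ℝ) : HasDerivAt (fun y => ∑ j ∈ Finset.range (N + 1), sfS j y)
    (y * ∑ j ∈ Finset.range N, sfS j y + 1) y := by
  simp only [Finset.sum_range_succ' _ N, Finset.mul_sum]
  exact (HasDerivAt.fun_sum fun j _ => sf_S_deriv j y).add (hasDerivAt_id y)

theorem sf_cmp {g g' : ℝ → ℝ} {Y : ℝ} (hY : 0 ≤ Y) (hg : ∀ y, HasDerivAt g (g' y) y) (h0 : g 0 = 0)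
    (h : ∀ y, 0 ≤ y → y ≤ Y → y * g y ≤ g' y) : 0 ≤ g Y := by
  have hd : ∀ y, HasDerivAt (fun y => g y * Real.exp (-(y ^ 2 / 2)))
      ((g' y - y * g y) * Real.exp (-(y ^ 2 / 2))) y := fun y =>
    ((hg y).mul ((hasDerivAt_pow 2 y).div_const 2).neg.exp).congr_deriv (by
      simp only [Pi.neg_apply]
      push_cast
      ring)
  have hm := monotoneOn_of_deriv_nonneg (convex_Icc 0 Y)
    (fun y _ => (hd y).continuousAt.continuousWithinAt)
    (fun y _ => (hd y).differentiableAt.differentiableWithinAt) (fun y hy => by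
      have hy' := interior_subset hy
      rw [(hd y).deriv]
      exact mul_nonneg (sub_nonneg.2 (h y hy'.1 hy'.2)) (Real.exp_pos _).le)
  have h1 := hm (Set.left_mem_Icc.2 hY) (Set.right_mem_Icc.2 hY) hY
  simp only [h0, zero_mul] at h1
  exact (mul_nonneg_iff_of_pos_right (Real.exp_pos _)).1 h1

theorem sf_S_bounds {S : ℝ → ℝ} (hS : ∀ y, HasDerivAt S (y * S y + 1) y) (h0 : S 0 = 0) {Y : ℝ}
    (hY : 0 ≤ Y) {N : ℕ} (hN : Y ^ 2 ≤ (N + 1 : ℕ)) :
    ∑ j ∈ Finset.range (N + 1), sfS j Y ≤ S Y ∧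
      S Y ≤ ∑ j ∈ Finset.range (N + 1), sfS j Y + 2 * sfS (N + 1) Y := by
  have h1 := sf_cmp hY (fun y => (hS y).fun_sub (sf_sum_deriv N y))
    (by simp [h0, sf_S_zero]) fun y a1 a2 => by
      rw [Finset.sum_range_succ]
      linarith [mul_nonneg a1 (sf_S_nonneg N a1)]
  have h2 := sf_cmp hY
    (fun y => ((sf_sum_deriv N y).fun_add ((sf_S_deriv N y).const_mul 2)).fun_sub (hS y))
    (by simp [h0, sf_S_zero]) fun y a1 a2 => by
      have b1 : 2 * sfS (N + 1) y ≤ sfS N y := by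
        have b2 : y ^ 2 ≤ N + 1 := (pow_le_pow_left₀ a1 a2 2).trans (hN.trans_eq (Nat.cast_succ N))
        rw [sfS, ← mul_div_assoc, div_le_iff₀ (by positivity)]
        nlinarith [sf_S_nonneg N a1]
      rw [Finset.sum_range_succ]
      linarith [mul_le_mul_of_nonneg_left b1 a1]
  exact ⟨sub_nonneg.1 h1, sub_nonneg.1 h2⟩

/-- Any solution of `S' = y S + 1`, `S 0 = 0` lies between `S_N = ∑_{j < N} s_j` and `S_N + 2 s_N` on
`[0, y]` when `2 y² ≤ 2 N + 1`: `s_{j+1}' = y s_j`, compare `(S - S_N) e^{-y²/2}` and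
`(S_N + 2 s_N - S) e^{-y²/2}`, both increasing from `0`. -/
theorem mem_ivS {S : ℝ → ℝ} (hS : ∀ y, HasDerivAt S (y * S y + 1) y) (h0 : S 0 = 0) (k : ℕ) :
    (ivS k).mem (S ((k : ℝ) / 64)) := by
  have hc := Iv.sf_c
  have hu : ∀ i : ℕ, sfS (i + 1) (k / 64) * scN =
      sfS i (k / 64) * scN * (k * k : ℕ) / ((4096 : ℕ) * ((3 : ℕ) + 2 * i)) := by
    intro i
    rw [sfS]
    push_cast
    field_simp
    ring
  have e : sfS 0 (k / 64) * scN = ((k * scN : ℕ) : ℝ) / (64 : ℕ) := by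
    rw [sfS]
    push_cast
    ring
  have b1 := sf_serLo (k * k) 4096 (nTerms k) 3 (k * scN / 64) 0 (fun i => sfS i (k / 64) * scN) hu
    (Nat.cast_div_le.trans e.ge)
  have b2 := sf_serHi (k * k) 4096 (nTerms k) 3 (k * scN / 64 + 1) 0
    (fun i => sfS i (k / 64) * scN) hu (e.le.trans (sf_div_up _ _))
  rw [Nat.cast_zero, zero_add, ← Finset.sum_mul] at b1 b2
  have hN : nTerms k = nTerms k - 1 + 1 := by unfold nTerms; omega
  obtain ⟨c1, c2⟩ := sf_S_bounds hS h0 (Y := k / 64) (by positivity) (hN ▸ sf_nTerms k)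
  rw [← hN] at c1 c2
  refine ⟨?_, ?_⟩
  · exact (Iv.sf_ofNat _).trans_le (b1.trans (mul_le_mul_of_nonneg_right c1 hc.le))
  · exact (le_trans (by linarith [mul_le_mul_of_nonneg_right c2 hc.le]) b2).trans
      (Iv.sf_ofNat _).ge

end Crest.Agent.R253
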