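import Crest.Agent.R253.SFRun

/-!
# Row 253: consequences of the interval checks (`xk 0 = -8`, `xk 320 = -3`, `xk 1280 = 12`)
-/

set_option autoImplicit false

namespace Crest.Agent.R253
open Crest.Agent.R238 Crest.Agent.R215 Iv

theorem sfp_mid {y : ℝ} (h1 : -8 ≤ y) (h2 : y ≤ 12) : SFP y := by
  rcases le_total y (xk 192) with a1 | a1
  · exact run_sound 16 11 0 run1 (by rw [xk]; norm_num; linarith) a1
  rcases le_total y (xk 320) with a2 | a2
  · exact run_sound 4 31 192 run2 a1 a2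
  rcases le_total y (xk 384) with a3 | a3
  · exact run_sound 2 31 320 run3 a2 a3
  rcases le_total y (xk 512) with a4 | a4
  · exact run_sound 1 127 384 run4 a3 a4
  rcases le_total y (xk 640) with a5 | a5
  · exact run_sound 1 127 512 run5 a4 a5
  rcases le_total y (xk 768) with a6 | a6
  · exact run_sound 4 31 640 run6 a5 a6
  rcases le_total y (xk 896) with a7 | a7
  · exact run_sound 8 15 768 run7 a6 a7
  exact run_sound 16 23 896 run8 a7 (by rw [xk]; norm_num; linarith)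

theorem node_lo : mm (-8) ≤ 1 / 8 ∧ nu (-8) ≤ 1 / 64 ∧ pp (-8) ≤ 1 / 64 := by
  have h := node_lo_chk
  have g := nd_good 0
  have e : xk 0 = -8 := by rw [xk]; norm_num
  rw [e] at g
  generalize nd 0 = N at h g
  simp only [Bool.and_eq_true] at h
  obtain ⟨⟨⟨h0, h1⟩, h2⟩, h3⟩ := h
  have g := g h0
  have k1 := le_of (by norm_num) h1 g.hm
  have k2 := le_of (by norm_num) h2 g.hnu
  have k3 := le_of (by norm_num) h3 g.hp
  push_cast at k1 k2 k3
  exact ⟨k1, k2, k3⟩
theorem node_m3 : nu (-3) ≤ 1 / 3 ∧ lam (-3) * mm (-3) ≤ nu (-3) ^ 2 / 2 := by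
  have h := node_m3_chk
  have g := nd_good 320
  have e : xk 320 = -3 := by rw [xk]; norm_num
  rw [e] at g
  generalize nd 320 = N at h g
  simp only [Bool.and_eq_true] at h
  obtain ⟨⟨h0, h1⟩, h2⟩ := h
  have g := g h0
  have k1 := le_of (by norm_num) h1 g.hnu
  have k2 := ge0_of h2 (mem_sub (mem_smul 1 two_pos (mem_sq g.hnu)) (mem_mul g.hl g.hm))
  push_cast at k1 k2
  exact ⟨k1, by linarith⟩
theorem node_hi : mm 12 ≤ 61 / 5 ∧ 493 / 500 ≤ nu 12 ∧ 2434 / 5000 ≤ pp 12 ∧ 377 / 5 ≤ tt 12 := by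
  have h := node_hi_chk
  have g := nd_good 1280
  have e : xk 1280 = 12 := by rw [xk]; norm_num
  rw [e] at g
  generalize nd 1280 = N at h g
  simp only [Bool.and_eq_true] at h
  obtain ⟨⟨⟨⟨h0, h1⟩, h2⟩, h3⟩, h4⟩ := h
  have g := g h0
  have k1 := le_of (by norm_num) h1 g.hm
  have k2 := ge_of (by norm_num) h2 g.hnu
  have k3 := ge_of (by norm_num) h3 g.hp
  have k4 := ge_of (by norm_num) h4 g.ht
  push_cast at k1 k2 k3 k4
  exact ⟨k1, k2, k3, k4⟩

end Crest.Agent.R253
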