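import Crest.Agent.R253.SFDefs

/-!
# Row 253: signs and monotonicity of the special functions (barrier arguments)

Two mechanisms (recall `d/dx = μ d/du`, `u → +∞` at `+∞`, `(λ m)_u = (1 + ν) λ m`, `λ m → 0` and
`tt → 0` at `-∞`).
* Unstable: `f_u = a f - b` with `a ≥ 0`, `b > 0`: if `f x₀ ≤ 0` then `f ≤ -c < 0` from some point on
  (`barrier_top`), which contradicts an a priori bound.
* Stable: `(f λ m)_u = (f_u + (1 + ν) f) λ m ≥ 0` and `f λ m → 0` at `-∞` give `f ≥ 0` (`barrier_bot`).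
-/

set_option autoImplicit false
open Filter Topology Set
open scoped BigOperators

noncomputable section
namespace Crest.Agent.R253
open Crest.Agent.R238 Crest.Agent.R215

/-- If `f x₀ ≤ 0` and `f' < 0` wherever `f ≤ 0` on `[x₀, ∞)`, then `f` stays below a negative constant. -/
theorem barrier_top {f f' : ℝ → ℝ} {x₀ : ℝ} (hf : ∀ x, HasDerivAt f (f' x) x) (h0 : f x₀ ≤ 0)
    (h : ∀ x, x₀ ≤ x → f x ≤ 0 → f' x < 0) : ∃ c x₁, 0 < c ∧ x₀ ≤ x₁ ∧ ∀ x, x₁ ≤ x → f x ≤ -c := by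
  have hd := hf x₀
  have hneg := h x₀ le_rfl h0
  rw [hasDerivAt_iff_tendsto_slope] at hd
  have hd' := hd.mono_left (nhdsGT_le_nhdsNE x₀)
  obtain ⟨x₁, hs, hx₁⟩ := ((hd'.eventually (gt_mem_nhds hneg)).and self_mem_nhdsWithin).exists
  have hx₁' : x₀ < x₁ := hx₁
  have hlt : f x₁ < f x₀ := by
    rw [slope_def_field, div_neg_iff] at hs
    rcases hs with hs | hs <;> linarith [hs.1, hs.2]
  refine ⟨-f x₁, x₁, by linarith, hx₁'.le, fun x hx => ?_⟩
  have := image_le_of_deriv_right_lt_deriv_boundary (f := f) (f' := f') (a := x₁) (b := x)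
    (fun y _ => (hf y).continuousAt.continuousWithinAt) (fun y _ => (hf y).hasDerivWithinAt)
    (B := fun _ => f x₁) (B' := fun _ => 0) le_rfl (fun y => hasDerivAt_const y _)
    (fun y hy e => h y (hx₁'.le.trans hy.1) (by linarith)) (x := x) ⟨hx, le_rfl⟩
  simpa using this

theorem SFMono_monoOn {f f' : ℝ → ℝ} {s : Set ℝ} (hs : Convex ℝ s) (hf : ∀ x, HasDerivAt f (f' x) x)
    (h : ∀ x ∈ s, 0 ≤ f' x) : MonotoneOn f s :=
  monotoneOn_of_deriv_nonneg hs (fun y _ => (hf y).continuousAt.continuousWithinAt)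
    (fun y _ => (hf y).differentiableAt.differentiableWithinAt)
    (fun y hy => by rw [(hf y).deriv]; exact h y (interior_subset hy))

theorem SFMono_mono {f f' : ℝ → ℝ} (hf : ∀ x, HasDerivAt f (f' x) x)
    (h : ∀ x, 0 ≤ f' x) : Monotone f :=
  monotoneOn_univ.1 (SFMono_monoOn convex_univ hf fun x _ => h x)

theorem SFMono_pos {f f' : ℝ → ℝ} (hf : ∀ x, HasDerivAt f (f' x) x) (h : ∀ x, 0 < f' x)
    (hl : Tendsto f atBot (𝓝 0)) (x : ℝ) : 0 < f x := by
  have ha : StrictMono f := strictMono_of_deriv_pos fun y => by rw [(hf y).deriv]; exact h y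
  exact (ha.monotone.le_of_tendsto hl (x - 1)).trans_lt (ha (sub_one_lt x))

/-- If `F_u ≤ -c` on `[x₁, ∞)` then `F → -∞`. -/
theorem tendsto_atBot_of_du {F F' : ℝ → ℝ} {c x₁ : ℝ} (hc : 0 < c) (hF : ∀ x, HasDerivAt F (F' x) x)
    (h : ∀ x, x₁ ≤ x → F' x ≤ -c * mu x) : Tendsto F atTop atBot := by
  have hm : MonotoneOn (fun x => -(F x + c * uu x)) (Ici x₁) :=
    SFMono_monoOn (f' := fun x => -(F' x + c * mu x)) (convex_Ici x₁)
      (fun x => ((hF x).fun_add ((hasDerivAt_uu x).const_mul c)).fun_neg)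
      (fun x hx => by have := h x hx; linarith)
  have ht : Tendsto (fun x => (F x₁ + c * uu x₁) + -(c * uu x)) atTop atBot :=
    tendsto_atBot_add_const_left _ _
      (tendsto_neg_atTop_atBot.comp (tendsto_uu_atTop.const_mul_atTop hc))
  refine tendsto_atBot_mono' _ ?_ ht
  filter_upwards [eventually_ge_atTop x₁] with x hx
  have := hm (self_mem_Ici) hx hx
  simp only at this
  linarith

theorem hasDerivAt_lam_mm (x : ℝ) :
    HasDerivAt (fun y => lam y * mm y) ((1 + nu x) * (lam x * mm x) * mu x) x := by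
  refine ((hasDerivAt_lam x).fun_mul (hasDerivAt_mm x)).congr_deriv ?_
  have h := mu_mul_mm x
  rw [lam1_eq]
  linear_combination (-(nu x * lam x)) * h

theorem tendsto_mm_atBot : Tendsto mm atBot (𝓝 0) := by
  have h : Tendsto mu atBot atTop :=
    tendsto_atTop_mono (fun x => (neg_lt_mu x).le) tendsto_neg_atBot_atTop
  exact h.inv_tendsto_atTop
theorem tendsto_lam_mm_atBot : Tendsto (fun y => lam y * mm y) atBot (𝓝 0) := by
  simpa using tendsto_lam_atBot.mul tendsto_mm_atBot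
theorem tendsto_tt_atBot : Tendsto tt atBot (𝓝 0) := by
  have h := (tendsto_Pb_atBot.log one_ne_zero).neg
  rw [Real.log_one, neg_zero] at h
  exact h

/-- If `f` is bounded near `-∞` and `f_u + (1 + ν) f ≥ 0` on `(-∞, x₀]`, then `f ≥ 0` there. -/
theorem barrier_bot {f fu : ℝ → ℝ} {x₀ C : ℝ} (hf : ∀ x, HasDerivAt f (fu x * mu x) x)
    (hb : ∀ᶠ x in atBot, |f x| ≤ C) (h : ∀ x, x ≤ x₀ → 0 ≤ fu x + (1 + nu x) * f x) :
    ∀ x, x ≤ x₀ → 0 ≤ f x := by
  have hm : MonotoneOn (fun x => f x * (lam x * mm x)) (Iic x₀) :=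
    SFMono_monoOn (f' := fun x => (fu x + (1 + nu x) * f x) * (lam x * mm x * mu x)) (convex_Iic x₀)
      (fun x => ((hf x).fun_mul (hasDerivAt_lam_mm x)).congr_deriv (by ring))
      (fun x hx => mul_nonneg (h x hx) (mul_pos (mul_pos (lam_pos x) (mm_pos x)) (mu_pos x)).le)
  have ht : Tendsto (fun x => f x * (lam x * mm x)) atBot (𝓝 0) := by
    have h1 : Tendsto (fun x => C * (lam x * mm x)) atBot (𝓝 0) := by
      simpa using tendsto_lam_mm_atBot.const_mul C
    refine squeeze_zero_norm' ?_ h1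
    filter_upwards [hb] with x hx
    have hp := mul_pos (lam_pos x) (mm_pos x)
    rw [Real.norm_eq_abs, abs_mul, abs_of_pos hp]
    exact mul_le_mul_of_nonneg_right hx hp.le
  intro x hx
  have h0 : 0 ≤ f x * (lam x * mm x) := by
    refine le_of_tendsto ht ?_
    filter_upwards [eventually_le_atBot x] with y hy
    exact hm (hy.trans hx) hx hy
  exact nonneg_of_mul_nonneg_left h0 (mul_pos (lam_pos x) (mm_pos x))

/-- `(1 - ν)_u = m² (1 - ν) - ν - ν²`; if `ν ≥ 1` somewhere then `ν → ∞`, but `ν` is bounded on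
`[1, ∞)` (e.g. `w' = -λ (μ² - w)`: if `ν ≥ 1 + c` then `w` increases, so `μ' ≤ -w(x₁) < 0`, which
contradicts `μ > 0`). -/
theorem nu_lt_one (x : ℝ) : nu x < 1 := by
  by_contra hx
  push Not at hx
  obtain ⟨c, x₁, hc, -, h1⟩ := barrier_top (f := fun y => 1 - nu y) (f' := fun y => -(DD y * mu y))
    (x₀ := x) (fun y => (hasDerivAt_nu y).const_sub 1) (by linarith) (fun y _ hy => by
      have h2 : 0 < DD y := by
        unfold DD gg
        have h3 : (1 - nu y) * mm y ^ 2 ≤ 0 := mul_nonpos_of_nonpos_of_nonneg hy (sq_nonneg _)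
        nlinarith [nu_pos y]
      exact neg_lt_zero.2 (mul_pos h2 (mu_pos y)))
  have hw : MonotoneOn ww (Ici x₁) :=
    SFMono_monoOn (convex_Ici x₁) hasDerivAt_ww (fun y hy => by
      have h2 := h1 y hy
      have h3 : 0 ≤ lam y * mu y ^ 2 := (mul_pos (lam_pos y) (pow_pos (mu_pos y) 2)).le
      nlinarith)
  have hm : MonotoneOn (fun y => -(mu y + ww x₁ * y)) (Ici x₁) :=
    SFMono_monoOn (f' := fun y => -(-ww y + ww x₁ * 1)) (convex_Ici x₁)
      (fun y => ((hasDerivAt_mu y).fun_add ((hasDerivAt_id' y).const_mul _)).fun_neg)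
      (fun y hy => by have := hw self_mem_Ici hy hy; linarith)
  have hw0 := ww_pos x₁
  have hq : 0 < mu x₁ / ww x₁ := div_pos (mu_pos x₁) hw0
  have h4 := hm self_mem_Ici (show x₁ + mu x₁ / ww x₁ ∈ Ici x₁ from by simp [hq.le]) (by linarith)
  simp only at h4
  have h5 : ww x₁ * (mu x₁ / ww x₁) = mu x₁ := by field_simp
  have h6 := mu_pos (x₁ + mu x₁ / ww x₁)
  nlinarith
theorem gg_pos (x : ℝ) : 0 < gg x := by
  exact mul_pos (sub_pos.2 (nu_lt_one x)) (pow_pos (mm_pos x) 2)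
/-- `D_u = (1 + 2ν + m²) D - 2 ν g`; if `D ≤ 0` somewhere then `ν → -∞`. -/
theorem DD_pos (x : ℝ) : 0 < DD x := by
  by_contra hx
  push Not at hx
  obtain ⟨c, x₁, hc, -, h1⟩ := barrier_top (x₀ := x) hasDerivAt_DD hx (fun y _ hy => by
    have h2 : (1 + 2 * nu y + mm y ^ 2) * DD y ≤ 0 :=
      mul_nonpos_of_nonneg_of_nonpos (by nlinarith [nu_pos y, sq_nonneg (mm y)]) hy
    have h3 := mul_pos (nu_pos y) (gg_pos y)
    exact mul_neg_of_neg_of_pos (by linarith) (mu_pos y))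
  have ht := tendsto_atBot_of_du (x₁ := x₁) hc hasDerivAt_nu
    (fun y hy => mul_le_mul_of_nonneg_right (h1 y hy) (mu_pos y).le)
  obtain ⟨y, hy⟩ := (ht.eventually_le_atBot 0).exists
  linarith [nu_pos y]
theorem gg_lt_two (x : ℝ) : gg x < 2 := by
  have h := DD_pos x
  unfold DD at h
  nlinarith [nu_pos x, nu_lt_one x]
theorem strictMono_mm : StrictMono mm := by
  exact strictMono_of_deriv_pos fun y => by rw [(hasDerivAt_mm y).deriv]; exact nu_pos y
theorem strictMono_nu : StrictMono nu := by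
  exact strictMono_of_deriv_pos fun y => by
    rw [(hasDerivAt_nu y).deriv]; exact mul_pos (DD_pos y) (mu_pos y)
theorem SFMono_DD_lt_two (x : ℝ) : DD x < 2 := by
  unfold DD
  nlinarith [nu_pos x, nu_lt_one x, gg_pos x]

/-- Otherwise `D_u ≥ δ > 0` from that point on (`1 + 2ν + m²` increases, `2 ν g < 4`), and `D → ∞`,
but `D < 2`. -/
theorem DD_mul_le (x : ℝ) : DD x * (1 + 2 * nu x + mm x ^ 2) ≤ 4 := by
  by_contra hx
  push Not at hx
  have key : ∀ y, x ≤ y → DD x ≤ DD y → DD x * (1 + 2 * nu x + mm x ^ 2) - 4 ≤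
      (1 + 2 * nu y + mm y ^ 2) * DD y - 2 * nu y * gg y := by
    intro y hy hD
    have h1 := strictMono_nu.monotone hy
    have h2 : mm x ^ 2 ≤ mm y ^ 2 := pow_le_pow_left₀ (mm_pos x).le (strictMono_mm.monotone hy) 2
    have h3 : DD x * (1 + 2 * nu x + mm x ^ 2) ≤ DD y * (1 + 2 * nu y + mm y ^ 2) :=
      mul_le_mul hD (by linarith) (by nlinarith [nu_pos x, sq_nonneg (mm x)]) (DD_pos y).le
    have h4 : nu y * gg y ≤ 1 * 2 :=
      mul_le_mul (nu_lt_one y).le (gg_lt_two y).le (gg_pos y).le zero_le_one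
    nlinarith
  obtain ⟨c, x₁, hc, hx₁, h1⟩ := barrier_top (f := fun y => DD x - DD y)
    (f' := fun y => -(((1 + 2 * nu y + mm y ^ 2) * DD y - 2 * nu y * gg y) * mu y))
    (x₀ := x) (fun y => (hasDerivAt_DD y).const_sub _) (by simp) (fun y hy hD => by
      have h2 := key y hy (by linarith)
      exact neg_lt_zero.2 (mul_pos (by linarith) (mu_pos y)))
  have ht := tendsto_atBot_of_du (F := fun y => -DD y) (x₁ := x₁)
    (c := DD x * (1 + 2 * nu x + mm x ^ 2) - 4) (by linarith)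
    (fun y => (hasDerivAt_DD y).fun_neg) (fun y hy => by
      have h2 := key y (hx₁.trans hy) (by have := h1 y hy; linarith)
      have h3 := mul_le_mul_of_nonneg_right h2 (mu_pos y).le
      linarith)
  obtain ⟨y, hy⟩ := (ht.eventually_le_atBot (-2)).exists
  linarith [SFMono_DD_lt_two y]
/-- From `ν ≤ m²`. -/
theorem DD_le (x : ℝ) : DD x ≤ 2 * nu x ^ 2 := by
  have h := mul_le_mul_of_nonneg_left (nu_le_mm_sq x) (sub_pos.2 (nu_lt_one x)).le
  unfold DD gg
  nlinarith
theorem SFMono_pp_mul (x : ℝ) : pp x * (lam x * mm x) = lam x * mm x - tt x := by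
  have h := mu_mul_mm x
  rw [← lam_mul_kap x, pp]
  linear_combination (-(lam x * kap x)) * h

/-- `p λ m = λ m - tt` increases from `0`. -/
theorem pp_pos (x : ℝ) : 0 < pp x := by
  have h := SFMono_pos (f := fun y => lam y * mm y - tt y) (f' := fun y => nu y * lam y)
    (fun y => ((hasDerivAt_lam_mm y).fun_sub (hasDerivAt_tt y)).congr_deriv (by
      linear_combination ((1 + nu y) * lam y) * mu_mul_mm y))
    (fun y => mul_pos (nu_pos y) (lam_pos y))
    (by simpa using tendsto_lam_mm_atBot.sub tendsto_tt_atBot) x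
  rw [← SFMono_pp_mul] at h
  exact (mul_pos_iff_of_pos_right (mul_pos (lam_pos x) (mm_pos x))).1 h
/-- `((1/2 - p) λ m)_u = (1 - ν) λ m / 2`, and `(1/2 - p) λ m = tt - λ m / 2 → 0`. -/
theorem pp_lt_half (x : ℝ) : pp x < 1 / 2 := by
  have h := SFMono_pos (f := fun y => tt y - lam y * mm y / 2) (f' := fun y => (1 - nu y) * lam y / 2)
    (fun y => ((hasDerivAt_tt y).fun_sub ((hasDerivAt_lam_mm y).div_const 2)).congr_deriv (by
      linear_combination (-((1 + nu y) * lam y) / 2) * mu_mul_mm y))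
    (fun y => half_pos (mul_pos (sub_pos.2 (nu_lt_one y)) (lam_pos y)))
    (by simpa using tendsto_tt_atBot.sub (tendsto_lam_mm_atBot.div_const 2)) x
  have h1 := SFMono_pp_mul x
  have h2 := mul_pos (lam_pos x) (mm_pos x)
  by_contra h3
  push Not at h3
  have := mul_le_mul_of_nonneg_right h3 h2.le
  linarith
/-- `q_u + (1 + ν) q = D (1 - p) > 0`. -/
theorem qq_nonneg (x : ℝ) : 0 ≤ qq x := by
  refine barrier_bot (f := qq) (fu := qu) (x₀ := x) (C := 2) hasDerivAt_qq
    (Eventually.of_forall fun y => ?_) (fun y _ => ?_) x le_rfl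
  · have h1 := nu_pos y
    have h2 := nu_lt_one y
    have h3 := pp_pos y
    have h4 := pp_lt_half y
    rw [abs_le, qq]
    constructor <;> nlinarith
  · have h := mul_pos (DD_pos y) (show 0 < 1 - pp y by linarith [pp_lt_half y])
    unfold qu
    linarith
theorem k2_nonneg (x : ℝ) : 0 ≤ k2 x := mul_nonneg (qq_nonneg x) (mu_pos x).le
theorem ph_nonneg (x : ℝ) : 0 ≤ ph x :=
  mul_nonneg (by linarith [pp_lt_half x]) (qq_nonneg x)
theorem monotone_pp : Monotone pp := by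
  exact SFMono_mono hasDerivAt_pp k2_nonneg
theorem monotone_kap : Monotone kap := by
  exact SFMono_mono hasDerivAt_kap fun x => (pp_pos x).le
theorem SFMono_hasDerivAt_G (x : ℝ) : HasDerivAt (fun y => 2 * nu y * gg y - DD y * mm y ^ 2)
    (((mm x ^ 2 + 2 * nu x) * (2 * nu x * gg x - DD x * mm x ^ 2) -
      DD x * mm x ^ 2 * (6 * nu x - 1)) * mu x) x := by
  refine (((((hasDerivAt_nu x).const_mul 2).fun_mul (hasDerivAt_gg x))).fun_sub
    ((hasDerivAt_DD x).fun_mul ((hasDerivAt_mm x).fun_pow 2))).congr_deriv ?_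
  have h := mu_mul_mm x
  have hg : gg x = (1 - nu x) * mm x ^ 2 := rfl
  push_cast
  linear_combination (2 * DD x * mu x) * hg + (2 * DD x * nu x * mm x) * h

/-- `G = g_u = 2 ν g - D m² = m² (ν - 3ν² + g)` is positive where `ν ≤ 1/3`, and
`G_u = (m² + 2ν) G - D m² (6ν - 1)`, so `G ≤ 0` at a point with `ν > 1/3` forces `g → -∞`. -/
theorem gg_deriv_nonneg (x : ℝ) : 0 ≤ 2 * nu x * gg x - DD x * mm x ^ 2 := by
  by_contra hx
  push Not at hx
  have h13 : 1 / 3 < nu x := by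
    by_contra h
    push Not at h
    have e : 2 * nu x * gg x - DD x * mm x ^ 2 = mm x ^ 2 * (nu x * (1 - 3 * nu x) + gg x) := by
      unfold DD gg; ring
    rw [e] at hx
    have := mul_nonneg (sq_nonneg (mm x)) (add_nonneg
      (mul_nonneg (nu_pos x).le (show 0 ≤ 1 - 3 * nu x by linarith)) (gg_pos x).le)
    linarith
  obtain ⟨c, x₁, hc, -, h1⟩ := barrier_top (x₀ := x) SFMono_hasDerivAt_G hx.le (fun y hy hG => by
    have h2 := strictMono_nu.monotone hy
    have h3 : (mm y ^ 2 + 2 * nu y) * (2 * nu y * gg y - DD y * mm y ^ 2) ≤ 0 :=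
      mul_nonpos_of_nonneg_of_nonpos (by nlinarith [nu_pos y, sq_nonneg (mm y)]) hG
    have h4 := mul_pos (mul_pos (DD_pos y) (pow_pos (mm_pos y) 2))
      (show 0 < 6 * nu y - 1 by linarith)
    exact mul_neg_of_neg_of_pos (by linarith) (mu_pos y))
  have ht := tendsto_atBot_of_du (x₁ := x₁) hc hasDerivAt_gg
    (fun y hy => mul_le_mul_of_nonneg_right (h1 y hy) (mu_pos y).le)
  obtain ⟨y, hy⟩ := (ht.eventually_le_atBot 0).exists
  linarith [gg_pos y]
theorem monotone_gg : Monotone gg := by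
  exact SFMono_mono hasDerivAt_gg fun x => mul_nonneg (gg_deriv_nonneg x) (mu_pos x).le
theorem antitone_mm_sub : Antitone (fun x => mm x - x) := by
  have h := SFMono_mono (f := fun x => -(mm x - x)) (f' := fun x => -(nu x - 1))
    (fun x => ((hasDerivAt_mm x).fun_sub (hasDerivAt_id' x)).fun_neg)
    (fun x => by linarith [nu_lt_one x])
  intro a b hab
  have := h hab
  simp only at this ⊢
  linarith
theorem monotone_tt_sub : Monotone (fun x => tt x - x ^ 2 / 2) := by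
  exact SFMono_mono (f' := mu) (fun x => ((hasDerivAt_tt x).fun_sub
    ((hasDerivAt_pow 2 x).div_const 2)).congr_deriv (by unfold mu; push_cast; ring))
    fun x => (mu_pos x).le
theorem qq_le_nu (x : ℝ) : qq x ≤ nu x := by
  unfold qq
  nlinarith [nu_pos x, pp_pos x]
theorem qq_le_half (x : ℝ) : qq x ≤ 1 - 2 * pp x := by
  unfold qq
  nlinarith [nu_lt_one x, pp_lt_half x]
/-- `(3p - ν)_u + (1 + ν) (3p - ν) = g + ν - 2ν² ≥ 0` where `ν ≤ 1/2`. -/
theorem nu_le_three_pp_of {x₀ : ℝ} (h : nu x₀ ≤ 1 / 2) {x : ℝ} (hx : x ≤ x₀) : nu x ≤ 3 * pp x := by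
  have h0 := barrier_bot (f := fun y => 3 * pp y - nu y) (fu := fun y => 3 * qq y - DD y) (x₀ := x₀)
    (C := 3) (fun y => (((hasDerivAt_pp y).const_mul 3).fun_sub (hasDerivAt_nu y)).congr_deriv
      (by unfold k2; ring))
    (Eventually.of_forall fun y => by
      rw [abs_le]
      constructor <;> linarith [nu_pos y, nu_lt_one y, pp_pos y, pp_lt_half y])
    (fun y hy => by
      have h1 := (strictMono_nu.monotone hy).trans h
      have h2 := mul_nonneg (nu_pos y).le (show 0 ≤ 1 - 2 * nu y by linarith)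
      have h3 := gg_pos y
      have e : 3 * qq y - DD y + (1 + nu y) * (3 * pp y - nu y) = nu y * (1 - 2 * nu y) + gg y := by
        unfold qq DD; ring
      rw [e]
      linarith) x hx
  linarith
theorem SFMono_lam_mm (x : ℝ) : lam x * mm x = mm x ^ 2 - nu x := by
  have h := mu_mul_mm x
  rw [lam_eq]
  linear_combination (-nu x) * h

theorem SFMono_eta {x₀ : ℝ} (h1 : nu x₀ ≤ 1 / 3) (h2 : lam x₀ * mm x₀ ≤ nu x₀ ^ 2 / 2) {x : ℝ}
    (hx : x ≤ x₀) : lam x * mm x ≤ nu x ^ 2 / 2 := by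
  have hm : MonotoneOn (fun y => lam y * mm y / nu y ^ 2) (Iic x₀) :=
    SFMono_monoOn (f' := fun y => lam y * mm y * mu y * ((1 + nu y) * nu y - 2 * DD y) / nu y ^ 3)
      (convex_Iic x₀)
      (fun y => ((hasDerivAt_lam_mm y).fun_div ((hasDerivAt_nu y).fun_pow 2)
        (pow_pos (nu_pos y) 2).ne').congr_deriv (by
          have := (nu_pos y).ne'
          push_cast
          field_simp))
      (fun y hy => by
        have h3 := (strictMono_nu.monotone hy).trans h1
        have h4 := DD_le y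
        have h5 := mul_nonneg (nu_pos y).le (show 0 ≤ 1 - 3 * nu y by linarith)
        exact div_nonneg (mul_nonneg (mul_pos (mul_pos (lam_pos y) (mm_pos y)) (mu_pos y)).le
          (by nlinarith)) (pow_pos (nu_pos y) 3).le)
  have h3 := hm hx self_mem_Iic hx
  simp only at h3
  have h4 : lam x₀ * mm x₀ / nu x₀ ^ 2 ≤ 1 / 2 := by
    rw [div_le_iff₀ (pow_pos (nu_pos x₀) 2)]; linarith
  have h5 := h3.trans h4
  rw [div_le_iff₀ (pow_pos (nu_pos x) 2)] at h5
  linarith

/-- `η = λ m / ν²` has `(log η)_u = 1 + ν - 2 D / ν ≥ 1 - 3ν`, so `η ≤ 1/2` on `(-∞, x₀]`.  Since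
`1/w - 1 = λ μ / w = η ν`, `m² = ν (1 + η ν)`, `D ≥ ν² (2 - η)`.  For `Θ = 2D + 2ν² + p - ν`,
`Θ_u + (1 + ν) Θ = 3D + 10 ν D + ν² + 2ν³ - 2G` with `G = 2 ν g - D m² ≤ 2 ν m²`, which is `≥ 0`. -/
theorem theta_nonneg_of {x₀ : ℝ} (h1 : nu x₀ ≤ 1 / 3) (h2 : lam x₀ * mm x₀ ≤ nu x₀ ^ 2 / 2) {x : ℝ}
    (hx : x ≤ x₀) : 0 ≤ 2 * DD x + 2 * nu x ^ 2 + pp x - nu x := by
  refine barrier_bot (f := fun y => 2 * DD y + 2 * nu y ^ 2 + pp y - nu y)
    (fu := fun y => 2 * ((1 + 2 * nu y + mm y ^ 2) * DD y - 2 * nu y * gg y) + 4 * nu y * DD y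
      + qq y - DD y) (x₀ := x₀) (C := 8)
    (fun y => (((((hasDerivAt_DD y).const_mul 2).fun_add
      (((hasDerivAt_nu y).fun_pow 2).const_mul 2)).fun_add (hasDerivAt_pp y)).fun_sub
      (hasDerivAt_nu y)).congr_deriv (by unfold k2; push_cast; ring))
    (Eventually.of_forall fun y => ?_) (fun y hy => ?_) x hx
  · rw [abs_le]
    constructor <;> nlinarith [nu_pos y, nu_lt_one y, pp_pos y, pp_lt_half y, DD_pos y,
      SFMono_DD_lt_two y]
  · have h3 := SFMono_eta h1 h2 hy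
    rw [SFMono_lam_mm] at h3
    have hn := nu_pos y
    have hn1 := nu_lt_one y
    have hD : 3 / 2 * nu y ^ 2 ≤ DD y := by
      have h4 := mul_le_mul_of_nonneg_left (show mm y ^ 2 ≤ nu y + nu y ^ 2 / 2 by linarith)
        (sub_pos.2 hn1).le
      unfold DD gg
      nlinarith [pow_pos hn 3]
    have hg : gg y ≤ nu y + nu y ^ 2 / 2 := by
      unfold gg
      nlinarith [mul_pos hn (pow_pos (mm_pos y) 2)]
    have e : 2 * ((1 + 2 * nu y + mm y ^ 2) * DD y - 2 * nu y * gg y) + 4 * nu y * DD y + qq y - DD y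
        + (1 + nu y) * (2 * DD y + 2 * nu y ^ 2 + pp y - nu y) = 3 * DD y + 10 * (nu y * DD y)
        + 2 * (mm y ^ 2 * DD y) + nu y ^ 2 + 2 * nu y ^ 3 - 4 * (nu y * gg y) := by
      unfold qq; ring
    rw [e]
    have h5 := mul_le_mul_of_nonneg_left hg hn.le
    have h6 := mul_pos hn (DD_pos y)
    have h7 := mul_pos (pow_pos (mm_pos y) 2) (DD_pos y)
    nlinarith [sq_nonneg (nu y)]

end Crest.Agent.R253
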