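import Crest.Agent.R253.SFIv
import Crest.Agent.R253.SFMono

/-!
# Row 253: certified enclosures of the special functions at the nodes `k / 64`

`c = m0 0`, `E y = exp (y²/2)`, `S y = c E y - m0 y` solves `S' = y S + 1`, `S 0 = 0`; `1 / phi y = 2 c E y`,
`m0 (-y) = c E y + S y`; `0 < m0 18 < 1/18` encloses `c`.  For `x = -y ≤ 0`, `tt x = -log (1 - ε)` with
`ε = 1 - Pb x = m0 y / (2 c E y)`; for `x = y ≥ 0`, `tt x = y²/2 - log a`, `a = m0 y / (2 c)`, and
`-log a = j log 2 - log (1 - (1 - 2^j a))`.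
-/

set_option autoImplicit false

namespace Crest.Agent.R253
open Crest.Agent.R238 Crest.Agent.R215 Iv

/-- Enclosure of `c = m0 0 = √(π/2)`, computed from the series at `y = 18`. -/
def ivC0 : Iv :=
  hull ((ivS 1152).div (ivE 1152)) (((ivS 1152).add (rat 1 18)).div (ivE 1152))

/-- A literal enclosure of `c`. -/
def ivC : Iv := ⟨2677062749242307866581343299079398577593529553510279519178886368887535875150418713274719527027603, 2677062749242307866581343299079398577593529553510279519178886368887545778670732996316918720021395⟩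

/-- Enclosure of `log 2`. -/
def ivLog2 : Iv := ivL (rat 1 2)

/-- A power `j ≤ 5` with `2^j a ∈ [2/5, 4/5]` (soundness does not depend on its value). -/
def expo (a : ℤ) : ℕ :=
  if 2 * scZ ≤ 5 * a then 0 else if 2 * scZ ≤ 10 * a then 1 else if 2 * scZ ≤ 20 * a then 2 else
  if 2 * scZ ≤ 40 * a then 3 else if 2 * scZ ≤ 80 * a then 4 else 5

/-- Enclosures at a node. -/
structure Nd where
  ok : Bool
  x : Iv
  l : Iv
  m : Iv
  nu : Iv
  g : Iv
  t : Iv
  ka : Iv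
  p : Iv

/-- The enclosures computed from those of `x`, `m0 x`, `tt x`. -/
def mkNd (ok : Bool) (x a t : Iv) : Nd :=
  let l := a.inv
  let mu := l.sub x
  let m := mu.inv
  let m2 := m.sq
  let nu := ((rat 1 1).sub (l.mul mu)).mul m2
  let ka := t.mul a
  ⟨ok && a.pos && mu.pos, x, l, m, nu, ((rat 1 1).sub nu).mul m2, t, ka, (rat 1 1).sub (ka.mul mu)⟩

/-- The node `x = k / 64 ≥ 0`. -/
def ndP (k : ℕ) : Nd :=
  let cE := ivC.mul (ivE k)
  let a := cE.sub (ivS k)
  let b := a.mul (smul 2 1 ivC).inv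
  let j := expo b.lo
  let e := (rat 1 1).sub (smul (2 ^ j) 1 b)
  mkNd (e.ge0 && e.le 2 3 && b.pos) (rat (Int.ofNat k) 64) a
    (((rat (Int.ofNat (k * k)) 8192).add (smul j 1 ivLog2)).add (ivL e))

/-- The node `x = -k / 64 ≤ 0`. -/
def ndN (k : ℕ) : Nd :=
  let cE := ivC.mul (ivE k)
  let s := ivS k
  let e := (cE.sub s).mul (smul 2 1 cE).inv
  mkNd (cE.pos && e.le 2 3) (rat (-Int.ofNat k) 64) (cE.add s) (ivL e)

/-- The node `x = (k - 512) / 64`. -/
def nd (k : ℕ) : Nd := if k < 512 then ndN (512 - k) else ndP (k - 512)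

/-- The abscissa of the node `k`. -/
noncomputable def xk (k : ℕ) : ℝ := ((k : ℝ) - 512) / 64

/-- The enclosures of a node are correct at `x`. -/
structure Nd.Good (N : Nd) (y : ℝ) : Prop where
  hx : N.x.mem y
  hl : N.l.mem (lam y)
  hm : N.m.mem (mm y)
  hnu : N.nu.mem (R253.nu y)
  hg : N.g.mem (gg y)
  ht : N.t.mem (tt y)
  hka : N.ka.mem (kap y)
  hp : N.p.mem (pp y)

theorem ivC0_chk : ((ivE 1152).pos && (ivS 1152).ge0 && decide (ivC.lo ≤ ivC0.lo) && decide (ivC0.hi ≤ ivC.hi)) = true := by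
  decide +kernel

/-- `S y = c E y - m0 y`. -/
noncomputable def SFNode_S (y : ℝ) : ℝ := m0 0 * Real.exp (y ^ 2 / 2) - m0 y

theorem SFNode_deriv (y : ℝ) : HasDerivAt SFNode_S (y * SFNode_S y + 1) y := by
  have h1 : HasDerivAt (fun y : ℝ => y ^ 2 / 2) y y := by
    simpa using (hasDerivAt_pow 2 y).div_const 2
  refine ((h1.exp.const_mul (m0 0)).sub (hasDerivAt_m0 y)).congr_deriv ?_
  unfold SFNode_S
  ring

theorem SFNode_memS (k : ℕ) : (ivS k).mem (SFNode_S ((k : ℝ) / 64)) :=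
  mem_ivS SFNode_deriv (by simp [SFNode_S]) k

theorem SFNode_phi (y : ℝ) : phi y * (2 * (m0 0 * Real.exp (y ^ 2 / 2))) = 1 := by
  have h : (0 : ℝ) < √(2 * Real.pi) := Real.sqrt_pos.2 (by positivity)
  have e : Real.exp (-y ^ 2 / 2) * Real.exp (y ^ 2 / 2) = 1 := by
    rw [← Real.exp_add, show -y ^ 2 / 2 + y ^ 2 / 2 = 0 by ring, Real.exp_zero]
  rw [m0, Pb, Phi_zero, phi_zero, phi]
  generalize Real.exp (-y ^ 2 / 2) = A at *
  generalize Real.exp (y ^ 2 / 2) = B at *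
  field_simp
  linear_combination e

theorem SFNode_Pb (y : ℝ) : Pb y = m0 y * (2 * (m0 0 * Real.exp (y ^ 2 / 2)))⁻¹ := by
  rw [← eq_inv_of_mul_eq_one_left (SFNode_phi y), m0, div_mul_cancel₀ _ (phi_pos y).ne']

theorem SFNode_Pb_neg (y : ℝ) : Pb (-y) = 1 - Pb y := by
  rw [Pb, Pb, Phi_neg]

theorem SFNode_m0_neg (y : ℝ) : m0 (-y) = m0 0 * Real.exp (y ^ 2 / 2) + SFNode_S y := by
  have h := SFNode_phi y
  have hp := phi_pos y
  rw [SFNode_S, m0, SFNode_Pb_neg, phi_neg, m0.eq_def y, div_eq_iff hp.ne']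
  field_simp
  linear_combination (-1) * h

theorem SFNode_one : (rat 1 1).mem 1 := mem_congr (mem_rat 1 one_pos) (by simp)

theorem mem_ivC : ivC.mem (m0 0) := by
  have h := ivC0_chk
  simp only [Bool.and_eq_true, decide_eq_true_eq] at h
  obtain ⟨⟨⟨h1, h2⟩, h3⟩, h4⟩ := h
  have hE := mem_ivE 1152
  have hS := SFNode_memS 1152
  have hr : (rat 1 18).mem (((1 : ℤ) : ℝ) / (18 : ℕ)) := mem_rat 1 (by norm_num)
  have h5 : ((ivS 1152).add (rat 1 18)).ge0 = true := by
    have a1 : 0 ≤ (ivS 1152).lo := of_decide_eq_true h2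
    have a2 : 0 ≤ (rat 1 18).lo :=
      Int.ediv_nonneg (mul_nonneg zero_le_one (Int.natCast_nonneg _)) (Int.natCast_nonneg _)
    exact decide_eq_true (add_nonneg a1 a2)
  have e18 : ((1152 : ℕ) : ℝ) / 64 = 18 := by norm_num
  rw [e18] at hE hS
  have hEp : 0 < Real.exp ((18 : ℝ) ^ 2 / 2) := Real.exp_pos _
  have hm : m0 18 < 1 / 18 := by
    have a1 := lt_lam 18
    rw [lam_eq_inv_m0] at a1
    have a2 := m0_pos 18
    rw [lt_inv_comm₀ (by norm_num) a2] at a1
    rwa [one_div]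
  have hm0 := m0_pos 18
  have key : ivC0.mem (m0 0) := by
    refine mem_hull (mem_div h2 h1 hS hE) (mem_div h5 h1 (mem_add hS hr) hE) ?_ ?_
    · rw [div_le_iff₀ hEp, SFNode_S]
      linarith
    · rw [le_div_iff₀ hEp, SFNode_S]
      push_cast
      linarith
  have b3 : ((ivC.lo : ℤ) : ℝ) ≤ ivC0.lo := by exact_mod_cast h3
  have b4 : ((ivC0.hi : ℤ) : ℝ) ≤ ivC.hi := by exact_mod_cast h4
  exact ⟨b3.trans key.1, key.2.trans b4⟩

theorem mem_ivLog2 : ivLog2.mem (Real.log 2) := by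
  have h : (rat 1 2).le 2 3 = true := by decide +kernel
  refine mem_congr (mem_ivL (mem_rat 1 two_pos) (by positivity) h) ?_
  rw [← Real.log_inv]
  norm_num

theorem mkNd_good {ok : Bool} {x a t : Iv} {y : ℝ} (h : (mkNd ok x a t).ok = true) (hx : x.mem y)
    (ha : a.mem (m0 y)) (ht : t.mem (tt y)) : (mkNd ok x a t).Good y := by
  have h' : (ok && a.pos && (a.inv.sub x).pos) = true := h
  simp only [Bool.and_eq_true] at h'
  obtain ⟨⟨-, h1⟩, h2⟩ := h'
  have hl : a.inv.mem (lam y) := mem_congr (mem_inv h1 ha) (lam_eq_inv_m0 y).symm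
  have hmu : (a.inv.sub x).mem (mu y) := mem_sub hl hx
  have hm : (a.inv.sub x).inv.mem (mm y) := mem_inv h2 hmu
  have hnu : (((rat 1 1).sub (a.inv.mul (a.inv.sub x))).mul (a.inv.sub x).inv.sq).mem (R253.nu y) :=
    mem_mul (mem_sub SFNode_one (mem_mul hl hmu)) (mem_sq hm)
  have hka : (t.mul a).mem (kap y) :=
    mem_congr (mem_mul ht ha) (by rw [kap, lam_eq_inv_m0, div_inv_eq_mul])
  exact ⟨hx, hl, hm, hnu, mem_mul (mem_sub SFNode_one hnu) (mem_sq hm), ht, hka,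
    mem_sub SFNode_one (mem_mul hka hmu)⟩

theorem ndP_good (k : ℕ) (h : (ndP k).ok = true) : (ndP k).Good ((k : ℝ) / 64) := by
  have hC : (smul 2 1 ivC).pos = true := by decide +kernel
  have ha : ((ivC.mul (ivE k)).sub (ivS k)).mem (m0 ((k : ℝ) / 64)) :=
    mem_congr (mem_sub (mem_mul mem_ivC (mem_ivE k)) (SFNode_memS k)) (by rw [SFNode_S]; ring)
  have hb := mem_mul ha (mem_inv hC (mem_smul 2 one_pos mem_ivC))
  unfold ndP at h ⊢
  simp only at h ⊢
  generalize (ivC.mul (ivE k)).sub (ivS k) = a at *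
  generalize a.mul (smul 2 1 ivC).inv = b at *
  generalize expo b.lo = j at *
  have he := mem_sub SFNode_one (mem_smul (2 ^ j) one_pos hb)
  generalize (rat 1 1).sub (smul (2 ^ j) 1 b) = e at *
  have h' : (e.ge0 && e.le 2 3 && b.pos && a.pos && (a.inv.sub (rat (Int.ofNat k) 64)).pos) = true := h
  simp only [Bool.and_eq_true] at h'
  obtain ⟨⟨⟨⟨h1, h2⟩, h3⟩, -⟩, -⟩ := h'
  refine mkNd_good h (mem_congr (mem_rat _ (by norm_num)) (by simp)) ha ?_
  refine mem_congr (mem_add (mem_add (mem_rat _ (by norm_num)) (mem_smul j one_pos mem_ivLog2))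
    (mem_ivL he (ge0_of h1 he) h2)) ?_
  have p1 := m0_pos ((k : ℝ) / 64)
  have p2 := m0_pos 0
  rw [tt, SFNode_Pb, sub_sub_cancel]
  simp only [Nat.cast_pow, Nat.cast_ofNat, Nat.cast_one, div_one, Int.ofNat_eq_natCast,
    Int.cast_natCast, Nat.cast_mul]
  rw [show m0 ((k : ℝ) / 64) * (2 * (m0 0 * Real.exp (((k : ℝ) / 64) ^ 2 / 2)))⁻¹ =
      m0 ((k : ℝ) / 64) * (2 * m0 0)⁻¹ * (Real.exp (((k : ℝ) / 64) ^ 2 / 2))⁻¹ by
    rw [← mul_assoc 2 (m0 0), mul_inv, ← mul_assoc]]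
  have p3 : 0 < m0 ((k : ℝ) / 64) * (2 * m0 0)⁻¹ := by positivity
  generalize m0 ((k : ℝ) / 64) * (2 * m0 0)⁻¹ = B at *
  rw [Real.log_mul (by positivity) p3.ne', Real.log_mul p3.ne' (by positivity),
    Real.log_pow, Real.log_inv, Real.log_exp]
  push_cast
  ring

theorem ndN_good (k : ℕ) (h : (ndN k).ok = true) : (ndN k).Good (-((k : ℝ) / 64)) := by
  have hcE := mem_mul mem_ivC (mem_ivE k)
  have hs := SFNode_memS k
  unfold ndN at h ⊢
  simp only at h ⊢
  generalize ivC.mul (ivE k) = cE at *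
  generalize ivS k = s at *
  have h' : (cE.pos && ((cE.sub s).mul (smul 2 1 cE).inv).le 2 3 && (cE.add s).pos &&
      ((cE.add s).inv.sub (rat (-Int.ofNat k) 64)).pos) = true := h
  simp only [Bool.and_eq_true] at h'
  obtain ⟨⟨⟨h1, h2⟩, -⟩, -⟩ := h'
  have h3 : (smul 2 1 cE).pos = true := by
    have a1 : 0 < cE.lo := of_decide_eq_true h1
    refine decide_eq_true ?_
    show 0 < Int.ofNat 2 * cE.lo / Int.ofNat 1
    simp only [Int.ofNat_eq_natCast, Nat.cast_ofNat, Nat.cast_one, Int.ediv_one]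
    omega
  have he : ((cE.sub s).mul (smul 2 1 cE).inv).mem (Pb ((k : ℝ) / 64)) :=
    mem_congr (mem_mul (mem_sub hcE hs) (mem_inv h3 (mem_smul 2 one_pos hcE))) (by
      rw [SFNode_Pb, SFNode_S, sub_sub_cancel]
      simp)
  refine mkNd_good h (mem_congr (mem_rat _ (by norm_num)) (by simp [neg_div]))
    (mem_congr (mem_add hcE hs) (SFNode_m0_neg _).symm) ?_
  refine mem_congr (mem_ivL he (Pb_pos _).le h2) ?_
  rw [tt, SFNode_Pb_neg]

theorem nd_good (k : ℕ) (h : (nd k).ok = true) : (nd k).Good (xk k) := by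
  unfold nd at h ⊢
  split_ifs at h ⊢ with hk
  · have e : xk k = -(((512 - k : ℕ) : ℝ) / 64) := by
      rw [xk, Nat.cast_sub hk.le]
      push_cast
      ring
    rw [e]
    exact ndN_good _ h
  · have e : xk k = ((k - 512 : ℕ) : ℝ) / 64 := by
      rw [xk, Nat.cast_sub (not_lt.1 hk)]
      push_cast
      ring
    rw [e]
    exact ndP_good _ h

end Crest.Agent.R253
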