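import Crest.Agent.R253.SFFacts
import Crest.Agent.R253.MF2

/-!
# Row 253: the first pair inequality (trapezoid defect of `β = κ²/2` as a function of `h = λ`)

As a function of `h`: `β' = B / h` with `B = β_u = p (1 - p) m²`, `β'' = B (y - 1) / h²`,
`h² β''' = B (y_u + y² - 3y + 2) / h` where `y = B_u / B = 2ν + q ψ`, `ψ = 1/p - 1/(1 - p) ≥ 0`.
`y_u = 2D + q_u ψ - q² (1/p² + 1/(1-p)²) ≤ 2D + D (1 - 2p) / p = D / p ≤ 2` (`q_u ≤ D (1 - p)`, `f15`) and
`0 ≤ y ≤ 2ν + q / p = ν + ν / p - 1 ≤ 3` (`f14`, `ν < 1`), so `h² β''' ≤ 4 β'`.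
For `b < a` the function `(h - h_b)(h_a - h) β'' - (h_a + h_b - 2h) β' - 2β - K β` of `x ∈ [b, a]`
(`h = lam x`, `K = (h_a - h_b)² / (h_a h_b)`) has derivative
`((h - h_b)(h_a - h) β''' - K β') λ' ≤ 0`, because `(h - h_b)(h_a - h) ≤ K h² / 4`.
-/

set_option autoImplicit false
open Filter Topology Set
open scoped BigOperators

noncomputable section
namespace Crest.Agent.R253
open Crest.Agent.R238 Crest.Agent.R215

/-- The divided difference of `λ`. -/
def ell (a b : ℝ) : ℝ := dd lam lam1 a b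

theorem ell_pos (a b : ℝ) : 0 < ell a b := by
  obtain ⟨t, -, h⟩ := dd_eq_deriv (s := univ) convex_univ (fun x _ => hasDerivAt_lam x)
    (mem_univ a) (mem_univ b)
  rw [ell, h]
  exact lam1_pos t

theorem ell_symm (a b : ℝ) : ell a b = ell b a := dd_symm _ _ _ _

/-- `y = B_u / B`. -/
def yy (x : ℝ) : ℝ := 2 * nu x + qq x * ((pp x)⁻¹ - (1 - pp x)⁻¹)
/-- `y_u`. -/
def yu (x : ℝ) : ℝ := 2 * DD x + qu x * ((pp x)⁻¹ - (1 - pp x)⁻¹) -
  qq x ^ 2 * ((pp x)⁻¹ ^ 2 + (1 - pp x)⁻¹ ^ 2)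
/-- `β'` as a function of `h`, evaluated at `h = λ x`. -/
def bh1 (x : ℝ) : ℝ := be1 x / lam1 x
/-- `β''`. -/
def bh2 (x : ℝ) : ℝ := bh1 x * (yy x - 1) / lam x
/-- `β'''`. -/
def bh3 (x : ℝ) : ℝ := bh1 x * (yu x + yy x ^ 2 - 3 * yy x + 2) / lam x ^ 2

theorem sfpair1_bh1 (x : ℝ) : bh1 x = pp x * (1 - pp x) * mm x ^ 2 / lam x := by
  have hl := (lam_pos x).ne'
  have hm := (mu_pos x).ne'
  rw [bh1, be1, kap_eq, lam1_eq, mm]
  field_simp

theorem hasDerivAt_yy (x : ℝ) : HasDerivAt yy (yu x * mu x) x := by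
  have hp := (pp_pos x).ne'
  have hq : 1 - pp x ≠ 0 := by linarith [pp_lt_half x]
  have h := ((hasDerivAt_nu x).const_mul 2).add ((hasDerivAt_qq x).mul
    (((hasDerivAt_pp x).inv hp).sub (((hasDerivAt_pp x).const_sub 1).inv hq)))
  refine HasDerivAt.congr_deriv h ?_
  simp only [yu, k2, Pi.inv_apply, Pi.sub_apply]
  field_simp
  ring
theorem hasDerivAt_bh1 (x : ℝ) : HasDerivAt bh1 (bh2 x * lam1 x) x := by
  have hp := (pp_pos x).ne'
  have hq : 1 - pp x ≠ 0 := by linarith [pp_lt_half x]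
  have hl := (lam_pos x).ne'
  have hm := (mu_pos x).ne'
  have h := (((hasDerivAt_pp x).mul ((hasDerivAt_pp x).const_sub 1)).mul
    ((hasDerivAt_mm x).pow 2)).div (hasDerivAt_lam x) hl
  rw [show bh1 = fun x => pp x * (1 - pp x) * mm x ^ 2 / lam x from funext sfpair1_bh1]
  refine HasDerivAt.congr_deriv h ?_
  simp only [bh2, sfpair1_bh1, yy, k2, lam1_eq, mm, Pi.mul_apply, Pi.pow_apply, Nat.add_one_sub_one,
    pow_one, Nat.cast_ofNat]
  field_simp
  ring
theorem hasDerivAt_bh2 (x : ℝ) : HasDerivAt bh2 (bh3 x * lam1 x) x := by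
  have hl := (lam_pos x).ne'
  have h := ((hasDerivAt_bh1 x).mul ((hasDerivAt_yy x).sub_const 1)).div (hasDerivAt_lam x) hl
  refine HasDerivAt.congr_deriv h ?_
  simp only [bh2, bh3, lam1_eq, Pi.mul_apply]
  field_simp
  ring
theorem bh1_pos (x : ℝ) : 0 < bh1 x := by
  exact div_pos (mul_pos (kap_pos x) (pp_pos x)) (lam1_pos x)
theorem bh3_le (x : ℝ) : lam x ^ 2 * bh3 x ≤ 4 * bh1 x := by
  have hp := pp_pos x
  have hp2 := pp_lt_half x
  have hq : 0 < 1 - pp x := by linarith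
  have hl := lam_pos x
  have hq0 := qq_nonneg x
  have hν := nu_pos x
  have hν1 := nu_lt_one x
  have hD := DD_pos x
  have hψ : (pp x)⁻¹ - (1 - pp x)⁻¹ = (1 - 2 * pp x) / (pp x * (1 - pp x)) := by
    field_simp
    ring
  have hψ0 : 0 ≤ (pp x)⁻¹ - (1 - pp x)⁻¹ := by
    rw [hψ]
    exact div_nonneg (by linarith) (by positivity)
  have h1 : yu x ≤ 2 := by
    have a1 : qu x ≤ DD x * (1 - pp x) := by
      have := mul_nonneg (by linarith : 0 ≤ 1 + nu x) hq0
      unfold qu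
      linarith
    have a2 : qu x * ((pp x)⁻¹ - (1 - pp x)⁻¹) ≤
        DD x * (1 - pp x) * ((pp x)⁻¹ - (1 - pp x)⁻¹) := mul_le_mul_of_nonneg_right a1 hψ0
    have a3 : 2 * DD x + DD x * (1 - pp x) * ((pp x)⁻¹ - (1 - pp x)⁻¹) = DD x / pp x := by
      field_simp
      ring
    have a4 : DD x / pp x ≤ 2 := by
      rw [div_le_iff₀ hp]
      exact (sfp x).f15
    have a5 : 0 ≤ qq x ^ 2 * ((pp x)⁻¹ ^ 2 + (1 - pp x)⁻¹ ^ 2) := by positivity
    unfold yu
    linarith
  have h2 : 0 ≤ yy x := by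
    have := mul_nonneg hq0 hψ0
    unfold yy
    linarith
  have h3 : yy x ≤ 3 := by
    have a1 : 0 ≤ qq x * (1 - pp x)⁻¹ := mul_nonneg hq0 (inv_nonneg.2 hq.le)
    have a2 : 2 * nu x + qq x * (pp x)⁻¹ = nu x + nu x / pp x - 1 := by
      unfold qq
      field_simp
      ring
    have a3 : nu x / pp x ≤ 3 := by
      rw [div_le_iff₀ hp]
      exact (sfp x).f14
    unfold yy
    rw [mul_sub]
    linarith
  have h4 : yu x + yy x ^ 2 - 3 * yy x + 2 ≤ 4 := by nlinarith
  have e : lam x ^ 2 * bh3 x = bh1 x * (yu x + yy x ^ 2 - 3 * yy x + 2) := by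
    unfold bh3
    field_simp
  rw [e, mul_comm 4]
  exact mul_le_mul_of_nonneg_left h4 (bh1_pos x).le

theorem sfpair1_lt {a b : ℝ} (hab : b < a) :
    lam a * lam b * (bh1 a + bh1 b) ≤ dd be be1 a b / ell a b * (lam a ^ 2 + lam b ^ 2) := by
  have hA := lam_pos a
  have hB := lam_pos b
  have hlt : lam b < lam a := strictMono_lam hab
  set K := (lam a - lam b) ^ 2 / (lam a * lam b) with hK
  have hd : ∀ x, HasDerivAt (fun x => (lam x - lam b) * (lam a - lam x) * bh2 x -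
      (lam a + lam b - 2 * lam x) * bh1 x - (2 + K) * be x)
      (((lam x - lam b) * (lam a - lam x) * bh3 x - K * bh1 x) * lam1 x) x := fun x => by
    have h := (((((hasDerivAt_lam x).sub_const (lam b)).mul
      ((hasDerivAt_lam x).const_sub (lam a))).mul (hasDerivAt_bh2 x)).sub
      ((((hasDerivAt_lam x).const_mul 2).const_sub (lam a + lam b)).mul (hasDerivAt_bh1 x))).sub
      ((hasDerivAt_be x).const_mul (2 + K))
    refine HasDerivAt.congr_deriv h ?_
    have e : be1 x = bh1 x * lam1 x := by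
      rw [bh1, div_mul_cancel₀ _ (lam1_pos x).ne']
    simp only [Pi.mul_apply, e]
    ring
  have hanti := antitoneOn_of_deriv_nonpos (convex_Icc b a)
    (fun x _ => (hd x).continuousAt.continuousWithinAt)
    (fun x _ => (hd x).differentiableAt.differentiableWithinAt) (fun x hx => by
      rw [interior_Icc] at hx
      rw [(hd x).deriv]
      refine mul_nonpos_of_nonpos_of_nonneg ?_ (lam1_pos x).le
      have h1 : lam b < lam x := strictMono_lam hx.1
      have h2 : lam x < lam a := strictMono_lam hx.2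
      have hx0 := lam_pos x
      have hs : 0 ≤ (lam x - lam b) * (lam a - lam x) := mul_nonneg (by linarith) (by linarith)
      have h3 : 4 * ((lam x - lam b) * (lam a - lam x)) ≤ K * lam x ^ 2 := by
        rw [hK, div_mul_eq_mul_div, le_div_iff₀ (mul_pos hA hB)]
        nlinarith [sq_nonneg (lam a * (lam x - lam b) - lam b * (lam a - lam x))]
      have h4 := mul_le_mul_of_nonneg_left (bh3_le x) hs
      have h5 := mul_le_mul_of_nonneg_right h3 (bh1_pos x).le
      have h6 : lam x ^ 2 * ((lam x - lam b) * (lam a - lam x) * bh3 x) ≤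
          lam x ^ 2 * (K * bh1 x) := by linarith
      have := le_of_mul_le_mul_left h6 (by positivity)
      linarith)
  have h := hanti (left_mem_Icc.2 hab.le) (right_mem_Icc.2 hab.le) hab.le
  simp only [sub_self, mul_zero, zero_mul] at h
  have hne : a - b ≠ 0 := sub_ne_zero.2 hab.ne'
  have hne' : lam a - lam b ≠ 0 := sub_ne_zero.2 hlt.ne'
  have e1 : dd be be1 a b / ell a b = (be a - be b) / (lam a - lam b) := by
    rw [ell, dd_of_ne _ _ hab.ne', dd_of_ne _ _ hab.ne']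
    field_simp
  have e2 : 2 + K = (lam a ^ 2 + lam b ^ 2) / (lam a * lam b) := by
    rw [hK]
    field_simp
    ring
  have h7 : (lam a - lam b) * (bh1 a + bh1 b) ≤ (2 + K) * (be a - be b) := by linarith
  rw [e2, div_mul_eq_mul_div, le_div_iff₀ (mul_pos hA hB)] at h7
  rw [e1, div_mul_eq_mul_div, le_div_iff₀ (sub_pos.2 hlt)]
  linarith

theorem pair1 (a b : ℝ) :
    lam a * lam b * (bh1 a + bh1 b) ≤ dd be be1 a b / ell a b * (lam a ^ 2 + lam b ^ 2) := by
  rcases lt_trichotomy a b with h | h | h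
  · have := sfpair1_lt h
    rw [dd_symm be, ell_symm]
    linarith
  · subst h
    rw [ell, dd_self, dd_self]
    change _ ≤ bh1 a * _
    exact le_of_eq (by ring)
  · exact sfpair1_lt h

end Crest.Agent.R253
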