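import Crest.Agent.R253.SFCell

/-!
# Row 253: running the interval checks
-/

set_option autoImplicit false

namespace Crest.Agent.R253
open Crest.Agent.R238 Crest.Agent.R215 Iv

theorem run1 : run 16 12 0 (nd 0) = true := by decide +kernel
theorem run2 : run 4 32 192 (nd 192) = true := by decide +kernel
theorem run3 : run 2 32 320 (nd 320) = true := by decide +kernel
theorem run4 : run 1 128 384 (nd 384) = true := by decide +kernel
theorem run5 : run 1 128 512 (nd 512) = true := by decide +kernel
theorem run6 : run 4 32 640 (nd 640) = true := by decide +kernel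
theorem run7 : run 8 16 768 (nd 768) = true := by decide +kernel
theorem run8 : run 16 24 896 (nd 896) = true := by decide +kernel

theorem node_lo_chk : ((nd 0).ok && (nd 0).m.le 1 8 && (nd 0).nu.le 1 64 && (nd 0).p.le 1 64) = true := by
  decide +kernel
theorem node_m3_chk : ((nd 320).ok && (nd 320).nu.le 1 3 &&
    ((smul 1 2 (nd 320).nu.sq).sub ((nd 320).l.mul (nd 320).m)).ge0) = true := by
  decide +kernel
theorem node_hi_chk : ((nd 1280).ok && (nd 1280).m.le 61 5 && (nd 1280).nu.ge 493 500 &&
    (nd 1280).p.ge 2434 5000 && (nd 1280).t.ge 377 5) = true := by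
  decide +kernel

end Crest.Agent.R253
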